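import Vale.Agent.P157.Casc.Basic
import Vale.Agent.P157.Formula.Single

/-!
The limit formula from the two bounds at fixed levels and bound on the spin path.
-/

open MeasureTheory ProbabilityTheory Filter Topology Set

namespace Vale.Agent.P157.Casc

/-- The pressure of the Ising cube. -/
theorem pressP_isingP (f : ℝ → ℝ) (N M : ℕ) : pressP M f (isingP N) = press f N M := by
  simp only [pressP, press, pats, gs, gaus]
  refine integral_congr_ae (ae_of_all _ fun G => congrArg Real.log ?_)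
  exact sum_isingP fun s => Real.exp (∑ a, f ((∑ j, G a j * s j) / √(N : ℝ)))

/-- The limit and the formula for smooth potentials, from the two bounds. -/
theorem tendsto_valL (P : Pot) {α : ℝ}
    (hup : ∀ L : ℝ, α * P.b1 ^ 2 ≤ L → ∀ ε > (0 : ℝ), ∃ K0 : ℕ, ∀ K ≥ K0, ∃ N1 : ℕ, ∀ N ≥ N1,
      ∀ q ∈ pathsQ K, ∀ V : ℝ, (∀ p ∈ pathsP K L, pfun psiI α P.f p q ≤ V) →
        pressP ⌊α * N⌋₊ P.f (isingP N) / N ≤ V + ε)
    (hlow : ∀ L : ℝ, α * P.b1 ^ 2 ≤ L → ∀ ε > (0 : ℝ), ∃ K0 : ℕ, ∀ K ≥ K0, ∃ N1 : ℕ, ∀ N ≥ N1,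
      ∀ V : ℝ, (∀ q ∈ pathsQ K, ∃ p ∈ pathsP K L, V ≤ pfun psiI α P.f p q) →
        V - ε ≤ pressP ⌊α * N⌋₊ P.f (isingP N) / N) :
    ∃ ℓ : ℝ, Tendsto (fun N : ℕ => press P.f N ⌊α * N⌋₊ / N) atTop (𝓝 ℓ) ∧
      ∀ ε > (0 : ℝ), ∀ᶠ L in atTop, ∀ᶠ K in atTop,
        ((ℓ - ε : ℝ) : EReal) ≤ valL K L α P.f ∧ valL K L α P.f ≤ ((ℓ + ε : ℝ) : EReal) := by
  set F : ℕ → ℝ := fun N => press P.f N ⌊α * N⌋₊ / N
  have two : ∀ L : ℝ, α * P.b1 ^ 2 ≤ L → 0 ≤ L → ∀ ε > (0 : ℝ), ∃ K0 : ℕ, ∀ K ≥ K0, ∀ᶠ N in atTop,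
      ((F N - ε : ℝ) : EReal) ≤ valL K L α P.f ∧
        valL K L α P.f ≤ ((F N + ε : ℝ) : EReal) := by
    intro L hL hL0 ε hε
    obtain ⟨Ku, hKu⟩ := hup L hL ε hε
    obtain ⟨Kl, hKl⟩ := hlow L hL ε hε
    refine ⟨max Ku Kl, fun K hK => ?_⟩
    obtain ⟨Nu, hNu⟩ := hKu K (le_of_max_le_left hK)
    obtain ⟨Nl, hNl⟩ := hKl K (le_of_max_le_right hK)
    filter_upwards [eventually_ge_atTop (max Nu Nl)] with N hN
    have hu := hNu N (le_of_max_le_left hN)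
    have hl := hNl N (le_of_max_le_right hN)
    rw [pressP_isingP] at hu hl
    refine ⟨le_iInf₂ fun q hq => ?_, ?_⟩
    · obtain ⟨p0, hp0, hmax, -⟩ := exists_argmax hL0 q
      have := hu q hq (pfun psiI α P.f p0 q) fun p hp => by
        simp only [pfun]
        linarith [hmax p hp]
      refine le_iSup₂_of_le p0 hp0 (EReal.coe_le_coe_iff.2 ?_)
      simp only [F]
      linarith
    · by_contra hc
      obtain ⟨r, hr, hr'⟩ := EReal.exists_between_coe_real (not_le.1 hc)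
      have := hl r fun q hq => by
        have h1 : (r : EReal) < ⨆ p ∈ pathsP K L, ((pfun psiI α P.f p q : ℝ) : EReal) :=
          hr'.trans_le (iInf₂_le q hq)
        simp only [lt_iSup_iff] at h1
        obtain ⟨p, hp, hlt⟩ := h1
        exact ⟨p, hp, (EReal.coe_lt_coe_iff.1 hlt).le⟩
      have := EReal.coe_lt_coe_iff.1 hr
      simp only [F] at this
      linarith
  have hL1 : α * P.b1 ^ 2 ≤ |α * P.b1 ^ 2| := le_abs_self _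
  have hc : CauchySeq F := by
    refine Metric.cauchySeq_iff'.2 fun ε hε => ?_
    obtain ⟨K, hK⟩ := two _ hL1 (abs_nonneg _) (ε / 4) (by linarith)
    obtain ⟨N0, hN⟩ := eventually_atTop.1 (hK K le_rfl)
    refine ⟨N0, fun n hn => ?_⟩
    have h1 := EReal.coe_le_coe_iff.1 ((hN n hn).1.trans (hN N0 le_rfl).2)
    have h2 := EReal.coe_le_coe_iff.1 ((hN N0 le_rfl).1.trans (hN n hn).2)
    rw [Real.dist_eq, abs_lt]
    constructor <;> linarith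
  obtain ⟨ℓ, hℓ⟩ := cauchySeq_tendsto_of_complete hc
  refine ⟨ℓ, hℓ, fun ε hε => ?_⟩
  filter_upwards [eventually_ge_atTop (|α * P.b1 ^ 2|)] with L hL
  obtain ⟨K0, hK0⟩ := two L (hL1.trans hL) ((abs_nonneg _).trans hL) (ε / 2) (by linarith)
  filter_upwards [eventually_ge_atTop K0] with K hK
  obtain ⟨N, h, hd⟩ := ((hK0 K hK).and (Metric.tendsto_nhds.1 hℓ (ε / 2) (by linarith))).exists
  rw [Real.dist_eq, abs_lt] at hd
  exact ⟨(EReal.coe_le_coe_iff.2 (by linarith)).trans h.1,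
    h.2.trans (EReal.coe_le_coe_iff.2 (by linarith))⟩

/-- The limit formula as a single limit in the number of levels, from the two bounds. -/
theorem limit_formula_single_of {α : ℝ} (hα : 0 ≤ α)
    (hup : ∀ (P : Pot) (L : ℝ), α * P.b1 ^ 2 ≤ L → ∀ ε > (0 : ℝ), ∃ K0 : ℕ, ∀ K ≥ K0,
      ∃ N1 : ℕ, ∀ N ≥ N1, ∀ q ∈ pathsQ K, ∀ V : ℝ,
        (∀ p ∈ pathsP K L, pfun psiI α P.f p q ≤ V) →
          pressP ⌊α * N⌋₊ P.f (isingP N) / N ≤ V + ε)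
    (hlow : ∀ (P : Pot) (L : ℝ), α * P.b1 ^ 2 ≤ L → ∀ ε > (0 : ℝ), ∃ K0 : ℕ, ∀ K ≥ K0,
      ∃ N1 : ℕ, ∀ N ≥ N1, ∀ V : ℝ,
        (∀ q ∈ pathsQ K, ∃ p ∈ pathsP K L, V ≤ pfun psiI α P.f p q) →
          V - ε ≤ pressP ⌊α * N⌋₊ P.f (isingP N) / N)
    {f : ℝ → ℝ} (hf : Measurable f) {B : ℝ} (hB : ∀ x, |f x| ≤ B) :
    ∃ ℓ : ℝ, Tendsto (fun N : ℕ => press f N ⌊α * N⌋₊ / N) atTop (𝓝 ℓ) ∧
      Tendsto (fun K => val K α f) atTop (𝓝 (ℓ : EReal)) :=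
  Formula.tendsto_borel hα (fun P => by
    obtain ⟨ℓ, h1, h2⟩ := tendsto_valL P (hup P) (hlow P)
    exact ⟨ℓ, h1, Formula.val_tendsto_of_valL P hα h2⟩) hf hB

/-- The limit formula for bounded Borel potentials, from the two bounds for smooth potentials. -/
theorem limit_formula_of {α : ℝ} (hα : 0 ≤ α)
    (hup : ∀ (P : Pot) (L : ℝ), α * P.b1 ^ 2 ≤ L → ∀ ε > (0 : ℝ), ∃ K0 : ℕ, ∀ K ≥ K0,
      ∃ N1 : ℕ, ∀ N ≥ N1, ∀ q ∈ pathsQ K, ∀ V : ℝ,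
        (∀ p ∈ pathsP K L, pfun psiI α P.f p q ≤ V) →
          pressP ⌊α * N⌋₊ P.f (isingP N) / N ≤ V + ε)
    (hlow : ∀ (P : Pot) (L : ℝ), α * P.b1 ^ 2 ≤ L → ∀ ε > (0 : ℝ), ∃ K0 : ℕ, ∀ K ≥ K0,
      ∃ N1 : ℕ, ∀ N ≥ N1, ∀ V : ℝ,
        (∀ q ∈ pathsQ K, ∃ p ∈ pathsP K L, V ≤ pfun psiI α P.f p q) →
          V - ε ≤ pressP ⌊α * N⌋₊ P.f (isingP N) / N)
    {f : ℝ → ℝ} (hf : Measurable f) {B : ℝ} (hB : ∀ x, |f x| ≤ B) :
    ∃ ℓ : ℝ, Tendsto (fun N : ℕ => press f N ⌊α * N⌋₊ / N) atTop (𝓝 ℓ) ∧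
      ∀ ε > (0 : ℝ), ∀ᶠ L in atTop, ∀ᶠ K in atTop,
        ((ℓ - ε : ℝ) : EReal) ≤ valL K L α f ∧ valL K L α f ≤ ((ℓ + ε : ℝ) : EReal) :=
  Formula.tendsto_borel_valL hα (fun P => tendsto_valL P (hup P) (hlow P)) hf hB

end Vale.Agent.P157.Casc
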