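import Vale.Agent.P157.Casc.Sys
import Vale.Agent.P157.Casc.Ultra.Avg

/-!
Pair averages of the model as replica averages: almost sure positivity, and measurability in the
parameters.
-/

open MeasureTheory ProbabilityTheory Filter Topology

namespace Vale.Agent.P157.Casc

variable {N M K n : ℕ}

theorem continuous_mbw2 (P : Pot) (π : Prior N) (st : State π K n) :
    Continuous fun y : (CIdx N M K → ℝ) × (Node K n → ℝ) × (GIdx N M K n → ℝ) =>
      mbw P π y.1 y.2 st := by
  have := pot_continuous P
  have hp : Continuous fun y : (CIdx N M K → ℝ) × (Node K n → ℝ) × (GIdx N M K n → ℝ) =>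
      (pull y.1 : GIdx N M K n → ℝ) :=
    continuous_pi fun i => by
      rcases i with p | ⟨o, i⟩ <;> simp only [pull] <;> fun_prop
  have hq : ∀ i, Continuous fun y : (CIdx N M K → ℝ) × (Node K n → ℝ) × (GIdx N M K n → ℝ) =>
      (pull y.1 : GIdx N M K n → ℝ) i := fun i => (continuous_apply i).comp hp
  unfold mbw bw stw wgt ham lin
  fun_prop

/-- Two-replica averages are averages over two replicas. -/
theorem avg2_eq_avg {T : Type*} [Fintype T] (u : T → ℝ) (O : T → T → ℝ) :
    avg2 u O = avg u 2 fun x => O (x 0) (x 1) := by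
  rw [avg_cons']
  simp only [avg2]
  refine Finset.sum_congr rfl fun a _ => ?_
  rw [avg_cons', Finset.mul_sum]
  refine Finset.sum_congr rfl fun b _ => ?_
  rw [avg_zero']
  have h1 : Fin.cons (α := fun _ => T) a (Fin.cons b Fin.elim0) 1 = b := rfl
  simp only [Fin.cons_zero, h1]
  ring

theorem mpair_eq_eavg (P : Pot) (π : Prior N) (c : CIdx N M K → ℝ)
    (O : State π K n → State π K n → ℝ) :
    mpair n P π c (fun _ => O) = eavg (envLaw N M K n) (mbw P π c) 2 fun x => O (x 0) (x 1) := by
  simp only [mpair, eavg, avg2_eq_avg]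

instance envLaw_prob : IsProbabilityMeasure (envLaw N M K n) := by
  unfold envLaw; infer_instance

/-- Measurability of pair averages in a parameter. -/
theorem measurable_mpair_param {α : Type*} [MeasurableSpace α] (P : Pot) (π : Prior N)
    {c : α → CIdx N M K → ℝ} (hc : Measurable c)
    {O : α → (GIdx N M K n → ℝ) → State π K n → State π K n → ℝ}
    (hO : ∀ s t, Measurable fun y : α × (GIdx N M K n → ℝ) => O y.1 y.2 s t) :
    Measurable fun a => mpair n P π (c a) (O a) := by
  have hb : ∀ st, Measurable fun y : α × ((Node K n → ℝ) × (GIdx N M K n → ℝ)) =>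
      mbw P π (c y.1) y.2 st := fun st =>
    (continuous_mbw2 P π st).measurable.comp ((hc.comp measurable_fst).prodMk measurable_snd)
  have hg : ∀ st, Measurable fun y : α × ((Node K n → ℝ) × (GIdx N M K n → ℝ)) =>
      gibbs (mbw P π (c y.1) y.2) st := fun st =>
    (hb st).div (Finset.measurable_sum _ fun z _ => hb z)
  have hall : Measurable fun y : α × ((Node K n → ℝ) × (GIdx N M K n → ℝ)) =>
      avg2 (mbw P π (c y.1) y.2) (O y.1 y.2.2) := by
    refine Finset.measurable_sum _ fun s _ => Finset.measurable_sum _ fun t _ => ?_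
    exact ((hg s).mul (hg t)).mul
      ((hO s t).comp (measurable_fst.prodMk (measurable_snd.comp measurable_snd)))
  exact (hall.stronglyMeasurable.integral_prod_right' (ν := envLaw N M K n)).measurable

theorem abs_mpair_le (P : Pot) (π : Prior N) (c : CIdx N M K → ℝ)
    {O : (GIdx N M K n → ℝ) → State π K n → State π K n → ℝ} {C : ℝ} (hC : 0 ≤ C)
    (hO : ∀ G s t, |O G s t| ≤ C) : |mpair n P π c O| ≤ C := by
  rw [mpair, ← Real.norm_eq_abs]
  refine le_of_le_of_eq (norm_integral_le_of_norm_le_const ?_)
    (show C * (envLaw N M K n).real Set.univ = C by rw [probReal_univ, mul_one])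
  filter_upwards [ae_mbw_pos P π c] with p hp
  exact abs_avg2_le _ (fun x => (hp x).le) hC (hO p.2)

/-- The weights, replaced by constants off the event that they are positive. -/
noncomputable def posW (P : Pot) (π : Prior N) (c : CIdx N M K → ℝ)
    (p : (Node K n → ℝ) × (GIdx N M K n → ℝ)) (st : State π K n) : ℝ :=
  open Classical in if ∀ s, 0 < mbw P π c p s then mbw P π c p st else 1

theorem posW_pos (P : Pot) (π : Prior N) (c : CIdx N M K → ℝ)
    (p : (Node K n → ℝ) × (GIdx N M K n → ℝ)) (st : State π K n) : 0 < posW P π c p st := by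
  unfold posW
  split_ifs with h
  exacts [h st, one_pos]

theorem measurable_posW (P : Pot) (π : Prior N) (c : CIdx N M K → ℝ) (st : State π K n) :
    Measurable fun p => posW P π c p st := by
  classical
  unfold posW
  refine Measurable.ite ?_ (continuous_mbw P π c st).measurable measurable_const
  rw [Set.ofPred_forall]
  exact MeasurableSet.iInter fun s =>
    measurableSet_lt measurable_const (continuous_mbw P π c s).measurable

theorem eavg_posW (P : Pot) (π : Prior N) (c : CIdx N M K → ℝ) (r : ℕ)
    (F : (Fin r → State π K n) → ℝ) :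
    eavg (envLaw N M K n) (posW P π c) r F = eavg (envLaw N M K n) (mbw P π c) r F := by
  refine integral_congr_ae ?_
  filter_upwards [ae_mbw_pos P π c] with p hp
  congr 1
  funext st
  exact if_pos hp

theorem ggDef_posW (P : Pot) (π : Prior N) (c : CIdx N M K → ℝ)
    (S : State π K n → State π K n → ℝ) (r : ℕ) (F : (Fin (r + 1) → State π K n) → ℝ) :
    ggDef (envLaw N M K n) (posW P π c) S r F = ggDef (envLaw N M K n) (mbw P π c) S r F := by
  simp only [ggDef, eavg_posW]

theorem continuous_stdc (Λ : Par K) :
    Continuous fun x : Fin N → ℝ => (stdc Λ (ext0 x) : CIdx N M K → ℝ) := by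
  have he : ∀ j : ℕ, Continuous fun x : Fin N → ℝ => ext0 x j := fun j => by
    unfold ext0
    split_ifs <;> fun_prop
  refine continuous_pi fun i => ?_
  unfold stdc
  refine continuous_const.add ?_
  rcases i with p | ⟨l, a | j | ⟨j, i, t⟩⟩ <;> simp only [pertc] <;> try exact continuous_const
  split_ifs
  · have := he j
    fun_prop
  · exact continuous_const

end Vale.Agent.P157.Casc
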