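import Vale.Agent.P157.Casc.LimitPairStep

/-!
One level of a finite Pareto cascade: the limits of tilted Gibbs averages of single observables and
of pairs of different children.
-/

open MeasureTheory Set Filter Topology Real

namespace Vale.Agent.P157.Casc.Rec

/-- The children of a growing family of trees. -/
structure Kid {Ω : ℕ → Type*} [∀ k, MeasurableSpace (Ω k)] (m : ℝ) (ν : ∀ k, Measure (Ω k))
    (S : ∀ k, Ω k → ℝ) (nn : ℕ → ℕ) (M : ℝ) : Prop where
  lim_nn : Tendsto nn atTop atTop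
  m0 : 0 < m
  m1 : m < 1
  meas : ∀ k, Measurable (S k)
  pos : ∀ k x, 0 < S k x
  intm : ∀ k, Integrable (fun x => S k x ^ m) (ν k)
  lim : Tendsto (fun k => ∫ x, S k x ^ m ∂ν k) atTop (𝓝 M)
  Mpos : 0 < M
  high : ∃ p C : ℝ, m < p ∧ p ≤ 1 ∧
    ∀ k, Integrable (fun x => S k x ^ p) (ν k) ∧ ∫ x, S k x ^ p ∂ν k ≤ C
  invb : ∃ C : ℝ, ∀ k, Integrable (fun ω => (zsum (nn k) m (S k) ω)⁻¹) (kids (ν k) (nn k)) ∧
    ∫ ω, (zsum (nn k) m (S k) ω)⁻¹ ∂kids (ν k) (nn k) ≤ C

/-- The limit of the `q`-th moment. -/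
noncomputable def nrm (m q M : ℝ) : ℝ :=
  (jc m * M) ^ (q / m) * (Gamma (1 - q / m) / Gamma (1 - q))

/-- Ordered pairs of different children. -/
noncomputable def offsum {Ω : Type*} (n : ℕ) (m : ℝ) (P : Ω → ℝ)
    (ω : Fin (n + 1) → ℝ × Ω) : ℝ :=
  osum n m 1 P ω ^ 2 - osum n m 2 (fun x => P x ^ 2) ω

theorem abs_offsum_le {Ω : Type*} (n : ℕ) {m C : ℝ} {S P : Ω → ℝ} (h0 : ∀ x, 0 < S x)
    (hb : ∀ x, |P x| ≤ C * S x ^ (1 : ℝ)) (ω : Fin (n + 1) → ℝ × Ω) :
    |offsum n m P ω| ≤ 2 * C ^ 2 * zsum n m S ω ^ (2 : ℝ) := by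
  have h1 := abs_osum_le (m := m) n le_rfl h0 hb ω
  have hb2 : ∀ x, |P x ^ 2| ≤ C ^ 2 * S x ^ (2 : ℝ) := fun x => by
    have := pow_le_pow_left₀ (abs_nonneg _) (hb x) 2
    simp only [rpow_one, rpow_two, mul_pow, abs_pow] at this ⊢
    exact this
  have h2 := abs_osum_le (m := m) n one_le_two h0 hb2 ω
  have h3 := pow_le_pow_left₀ (abs_nonneg _) h1 2
  simp only [rpow_one, rpow_two, mul_pow, sq_abs] at h2 h3
  rw [rpow_two, offsum]
  refine (abs_sub _ _).trans ?_
  rw [abs_pow, sq_abs]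
  linarith

theorem offsum_lap {Ω : Type*} [MeasurableSpace Ω] {ν : Measure Ω} [IsProbabilityMeasure ν]
    (n : ℕ) {m C : ℝ} {S P : Ω → ℝ} (hS : Measurable S) (h0 : ∀ x, 0 < S x) (hP : Measurable P)
    (hb : ∀ x, |P x| ≤ C * S x ^ (1 : ℝ)) {t : ℝ} (ht : 0 < t) :
    ∫ ω, offsum n m P ω * exp (-(t * zsum n m S ω)) ∂kids ν n
      = (n : ℝ) / (n + 1) * ((n + 1 : ℝ) * oneP n m 1 ν S P t) ^ 2 * one n m ν S t ^ (n - 1) := by
  set g := fun p : ℝ × Ω => wgt n m p.1 ^ (1 : ℝ) * P p.2 * exp (-(t * (wgt n m p.1 * S p.2)))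
  set h := fun p : ℝ × Ω => exp (-(t * (wgt n m p.1 * S p.2)))
  have hg : Integrable g (uni.prod ν) := oneP_integrand n one_pos hS h0 hP hb ht
  have hh : Integrable h (uni.prod ν) := integrable_lap
    (((measurable_wgt n m).comp measurable_fst).mul (hS.comp measurable_snd))
    (fun p => mul_pos (wgt_pos n m p.1) (h0 p.2)) ht.le
  have hterm : ∀ ω : Fin (n + 1) → ℝ × Ω, offsum n m P ω * exp (-(t * zsum n m S ω))
      = ∑ i, ∑ k ∈ Finset.univ.erase i, ∏ l, (if l = i ∨ l = k then g else h) (ω l) := by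
    intro ω
    have hoff : offsum n m P ω = ∑ i, ∑ k ∈ Finset.univ.erase i,
        (wgt n m (ω i).1 ^ (1 : ℝ) * P (ω i).2) * (wgt n m (ω k).1 ^ (1 : ℝ) * P (ω k).2) := by
      simp only [offsum, osum, rpow_one, rpow_two, sq, Finset.sum_mul_sum]
      rw [← Finset.sum_sub_distrib]
      refine Finset.sum_congr rfl fun i _ => ?_
      rw [← Finset.sum_erase_add _ _ (Finset.mem_univ i)]
      ring
    rw [hoff, Finset.sum_mul]
    refine Finset.sum_congr rfl fun i _ => ?_
    rw [Finset.sum_mul]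
    refine Finset.sum_congr rfl fun k hk => ?_
    have hki : k ≠ i := Finset.ne_of_mem_erase hk
    have hexp : exp (-(t * zsum n m S ω)) = ∏ l, h (ω l) := by
      simp only [h, zsum, Finset.mul_sum, ← Finset.sum_neg_distrib, exp_sum]
    rw [hexp, ← Finset.mul_prod_erase _ _ (Finset.mem_univ i),
      ← Finset.mul_prod_erase _ _ hk,
      ← Finset.mul_prod_erase _ (fun l => (if l = i ∨ l = k then g else h) (ω l))
        (Finset.mem_univ i),
      ← Finset.mul_prod_erase _ (fun l => (if l = i ∨ l = k then g else h) (ω l)) hk,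
      Finset.prod_congr (s₂ := (Finset.univ.erase i).erase k) rfl
        (f := fun l => (if l = i ∨ l = k then g else h) (ω l)) (g := fun l => h (ω l))
        fun l hl => by
          simp [Finset.ne_of_mem_erase hl, Finset.ne_of_mem_erase (Finset.mem_of_mem_erase hl)]]
    simp only [true_or, or_true, if_true, g, h]
    ring
  simp_rw [hterm]
  have hint : ∀ i k : Fin (n + 1), Integrable
      (fun ω : Fin (n + 1) → ℝ × Ω => ∏ l, (if l = i ∨ l = k then g else h) (ω l))
      (kids ν n) := fun i k => Integrable.fintype_prod fun l => by split_ifs <;> assumption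
  rw [integral_finsetSum _ fun i _ => integrable_finsetSum _ fun k _ => hint i k]
  simp_rw [integral_finsetSum _ fun k _ => hint _ k]
  have hone : ∫ p, g p ∂(uni.prod ν) = oneP n m 1 ν S P t := rfl
  have hon : ∫ p, h p ∂(uni.prod ν) = one n m ν S t := rfl
  have hval : ∀ i : Fin (n + 1), ∀ k ∈ Finset.univ.erase i,
      ∫ ω, ∏ l, (if l = i ∨ l = k then g else h) (ω l) ∂kids ν n
        = oneP n m 1 ν S P t ^ 2 * one n m ν S t ^ (n - 1) := fun i k hk => by
    simp only [kids, integral_fintype_prod_eq_prod]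
    rw [← Finset.mul_prod_erase _ _ (Finset.mem_univ i), ← Finset.mul_prod_erase _ _ hk,
      Finset.prod_congr (g := fun _ => one n m ν S t) rfl fun l hl => by
        simp only [Finset.ne_of_mem_erase hl, Finset.ne_of_mem_erase (Finset.mem_of_mem_erase hl),
          or_self, if_false]
        exact hon,
      Finset.prod_const, Finset.card_erase_of_mem hk, Finset.card_erase_of_mem (Finset.mem_univ i)]
    simp only [true_or, or_true, if_true, hone, Finset.card_univ, Fintype.card_fin,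
      Nat.add_sub_cancel]
    ring
  rw [Finset.sum_congr rfl fun i _ => Finset.sum_congr rfl (hval i)]
  simp only [Finset.sum_const, Finset.card_erase_of_mem (Finset.mem_univ _), Finset.card_univ,
    Fintype.card_fin, Nat.add_sub_cancel, nsmul_eq_mul]
  push_cast
  field_simp

section
variable {Ω : ℕ → Type*} [∀ k, MeasurableSpace (Ω k)] {ν : ∀ k, Measure (Ω k)}
  [∀ k, IsProbabilityMeasure (ν k)] {S P : ∀ k, Ω k → ℝ} {nn : ℕ → ℕ} {m M q j C A : ℝ}

theorem Kid.moment_le (h : Kid m ν S nn M) : ∃ D : ℝ, 0 ≤ D ∧ ∀ k, ∫ x, S k x ^ m ∂ν k ≤ D := by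
  obtain ⟨p, B, hmp, -, hB⟩ := h.high
  have hB0 : 0 ≤ B := (integral_nonneg fun x => rpow_nonneg (h.pos 0 x).le p).trans (hB 0).2
  refine ⟨1 + B, by linarith, fun k => (integral_mono (h.intm k) ((integrable_const (1 : ℝ)).add
    (hB k).1) fun x => ?_).trans ?_⟩
  · simp only [Pi.add_apply]
    rcases le_total (S k x) 1 with h' | h'
    · exact (rpow_le_one (h.pos k x).le h' h.m0.le).trans
        (le_add_of_nonneg_right (rpow_nonneg (h.pos k x).le p))
    · exact (rpow_le_rpow_of_exponent_le h' hmp.le).trans (le_add_of_nonneg_left zero_le_one)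
  · simp only [Pi.add_apply]
    rw [integral_add (integrable_const _) (hB k).1]
    simp [(hB k).2]

theorem Kid.one_lim (h : Kid m ν S nn M) {t : ℝ} (ht : 0 < t) :
    Tendsto (fun k => one (nn k) m (ν k) (S k) t) atTop (𝓝 1) ∧
      Tendsto (fun k => one (nn k) m (ν k) (S k) t ^ nn k) atTop
        (𝓝 (exp (-(jc m * M * t ^ m)))) ∧
      Tendsto (fun k => one (nn k) m (ν k) (S k) t ^ (nn k - 1)) atTop
        (𝓝 (exp (-(jc m * M * t ^ m)))) := by
  obtain ⟨p, B, hmp, hp1, hB⟩ := h.high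
  obtain ⟨h1, h2⟩ := tendsto_pow_exp h.lim_nn (tendsto_deficit h.lim_nn h.m0 h.m1 h.meas h.pos
    h.intm hmp hp1 (fun k => (hB k).1) (fun k => (hB k).2) h.lim ht)
  have hev : ∀ᶠ k in atTop, 0 < one (nn k) m (ν k) (S k) t :=
    h1.eventually (eventually_gt_nhds one_pos)
  have h3 : Tendsto (fun k => one (nn k) m (ν k) (S k) t ^ nn k) atTop
      (𝓝 (exp (-(jc m * M * t ^ m)))) := by
    have := h2.div h1 one_ne_zero
    rw [div_one] at this
    refine this.congr' (hev.mono fun k hk => ?_)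
    simp only [Pi.div_apply]
    rw [pow_succ, mul_div_cancel_right₀ _ hk.ne']
  refine ⟨h1, h3, ?_⟩
  have := h3.div h1 one_ne_zero
  rw [div_one] at this
  refine this.congr' ?_
  filter_upwards [hev, h.lim_nn.eventually (eventually_ge_atTop 1)] with k hk hk1
  simp only [Pi.div_apply]
  rw [pow_sub₀ _ hk.ne' hk1, pow_one, div_eq_mul_inv]

theorem Kid.oneP_lim (h : Kid m ν S nn M) (hj : 1 ≤ j) (hP : ∀ k, Measurable (P k))
    (hb : ∀ k x, |P k x| ≤ C * S k x ^ j)
    (hA : Tendsto (fun k => ∫ x, S k x ^ (m - j) * P k x ∂ν k) atTop (𝓝 A)) {t : ℝ} (ht : 0 < t) :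
    Tendsto (fun k => (nn k + 1 : ℝ) * oneP (nn k) m j (ν k) (S k) (P k) t) atTop
      (𝓝 (t ^ (m - j) * (m * Gamma (j - m)) * A)) := by
  obtain ⟨p, B, hmp, hp1, hB⟩ := h.high
  have hjm : 0 < j - m := by linarith [h.m1]
  set θ := (p - m) / (j - m)
  have hθp : m + θ * (j - m) = p := by simp only [θ]; field_simp; ring
  have hθ0 : 0 < θ := div_pos (by linarith) hjm
  have hθ1 : θ ≤ 1 := (div_le_one hjm).2 (by linarith)
  have hb1 : 0 < j / m - 1 := sub_pos.2 ((one_lt_div h.m0).2 (by linarith))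
  have hC : ∀ k x, (0 : ℝ) ≤ C * S k x ^ j := fun k x => (abs_nonneg _).trans (hb k x)
  have hG : 0 ≤ m * Gamma (j - m) := mul_nonneg h.m0.le (Gamma_pos_of_pos hjm).le
  set r : ℕ → ℝ := fun k => |C| * (m * Gamma (j - m)) ^ (1 - θ) *
    ((nn k + 1 : ℝ) ^ (1 - j / m) / (j / m - 1)) ^ θ * t ^ ((m - j) * (1 - θ)) * B
  have hr : Tendsto r atTop (𝓝 0) := by
    have h2 := ((tendsto_rate hb1 h.lim_nn).div_const (j / m - 1)).rpow_const (p := θ)
      (.inr hθ0.le)
    simp only [zero_div, zero_rpow hθ0.ne', neg_sub] at h2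
    simpa [r] using ((h2.const_mul (|C| * (m * Gamma (j - m)) ^ (1 - θ))).mul_const
      (t ^ ((m - j) * (1 - θ)))).mul_const B
  refine Tendsto.congr_dist (hA.const_mul _) (squeeze_zero (fun k => dist_nonneg) (fun k => ?_) hr)
  have := deficitP_close (C := |C|) (nn k) h.m0 h.m1 hj (h.meas k) (h.pos k) (hP k)
    (fun x => (hb k x).trans (mul_le_mul_of_nonneg_right (le_abs_self C)
      (rpow_nonneg (h.pos k x).le j))) (h.intm k) hθ0.le hθ1 (by rw [hθp]; exact (hB k).1) ht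
  rw [hθp] at this
  rw [Real.dist_eq, abs_sub_comm]
  refine this.trans (mul_le_mul_of_nonneg_left (hB k).2 ?_)
  have := div_nonneg (rpow_nonneg (by positivity : (0 : ℝ) ≤ nn k + 1) (1 - j / m)) hb1.le
  positivity

/-- The moments that control the tails. -/
theorem Kid.qmom (h : Kid m ν S nn M) (hq0 : 0 ≤ q) (hqm : q < m) : ∃ D : ℝ, ∀ k,
    Integrable (fun ω => zsum (nn k) m (S k) ω ^ q) (kids (ν k) (nn k)) ∧
    Integrable (fun ω => zsum (nn k) m (S k) ω ^ (q - 1)) (kids (ν k) (nn k)) ∧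
      ∫ ω, zsum (nn k) m (S k) ω ^ (q - 1) ∂kids (ν k) (nn k) ≤ D := by
  obtain ⟨B, hB⟩ := h.invb
  refine ⟨1 + B, fun k => ?_⟩
  have hZ := measurable_zsum (nn k) m (h.meas k)
  have hZ0 := zsum_pos (nn k) m (h.pos k)
  have hle : ∀ ω, zsum (nn k) m (S k) ω ^ (q - 1) ≤ 1 + (zsum (nn k) m (S k) ω)⁻¹ := fun ω => by
    rcases le_total 1 (zsum (nn k) m (S k) ω) with h' | h'
    · exact (rpow_le_one_of_one_le_of_nonpos h' (by linarith [h.m1])).trans
        (le_add_of_nonneg_right (inv_pos.2 (hZ0 ω)).le)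
    · rw [← rpow_neg_one]
      exact (rpow_le_rpow_of_exponent_ge (hZ0 ω) h' (by linarith)).trans
        (le_add_of_nonneg_left zero_le_one)
  have hi1 : Integrable (fun ω => zsum (nn k) m (S k) ω ^ (q - 1)) (kids (ν k) (nn k)) :=
    ((integrable_const (1 : ℝ)).add (hB k).1).mono' (hZ.pow_const _).aestronglyMeasurable
      (.of_forall fun ω => by
        rw [Real.norm_of_nonneg (rpow_nonneg (hZ0 ω).le _)]; exact hle ω)
  refine ⟨?_, hi1, (integral_mono hi1 ((integrable_const (1 : ℝ)).add (hB k).1) hle).trans ?_⟩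
  · rcases eq_or_lt_of_le hq0 with rfl | hq
    · simp only [rpow_zero]; exact integrable_const 1
    · exact (zsum_moment_bound (nn k) h.m0 h.m1 (h.meas k) (h.pos k) (h.intm k) hq hqm).1
  · simp only [Pi.add_apply]
    rw [integral_add (integrable_const _) (hB k).1]
    simp [(hB k).2]

/-- Tilted averages through their Laplace transforms. -/
theorem Kid.tendsto_gibbs (h : Kid m ν S nn M) (hj : 1 ≤ j) (hq0 : 0 ≤ q) (hqm : q < m)
    {F : ∀ k, (Fin (nn k + 1) → ℝ × Ω k) → ℝ} (hF : ∀ k, Measurable (F k))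
    (hb : ∀ k ω, |F k ω| ≤ C * zsum (nn k) m (S k) ω ^ j) {g : ℝ → ℝ} {G a : ℝ} (ha : -1 < a)
    (hdom : ∀ k, ∀ t : ℝ, 0 < t → |t ^ (j - 1 - q) *
      ∫ ω, F k ω * exp (-(t * zsum (nn k) m (S k) ω)) ∂kids (ν k) (nn k)| ≤ G * t ^ a)
    (hlim : ∀ t : ℝ, 0 < t → Tendsto (fun k => t ^ (j - 1 - q) *
      ∫ ω, F k ω * exp (-(t * zsum (nn k) m (S k) ω)) ∂kids (ν k) (nn k)) atTop (𝓝 (g t)))
    (hg : IntegrableOn g (Ioi 0)) :
    Tendsto (fun k => ∫ ω, F k ω * zsum (nn k) m (S k) ω ^ (q - j) ∂kids (ν k) (nn k)) atTop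
      (𝓝 ((∫ t in Ioi (0 : ℝ), g t) / Gamma (j - q))) := by
  have hjq : 0 < j - q := by linarith [h.m1]
  obtain ⟨D, hD⟩ := h.qmom hq0 hqm
  have hid := fun k => gibbs_identity (μ := kids (ν k) (nn k)) (measurable_zsum (nn k) m (h.meas k))
    (zsum_pos (nn k) m (h.pos k)) (hF k) hj (by linarith [h.m1] : q < 1) (hb k) (hD k).1 (hD k).2.1
  have hC : 0 ≤ C := by
    have := (abs_nonneg _).trans (hb 0 fun _ => (1, Classical.choice
      (nonempty_of_isProbabilityMeasure (ν 0))))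
    nlinarith [rpow_pos_of_pos (zsum_pos (nn 0) m (h.pos 0)
      (fun _ => (1, Classical.choice (nonempty_of_isProbabilityMeasure (ν 0))))) j]
  have hcut := tendsto_of_cut (B := C * Gamma (j + 1 - q) * D) (fun k => (hid k).2.1) hg
    (fun T hT => ?_) fun k T hT => ?_
  · refine (hcut.div_const (Gamma (j - q))).congr fun k => ?_
    rw [← (hid k).2.2.1, mul_div_cancel_right₀ _ (Gamma_pos_of_pos hjq).ne']
  · refine tendsto_integral_of_dominated_convergence (fun t => G * t ^ a)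
      (fun k => ((hid k).2.1.mono_set Ioc_subset_Ioi_self).aestronglyMeasurable) ?_ (fun k => ?_) ?_
    · exact ((intervalIntegral.intervalIntegrable_rpow' (a := 0) (b := T) ha).1).const_mul G
    · exact (ae_restrict_iff' measurableSet_Ioc).2 (.of_forall fun t ht => hdom k t ht.1)
    · exact (ae_restrict_iff' measurableSet_Ioc).2 (.of_forall fun t ht => hlim t ht.1)
  · refine ((hid k).2.2.2 T hT).trans ?_
    rw [div_mul_eq_mul_div]
    have : 0 ≤ Gamma (j + 1 - q) := (Gamma_pos_of_pos (by linarith)).le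
    gcongr
    exact (hD k).2.2

/-- One observable. -/
theorem Kid.tendsto_single (h : Kid m ν S nn M) (hj : 1 ≤ j) (hq0 : 0 ≤ q) (hqm : q < m)
    (hP : ∀ k, Measurable (P k)) (hb : ∀ k x, |P k x| ≤ C * S k x ^ j)
    (hA : Tendsto (fun k => ∫ x, S k x ^ (m - j) * P k x ∂ν k) atTop (𝓝 A)) :
    Tendsto (fun k => ∫ ω, osum (nn k) m j (P k) ω * zsum (nn k) m (S k) ω ^ (q - j)
        ∂kids (ν k) (nn k)) atTop
      (𝓝 (nrm m q M * (Gamma (j - m) / jc m) * (Gamma (1 - q) / Gamma (j - q)) * (A / M))) := by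
  have hm0 := h.m0
  have hm1 := h.m1
  have hJ := jc_pos hm0 hm1
  have hJM : 0 < jc m * M := mul_pos hJ h.Mpos
  obtain ⟨D, hD0, hD⟩ := h.moment_le
  have hGp : 0 ≤ m * Gamma (j - m) := mul_nonneg hm0.le (Gamma_pos_of_pos (by linarith)).le
  set c := m * Gamma (j - m) * A
  have hi := integrableOn_rpow_mul_exp_neg_mul_rpow (s := m - 1 - q) (p := m) (b := jc m * M)
    (by linarith) hm0 hJM
  have key := h.tendsto_gibbs (C := C) hj hq0 hqm (fun k => measurable_osum (nn k) (hP k))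
    (fun k => abs_osum_le (nn k) hj (h.pos k) (hb k))
    (g := fun t => c * (t ^ (m - 1 - q) * exp (-(jc m * M) * t ^ m)))
    (G := |C| * (m * Gamma (j - m)) * D) (a := m - 1 - q) (by linarith) (fun k t ht => ?_)
    (fun t ht => ?_) (hi.const_mul c)
  · have hne := (Gamma_pos_of_pos (by linarith : 0 < 1 - q)).ne'
    have hne' := hm0.ne'
    convert key using 2
    rw [integral_const_mul, integral_rpow_mul_exp_neg_mul_rpow hm0 (by linarith) hJM,
      show (m - 1 - q + 1) / m = 1 - q / m by field_simp; ring,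
      show -(m - 1 - q + 1) / m = q / m - 1 by field_simp; ring, rpow_sub_one hJM.ne', nrm]
    have := h.Mpos.ne'
    simp only [c]
    field_simp
  · rw [osum_lap (C := C) (nn k) (by linarith) (h.meas k) (h.pos k) (hP k) (hb k) ht, abs_mul,
      abs_mul, abs_of_pos (rpow_pos_of_pos ht _)]
    have h1 := one_mem (m := m) (ν := ν k) (nn k) (h.meas k) (h.pos k) ht.le
    have h2 := (oneP_abs_le (C := |C|) (nn k) hm0 hm1 hj (h.meas k) (h.pos k) (hP k)
      (fun x => (hb k x).trans (mul_le_mul_of_nonneg_right (le_abs_self C)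
        (rpow_nonneg (h.pos k x).le j))) (h.intm k) ht).trans
      (mul_le_mul_of_nonneg_left (hD k)
        (mul_nonneg (mul_nonneg (abs_nonneg C) hGp) (rpow_nonneg ht.le _)))
    rw [show t ^ (m - 1 - q) = t ^ (j - 1 - q) * t ^ (m - j) by rw [← rpow_add ht]; ring_nf,
      show |C| * (m * Gamma (j - m)) * D * (t ^ (j - 1 - q) * t ^ (m - j))
        = t ^ (j - 1 - q) * (|C| * (m * Gamma (j - m)) * t ^ (m - j) * D) by ring]
    refine mul_le_mul_of_nonneg_left ((mul_le_of_le_one_right (abs_nonneg _) ?_).trans h2)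
      (rpow_nonneg ht.le _)
    rw [abs_pow, abs_of_nonneg h1.1]
    exact pow_le_one₀ h1.1 h1.2
  · simp_rw [fun k => osum_lap (m := m) (C := C) (nn k) (by linarith : 0 < j) (h.meas k) (h.pos k)
      (hP k) (hb k) ht]
    have := ((h.oneP_lim hj hP hb hA ht).mul (h.one_lim ht).2.1).const_mul (t ^ (j - 1 - q))
    convert this using 2
    rw [show t ^ (m - 1 - q) = t ^ (j - 1 - q) * t ^ (m - j) by rw [← rpow_add ht]; ring_nf,
      neg_mul]
    simp only [c]
    ring

/-- Pairs of different children. -/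
theorem Kid.tendsto_offsum (h : Kid m ν S nn M) (hq0 : 0 ≤ q) (hqm : q < m)
    (hP : ∀ k, Measurable (P k)) (hb : ∀ k x, |P k x| ≤ C * S k x ^ (1 : ℝ))
    (hA : Tendsto (fun k => ∫ x, S k x ^ (m - 1) * P k x ∂ν k) atTop (𝓝 A)) :
    Tendsto (fun k => ∫ ω, offsum (nn k) m (P k) ω * zsum (nn k) m (S k) ω ^ (q - 2)
        ∂kids (ν k) (nn k)) atTop
      (𝓝 (nrm m q M * ((m - q) / (1 - q)) * (A / M) ^ 2)) := by
  have hm0 := h.m0
  have hm1 := h.m1
  have hJ := jc_pos hm0 hm1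
  have hJM : 0 < jc m * M := mul_pos hJ h.Mpos
  obtain ⟨D, hD0, hD⟩ := h.moment_le
  have hGp : 0 ≤ m * Gamma (1 - m) := mul_nonneg hm0.le (Gamma_pos_of_pos (by linarith)).le
  set c := (m * Gamma (1 - m) * A) ^ 2
  have hi := integrableOn_rpow_mul_exp_neg_mul_rpow (s := 2 * m - 1 - q) (p := m) (b := jc m * M)
    (by linarith) hm0 hJM
  have key := h.tendsto_gibbs (C := 2 * C ^ 2) (j := 2) one_le_two hq0 hqm
    (F := fun k => offsum (nn k) m (P k))
    (fun k => ((measurable_osum (nn k) (hP k)).pow_const 2).sub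
      (measurable_osum (nn k) ((hP k).pow_const 2)))
    (fun k => abs_offsum_le (nn k) (h.pos k) (hb k))
    (g := fun t => c * (t ^ (2 * m - 1 - q) * exp (-(jc m * M) * t ^ m)))
    (G := (|C| * (m * Gamma (1 - m)) * D) ^ 2) (a := 2 * m - 1 - q) (by linarith) (fun k t ht => ?_)
    (fun t ht => ?_) (hi.const_mul c)
  · have hne := (Gamma_pos_of_pos (by linarith : 0 < 1 - q)).ne'
    have hne' := hm0.ne'
    have hq1 : 1 - q ≠ 0 := by linarith
    convert key using 2
    rw [integral_const_mul, integral_rpow_mul_exp_neg_mul_rpow hm0 (by linarith) hJM,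
      show (2 * m - 1 - q + 1) / m = (1 - q / m) + 1 by field_simp; ring,
      show -(2 * m - 1 - q + 1) / m = q / m - 1 - 1 by field_simp; ring,
      rpow_sub_one hJM.ne', rpow_sub_one hJM.ne',
      Gamma_add_one (sub_pos.2 ((div_lt_one hm0).2 hqm)).ne',
      show (2 : ℝ) - q = (1 - q) + 1 by ring, Gamma_add_one hq1, nrm]
    have := h.Mpos.ne'
    simp only [c, ← jc_eq hm0 hm1]
    field_simp
  · rw [offsum_lap (C := C) (nn k) (h.meas k) (h.pos k) (hP k) (hb k) ht, abs_mul, abs_mul,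
      abs_of_pos (rpow_pos_of_pos ht _)]
    have h1 := one_mem (m := m) (ν := ν k) (nn k) (h.meas k) (h.pos k) ht.le
    have h2 := (oneP_abs_le (C := |C|) (nn k) hm0 hm1 le_rfl (h.meas k) (h.pos k) (hP k)
      (fun x => (hb k x).trans (mul_le_mul_of_nonneg_right (le_abs_self C)
        (rpow_nonneg (h.pos k x).le _))) (h.intm k) ht).trans
      (mul_le_mul_of_nonneg_left (hD k)
        (mul_nonneg (mul_nonneg (abs_nonneg C) hGp) (rpow_nonneg ht.le _)))
    have h3 : (nn k : ℝ) / (nn k + 1) ≤ 1 := (div_le_one (by positivity)).2 (by linarith)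
    rw [show (|C| * (m * Gamma (1 - m)) * D) ^ 2 * t ^ (2 * m - 1 - q)
        = t ^ (2 - 1 - q) * (|C| * (m * Gamma (1 - m)) * t ^ (m - 1) * D) ^ 2 by
      rw [show t ^ (2 * m - 1 - q) = t ^ (2 - 1 - q) * (t ^ (m - 1) * t ^ (m - 1)) by
        rw [← rpow_add ht, ← rpow_add ht]; ring_nf]
      ring]
    refine mul_le_mul_of_nonneg_left ((mul_le_of_le_one_right (abs_nonneg _) ?_).trans ?_)
      (rpow_nonneg ht.le _)
    · rw [abs_pow, abs_of_nonneg h1.1]
      exact pow_le_one₀ h1.1 h1.2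
    · rw [abs_mul, abs_of_nonneg (by positivity : (0 : ℝ) ≤ (nn k : ℝ) / (nn k + 1)), abs_pow]
      exact (mul_le_of_le_one_left (by positivity) h3).trans (pow_le_pow_left₀ (abs_nonneg _) h2 2)
  · simp_rw [fun k => offsum_lap (m := m) (C := C) (nn k) (h.meas k) (h.pos k) (hP k) (hb k) ht]
    have hfrac : Tendsto (fun k => (nn k : ℝ) / (nn k + 1)) atTop (𝓝 1) :=
      (tendsto_natCast_div_add_atTop (1 : ℝ)).comp h.lim_nn
    have := (((hfrac.mul ((h.oneP_lim le_rfl hP hb hA ht).pow 2)).mul (h.one_lim ht).2.2)).const_mul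
      (t ^ ((2 : ℝ) - 1 - q))
    convert this using 2
    rw [show t ^ (2 * m - 1 - q) = t ^ ((2 : ℝ) - 1 - q) * (t ^ (m - 1) * t ^ (m - 1)) by
      rw [← rpow_add ht, ← rpow_add ht]; ring_nf, neg_mul]
    simp only [c]
    ring

end

end Vale.Agent.P157.Casc.Rec
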