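import Vale.Agent.P157.Casc.LimitTree
import Vale.Agent.P157.Casc.LimitPairLim

/-!
Finite Pareto trees: tilted averages of one leaf and of two leaves with a given branching level.
-/

open MeasureTheory Set Filter Topology Real

namespace Vale.Agent.P157.Casc.Rec

variable {ζ : Type}

/-- Sum over ordered pairs of leaves that share exactly `l` ancestors, of products of weights. -/
noncomputable def treeP (n : ℕ) :
    (K : ℕ) → (Fin K → ℝ) → ((Fin K → ζ) → ℝ) → TreeSpace ζ n K → Fin (K + 1) → ℝ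
  | 0, _, Y, _, _ => Y ![] ^ 2
  | K + 1, m, Y, ω, l =>
    Fin.cases (offsum n (m 0) (fun c => treeZ n K (Fin.tail m) (fun z => Y (Fin.cons c.1 z)) c.2) ω)
      (fun i => osum n (m 0) 2
        (fun c => treeP n K (Fin.tail m) (fun z => Y (Fin.cons c.1 z)) c.2 i) ω) l

/-- Mean of `a` under the tilted laws of the recursion. -/
noncomputable def tmean [MeasurableSpace ζ] (γ : Measure ζ) :
    (K : ℕ) → (Fin K → ℝ) → ((Fin K → ζ) → ℝ) → ((Fin K → ζ) → ℝ) → ℝ
  | 0, _, _, a => a ![]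
  | K + 1, m, X, a =>
    (∫ c, rec' γ K (Fin.tail m) (fun z => X (Fin.cons c z)) ^ m 0 *
        tmean γ K (Fin.tail m) (fun z => X (Fin.cons c z)) (fun z => a (Fin.cons c z)) ∂γ) /
      ∫ c, rec' γ K (Fin.tail m) (fun z => X (Fin.cons c z)) ^ m 0 ∂γ

/-- Tilted squares of conditional means. -/
noncomputable def tsq [MeasurableSpace ζ] (γ : Measure ζ) :
    (K : ℕ) → (Fin K → ℝ) → ((Fin K → ζ) → ℝ) → ((Fin K → ζ) → ℝ) → Fin (K + 1) → ℝ
  | 0, _, _, a, _ => a ![] ^ 2
  | K + 1, m, X, a, l =>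
    Fin.cases (tmean γ (K + 1) m X a ^ 2)
      (fun i => (∫ c, rec' γ K (Fin.tail m) (fun z => X (Fin.cons c z)) ^ m 0 *
          tsq γ K (Fin.tail m) (fun z => X (Fin.cons c z)) (fun z => a (Fin.cons c z)) i ∂γ) /
        ∫ c, rec' γ K (Fin.tail m) (fun z => X (Fin.cons c z)) ^ m 0 ∂γ) l

/-- Probability of each branching level under a tilt of order `q`. -/
noncomputable def gapq : (K : ℕ) → (Fin K → ℝ) → ℝ → Fin (K + 1) → ℝ
  | 0, _, _, _ => 1
  | K + 1, m, q, l =>
    Fin.cases ((m 0 - q) / (1 - q))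
      (fun i => (1 - m 0) / (1 - q) * gapq K (Fin.tail m) (m 0) i) l

/-- The moment constant, defined also at order zero. -/
noncomputable def momq : (K : ℕ) → (Fin K → ℝ) → ℝ → ℝ
  | 0, _, _ => 1
  | K + 1, m, q => (jc (m 0) * mom K (Fin.tail m) (m 0)) ^ (q / m 0) *
      (Gamma (1 - q / m 0) / Gamma (1 - q))

theorem momq_eq : ∀ (K : ℕ) {m : Fin K → ℝ}, Expo m → ∀ {p : ℝ}, 0 < p → (∀ i, p < m i) →
    momq K m p = mom K m p
  | 0, _, _, _, _, _ => rfl
  | K + 1, m, hm, p, hp0, hp => by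
    obtain ⟨h0, h1⟩ := hm.2 0
    simp only [momq, mom]
    rw [jc_eq (div_pos hp0 h0) ((div_lt_one h0).2 (hp 0)), jc_eq hp0 ((hp 0).trans h1)]

theorem momq_zero (K : ℕ) (m : Fin K → ℝ) : momq K m 0 = 1 := by
  cases K with
  | zero => rfl
  | succ K => simp [momq, Gamma_one]

theorem gapq_eq : ∀ (K : ℕ) {m : Fin K → ℝ}, Expo m → ∀ {q : ℝ}, q < 1 → ∀ l : Fin (K + 1),
    gapq K m q l * (1 - q) = (if h : l.val < K then m ⟨l.val, h⟩ else 1) -
      (if h : 0 < l.val then m ⟨l.val - 1, by omega⟩ else q)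
  | 0, _, _, q, _, l => by simp [gapq]
  | K + 1, m, hm, q, hq, l => by
    obtain ⟨h0, h1⟩ := hm.2 0
    have hne : 1 - q ≠ 0 := by linarith
    refine Fin.cases ?_ (fun i => ?_) l
    · simp [gapq, div_mul_cancel₀ _ hne]
    · have ih := gapq_eq K hm.tail h1 i
      simp only [gapq, Fin.cases_succ, Fin.val_succ, Nat.add_lt_add_iff_right, Nat.succ_pos',
        Nat.add_sub_cancel, dite_true]
      rw [mul_right_comm, div_mul_cancel₀ _ hne, mul_comm, ih]
      congr 1
      by_cases h : 0 < i.val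
      · rw [dif_pos h]
        simp only [Fin.tail]
        congr 1
        ext
        simp only [Fin.succ_mk]
        omega
      · rw [dif_neg h]
        congr 1
        ext
        simp only [Fin.val_zero]
        omega

theorem abs_treeZ_le (n : ℕ) {B : ℝ} : ∀ (K : ℕ) (m : Fin K → ℝ) {X Y : (Fin K → ζ) → ℝ},
    (∀ z, |Y z| ≤ B * X z) → ∀ ω, |treeZ n K m Y ω| ≤ B * treeZ n K m X ω
  | 0, _, _, _, hY, _ => hY ![]
  | K + 1, m, X, Y, hY, ω => by
    simp only [treeZ, zsum, Finset.mul_sum]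
    refine (Finset.abs_sum_le_sum_abs _ _).trans (Finset.sum_le_sum fun i _ => ?_)
    rw [abs_mul, abs_of_pos (wgt_pos n _ _), mul_left_comm]
    exact mul_le_mul_of_nonneg_left (abs_treeZ_le n K _ (fun _ => hY _) _) (wgt_pos n _ _).le

theorem abs_treeP_le (n : ℕ) {B : ℝ} : ∀ (K : ℕ) (m : Fin K → ℝ) {X Y : (Fin K → ζ) → ℝ},
    (∀ z, 0 < X z) → (∀ z, |Y z| ≤ B * X z) → ∀ ω l,
      |treeP n K m Y ω l| ≤ 2 * B ^ 2 * treeZ n K m X ω ^ (2 : ℝ)
  | 0, _, X, Y, _, hY, _, _ => by
    have h := pow_le_pow_left₀ (abs_nonneg _) (hY ![]) 2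
    simp only [treeP, treeZ, rpow_two, abs_pow, sq_abs, mul_pow] at h ⊢
    nlinarith [sq_nonneg (Y ![]), sq_nonneg (B * X ![])]
  | K + 1, m, X, Y, hX, hY, ω, l => by
    refine Fin.cases ?_ (fun i => ?_) l
    · simp only [treeP, Fin.cases_zero, treeZ]
      refine abs_offsum_le n (fun c => ?_) (fun c => ?_) ω
      · exact treeZ_pos n K _ (fun _ => hX _) c.2
      · rw [rpow_one]
        exact abs_treeZ_le n K _ (fun _ => hY _) c.2
    · simp only [treeP, Fin.cases_succ, treeZ]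
      refine abs_osum_le n one_le_two (fun c => ?_) (fun c => ?_) ω
      · exact treeZ_pos n K _ (fun _ => hX _) c.2
      · exact abs_treeP_le n K _ (fun _ => hX _) (fun _ => hY _) c.2 i

variable [MeasurableSpace ζ] {γ : Measure ζ} [IsProbabilityMeasure γ]

theorem measurable_treeP_param (n : ℕ) : ∀ (K : ℕ) (m : Fin K → ℝ) {α : Type} [MeasurableSpace α]
    {Y : α → (Fin K → ζ) → ℝ}, Measurable (Function.uncurry Y) → ∀ l,
    Measurable fun p : α × TreeSpace ζ n K => treeP n K m (Y p.1) p.2 l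
  | 0, _, _, _, _, hY, _ =>
    (hY.comp (measurable_fst.prodMk measurable_const)).pow_const 2
  | K + 1, m, α, _, Y, hY, l => by
    have hY' : Measurable (Function.uncurry fun (q : α × ζ) (z : Fin K → ζ) =>
        Y q.1 (Fin.cons q.2 z)) :=
      hY.comp ((measurable_fst.comp measurable_fst).prodMk
        (measurable_cons.comp ((measurable_snd.comp measurable_fst).prodMk measurable_snd)))
    have hi : ∀ i, Measurable fun p : α × (Fin (n + 1) → ℝ × (ζ × TreeSpace ζ n K)) => p.2 i :=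
      fun i => (measurable_pi_apply i).comp measurable_snd
    have hsum : ∀ (j : ℝ) (f : (α × ζ) × TreeSpace ζ n K → ℝ), Measurable f →
        Measurable fun p : α × (Fin (n + 1) → ℝ × (ζ × TreeSpace ζ n K)) =>
          ∑ i, wgt n (m 0) (p.2 i).1 ^ j * f ((p.1, (p.2 i).2.1), (p.2 i).2.2) :=
      fun j f hf => Finset.measurable_sum _ fun i _ =>
        (((measurable_wgt n _).comp (measurable_fst.comp (hi i))).pow_const j).mul
          (hf.comp ((measurable_fst.prodMk (measurable_fst.comp (measurable_snd.comp (hi i)))).prodMk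
            (measurable_snd.comp (measurable_snd.comp (hi i)))))
    refine Fin.cases ?_ (fun i => ?_) l
    · have h := measurable_treeZ_param n K (Fin.tail m) hY'
      exact ((hsum 1 _ h).pow_const 2).sub (hsum 2 _ (h.pow_const 2))
    · exact hsum 2 _ (measurable_treeP_param n K (Fin.tail m) hY' i)

theorem measurable_treeP (n : ℕ) (K : ℕ) (m : Fin K → ℝ) {Y : (Fin K → ζ) → ℝ}
    (hY : Measurable Y) (l : Fin (K + 1)) : Measurable fun ω => treeP n K m Y ω l :=
  (measurable_treeP_param (α := Unit) n K m (Y := fun _ => Y) (hY.comp measurable_snd) l).comp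
    ((measurable_const (a := ())).prodMk measurable_id)

/-- The children of the root of a sequence of trees. -/
theorem Env.kid {K : ℕ} {m : Fin (K + 1) → ℝ} (hm : Expo m) {X : ℕ → (Fin (K + 1) → ζ) → ℝ}
    {Xl V : (Fin (K + 1) → ζ) → ℝ} (h : Env γ X Xl V) {nn : ℕ → ℕ}
    (hn : Tendsto nn atTop atTop) :
    Kid (m 0) (fun k => γ.prod (treeLaw γ (nn k) K))
      (fun k c => treeZ (nn k) K (Fin.tail m) (fun z => X k (Fin.cons c.1 z)) c.2) nn
      (mom K (Fin.tail m) (m 0) *
        ∫ c, rec' γ K (Fin.tail m) (fun z => Xl (Fin.cons c z)) ^ m 0 ∂γ) := by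
  obtain ⟨h0, h1⟩ := hm.2 0
  obtain ⟨q, hq0, hq1, hq⟩ := hm.exists_between
  obtain ⟨hA, hAl⟩ := child_seq hm.tail h h0 h1.le hm.lt_tail
    (h.child.mono fun c hc => seq_moments K hm.tail hc hn h0 h1.le hm.lt_tail)
  obtain ⟨hB, -⟩ := child_seq hm.tail h (h0.trans hq0) hq1 hq
    (h.child.mono fun c hc => seq_moments K hm.tail hc hn (h0.trans hq0) hq1 hq)
  obtain ⟨C, hC0, hC⟩ := tree_inv (γ := γ) (K + 1) hm
  have hI : 0 < ∫ c, rec' γ K (Fin.tail m) (fun z => Xl (Fin.cons c z)) ^ m 0 ∂γ := by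
    have hR := (rec_bounds (γ := γ) (K + 1) hm h.posl h.measl h.intl).1
    refine (integral_nonneg_of_ae ?_).lt_of_ne fun he => hR.ne' ?_
    · filter_upwards [h.child] with c hc
      exact rpow_nonneg (rec_bounds K hm.tail hc.posl hc.measl hc.intl).1.le _
    · simp only [rec', ← he, zero_rpow (inv_ne_zero h0.ne')]
  exact ⟨hn, h0, h1, fun k => measurable_child (nn k) _ (h.meas k),
    fun k c => treeZ_pos (nn k) K _ (fun _ => h.pos k _) c.2, fun k => (hA k).1, hAl,
    mul_pos (mom_pos K hm.tail h0 h1.le hm.lt_tail) hI, ⟨q, _, hq0, hq1, hB⟩,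
    ⟨C * ∫ z, V z ∂(Measure.pi fun _ => γ), fun k => ⟨(hC (h.pos k) (h.meas k) (h.inti k) (nn k)).1,
      (hC (h.pos k) (h.meas k) (h.inti k) (nn k)).2.trans (mul_le_mul_of_nonneg_left
        (integral_mono (h.inti k) h.intV (h.inv_le k)) hC0)⟩⟩⟩

/-- Passing from a child with a fixed mark to the random child. -/
theorem child_limit {K : ℕ} {m : Fin K → ℝ} (hm : Expo m) {X : ℕ → (Fin (K + 1) → ζ) → ℝ}
    {Xl V : (Fin (K + 1) → ζ) → ℝ} (h : Env γ X Xl V) {nn : ℕ → ℕ} {p j D : ℝ} (hp0 : 0 < p)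
    (hp1 : p ≤ 1) (hp : ∀ i, p < m i) (hD : 0 ≤ D)
    {F : ∀ k, ζ × TreeSpace ζ (nn k) K → ℝ} (hF : ∀ k, Measurable (F k))
    (hb : ∀ k c, |F k c| ≤ D * treeZ (nn k) K m (fun z => X k (Fin.cons c.1 z)) c.2 ^ j)
    {L : ζ → ℝ} (hL : ∀ᵐ c ∂γ, Tendsto (fun k => ∫ ω,
      treeZ (nn k) K m (fun z => X k (Fin.cons c z)) ω ^ (p - j) * F k (c, ω)
        ∂treeLaw γ (nn k) K) atTop (𝓝 (L c))) :
    Tendsto (fun k => ∫ c, treeZ (nn k) K m (fun z => X k (Fin.cons c.1 z)) c.2 ^ (p - j) * F k c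
      ∂γ.prod (treeLaw γ (nn k) K)) atTop (𝓝 (∫ c, L c ∂γ)) := by
  obtain ⟨-, hv2, -⟩ := slice h.intV
  have hB := momB_nonneg K hm hp0 hp1 hp
  set S : ∀ k, ζ × TreeSpace ζ (nn k) K → ℝ := fun k c =>
    treeZ (nn k) K m (fun z => X k (Fin.cons c.1 z)) c.2
  have hS0 : ∀ k c, 0 < S k c := fun k c => treeZ_pos (nn k) K m (fun _ => h.pos k _) c.2
  have hle : ∀ k c, ‖S k c ^ (p - j) * F k c‖ ≤ D * S k c ^ p := fun k c => by
    rw [Real.norm_eq_abs, abs_mul, abs_of_pos (rpow_pos_of_pos (hS0 k c) _)]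
    refine (mul_le_mul_of_nonneg_left (hb k c) (rpow_nonneg (hS0 k c).le _)).trans_eq ?_
    rw [mul_left_comm, ← rpow_add (hS0 k c), sub_add_cancel]
  have hbd : ∀ k, ∀ᵐ c ∂γ, Bounded γ (nn k) K m p (fun z => X k (Fin.cons c z)) ∧
      ‖∫ ω, S k (c, ω) ^ (p - j) * F k (c, ω) ∂treeLaw γ (nn k) K‖ ≤
        D * (momB K m p * (1 + ∫ z, V (Fin.cons c z) ∂(Measure.pi fun _ : Fin K => γ))) :=
    fun k => by
      filter_upwards [h.child] with c hc
      have hb' := tree_bound K hm (hc.pos k) (hc.meas k) (hc.int k) hp0 hp1 hp (nn k)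
      refine ⟨hb', (norm_integral_le_of_norm_le (hb'.1.const_mul D)
        (.of_forall fun ω => hle k (c, ω))).trans ?_⟩
      rw [integral_const_mul]
      exact mul_le_mul_of_nonneg_left
        (hb'.2.trans (mul_le_mul_of_nonneg_left (hc.rec_pow_le hm k hp0.le hp1) hB)) hD
  have hint : ∀ k, Integrable (fun c => S k c ^ (p - j) * F k c) (γ.prod (treeLaw γ (nn k) K)) :=
    fun k => ((child_bound hm (h.pos k) (h.meas k) (h.int k) hp0 hp1 (nn k)
      ((hbd k).mono fun c hc => hc.1)).1.const_mul D).mono'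
      (((measurable_child (nn k) m (h.meas k)).pow_const _).mul (hF k)).aestronglyMeasurable
      (.of_forall (hle k))
  refine Tendsto.congr (fun k => (integral_prod _ (hint k)).symm) ?_
  exact tendsto_integral_of_dominated_convergence _
    (fun k => (hint k).integral_prod_left.aestronglyMeasurable)
    ((((integrable_const (1 : ℝ)).add hv2).const_mul _).const_mul D)
    (fun k => (hbd k).mono fun c hc => hc.2) hL

omit [IsProbabilityMeasure γ] in
theorem nrm_tree {K : ℕ} {m : Fin (K + 1) → ℝ} (hm : Expo m) {Xl : (Fin (K + 1) → ζ) → ℝ}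
    (hI : 0 ≤ ∫ c, rec' γ K (Fin.tail m) (fun z => Xl (Fin.cons c z)) ^ m 0 ∂γ) (q : ℝ) :
    nrm (m 0) q (mom K (Fin.tail m) (m 0) *
        ∫ c, rec' γ K (Fin.tail m) (fun z => Xl (Fin.cons c z)) ^ m 0 ∂γ)
      = momq (K + 1) m q * rec' γ (K + 1) m Xl ^ q := by
  obtain ⟨h0, h1⟩ := hm.2 0
  simp only [nrm, momq, rec']
  rw [← rpow_mul hI, inv_mul_eq_div, ← mul_assoc, mul_rpow
    (mul_nonneg (jc_pos h0 h1).le (mom_pos K hm.tail h0 h1.le hm.lt_tail).le) hI]
  ring

/-- Limits of the tilted averages of one leaf and of a pair. -/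
theorem seq_pairs : ∀ (K : ℕ) {m : Fin K → ℝ}, Expo m → ∀ {X : ℕ → (Fin K → ζ) → ℝ}
    {Xl V : (Fin K → ζ) → ℝ}, Env γ X Xl V → ∀ {nn : ℕ → ℕ}, Tendsto nn atTop atTop →
    ∀ {a : ℕ → (Fin K → ζ) → ℝ} {al : (Fin K → ζ) → ℝ} {B : ℝ}, (∀ k, Measurable (a k)) →
    (∀ k z, |a k z| ≤ B) → (∀ z, Tendsto (fun k => a k z) atTop (𝓝 (al z))) →
    ∀ {q : ℝ}, 0 ≤ q → q < 1 → (∀ i, q < m i) →
    Tendsto (fun k => ∫ ω, treeZ (nn k) K m (fun z => X k z * a k z) ω *
        treeZ (nn k) K m (X k) ω ^ (q - 1) ∂treeLaw γ (nn k) K) atTop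
      (𝓝 (momq K m q * rec' γ K m Xl ^ q * tmean γ K m Xl al)) ∧
    ∀ l, Tendsto (fun k => ∫ ω, treeP (nn k) K m (fun z => X k z * a k z) ω l *
        treeZ (nn k) K m (X k) ω ^ (q - 2) ∂treeLaw γ (nn k) K) atTop
      (𝓝 (momq K m q * rec' γ K m Xl ^ q * (gapq K m q l * tsq γ K m Xl al l))) := by
  intro K
  induction K with
  | zero =>
    intro m _ X Xl V h nn _ a al B _ _ hac q hq0 _ _
    have hx := (h.conv ![]).rpow_const (p := q) (.inr hq0)
    have e1 : ∀ k, X k ![] * a k ![] * X k ![] ^ (q - 1) = X k ![] ^ q * a k ![] := fun k => by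
      rw [rpow_sub_one (h.pos k _).ne']
      have := (h.pos k ![]).ne'
      field_simp
    have e2 : ∀ k, (X k ![] * a k ![]) ^ 2 * X k ![] ^ (q - 2) = X k ![] ^ q * a k ![] ^ 2 :=
      fun k => by
        rw [rpow_sub (h.pos k _), rpow_two]
        have := (h.pos k ![]).ne'
        field_simp
    refine ⟨?_, fun l => ?_⟩
    · simpa [treeZ, momq, rec', tmean, e1] using hx.mul (hac ![])
    · simpa [treeZ, treeP, momq, rec', gapq, tsq, e2] using hx.mul ((hac ![]).pow 2)
  | succ K ih =>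
    intro m hm X Xl V h nn hn a al B ham haB hac q hq0 hq1 hq
    obtain ⟨h0, h1⟩ := hm.2 0
    have hB : 0 ≤ B := (abs_nonneg _).trans (haB 0 fun _ => Classical.choice
      (nonempty_of_isProbabilityMeasure γ))
    set S : ∀ k, ζ × TreeSpace ζ (nn k) K → ℝ := fun k c =>
      treeZ (nn k) K (Fin.tail m) (fun z => X k (Fin.cons c.1 z)) c.2
    set N : ∀ k, ζ × TreeSpace ζ (nn k) K → ℝ := fun k c =>
      treeZ (nn k) K (Fin.tail m) (fun z => X k (Fin.cons c.1 z) * a k (Fin.cons c.1 z)) c.2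
    set Pr : Fin (K + 1) → ∀ k, ζ × TreeSpace ζ (nn k) K → ℝ := fun i k c =>
      treeP (nn k) K (Fin.tail m) (fun z => X k (Fin.cons c.1 z) * a k (Fin.cons c.1 z)) c.2 i
    have hY : ∀ k, Measurable fun z => X k z * a k z := fun k => (h.meas k).mul (ham k)
    have habs : ∀ k z, |X k z * a k z| ≤ B * X k z := fun k z => by
      rw [abs_mul, abs_of_pos (h.pos k z), mul_comm B]
      exact mul_le_mul_of_nonneg_left (haB k z) (h.pos k z).le
    have hN : ∀ k, Measurable (N k) := fun k => measurable_child (nn k) _ (hY k)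
    have hNb : ∀ k c, |N k c| ≤ B * S k c ^ (1 : ℝ) := fun k c => by
      rw [rpow_one]
      exact abs_treeZ_le (nn k) K _ (fun _ => habs k _) c.2
    have hPr : ∀ i k, Measurable (Pr i k) := fun i k =>
      measurable_treeP_param (α := ζ) (nn k) K (Fin.tail m)
        (Y := fun c z => X k (Fin.cons c z) * a k (Fin.cons c z)) ((hY k).comp measurable_cons) i
    have hPb : ∀ i k c, |Pr i k c| ≤ 2 * B ^ 2 * S k c ^ (2 : ℝ) := fun i k c =>
      abs_treeP_le (nn k) K _ (fun _ => h.pos k _) (fun _ => habs k _) c.2 i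
    set R := fun c => rec' γ K (Fin.tail m) fun z => Xl (Fin.cons c z)
    set I := ∫ c, R c ^ m 0 ∂γ
    set μ₀ := mom K (Fin.tail m) (m 0)
    have hkid := h.kid hm hn
    have hM : μ₀ ≠ 0 := (mom_pos K hm.tail h0 h1.le hm.lt_tail).ne'
    have hI : 0 ≤ I := by
      refine integral_nonneg_of_ae ?_
      filter_upwards [h.child] with c hc
      exact rpow_nonneg (rec_bounds K hm.tail hc.posl hc.measl hc.intl).1.le _
    have hih : ∀ᵐ c ∂γ, _ := h.child.mono fun c hc =>
      ih hm.tail hc hn (a := fun k z => a k (Fin.cons c z)) (al := fun z => al (Fin.cons c z))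
        (fun k => (ham k).comp (measurable_cons.comp measurable_prodMk_left)) (fun k z => haB k _)
        (fun z => hac _) h0.le h1 hm.lt_tail
    have hA1 : Tendsto (fun k => ∫ c, S k c ^ (m 0 - 1) * N k c ∂γ.prod (treeLaw γ (nn k) K)) atTop
        (𝓝 (∫ c, μ₀ * (R c ^ m 0 *
          tmean γ K (Fin.tail m) (fun z => Xl (Fin.cons c z)) (fun z => al (Fin.cons c z))) ∂γ)) := by
      refine child_limit hm.tail h h0 h1.le hm.lt_tail hB hN hNb ?_
      filter_upwards [hih] with c hc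
      have := hc.1
      rw [momq_eq K hm.tail h0 hm.lt_tail] at this
      convert this using 1
      · simp only [N, mul_comm]
      · rw [mul_assoc]
    have hA2 : ∀ i, Tendsto (fun k => ∫ c, S k c ^ (m 0 - 2) * Pr i k c
        ∂γ.prod (treeLaw γ (nn k) K)) atTop (𝓝 (∫ c, μ₀ * gapq K (Fin.tail m) (m 0) i * (R c ^ m 0 *
          tsq γ K (Fin.tail m) (fun z => Xl (Fin.cons c z)) (fun z => al (Fin.cons c z)) i) ∂γ)) :=
      fun i => by
        refine child_limit hm.tail h h0 h1.le hm.lt_tail (by positivity) (hPr i) (hPb i) ?_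
        filter_upwards [hih] with c hc
        have := hc.2 i
        rw [momq_eq K hm.tail h0 hm.lt_tail] at this
        convert this using 1
        · simp only [Pr, mul_comm]
        · congr 1; ring
    have hnrm := nrm_tree hm hI q
    refine ⟨?_, fun l => Fin.cases ?_ (fun i => ?_) l⟩
    · have := hkid.tendsto_single le_rfl hq0 (hq 0) hN hNb hA1
      rw [hnrm, integral_const_mul, mul_div_mul_left _ _ hM, ← jc_eq h0 h1,
        div_self (jc_pos h0 h1).ne', div_self (Gamma_pos_of_pos (by linarith : 0 < 1 - q)).ne',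
        mul_one, mul_one] at this
      convert this using 1
      · funext k
        refine integral_congr_ae (.of_forall fun ω => ?_)
        simp only [treeZ, osum, zsum, rpow_one, N]
      · rfl
    · have := hkid.tendsto_offsum hq0 (hq 0) hN hNb hA1
      rw [hnrm, integral_const_mul, mul_div_mul_left _ _ hM] at this
      convert this using 1
      · funext k
        rfl
      · simp only [gapq, tsq, tmean, Fin.cases_zero, R]
        congr 1
        ring
    · have := hkid.tendsto_single one_le_two hq0 (hq 0) (hPr i) (hPb i) (hA2 i)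
      have hg : Gamma (2 - m 0) / jc (m 0) = 1 - m 0 := by
        rw [jc_eq h0 h1, show (2 : ℝ) - m 0 = (1 - m 0) + 1 by ring,
          Gamma_add_one (by linarith), mul_div_cancel_right₀ _ (Gamma_pos_of_pos (by linarith)).ne']
      have hg' : Gamma (1 - q) / Gamma (2 - q) = (1 - q)⁻¹ := by
        rw [show (2 : ℝ) - q = (1 - q) + 1 by ring, Gamma_add_one (by linarith),
          div_mul_cancel_right₀ (Gamma_pos_of_pos (by linarith)).ne']
      rw [hnrm, hg, hg', integral_const_mul, mul_assoc μ₀, mul_div_mul_left _ _ hM] at this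
      convert this using 1
      · funext k
        rfl
      · simp only [gapq, tsq, Fin.cases_succ, R]
        congr 1
        ring

end Vale.Agent.P157.Casc.Rec
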