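import Vale.Agent.P157.Casc.LimitDefs
import Vale.Agent.P157.Casc.LimitPairTree

/-!
The recursions for the exponential means and the tilted conditional means: measurability, the
multiplicative form, monotonicity in the level, products and changes of variables.
-/

open MeasureTheory ProbabilityTheory Filter Topology Real

namespace Vale.Agent.P157.Casc

theorem Grid.expo {K : ℕ} {m : Fin K → ℝ} (h : Grid m) : Rec.Expo m :=
  ⟨h.mono, fun i => ⟨h.pos i, h.lt_one i⟩⟩

section
variable {X : Type} [MeasurableSpace X] {ν : Measure X}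

/-- Uncurrying a child. -/
theorem measurable_cons_param {K : ℕ} {α : Type} [MeasurableSpace α]
    {H : α → (Fin (K + 1) → X) → ℝ} (hH : Measurable (Function.uncurry H)) :
    Measurable (Function.uncurry fun (q : α × X) (y : Fin K → X) => H q.1 (Fin.cons q.2 y)) :=
  hH.comp ((measurable_fst.comp measurable_fst).prodMk
    (Rec.measurable_cons.comp ((measurable_snd.comp measurable_fst).prodMk measurable_snd)))

variable [SFinite ν]

theorem measurable_casc_param : ∀ (K : ℕ) (m : Fin K → ℝ) {α : Type} [MeasurableSpace α]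
    {H : α → (Fin K → X) → ℝ}, Measurable (Function.uncurry H) →
    Measurable fun a => casc ν K m (H a)
  | 0, _, _, _, _, hH => hH.comp (measurable_id.prodMk measurable_const)
  | K + 1, m, α, _, H, hH => by
    have ih := measurable_exp.comp
      ((measurable_casc_param K (fun l => m l.succ) (measurable_cons_param hH)).const_mul (m 0))
    exact (measurable_log.comp (StronglyMeasurable.integral_prod_right' (ν := ν)
      ih.stronglyMeasurable).measurable).const_mul _

theorem measurable_weight_param (K : ℕ) (m : Fin (K + 1) → ℝ) {α : Type} [MeasurableSpace α]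
    {H : α → (Fin (K + 1) → X) → ℝ} (hH : Measurable (Function.uncurry H)) :
    Measurable fun q : α × X =>
      Real.exp (m 0 * casc ν K (fun l => m l.succ) fun y => H q.1 (Fin.cons q.2 y)) :=
  measurable_exp.comp
    ((measurable_casc_param K (fun l => m l.succ) (measurable_cons_param hH)).const_mul (m 0))

theorem measurable_cmean_param : ∀ (K : ℕ) (m : Fin K → ℝ) {α : Type} [MeasurableSpace α]
    {H a : α → (Fin K → X) → ℝ}, Measurable (Function.uncurry H) → Measurable (Function.uncurry a) →
    Measurable fun z => cmean ν K m (H z) (a z)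
  | 0, _, _, _, _, _, _, ha => ha.comp (measurable_id.prodMk measurable_const)
  | K + 1, m, α, _, H, a, hH, ha => by
    have hw := measurable_weight_param (ν := ν) K m hH
    have ih := measurable_cmean_param K (fun l => m l.succ) (measurable_cons_param hH)
      (measurable_cons_param ha)
    exact (StronglyMeasurable.integral_prod_right' (ν := ν) (hw.mul ih).stronglyMeasurable).measurable
      |>.div (StronglyMeasurable.integral_prod_right' (ν := ν) hw.stronglyMeasurable).measurable

theorem measurable_csq_param : ∀ (K : ℕ) (m : Fin K → ℝ) {α : Type} [MeasurableSpace α]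
    {H a : α → (Fin K → X) → ℝ}, Measurable (Function.uncurry H) → Measurable (Function.uncurry a) →
    ∀ l, Measurable fun z => csq ν K m (H z) (a z) l
  | 0, _, _, _, _, _, _, ha, _ => (ha.comp (measurable_id.prodMk measurable_const)).pow_const 2
  | K + 1, m, α, _, H, a, hH, ha, l => by
    have hw := measurable_weight_param (ν := ν) K m hH
    refine Fin.cases ?_ (fun i => ?_) l
    · exact (measurable_cmean_param (K + 1) m hH ha).pow_const 2
    · have ih := measurable_csq_param K (fun l => m l.succ) (measurable_cons_param hH)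
        (measurable_cons_param ha) i
      exact (StronglyMeasurable.integral_prod_right' (ν := ν)
        (hw.mul ih).stronglyMeasurable).measurable.div
          (StronglyMeasurable.integral_prod_right' (ν := ν) hw.stronglyMeasurable).measurable

end

section
variable {X : Type} [MeasurableSpace X] {ν : Measure X} [IsProbabilityMeasure ν]

theorem measurable_consFix {K : ℕ} {H : (Fin (K + 1) → X) → ℝ} (hH : Measurable H) (c : X) :
    Measurable fun y : Fin K → X => H (Fin.cons c y) :=
  hH.comp (Rec.measurable_cons.comp measurable_prodMk_left)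

/-- The exponential mean is the logarithm of the multiplicative recursion. -/
theorem casc_eq_log_rec : ∀ (K : ℕ) {m : Fin K → ℝ}, Grid m → ∀ {H : (Fin K → X) → ℝ},
    Measurable H → Integrable (fun y => Real.exp (H y)) (Measure.pi fun _ => ν) →
    casc ν K m H = Real.log (Rec.rec' ν K m fun y => Real.exp (H y))
  | 0, _, _, H, _, _ => by
    simp only [casc, Rec.rec', log_exp]
    exact congrArg H (Subsingleton.elim _ _)
  | K + 1, m, hm, H, hH, hi => by
    have hw : ∀ᵐ c ∂ν, Real.exp (m 0 * casc ν K (fun l => m l.succ) fun y => H (Fin.cons c y))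
        = Rec.rec' ν K (Fin.tail m) (fun y => Real.exp (H (Fin.cons c y))) ^ m 0 := by
      filter_upwards [(Rec.slice hi).1] with c hc
      rw [casc_eq_log_rec K hm.tail (measurable_consFix hH c) hc]
      refine ((rpow_def_of_pos ?_ _).trans ?_).symm
      · exact (Rec.rec_bounds K hm.tail.expo (fun _ => exp_pos _)
          (measurable_exp.comp (measurable_consFix hH c)) hc).1
      · exact congrArg Real.exp (mul_comm _ _)
    have hR := (Rec.rec_bounds (γ := ν) (K + 1) hm.expo (fun _ => exp_pos _)
      (measurable_exp.comp hH) hi).1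
    simp only [casc]
    rw [integral_congr_ae hw]
    simp only [Rec.rec', Rec.rec'] at hR ⊢
    rw [log_rpow]
    refine (lt_of_le_of_ne ?_ fun h => hR.ne' ?_)
    · exact integral_nonneg_of_ae (hw.mono fun c hc => (exp_pos _).le.trans_eq hc)
    · rw [← h, zero_rpow (inv_ne_zero (hm.pos 0).ne')]

theorem weight_eq_ae {K : ℕ} {m : Fin (K + 1) → ℝ} (hm : Grid m) {H : (Fin (K + 1) → X) → ℝ}
    (hH : Measurable H) (hi : Integrable (fun y => Real.exp (H y)) (Measure.pi fun _ => ν)) :
    ∀ᵐ c ∂ν, Real.exp (m 0 * casc ν K (fun l => m l.succ) fun y => H (Fin.cons c y))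
        = Rec.rec' ν K (Fin.tail m) (fun y => Real.exp (H (Fin.cons c y))) ^ m 0 := by
  filter_upwards [(Rec.slice hi).1] with c hc
  rw [casc_eq_log_rec K hm.tail (measurable_consFix hH c) hc]
  refine ((rpow_def_of_pos ?_ _).trans ?_).symm
  · exact (Rec.rec_bounds K hm.tail.expo (fun _ => exp_pos _)
      (measurable_exp.comp (measurable_consFix hH c)) hc).1
  · exact congrArg Real.exp (mul_comm _ _)

/-- The weights of the recursion are integrable with a positive integral. -/
theorem weight_integrable {K : ℕ} {m : Fin (K + 1) → ℝ} (hm : Grid m)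
    {H : (Fin (K + 1) → X) → ℝ} (hH : Measurable H)
    (hi : Integrable (fun y => Real.exp (H y)) (Measure.pi fun _ => ν)) :
    Integrable (fun c => Real.exp (m 0 * casc ν K (fun l => m l.succ) fun y => H (Fin.cons c y))) ν ∧
      0 < ∫ c, Real.exp (m 0 * casc ν K (fun l => m l.succ) fun y => H (Fin.cons c y)) ∂ν := by
  obtain ⟨hs1, hs2, -⟩ := Rec.slice hi
  have hw := weight_eq_ae hm hH hi
  have hmw : Measurable fun c =>
      Real.exp (m 0 * casc ν K (fun l => m l.succ) fun y => H (Fin.cons c y)) :=
    measurable_exp.comp ((measurable_casc_param (α := X) K (fun l => m l.succ)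
      (H := fun c y => H (Fin.cons c y)) (hH.comp Rec.measurable_cons)).const_mul (m 0))
  have hint : Integrable (fun c =>
      Real.exp (m 0 * casc ν K (fun l => m l.succ) fun y => H (Fin.cons c y))) ν := by
    refine ((integrable_const (1 : ℝ)).add hs2).mono' hmw.aestronglyMeasurable ?_
    filter_upwards [hw, hs1] with c hc hc1
    obtain ⟨h1, h2⟩ := Rec.rec_bounds (γ := ν) K hm.tail.expo (fun _ => exp_pos _)
      (measurable_exp.comp (measurable_consFix hH c)) hc1
    rw [Real.norm_of_nonneg (exp_pos _).le, hc, Pi.add_apply]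
    have h3 := Rec.rpow_le_tangent h1.le one_pos (hm.pos 0).le (hm.lt_one 0).le
    rw [one_rpow, one_mul, div_one] at h3
    exact h3.trans (add_comm (_ : ℝ) _ ▸ add_le_add (by linarith [hm.pos 0])
      ((mul_le_of_le_one_left h1.le (hm.lt_one 0).le).trans h2))
  exact ⟨hint, Rec.integral_pos_of_pos (.of_forall fun c => exp_pos _) hint⟩

/-- The tilted mean is the mean of the multiplicative recursion. -/
theorem cmean_eq_tmean : ∀ (K : ℕ) {m : Fin K → ℝ}, Grid m → ∀ {H a : (Fin K → X) → ℝ},
    Measurable H → Integrable (fun y => Real.exp (H y)) (Measure.pi fun _ => ν) →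
    cmean ν K m H a = Rec.tmean ν K m (fun y => Real.exp (H y)) a
  | 0, _, _, H, a, _, _ => by
    simp only [cmean, Rec.tmean]
    exact congrArg a (Subsingleton.elim _ _)
  | K + 1, m, hm, H, a, hH, hi => by
    have hw := weight_eq_ae hm hH hi
    simp only [cmean, Rec.tmean]
    congr 1
    · refine integral_congr_ae ?_
      filter_upwards [hw, (Rec.slice hi).1] with c hc hc1
      rw [hc, cmean_eq_tmean K hm.tail (measurable_consFix hH c) hc1]
      rfl
    · exact integral_congr_ae hw

theorem csq_eq_tsq : ∀ (K : ℕ) {m : Fin K → ℝ}, Grid m → ∀ {H a : (Fin K → X) → ℝ},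
    Measurable H → Integrable (fun y => Real.exp (H y)) (Measure.pi fun _ => ν) →
    ∀ l, csq ν K m H a l = Rec.tsq ν K m (fun y => Real.exp (H y)) a l
  | 0, _, _, H, a, _, _, _ => by
    simp only [csq, Rec.tsq]
    exact congrArg (fun y => a y ^ 2) (Subsingleton.elim _ _)
  | K + 1, m, hm, H, a, hH, hi, l => by
    have hw := weight_eq_ae hm hH hi
    refine Fin.cases ?_ (fun i => ?_) l
    · simp only [csq, Rec.tsq, Fin.cases_zero]
      rw [cmean_eq_tmean (K + 1) hm hH hi]
    · simp only [csq, Rec.tsq, Fin.cases_succ]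
      congr 1
      · refine integral_congr_ae ?_
        filter_upwards [hw, (Rec.slice hi).1] with c hc hc1
        rw [hc, csq_eq_tsq K hm.tail (measurable_consFix hH c) hc1 i]
        rfl
      · exact integral_congr_ae hw

omit [IsProbabilityMeasure ν] in
theorem integrable_exp_of_abs {K : ℕ} {H : (Fin K → X) → ℝ} (hH : Measurable H)
    (hexp : ∀ t : ℝ, Integrable (fun y => Real.exp (t * |H y|)) (Measure.pi fun _ : Fin K => ν)) :
    Integrable (fun y => Real.exp (H y)) (Measure.pi fun _ : Fin K => ν) :=
  (hexp 1).mono' (measurable_exp.comp hH).aestronglyMeasurable (.of_forall fun y => by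
    rw [Real.norm_of_nonneg (exp_pos _).le, one_mul]
    exact exp_le_exp.2 (le_abs_self _))

omit [IsProbabilityMeasure ν] in
/-- Averages against nonnegative weights. -/
theorem tilt_bound {w f : X → ℝ} (hw : Integrable w ν) (h0 : ∀ x, 0 ≤ w x) (hI : 0 < ∫ x, w x ∂ν)
    (hf : Measurable f) {B : ℝ} (hB : ∀ᵐ x ∂ν, |f x| ≤ B) :
    Integrable (fun x => w x * f x) ν ∧ |(∫ x, w x * f x ∂ν) / ∫ x, w x ∂ν| ≤ B := by
  have h : ∀ᵐ x ∂ν, ‖w x * f x‖ ≤ B * w x := hB.mono fun x hx => by
    rw [Real.norm_eq_abs, abs_mul, abs_of_nonneg (h0 x), mul_comm B]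
    exact mul_le_mul_of_nonneg_left hx (h0 x)
  refine ⟨(hw.const_mul B).mono' (hw.aestronglyMeasurable.mul hf.aestronglyMeasurable) h, ?_⟩
  rw [abs_div, abs_of_pos hI, div_le_iff₀ hI, ← integral_const_mul]
  exact norm_integral_le_of_norm_le (hw.const_mul B) h

omit [IsProbabilityMeasure ν] in
theorem tilt_sq {w f : X → ℝ} (hw : Integrable w ν) (h0 : ∀ x, 0 ≤ w x) (hI : 0 < ∫ x, w x ∂ν)
    (hf : Measurable f) {B : ℝ} (hB : ∀ᵐ x ∂ν, |f x| ≤ B) :
    ((∫ x, w x * f x ∂ν) / ∫ x, w x ∂ν) ^ 2 ≤ (∫ x, w x * f x ^ 2 ∂ν) / ∫ x, w x ∂ν := by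
  set μ := (∫ x, w x * f x ∂ν) / ∫ x, w x ∂ν
  have h1 := (tilt_bound hw h0 hI hf hB).1
  have h2 := (tilt_bound hw h0 hI (hf.pow_const 2) (hB.mono fun x hx => by
    rw [abs_pow]; exact pow_le_pow_left₀ (abs_nonneg _) hx 2)).1
  have h : 0 ≤ ∫ x, w x * (f x - μ) ^ 2 ∂ν :=
    integral_nonneg fun x => mul_nonneg (h0 x) (sq_nonneg _)
  have he : (fun x => w x * (f x - μ) ^ 2)
      = fun x => w x * f x ^ 2 - 2 * μ * (w x * f x) + μ ^ 2 * w x := by
    funext x; ring
  have hμ : ∫ x, w x * f x ∂ν = μ * ∫ x, w x ∂ν := by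
    simp only [μ, div_mul_cancel₀ _ hI.ne']
  have hs : Integrable (fun x => w x * f x ^ 2 - 2 * μ * (w x * f x)) ν := h2.sub (h1.const_mul _)
  rw [he, integral_add hs (hw.const_mul _),
    integral_sub h2 (h1.const_mul _), integral_const_mul, integral_const_mul, hμ] at h
  rw [le_div_iff₀ hI]
  linarith

theorem cmean_bound : ∀ (K : ℕ) {m : Fin K → ℝ}, Grid m → ∀ {H a : (Fin K → X) → ℝ},
    Measurable H → Measurable a → Integrable (fun y => Real.exp (H y)) (Measure.pi fun _ => ν) →
    ∀ {B : ℝ}, (∀ y, |a y| ≤ B) → |cmean ν K m H a| ≤ B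
  | 0, _, _, _, _, _, _, _, _, hB => hB _
  | K + 1, m, hm, H, a, hH, ha, hi, B, hB => by
    obtain ⟨hw, hpos⟩ := weight_integrable hm hH hi
    exact (tilt_bound hw (fun c => (exp_pos _).le) hpos
      (measurable_cmean_param (α := X) K (fun l => m l.succ) (H := fun c y => H (Fin.cons c y))
        (a := fun c y => a (Fin.cons c y)) (hH.comp Rec.measurable_cons)
        (ha.comp Rec.measurable_cons))
      ((Rec.slice hi).1.mono fun c hc => cmean_bound K hm.tail (measurable_consFix hH c)
        (measurable_consFix ha c) hc fun _ => hB _)).2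

omit [IsProbabilityMeasure ν] in
theorem csq_zero (K : ℕ) (m : Fin K → ℝ) (H a : (Fin K → X) → ℝ) :
    csq ν K m H a 0 = cmean ν K m H a ^ 2 := by
  cases K <;> simp [csq, cmean]

theorem csq_bound_mono : ∀ (K : ℕ) {m : Fin K → ℝ}, Grid m → ∀ {H a : (Fin K → X) → ℝ},
    Measurable H → Measurable a → Integrable (fun y => Real.exp (H y)) (Measure.pi fun _ => ν) →
    ∀ {B : ℝ}, (∀ y, |a y| ≤ B) →
    (∀ l, |csq ν K m H a l| ≤ B ^ 2) ∧ Monotone (csq ν K m H a)
  | 0, _, _, H, a, _, _, _, B, hB => by
    refine ⟨fun l => ?_, fun i j _ => le_of_eq (by rw [show i = j from Fin.ext (by omega)])⟩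
    simp only [csq]
    rw [abs_pow]
    exact pow_le_pow_left₀ (abs_nonneg _) (hB _) 2
  | K + 1, m, hm, H, a, hH, ha, hi, B, hB => by
    obtain ⟨hw, hpos⟩ := weight_integrable hm hH hi
    have hh := hH.comp Rec.measurable_cons
    have hha := ha.comp Rec.measurable_cons
    have hms : ∀ i, Measurable fun c => csq ν K (fun l => m l.succ)
        (fun y => H (Fin.cons c y)) (fun y => a (Fin.cons c y)) i :=
      fun i => measurable_csq_param (α := X) K (fun l => m l.succ)
        (H := fun c y => H (Fin.cons c y)) (a := fun c y => a (Fin.cons c y)) hh hha i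
    have hrec : ∀ᵐ c ∂ν, _ := (Rec.slice hi).1.mono fun c hc =>
      csq_bound_mono K hm.tail (measurable_consFix hH c) (measurable_consFix ha c) hc
        (B := B) fun _ => hB _
    have hsucc : ∀ i, Integrable (fun c =>
          Real.exp (m 0 * casc ν K (fun l => m l.succ) fun y => H (Fin.cons c y)) *
            csq ν K (fun l => m l.succ) (fun y => H (Fin.cons c y)) (fun y => a (Fin.cons c y)) i) ν
        ∧ |csq ν (K + 1) m H a i.succ| ≤ B ^ 2 := fun i => by
      simp only [csq, Fin.cases_succ]
      exact tilt_bound hw (fun c => (exp_pos _).le) hpos (hms i) (hrec.mono fun c hc => hc.1 i)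
    refine ⟨fun l => ?_, Fin.monotone_iff_le_succ.2 fun l => ?_⟩
    · refine Fin.cases ?_ (fun i => (hsucc i).2) l
      rw [csq_zero, abs_pow]
      exact pow_le_pow_left₀ (abs_nonneg _) (cmean_bound (K + 1) hm hH ha hi hB) 2
    · refine Fin.cases ?_ (fun i => ?_) l
      · simp only [Fin.castSucc_zero, csq, Fin.cases_zero, Fin.cases_succ, cmean]
        refine (tilt_sq hw (fun c => (exp_pos _).le) hpos
          (measurable_cmean_param (α := X) K (fun l => m l.succ)
            (H := fun c y => H (Fin.cons c y)) (a := fun c y => a (Fin.cons c y)) hh hha)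
          ((Rec.slice hi).1.mono fun c hc => cmean_bound K hm.tail (measurable_consFix hH c)
            (measurable_consFix ha c) hc fun _ => hB _)).trans_eq ?_
        congr 2
        funext c
        rw [← csq_zero]
      · rw [Fin.castSucc_succ]
        simp only [csq, Fin.cases_succ]
        refine div_le_div_of_nonneg_right (integral_mono_ae (hsucc _).1 (hsucc _).1 ?_) hpos.le
        filter_upwards [hrec] with c hc
        exact mul_le_mul_of_nonneg_left (hc.2 (Fin.castSucc_le_succ i)) (exp_pos _).le

/-- Conditional means of bounded leaf functions: nonnegative and monotone in the level. -/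
theorem csq_mono {K : ℕ} {m : Fin K → ℝ} (hm : Grid m) {H a : (Fin K → X) → ℝ}
    (hH : Measurable H) (ha : Measurable a) {B : ℝ} (hB : ∀ y, |a y| ≤ B)
    (hexp : ∀ t : ℝ, Integrable (fun y => Real.exp (t * |H y|)) (Measure.pi fun _ : Fin K => ν)) :
    Monotone (csq ν K m H a) ∧ 0 ≤ csq ν K m H a 0 ∧ csq ν K m H a (Fin.last K) ≤ B ^ 2 := by
  obtain ⟨h1, h2⟩ := csq_bound_mono K hm hH ha (integrable_exp_of_abs hH hexp) hB
  refine ⟨h2, ?_, (le_abs_self _).trans (h1 _)⟩
  rw [csq_zero]
  positivity

end

/-- Constants have the constant as conditional mean. -/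
theorem csq_const {X : Type} [MeasurableSpace X] {ν : Measure X} [IsProbabilityMeasure ν] (c : ℝ) :
    ∀ (K : ℕ) {m : Fin K → ℝ}, Grid m → ∀ {H : (Fin K → X) → ℝ}, Measurable H →
      Integrable (fun y => Real.exp (H y)) (Measure.pi fun _ => ν) →
      cmean ν K m H (fun _ => c) = c ∧ ∀ l, csq ν K m H (fun _ => c) l = c ^ 2
  | 0, _, _, _, _, _ => ⟨rfl, fun _ => rfl⟩
  | K + 1, m, hm, H, hH, hi => by
    obtain ⟨hw, hpos⟩ := weight_integrable hm hH hi
    have hrec : ∀ᵐ x ∂ν, _ := (Rec.slice hi).1.mono fun x hx =>
      csq_const c K hm.tail (measurable_consFix hH x) hx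
    have h1 : cmean ν (K + 1) m H (fun _ => c) = c := by
      simp only [cmean]
      rw [integral_congr_ae (hrec.mono fun x hx => by rw [hx.1]), integral_mul_const,
        mul_div_cancel_left₀ _ hpos.ne']
    refine ⟨h1, fun l => Fin.cases ?_ (fun i => ?_) l⟩
    · rw [csq_zero, h1]
    · simp only [csq, Fin.cases_succ]
      rw [integral_congr_ae (hrec.mono fun x hx => by rw [hx.2 i]), integral_mul_const,
        mul_div_cancel_left₀ _ hpos.ne']

/-- Independent components split, for product observables. -/
theorem casc_prod_mul {X X' : Type} [MeasurableSpace X] [MeasurableSpace X'] {ν : Measure X}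
    [IsProbabilityMeasure ν] {ν' : Measure X'} [IsProbabilityMeasure ν'] : ∀ (K : ℕ)
    {m : Fin K → ℝ}, Grid m → ∀ {H a : (Fin K → X) → ℝ} {H' a' : (Fin K → X') → ℝ},
    Measurable H → Measurable H' →
    Integrable (fun y => Real.exp (H y)) (Measure.pi fun _ : Fin K => ν) →
    Integrable (fun y => Real.exp (H' y)) (Measure.pi fun _ : Fin K => ν') →
    casc (ν.prod ν') K m (fun y => H (fun l => (y l).1) + H' (fun l => (y l).2))
        = casc ν K m H + casc ν' K m H' ∧
      cmean (ν.prod ν') K m (fun y => H (fun l => (y l).1) + H' (fun l => (y l).2))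
          (fun y => a (fun l => (y l).1) * a' (fun l => (y l).2))
        = cmean ν K m H a * cmean ν' K m H' a' ∧
      ∀ l, csq (ν.prod ν') K m (fun y => H (fun l => (y l).1) + H' (fun l => (y l).2))
          (fun y => a (fun l => (y l).1) * a' (fun l => (y l).2)) l
        = csq ν K m H a l * csq ν' K m H' a' l
  | 0, _, _, H, a, H', a', _, _, _, _ => by
    have e : ∀ (Y : Type) (f : Fin 0 → Y), f = Fin.elim0 := fun Y f => Subsingleton.elim _ _
    simp only [casc, cmean, csq, e X, e X', true_and]
    exact fun _ => mul_pow _ _ 2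
  | K + 1, m, hm, H, a, H', a', hH, hH', hi, hi' => by
    have h1 : ∀ (x : X × X') (y : Fin K → X × X'),
        (fun l => (Fin.cons (α := fun _ => X × X') x y l).1)
          = (Fin.cons x.1 fun l => (y l).1 : Fin (K + 1) → X) :=
      fun x y => funext fun l => Fin.cases rfl (fun i => rfl) l
    have h2 : ∀ (x : X × X') (y : Fin K → X × X'),
        (fun l => (Fin.cons (α := fun _ => X × X') x y l).2)
          = (Fin.cons x.2 fun l => (y l).2 : Fin (K + 1) → X') :=
      fun x y => funext fun l => Fin.cases rfl (fun i => rfl) l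
    obtain ⟨-, hp⟩ := weight_integrable hm hH hi
    obtain ⟨-, hp'⟩ := weight_integrable hm hH' hi'
    have hrec : ∀ᵐ x ∂ν.prod ν',
        casc (ν.prod ν') K (fun l => m l.succ) (fun y =>
            H (Fin.cons x.1 fun l => (y l).1) + H' (Fin.cons x.2 fun l => (y l).2))
          = casc ν K (fun l => m l.succ) (fun y => H (Fin.cons x.1 y))
            + casc ν' K (fun l => m l.succ) (fun y => H' (Fin.cons x.2 y)) ∧
        cmean (ν.prod ν') K (fun l => m l.succ) (fun y =>
            H (Fin.cons x.1 fun l => (y l).1) + H' (Fin.cons x.2 fun l => (y l).2))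
            (fun y => a (Fin.cons x.1 fun l => (y l).1) * a' (Fin.cons x.2 fun l => (y l).2))
          = cmean ν K (fun l => m l.succ) (fun y => H (Fin.cons x.1 y)) (fun y => a (Fin.cons x.1 y))
            * cmean ν' K (fun l => m l.succ) (fun y => H' (Fin.cons x.2 y))
                (fun y => a' (Fin.cons x.2 y)) ∧
        ∀ i, csq (ν.prod ν') K (fun l => m l.succ) (fun y =>
            H (Fin.cons x.1 fun l => (y l).1) + H' (Fin.cons x.2 fun l => (y l).2))
            (fun y => a (Fin.cons x.1 fun l => (y l).1) * a' (Fin.cons x.2 fun l => (y l).2)) i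
          = csq ν K (fun l => m l.succ) (fun y => H (Fin.cons x.1 y)) (fun y => a (Fin.cons x.1 y)) i
            * csq ν' K (fun l => m l.succ) (fun y => H' (Fin.cons x.2 y))
                (fun y => a' (Fin.cons x.2 y)) i := by
      have hc := Measure.quasiMeasurePreserving_fst (μ := ν) (ν := ν') |>.ae (Rec.slice hi).1
      have hc' := Measure.quasiMeasurePreserving_snd (μ := ν) (ν := ν') |>.ae (Rec.slice hi').1
      filter_upwards [hc, hc'] with x hx hx'
      exact casc_prod_mul K hm.tail (a := fun y => a (Fin.cons x.1 y))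
        (a' := fun y => a' (Fin.cons x.2 y)) (measurable_consFix hH x.1)
        (measurable_consFix hH' x.2) hx hx'
    set e := fun x : X => Real.exp (m 0 * casc ν K (fun l => m l.succ) fun y => H (Fin.cons x y))
    set e' := fun x : X' => Real.exp (m 0 * casc ν' K (fun l => m l.succ) fun y => H' (Fin.cons x y))
    have hden : ∫ x, Real.exp (m 0 * casc (ν.prod ν') K (fun l => m l.succ) fun y =>
          H (fun l => (Fin.cons (α := fun _ => X × X') x y l).1) +
            H' (fun l => (Fin.cons (α := fun _ => X × X') x y l).2)) ∂ν.prod ν'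
        = (∫ x, e x ∂ν) * ∫ x, e' x ∂ν' := by
      rw [← integral_prod_mul]
      refine integral_congr_ae (hrec.mono fun x hx => ?_)
      simp only [h1, h2, hx.1, mul_add, exp_add, e, e']
    have hmean : cmean (ν.prod ν') (K + 1) m
          (fun y => H (fun l => (y l).1) + H' (fun l => (y l).2))
          (fun y => a (fun l => (y l).1) * a' (fun l => (y l).2))
        = cmean ν (K + 1) m H a * cmean ν' (K + 1) m H' a' := by
      simp only [cmean]
      rw [hden, div_mul_div_comm]
      congr 1
      rw [← integral_prod_mul]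
      refine integral_congr_ae (hrec.mono fun x hx => ?_)
      simp only [h1, h2, hx.1, hx.2.1, mul_add, exp_add]
      ring
    refine ⟨?_, hmean, fun l => Fin.cases ?_ (fun i => ?_) l⟩
    · simp only [casc]
      rw [hden, log_mul hp.ne' hp'.ne']
      ring
    · simp only [csq_zero, hmean, mul_pow]
    · simp only [csq, Fin.cases_succ]
      rw [hden, div_mul_div_comm]
      congr 1
      rw [← integral_prod_mul]
      refine integral_congr_ae (hrec.mono fun x hx => ?_)
      simp only [h1, h2, hx.1, hx.2.2 i, mul_add, exp_add]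
      ring

/-- Independent components split. -/
theorem casc_prod {X X' : Type} [MeasurableSpace X] {ν : Measure X} [IsProbabilityMeasure ν]
    [MeasurableSpace X'] (ν' : Measure X') [IsProbabilityMeasure ν'] {K : ℕ} {m : Fin K → ℝ}
    (hm : Grid m) {H : (Fin K → X) → ℝ} {H' : (Fin K → X') → ℝ} {a : (Fin K → X) → ℝ}
    (hH : Measurable H) (hH' : Measurable H')
    (hexp : ∀ t : ℝ, Integrable (fun y => Real.exp (t * |H y|)) (Measure.pi fun _ : Fin K => ν))
    (hexp' : ∀ t : ℝ, Integrable (fun y => Real.exp (t * |H' y|))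
      (Measure.pi fun _ : Fin K => ν')) :
    casc (ν.prod ν') K m (fun y => H (fun l => (y l).1) + H' (fun l => (y l).2))
        = casc ν K m H + casc ν' K m H' ∧
      ∀ l, csq (ν.prod ν') K m (fun y => H (fun l => (y l).1) + H' (fun l => (y l).2))
        (fun y => a (fun l => (y l).1)) l = csq ν K m H a l := by
  have hi' := integrable_exp_of_abs hH' hexp'
  obtain ⟨h1, -, h3⟩ := casc_prod_mul (a := a) (a' := fun _ => 1) K hm hH hH'
    (integrable_exp_of_abs hH hexp) hi'
  refine ⟨h1, fun l => ?_⟩
  have := h3 l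
  rw [(csq_const 1 K hm hH' hi').2 l] at this
  simpa using this

/-- A change of variables in the labels. -/
theorem casc_map {X X' : Type} [MeasurableSpace X] [MeasurableSpace X'] {ν : Measure X}
    {ν' : Measure X'} [SFinite ν'] {g : X → X'}
    (hg : MeasurePreserving g ν ν') : ∀ (K : ℕ) (m : Fin K → ℝ) {H a : (Fin K → X') → ℝ},
    Measurable H → Measurable a →
    casc ν K m (fun y => H (fun l => g (y l))) = casc ν' K m H ∧
      cmean ν K m (fun y => H (fun l => g (y l))) (fun y => a (fun l => g (y l)))
        = cmean ν' K m H a ∧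
      ∀ l, csq ν K m (fun y => H (fun l => g (y l))) (fun y => a (fun l => g (y l))) l
        = csq ν' K m H a l
  | 0, _, H, a, _, _ => by
    have e : (fun l : Fin 0 => g (Fin.elim0 l)) = Fin.elim0 := Subsingleton.elim _ _
    simp [casc, cmean, csq, e]
  | K + 1, m, H, a, hH, ha => by
    have h1 : ∀ (x : X) (y : Fin K → X), (fun l => g (Fin.cons (α := fun _ => X) x y l))
        = (Fin.cons (g x) fun l => g (y l) : Fin (K + 1) → X') :=
      fun x y => funext fun l => Fin.cases rfl (fun i => rfl) l
    have hrec := fun x : X => casc_map hg K (fun l => m l.succ)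
      (measurable_consFix hH (g x)) (measurable_consFix ha (g x))
    have hch : ∀ f : X' → ℝ, Measurable f → ∫ x, f (g x) ∂ν = ∫ y, f y ∂ν' := fun f hf => by
      rw [← integral_map hg.measurable.aemeasurable hf.aestronglyMeasurable, hg.map_eq]
    have hh := hH.comp (Rec.measurable_cons (ζ := X') (K := K))
    have hha := ha.comp (Rec.measurable_cons (ζ := X') (K := K))
    have hw : Measurable fun y : X' =>
        Real.exp (m 0 * casc ν' K (fun l => m l.succ) fun z => H (Fin.cons y z)) :=
      measurable_exp.comp ((measurable_casc_param (α := X') K (fun l => m l.succ)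
        (H := fun y z => H (Fin.cons y z)) hh).const_mul (m 0))
    have hden := hch _ hw
    have hmean : cmean ν (K + 1) m (fun y => H (fun l => g (y l))) (fun y => a (fun l => g (y l)))
        = cmean ν' (K + 1) m H a := by
      simp only [cmean, h1]
      rw [← hch (fun y => Real.exp (m 0 * casc ν' K (fun l => m l.succ) fun z => H (Fin.cons y z)) *
          cmean ν' K (fun l => m l.succ) (fun z => H (Fin.cons y z)) fun z => a (Fin.cons y z))
        (hw.mul (measurable_cmean_param (ν := ν') (α := X') K (fun l => m l.succ)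
        (H := fun y z => H (Fin.cons y z)) (a := fun y z => a (Fin.cons y z)) hh hha)), ← hden]
      congr 1 <;> simp only [(hrec _).1, (hrec _).2.1]
    refine ⟨?_, hmean, fun l => Fin.cases ?_ (fun i => ?_) l⟩
    · simp only [casc, h1, (hrec _).1]
      rw [hden]
    · simp only [csq, Fin.cases_zero]
      rw [hmean]
    · simp only [csq, Fin.cases_succ, h1]
      rw [← hch (fun y => Real.exp (m 0 * casc ν' K (fun l => m l.succ) fun z => H (Fin.cons y z)) *
          csq ν' K (fun l => m l.succ) (fun z => H (Fin.cons y z)) (fun z => a (Fin.cons y z)) i)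
        (hw.mul (measurable_csq_param (ν := ν') (α := X') K (fun l => m l.succ)
        (H := fun y z => H (Fin.cons y z)) (a := fun y z => a (Fin.cons y z)) hh hha i)), ← hden]
      congr 1 <;> simp only [(hrec _).1, (hrec _).2.2 i]

end Vale.Agent.P157.Casc
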