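import Vale.Agent.P157.Casc.Glue
import Vale.Agent.P157.Casc.LimitRec

/-!
Separation of independent Gaussian coordinates in the recursion.
-/

open MeasureTheory ProbabilityTheory Filter Topology

namespace Vale.Agent.P157.Casc

variable {I : Type} [Fintype I] {K : ℕ}

/-- Extension by zero of a partial list of coordinates. -/
def extCoord (p : I → Prop) [DecidablePred p] (u : Subtype p → ℝ) (i : I) : ℝ :=
  if h : p i then u ⟨i, h⟩ else 0

omit [Fintype I] in
theorem measurable_extCoord (p : I → Prop) [DecidablePred p] :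
    Measurable fun u : Fin K → Subtype p → ℝ => fun l => extCoord p (u l) := by
  refine measurable_pi_lambda _ fun l => measurable_pi_lambda _ fun i => ?_
  by_cases h : p i <;> simp only [extCoord, h, dite_true, dite_false]
  · exact (measurable_pi_apply _).comp (measurable_pi_apply l)
  · exact measurable_const

theorem mp_restrict (p : I → Prop) [DecidablePred p] :
    MeasurePreserving (fun (g : I → ℝ) (i : Subtype p) => g i) (gaus I) (gaus (Subtype p)) :=
  measurePreserving_fst.comp
    (measurePreserving_piEquivPiSubtypeProd (fun _ : I => gaussianReal 0 1) p)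

/-- Functions of disjoint sets of coordinates separate in the recursion. -/
theorem casc_sep (p : I → Prop) [DecidablePred p] {m : Fin K → ℝ} (hm : Grid m)
    {H H' a a' : (Fin K → I → ℝ) → ℝ} (hH : Measurable H) (hH' : Measurable H')
    (ha : Measurable a) (ha' : Measurable a')
    (hd : ∀ y y', (∀ l i, p i → y l i = y' l i) → H y = H y' ∧ a y = a y')
    (hd' : ∀ y y', (∀ l i, ¬p i → y l i = y' l i) → H' y = H' y' ∧ a' y = a' y')
    (hi : Integrable (fun y => Real.exp (H y)) (Measure.pi fun _ : Fin K => gaus I))
    (hi' : Integrable (fun y => Real.exp (H' y)) (Measure.pi fun _ : Fin K => gaus I)) :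
    casc (gaus I) K m (fun y => H y + H' y) = casc (gaus I) K m H + casc (gaus I) K m H' ∧
      ∀ l, csq (gaus I) K m (fun y => H y + H' y) (fun y => a y * a' y) l
        = csq (gaus I) K m H a l * csq (gaus I) K m H' a' l := by
  set e := MeasurableEquiv.piEquivPiSubtypeProd (fun _ : I => ℝ) p
  have he : MeasurePreserving e (gaus I) ((gaus (Subtype p)).prod (gaus {i // ¬p i})) :=
    measurePreserving_piEquivPiSubtypeProd (fun _ : I => gaussianReal 0 1) p
  have h1 := mp_restrict p
  have h2 := mp_restrict (fun i => ¬p i)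
  set H1 := fun u : Fin K → Subtype p → ℝ => H fun l => extCoord p (u l)
  set a1 := fun u : Fin K → Subtype p → ℝ => a fun l => extCoord p (u l)
  set H2 := fun u : Fin K → {i // ¬p i} → ℝ => H' fun l => extCoord _ (u l)
  set a2 := fun u : Fin K → {i // ¬p i} → ℝ => a' fun l => extCoord _ (u l)
  have eH : ∀ y : Fin K → I → ℝ, H y = H1 (fun l i => y l i.1) ∧ a y = a1 (fun l i => y l i.1) :=
    fun y => hd _ _ fun l i hi => by simp [extCoord, hi]
  have eH' : ∀ y : Fin K → I → ℝ, H' y = H2 (fun l i => y l i.1) ∧ a' y = a2 (fun l i => y l i.1) :=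
    fun y => hd' _ _ fun l i hi => by simp [extCoord, hi]
  have m1 : Measurable H1 := hH.comp (measurable_extCoord p)
  have n1 : Measurable a1 := ha.comp (measurable_extCoord p)
  have m2 : Measurable H2 := hH'.comp (measurable_extCoord _)
  have n2 : Measurable a2 := ha'.comp (measurable_extCoord _)
  have i1 : Integrable (fun u => Real.exp (H1 u)) (Measure.pi fun _ : Fin K => gaus (Subtype p)) :=
    ((measurePreserving_pi (fun _ : Fin K => gaus I) (fun _ : Fin K => gaus (Subtype p))
      fun _ => h1).integrable_comp (m1.exp.aestronglyMeasurable)).1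
      (hi.congr (ae_of_all _ fun y => congrArg Real.exp (eH y).1))
  have i2 : Integrable (fun u => Real.exp (H2 u))
      (Measure.pi fun _ : Fin K => gaus {i // ¬p i}) :=
    ((measurePreserving_pi (fun _ : Fin K => gaus I) (fun _ : Fin K => gaus {i // ¬p i})
      fun _ => h2).integrable_comp (m2.exp.aestronglyMeasurable)).1
      (hi'.congr (ae_of_all _ fun y => congrArg Real.exp (eH' y).1))
  obtain ⟨hc, -, hs⟩ := casc_prod_mul (ν := gaus (Subtype p)) (ν' := gaus {i // ¬p i}) (a := a1)
    (a' := a2) K hm m1 m2 i1 i2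
  have mf : Measurable fun u : Fin K → (Subtype p → ℝ) × ({i // ¬p i} → ℝ) => fun l => (u l).1 :=
    measurable_pi_lambda _ fun l => measurable_fst.comp (measurable_pi_apply l)
  have ms : Measurable fun u : Fin K → (Subtype p → ℝ) × ({i // ¬p i} → ℝ) => fun l => (u l).2 :=
    measurable_pi_lambda _ fun l => measurable_snd.comp (measurable_pi_apply l)
  obtain ⟨kc, -, ks⟩ := casc_map he K m (H := fun u => H1 (fun l => (u l).1) + H2 (fun l => (u l).2))
    (a := fun u => a1 (fun l => (u l).1) * a2 (fun l => (u l).2))
    ((m1.comp mf).add (m2.comp ms)) ((n1.comp mf).mul (n2.comp ms))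
  obtain ⟨kp, -, ksp⟩ := casc_map h1 K m m1 n1
  obtain ⟨kq, -, ksq⟩ := casc_map h2 K m m2 n2
  have f1 : H = fun y => H1 (fun l i => y l i.1) := funext fun y => (eH y).1
  have f2 : H' = fun y => H2 (fun l i => y l i.1) := funext fun y => (eH' y).1
  have f3 : a = fun y => a1 (fun l i => y l i.1) := funext fun y => (eH y).2
  have f4 : a' = fun y => a2 (fun l i => y l i.1) := funext fun y => (eH' y).2
  refine ⟨?_, fun l => ?_⟩
  · rw [f1, f2, kp, kq, ← hc, ← kc]; rfl
  · rw [f1, f2, f3, f4, ksp l, ksq l, ← hs l, ← ks l]; rfl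

/-- A function of one coordinate follows the scalar recursion. -/
theorem casc_one (i0 : I) {m : Fin K → ℝ} {h g : (Fin K → ℝ) → ℝ} (hh : Measurable h)
    (hg : Measurable g) :
    casc (gaus I) K m (fun y => h fun l => y l i0) = casc (gaussianReal 0 1) K m h ∧
      ∀ l, csq (gaus I) K m (fun y => h fun l => y l i0) (fun y => g fun l => y l i0) l
        = csq (gaussianReal 0 1) K m h g l := by
  obtain ⟨h1, -, h2⟩ := casc_map
    (measurePreserving_eval (μ := fun _ : I => gaussianReal 0 1) i0) K m hh hg
  exact ⟨h1, h2⟩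

end Vale.Agent.P157.Casc
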