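import Vale.Agent.P157.Casc.Split
import Vale.Agent.P157.Casc.Coord

/-!
Values of the recursion at systems with free spins or free patterns.
-/

open MeasureTheory ProbabilityTheory Filter Topology

namespace Vale.Agent.P157.Casc

variable {N M K : ℕ}

theorem integrable_exp_absY (t : ℝ) (z : RIdx N M → ℝ) :
    Integrable (fun y : Fin K → LIdx N M → ℝ => Real.exp (t * absSum z y))
      (Measure.pi fun _ : Fin K => gaus (LIdx N M)) := by
  have h1 : Integrable (fun y : Fin K → LIdx N M → ℝ => ∏ l, ∏ i, Real.exp (t * |y l i|))
      (Measure.pi fun _ : Fin K => gaus (LIdx N M)) :=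
    Integrable.fintype_prod fun _ => Integrable.fintype_prod fun _ => integrable_exp_abs t
  refine (h1.const_mul (Real.exp (t * (1 + ∑ i, |z i|)))).congr (ae_of_all _ fun y => ?_)
  simp only [absSum, ← Real.exp_sum, ← Real.exp_add]
  congr 1
  simp only [mul_add, Finset.mul_sum]
  ring

theorem continuous_leafY_y (P : Pot) (π : Prior N) (c : CIdx N M K → ℝ) (z : RIdx N M → ℝ) :
    Continuous fun y : Fin K → LIdx N M → ℝ => leafY P π c z y :=
  (continuous_leafY (M := M) (K := K) P π).comp
    (f := fun y => (c, z, y)) (continuous_const.prodMk (continuous_const.prodMk continuous_id))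

theorem integrable_exp_logY (P : Pot) (π : Prior N) (c : CIdx N M K → ℝ) (z : RIdx N M → ℝ) :
    Integrable (fun y => Real.exp (Real.log (leafY P π c z y)))
      (Measure.pi fun _ : Fin K => gaus (LIdx N M)) := by
  set R : ℝ := ∑ i, |c i|
  have hR : ∀ i, |c i| ≤ R := fun i =>
    Finset.single_le_sum (f := fun i => |c i|) (fun i _ => abs_nonneg _) (Finset.mem_univ i)
  obtain ⟨A, -, hA⟩ := leafY_bound (M := M) (K := K) P π R
  refine (integrable_exp_absY A z).mono'
    ((continuous_leafY_y P π c z).measurable.log.exp).aestronglyMeasurable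
    (ae_of_all _ fun y => ?_)
  rw [Real.norm_eq_abs, abs_of_pos (Real.exp_pos _), Real.exp_log (leafY_pos P π c z y)]
  exact (hA c hR z y).2

theorem continuous_labField (v : Fin (K + 1) → ℝ) (z : RIdx N M → ℝ) (i : LIdx N M) :
    Continuous fun y : Fin K → LIdx N M → ℝ => labField v z y i := by
  unfold labField pathField
  fun_prop

/-- The squared conditional means of a free spin follow the scalar recursion. -/
theorem csq_free_spin (P : Pot) {c : CIdx N M K → ℝ} {B : Finset (Fin N)}
    {v : Fin (K + 1) → ℝ} (hc : FreeSpins c B v) {j0 : Fin N} (hj : j0 ∈ B)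
    (z : RIdx N M → ℝ) (l : Fin (K + 1)) :
    csq (gaus (LIdx N M)) K (mlev K) (fun y => Real.log (leafY P (isingP N) c z y))
        (fun y => leafAvg P (isingP N) c (fun σ _ => (isingP N).spin σ j0) z y) l
      = csq (gaussianReal 0 1) K (mlev K)
          (fun u => Real.log (Real.cosh (pathField v (z (Sum.inr (Sum.inr (Sum.inl j0)))) u)))
          (fun u => Real.tanh (pathField v (z (Sum.inr (Sum.inr (Sum.inl j0)))) u)) l := by
  classical
  set i0 : LIdx N M := Sum.inr (Sum.inl j0)
  set z0 := z (Sum.inr i0)
  set h := fun u : Fin K → ℝ => Real.log (Real.cosh (pathField v z0 u))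
  set g := fun u : Fin K → ℝ => Real.tanh (pathField v z0 u)
  have hh : Continuous h := by
    have : Continuous fun u : Fin K → ℝ => pathField v z0 u := by unfold pathField; fun_prop
    exact (Real.continuous_cosh.comp this).log fun u => (Real.cosh_pos _).ne'
  have hg : Continuous g := by
    have hp : Continuous fun u : Fin K → ℝ => pathField v z0 u := by unfold pathField; fun_prop
    simp only [g, Real.tanh_eq_sinh_div_cosh]
    exact (Real.continuous_sinh.comp hp).div (Real.continuous_cosh.comp hp)
      fun u => (Real.cosh_pos _).ne'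
  set H := fun y : Fin K → LIdx N M → ℝ => h fun l => y l i0
  set H' := fun y : Fin K → LIdx N M → ℝ => Real.log (leafY P (isingP N) c z y) - H y
  have mH : Measurable H := hh.measurable.comp
    (measurable_pi_lambda _ fun l => (measurable_pi_apply i0).comp (measurable_pi_apply l))
  have mH' : Measurable H' := (continuous_leafY_y P (isingP N) c z).measurable.log.sub mH
  have hH0 : ∀ y, 0 ≤ H y := fun y => Real.log_nonneg (Real.one_le_cosh _)
  have hi' : Integrable (fun y => Real.exp (H' y))
      (Measure.pi fun _ : Fin K => gaus (LIdx N M)) :=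
    (integrable_exp_logY P (isingP N) c z).mono' mH'.exp.aestronglyMeasurable
      (ae_of_all _ fun y => by
        rw [Real.norm_eq_abs, abs_of_pos (Real.exp_pos _)]
        exact Real.exp_le_exp.2 (sub_le_self _ (hH0 y)))
  have hi : Integrable (fun y => Real.exp (H y)) (Measure.pi fun _ : Fin K => gaus (LIdx N M)) := by
    set R : ℝ := ∑ l : Fin K, |√(v l.succ - v l.castSucc)| + |√(v 0) * z0|
    refine (integrable_exp_absY R z).mono' mH.exp.aestronglyMeasurable (ae_of_all _ fun y => ?_)
    rw [Real.norm_eq_abs, abs_of_pos (Real.exp_pos _), Real.exp_le_exp]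
    have hlc : ∀ x : ℝ, Real.log (Real.cosh x) ≤ |x| := fun x => by
      rw [Real.log_le_iff_le_exp (Real.cosh_pos x), Real.cosh_eq]
      linarith [Real.exp_le_exp.2 (le_abs_self x), Real.exp_le_exp.2 (neg_le_abs x)]
    refine (hlc _).trans ?_
    have hR0 : 0 ≤ R := add_nonneg (Finset.sum_nonneg fun l _ => abs_nonneg _) (abs_nonneg _)
    have hy : ∀ l, |y l i0| ≤ absSum z y - 1 := fun l => by
      simp only [absSum, add_sub_cancel_left]
      refine le_add_of_nonneg_of_le (Finset.sum_nonneg fun i _ => abs_nonneg _) ?_
      exact (Finset.single_le_sum (f := fun i => |y l i|) (fun i _ => abs_nonneg _)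
        (Finset.mem_univ i0)).trans (Finset.single_le_sum (f := fun l => ∑ i, |y l i|)
          (fun l _ => Finset.sum_nonneg fun i _ => abs_nonneg _) (Finset.mem_univ l))
    have h1 := one_le_absSum z y
    calc |pathField v z0 fun l => y l i0|
        ≤ |√(v 0) * z0| + ∑ l : Fin K, |√(v l.succ - v l.castSucc)| * (absSum z y - 1) := by
          refine (abs_add_le _ _).trans (add_le_add le_rfl ?_)
          refine (Finset.abs_sum_le_sum_abs _ _).trans (Finset.sum_le_sum fun l _ => ?_)
          rw [abs_mul]
          exact mul_le_mul_of_nonneg_left (hy l) (abs_nonneg _)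
      _ ≤ R * absSum z y := by
          rw [← Finset.sum_mul]
          simp only [R]
          have : 0 ≤ ∑ l : Fin K, |√(v l.succ - v l.castSucc)| :=
            Finset.sum_nonneg fun l _ => abs_nonneg _
          nlinarith [abs_nonneg (√(v 0) * z0)]
  have hdep : ∀ y y' : Fin K → LIdx N M → ℝ, (∀ l i, ¬(i = i0) → y l i = y' l i) →
      H' y = H' y' ∧ (1 : ℝ) = 1 := by
    intro y y' hyy
    refine ⟨?_, rfl⟩
    have e : ∀ y : Fin K → LIdx N M → ℝ, H' y
        = (∑ j ∈ B.erase j0, Real.log (Real.cosh (labField v z y (Sum.inr (Sum.inl j)))))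
          + Real.log (∑ σ, (isingP N).w σ * (Real.exp (hamRest P c B v z y σ)
            * Real.exp (-(B.card * (v (Fin.last K) / 2))))) := fun y => by
      have hsum : 0 < ∑ σ, (isingP N).w σ * (Real.exp (hamRest P c B v z y σ)
          * Real.exp (-(B.card * (v (Fin.last K) / 2)))) := by
        have := prior_nonempty (isingP N)
        exact Finset.sum_pos (fun σ _ => mul_pos ((isingP N).w_pos σ)
          (mul_pos (Real.exp_pos _) (Real.exp_pos _))) Finset.univ_nonempty
      simp only [H', H, h, (leafY_free_spins P hc z y).1]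
      rw [Real.log_mul (Finset.prod_pos fun j _ => Real.cosh_pos _).ne' hsum.ne',
        Real.log_prod (fun j _ => (Real.cosh_pos _).ne'), ← Finset.add_sum_erase B _ hj]
      simp only [labField, z0, i0]
      ring
    rw [e y, e y']
    have hflab : ∀ j ∈ B.erase j0, labField v z y (Sum.inr (Sum.inl j))
        = labField v z y' (Sum.inr (Sum.inl j)) := fun j hjB => by
      simp only [labField]
      congr 1
      funext l
      refine hyy l _ fun h => ?_
      simp only [i0, Sum.inr.injEq, Sum.inl.injEq] at h
      exact Finset.ne_of_mem_erase hjB h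
    rw [Finset.sum_congr rfl fun j hjB => by rw [hflab j hjB]]
    congr 2
    refine Finset.sum_congr rfl fun σ _ => ?_
    rw [hamRest_congr P hc (fun a j _ => rfl) (fun i _ => rfl)
      (fun l i hi => hyy l i (hi j0 hj)) σ]
  obtain ⟨-, hs⟩ := casc_sep (fun i : LIdx N M => i = i0) (grid_mlev K) (H := H) (H' := H')
    (a := fun y => g fun l => y l i0) (a' := fun _ => 1) mH mH'
    (hg.measurable.comp
      (measurable_pi_lambda _ fun l => (measurable_pi_apply i0).comp (measurable_pi_apply l)))
    measurable_const
    (fun y y' hy => by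
      have : (fun l => y l i0) = fun l => y' l i0 := funext fun l => hy l i0 rfl
      simp [H, this]) hdep hi hi'
  have e1 : (fun y => Real.log (leafY P (isingP N) c z y)) = fun y => H y + H' y :=
    funext fun y => by simp [H']
  have e2 : (fun y => leafAvg P (isingP N) c (fun σ _ => (isingP N).spin σ j0) z y)
      = fun y => (g fun l => y l i0) * 1 := funext fun y => by
    rw [(leafY_free_spins P hc z y).2 j0 hj, mul_one]; rfl
  rw [e1, e2, hs l, (csq_const 1 K (grid_mlev K) mH' hi').2 l, one_pow, mul_one,
    (casc_one i0 hh.measurable hg.measurable).2 l]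

/-- The overlap of a free spin is that of the Ising recursion. -/
theorem integral_csq_free_spin (P : Pot) {c : CIdx N M K → ℝ} {B : Finset (Fin N)}
    {v : Fin (K + 1) → ℝ} (hc : FreeSpins c B v) {j0 : Fin N} (hj : j0 ∈ B) (l : Fin (K + 1)) :
    ∫ z, csq (gaus (LIdx N M)) K (mlev K) (fun y => Real.log (leafY P (isingP N) c z y))
        (fun y => leafAvg P (isingP N) c (fun σ _ => (isingP N).spin σ j0) z y) l
        ∂gaus (RIdx N M) = vI v l := by
  simp only [csq_free_spin P hc hj]
  set i0 : RIdx N M := Sum.inr (Sum.inr (Sum.inl j0))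
  have hmp : MeasurePreserving (fun z : RIdx N M → ℝ => z i0) (gaus (RIdx N M))
      (gaussianReal 0 1) := measurePreserving_eval (μ := fun _ : RIdx N M => gaussianReal 0 1) i0
  set F := fun w : ℝ => csq (gaussianReal 0 1) K (mlev K)
    (fun u => Real.log (Real.cosh (pathField v w u))) (fun u => Real.tanh (pathField v w u)) l
  have hp : Continuous fun p : ℝ × (Fin K → ℝ) => pathField v p.1 p.2 := by
    unfold pathField; fun_prop
  have hFm : Measurable F := measurable_csq_param (ν := gaussianReal 0 1) K (mlev K)
    (H := fun w u => Real.log (Real.cosh (pathField v w u)))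
    (a := fun w u => Real.tanh (pathField v w u))
    (Real.continuous_cosh.comp hp).measurable.log
    (by
      simp only [Function.uncurry_def, Real.tanh_eq_sinh_div_cosh]
      exact ((Real.continuous_sinh.comp hp).measurable).div
        (Real.continuous_cosh.comp hp).measurable) l
  have h := integral_map (μ := gaus (RIdx N M)) hmp.measurable.aemeasurable
    (f := F) hFm.aestronglyMeasurable
  rw [hmp.map_eq] at h
  exact h.symm

end Vale.Agent.P157.Casc
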