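import Vale.Agent.P157.Casc.Interp

/-!
Interpolation of replica observables of the pattern fields: the derivative along a segment of
variances only involves pair terms.
-/

open MeasureTheory ProbabilityTheory Filter Topology Set

namespace Vale.Agent.P157.Casc

namespace Itp

variable {T I : Type*} [Fintype T] [Fintype I] {M r : ℕ}

/-- Fields of the replicas. -/
noncomputable def fld (b : Fin M → T → I → ℝ) (lam G : I → ℝ) (xs : Fin r → T) :
    Fin M → Fin r → ℝ := fun a l => lin (b a) lam G (xs l)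

variable (P : Pot) (w : T → ℝ) (b : Fin M → T → I → ℝ) (bz : T → I → ℝ)
  (φ : (Fin M → Fin r → ℝ) → (Fin r → T) → ℝ)
  (φ1 : Fin M → Fin r → (Fin M → Fin r → ℝ) → (Fin r → T) → ℝ)
  (φ2 : Fin M → Fin r → Fin r → (Fin M → Fin r → ℝ) → (Fin r → T) → ℝ)

/-- Sum over the replicas of the centred `dir`. -/
noncomputable def oS (lam : I → ℝ) (i : I) (G : I → ℝ) (xs : Fin r → T) : ℝ :=
  ∑ l, (dir P b bz lam G (xs l) i - fU P w b bz lam i G)

/-- First derivative of the observable, up to the amplitude. -/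
noncomputable def oL (lam : I → ℝ) (i : I) (G : I → ℝ) (xs : Fin r → T) : ℝ :=
  ∑ a, ∑ l, φ1 a l (fld b lam G xs) xs * b a (xs l) i

/-- Second derivative of the observable, up to the amplitude. -/
noncomputable def oQ (lam : I → ℝ) (i : I) (G : I → ℝ) (xs : Fin r → T) : ℝ :=
  ∑ a, ∑ l, ∑ l', φ2 a l l' (fld b lam G xs) xs * (b a (xs l) i * b a (xs l') i)

/-- Mean of the first derivative. -/
noncomputable def oU (lam : I → ℝ) (i : I) (G : I → ℝ) : ℝ :=
  avg (bw P w b bz lam G) r fun xs =>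
    φ (fld b lam G xs) xs * oS P w b bz lam i G xs + oL b φ1 lam i G xs

/-- Mean compensator. -/
noncomputable def oV (d lam : I → ℝ) (G : I → ℝ) : ℝ :=
  avg (bw P w b bz lam G) r fun xs => φ (fld b lam G xs) xs *
    ∑ l, (-(1 / 2) * comp bz d (xs l) - fV P w b bz d lam G)

/-- Mean of the second derivative. -/
noncomputable def oW (lam : I → ℝ) (i : I) (G : I → ℝ) : ℝ :=
  avg (bw P w b bz lam G) r fun xs =>
    φ (fld b lam G xs) xs * oS P w b bz lam i G xs ^ 2
      + 2 * (oL b φ1 lam i G xs * oS P w b bz lam i G xs)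
      + φ (fld b lam G xs) xs * (∑ l, (crv P b lam G (xs l) i - fW P w b bz lam i G))
      + oQ b φ2 lam i G xs

/-- Part of the derivative carrying the observable. -/
noncomputable def oA (d lam G : I → ℝ) (xs : Fin r → T) : ℝ :=
  (∑ l, ∑ k, if k = l then 0 else grad P b bz lam d G (xs l) (xs k))
    - 2 * r * (∑ l, ∑ y, gibbs (bw P w b bz lam G) y * grad P b bz lam d G (xs l) y)
    + ((r : ℝ) ^ 2 + r) * avg2 (bw P w b bz lam G) (grad P b bz lam d G)

/-- Part of the derivative carrying its first derivatives. -/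
noncomputable def oB (d lam G : I → ℝ) (xs : Fin r → T) : ℝ :=
  ∑ a, ∑ l, φ1 a l (fld b lam G xs) xs *
    ((∑ k, (∑ i, d i * (b a (xs l) i * b a (xs k) i)) * P.f1 (lin (b a) lam G (xs k)))
      - r * ∑ y, gibbs (bw P w b bz lam G) y *
          ((∑ i, d i * (b a (xs l) i * b a y i)) * P.f1 (lin (b a) lam G y)))

/-- Part of the derivative carrying its second derivatives. -/
noncomputable def oC (d lam G : I → ℝ) (xs : Fin r → T) : ℝ :=
  ∑ a, ∑ l, ∑ k, φ2 a l k (fld b lam G xs) xs * ∑ i, d i * (b a (xs l) i * b a (xs k) i)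

omit [Fintype T] in
theorem cont_fld (lam : I → ℝ) (xs : Fin r → T) : Continuous fun G => fld b lam G xs :=
  continuous_pi fun a => continuous_pi fun l => cont_lin (b a) lam (xs l)

omit [Fintype T] in
theorem cont_fld2 (xs : Fin r → T) :
    Continuous fun p : (I → ℝ) × (I → ℝ) => fld b p.1 p.2 xs :=
  continuous_pi fun a => continuous_pi fun l => cont_lin2 (b a) (xs l)

variable {P w b bz φ φ1 φ2} [Nonempty T] (hw : ∀ x, 0 < w x)
include hw

theorem cont_avg (lam : I → ℝ) {F : (I → ℝ) → (Fin r → T) → ℝ}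
    (hF : ∀ xs, Continuous fun G => F G xs) :
    Continuous fun G => avg (bw P w b bz lam G) r (F G) := by
  have := cont_gibbs P b bz hw lam
  unfold avg; fun_prop

theorem abs_avg_const {lam G : I → ℝ} {F : (Fin r → T) → ℝ} {C : ℝ} (h : ∀ xs, |F xs| ≤ C) :
    |avg (bw P w b bz lam G) r F| ≤ C :=
  (abs_avg_le (bw_pos P b bz hw lam G) h).trans_eq (avg_const (bw_pos P b bz hw lam G) r C)

theorem abs_oS_le (lam : I → ℝ) (i : I) (G : I → ℝ) (xs : Fin r → T) :
    |oS P w b bz lam i G xs| ≤ r * (2 * dbd P b bz) := by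
  refine (Finset.abs_sum_le_sum_abs _ _).trans ((Finset.sum_le_sum fun l _ =>
    ((abs_sub _ _).trans (add_le_add (abs_dir_le P b bz lam G (xs l) i)
      (abs_fU_le P b bz hw lam i G))).trans_eq (two_mul _).symm).trans_eq ?_)
  simp

theorem cont_oS (lam : I → ℝ) (i : I) (xs : Fin r → T) :
    Continuous fun G => oS P w b bz lam i G xs := by
  have := fun x => cont_dir P b bz lam x i
  have := cont_fU P b bz hw lam i
  unfold oS; fun_prop

omit hw [Nonempty T] in
theorem abs_oL_le {g1 : Fin M → ℝ} (h1 : ∀ a l h xs, |φ1 a l h xs| ≤ g1 a) (lam : I → ℝ) (i : I)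
    (G : I → ℝ) (xs : Fin r → T) :
    |oL b φ1 lam i G xs| ≤ ∑ a, r * (|g1 a| * ∑ x, ∑ j, |b a x j|) := by
  refine (Finset.abs_sum_le_sum_abs _ _).trans (Finset.sum_le_sum fun a _ => ?_)
  refine (Finset.abs_sum_le_sum_abs _ _).trans
    ((Finset.sum_le_sum (g := fun _ => |g1 a| * ∑ x, ∑ j, |b a x j|) fun l _ => ?_).trans_eq
      (by simp))
  rw [abs_mul]
  exact mul_le_mul ((h1 a l _ xs).trans (le_abs_self _))
    ((Finset.single_le_sum (f := fun j => |b a (xs l) j|) (fun j _ => abs_nonneg _)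
      (Finset.mem_univ i)).trans (Finset.single_le_sum (f := fun x => ∑ j, |b a x j|)
      (fun x _ => Finset.sum_nonneg fun j _ => abs_nonneg _) (Finset.mem_univ (xs l))))
    (abs_nonneg _) (abs_nonneg _)

omit hw [Nonempty T] in
theorem abs_oQ_le {g2 : Fin M → ℝ} (h2 : ∀ a l l' h xs, |φ2 a l l' h xs| ≤ g2 a) (lam : I → ℝ)
    (i : I) (G : I → ℝ) (xs : Fin r → T) :
    |oQ b φ2 lam i G xs| ≤ ∑ a, r * (r * (|g2 a| * (∑ x, ∑ j, |b a x j|) ^ 2)) := by
  have hb : ∀ a x j, |b a x j| ≤ ∑ x, ∑ j, |b a x j| := fun a x j =>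
    (Finset.single_le_sum (f := fun j => |b a x j|) (fun j _ => abs_nonneg _)
      (Finset.mem_univ j)).trans (Finset.single_le_sum (f := fun x => ∑ j, |b a x j|)
      (fun x _ => Finset.sum_nonneg fun j _ => abs_nonneg _) (Finset.mem_univ x))
  refine (Finset.abs_sum_le_sum_abs _ _).trans (Finset.sum_le_sum fun a _ => ?_)
  refine (Finset.abs_sum_le_sum_abs _ _).trans
    ((Finset.sum_le_sum (g := fun _ => r * (|g2 a| * (∑ x, ∑ j, |b a x j|) ^ 2))
      fun l _ => ?_).trans_eq (by simp))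
  refine (Finset.abs_sum_le_sum_abs _ _).trans
    ((Finset.sum_le_sum (g := fun _ => |g2 a| * (∑ x, ∑ j, |b a x j|) ^ 2) fun l' _ => ?_).trans_eq
      (by simp))
  rw [abs_mul, abs_mul, sq]
  exact mul_le_mul ((h2 a l l' _ xs).trans (le_abs_self _))
    (mul_le_mul (hb a _ i) (hb a _ i) (abs_nonneg _)
      (Finset.sum_nonneg fun x _ => Finset.sum_nonneg fun j _ => abs_nonneg _))
    (mul_nonneg (abs_nonneg _) (abs_nonneg _)) (abs_nonneg _)

omit hw [Nonempty T] in
theorem cont_oL (h1c : ∀ a l xs, Continuous fun h => φ1 a l h xs) (lam : I → ℝ) (i : I)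
    (xs : Fin r → T) : Continuous fun G => oL b φ1 lam i G xs := by
  refine continuous_finsetSum _ fun a _ => continuous_finsetSum _ fun l _ => ?_
  exact Continuous.mul (Continuous.comp (g := fun h => φ1 a l h xs)
    (f := fun G => fld b lam G xs) (h1c a l xs) (cont_fld b lam xs)) continuous_const

omit hw [Nonempty T] in
theorem cont_oQ (h2c : ∀ a l l' xs, Continuous fun h => φ2 a l l' h xs) (lam : I → ℝ) (i : I)
    (xs : Fin r → T) : Continuous fun G => oQ b φ2 lam i G xs := by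
  refine continuous_finsetSum _ fun a _ => continuous_finsetSum _ fun l _ =>
    continuous_finsetSum _ fun l' _ => ?_
  exact Continuous.mul (Continuous.comp (g := fun h => φ2 a l l' h xs)
    (f := fun G => fld b lam G xs) (h2c a l l' xs) (cont_fld b lam xs)) continuous_const

omit hw [Nonempty T] [Fintype T] in
theorem cont_phi (hφ : ∀ xs, Continuous fun h => φ h xs) (lam : I → ℝ) (xs : Fin r → T) :
    Continuous fun G => φ (fld b lam G xs) xs :=
  Continuous.comp (g := fun h => φ h xs) (f := fun G => fld b lam G xs) (hφ xs)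
    (cont_fld b lam xs)

omit hw [Nonempty T] [Fintype T] in
theorem deriv_phi (h1c : ∀ a l xs, Continuous fun h => φ1 a l h xs)
    (hd1 : ∀ a l h xs, HasDerivAt
      (fun u => φ (Function.update h a (Function.update (h a) l u)) xs) (φ1 a l h xs) (h a l))
    (xs : Fin r → T) {h : ℝ → Fin M → Fin r → ℝ} {dh : Fin M → Fin r → ℝ} {s : ℝ}
    (hh : ∀ a l, HasDerivAt (fun q => h q a l) (dh a l) s) :
    HasDerivAt (fun q => φ (h q) xs) (∑ a, ∑ l, φ1 a l (h s) xs * dh a l) s := by
  have hc : ∀ j : Fin M × Fin r, Continuous fun k : Fin M × Fin r → ℝ =>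
      φ1 j.1 j.2 (fun a l => k (a, l)) xs := fun j =>
    Continuous.comp (g := fun h => φ1 j.1 j.2 h xs)
      (f := fun k : Fin M × Fin r → ℝ => fun a l => k (a, l)) (h1c j.1 j.2 xs) (by fun_prop)
  have hd : ∀ (j : Fin M × Fin r) (k : Fin M × Fin r → ℝ),
      HasDerivAt (fun z => φ (fun a l => Function.update k j z (a, l)) xs)
        (φ1 j.1 j.2 (fun a l => k (a, l)) xs) (k j) := by
    rintro ⟨a, l⟩ k
    refine (hd1 a l (fun a l => k (a, l)) xs).congr_of_eventuallyEq
      (Eventually.of_forall fun z => ?_)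
    refine congrArg (φ · xs) (funext fun a' => funext fun l' => ?_)
    by_cases ha : a' = a
    · subst ha; by_cases hl : l' = l <;> simp [hl]
    · simp [ha]
  have := deriv_chain (F := fun k : Fin M × Fin r → ℝ => φ (fun a l => k (a, l)) xs) hc hd
    (h := fun q j => h q j.1 j.2) (dh := fun j => dh j.1 j.2) (s := s) fun j => hh j.1 j.2
  rw [Fintype.sum_prod_type] at this
  exact this

omit hw [Nonempty T] [Fintype T] in
theorem deriv_phi_G [DecidableEq I] (h1c : ∀ a l xs, Continuous fun h => φ1 a l h xs)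
    (hd1 : ∀ a l h xs, HasDerivAt
      (fun u => φ (Function.update h a (Function.update (h a) l u)) xs) (φ1 a l h xs) (h a l))
    (lam : I → ℝ) (i : I) (G : I → ℝ) (xs : Fin r → T) :
    HasDerivAt (fun z => φ (fld b lam (Function.update G i z) xs) xs)
      (√(lam i) * oL b φ1 lam i G xs) (G i) := by
  refine (deriv_phi h1c hd1 xs (h := fun z => fld b lam (Function.update G i z) xs)
    fun a l => deriv_lin_G (b a) lam G i (G i) (xs l)).congr_deriv ?_
  simp only [Function.update_eq_self, oL, Finset.mul_sum]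
  exact Finset.sum_congr rfl fun a _ => Finset.sum_congr rfl fun l _ => by ring

omit hw [Nonempty T] [Fintype T] in
theorem deriv_oL_G [DecidableEq I] (hD : Disj b bz)
    (h2c : ∀ a l l' xs, Continuous fun h => φ2 a l l' h xs)
    (hd2 : ∀ a l l' h xs, HasDerivAt
      (fun u => φ1 a l (Function.update h a (Function.update (h a) l' u)) xs)
      (φ2 a l l' h xs) (h a l'))
    (lam : I → ℝ) (i : I) (G : I → ℝ) (xs : Fin r → T) :
    HasDerivAt (fun z => oL b φ1 lam i (Function.update G i z) xs)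
      (√(lam i) * oQ b φ2 lam i G xs) (G i) := by
  simp only [oL, oQ, Finset.mul_sum]
  refine HasDerivAt.fun_sum fun a _ => HasDerivAt.fun_sum fun l _ => ?_
  rcases eq_or_ne (b a (xs l) i) 0 with hb | hb
  · simp only [hb, mul_zero, zero_mul, Finset.sum_const_zero]
    exact hasDerivAt_const _ _
  set h0 := fld b lam G xs with hh0
  have hrow : ∀ z, fld b lam (Function.update G i z) xs
      = Function.update h0 a fun l' => lin (b a) lam (Function.update G i z) (xs l') := fun z => by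
    funext a' l'
    by_cases ha : a' = a
    · subst ha; simp [fld]
    · have h' : ∀ y, b a' y i = 0 := fun y =>
        (mul_eq_zero.1 (hD.orth a a' (Ne.symm ha) (xs l) y i)).resolve_left hb
      simp only [Function.update_of_ne ha, hh0, fld, lin]
      refine Finset.sum_congr rfl fun j _ => ?_
      by_cases hj : j = i
      · subst hj; simp [h']
      · simp [hj]
  have hd : ∀ (l' : Fin r) (k : Fin r → ℝ),
      HasDerivAt (fun z => φ1 a l (Function.update h0 a (Function.update k l' z)) xs)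
        (φ2 a l l' (Function.update h0 a k) xs) (k l') := fun l' k => by
    simpa using hd2 a l l' (Function.update h0 a k) xs
  have hc : ∀ l', Continuous fun k : Fin r → ℝ => φ2 a l l' (Function.update h0 a k) xs := fun l' =>
    Continuous.comp (g := fun h => φ2 a l l' h xs) (f := fun k => Function.update h0 a k)
      (h2c a l l' xs) (continuous_const.update a continuous_id)
  have := (deriv_chain (F := fun k : Fin r → ℝ => φ1 a l (Function.update h0 a k) xs) hc hd
    (h := fun z l' => lin (b a) lam (Function.update G i z) (xs l'))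
    fun l' => deriv_lin_G (b a) lam G i (G i) (xs l')).mul_const (b a (xs l) i)
  simp only [hrow]
  refine this.congr_deriv ?_
  rw [Finset.sum_mul]
  refine Finset.sum_congr rfl fun l' _ => ?_
  have e0 : (Function.update h0 a fun l' => lin (b a) lam G (xs l')) = h0 :=
    Function.update_eq_self a h0
  simp only [Function.update_eq_self, e0]
  rw [hh0]
  ring

theorem deriv_oU_G [DecidableEq I] (hD : Disj b bz)
    (h1c : ∀ a l xs, Continuous fun h => φ1 a l h xs)
    (h2c : ∀ a l l' xs, Continuous fun h => φ2 a l l' h xs)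
    (hd1 : ∀ a l h xs, HasDerivAt
      (fun u => φ (Function.update h a (Function.update (h a) l u)) xs) (φ1 a l h xs) (h a l))
    (hd2 : ∀ a l l' h xs, HasDerivAt
      (fun u => φ1 a l (Function.update h a (Function.update (h a) l' u)) xs)
      (φ2 a l l' h xs) (h a l'))
    (lam : I → ℝ) (i : I) (G : I → ℝ) :
    HasDerivAt (fun z => oU P w b bz φ φ1 lam i (Function.update G i z))
      (√(lam i) * oW P w b bz φ φ1 φ2 lam i G) (G i) := by
  have hS : ∀ xs : Fin r → T, HasDerivAt (fun z => oS P w b bz lam i (Function.update G i z) xs)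
      (√(lam i) * ∑ l, (crv P b lam G (xs l) i - fW P w b bz lam i G)) (G i) := fun xs => by
    rw [Finset.mul_sum]
    simp only [mul_sub]
    exact HasDerivAt.fun_sum fun l _ =>
      (deriv_dir_G P b bz lam G i (xs l)).sub (deriv_fU_G P b bz hw lam i G)
  refine (deriv_avg (v := fun z => bw P w b bz lam (Function.update G i z))
    (dv := fun x => √(lam i) * dir P b bz lam G x i) (s := G i)
    (fun x => bw_pos P b bz hw _ _ x)
    (fun x => by simpa using deriv_bw_G P b bz lam G i x)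
    (fun xs => ((deriv_phi_G h1c hd1 lam i G xs).mul (hS xs)).add
      (deriv_oL_G hD h2c hd2 lam i G xs))).congr_deriv ?_
  simp only [Function.update_eq_self]
  rw [oW, ← avg_const_mul]
  refine congrArg (avg (bw P w b bz lam G) r) (funext fun xs => ?_)
  rw [mean_smul_dir P b bz]
  simp only [← mul_sub, ← Finset.mul_sum]
  rw [show ∑ l, (dir P b bz lam G (xs l) i - fU P w b bz lam i G) = oS P w b bz lam i G xs from rfl]
  simp only [Pi.add_apply, Pi.mul_apply, Function.update_eq_self]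
  ring

theorem deriv_obs_t {l0 d : I → ℝ} (hpos : ∀ t ∈ Icc (0 : ℝ) 1, ∀ i, 0 ≤ l0 i + t * d i)
    (h1c : ∀ a l xs, Continuous fun h => φ1 a l h xs)
    (hd1 : ∀ a l h xs, HasDerivAt
      (fun u => φ (Function.update h a (Function.update (h a) l u)) xs) (φ1 a l h xs) (h a l))
    {s : ℝ} (hs : s ∈ Ioo (0 : ℝ) 1) (G : I → ℝ) :
    HasDerivAt
      (fun q => avg (bw P w b bz (seg l0 d q) G) r fun xs => φ (fld b (seg l0 d q) G xs) xs)
      ((∑ i, rate l0 d s i * G i * oU P w b bz φ φ1 (seg l0 d s) i G)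
        + oV P w b bz φ d (seg l0 d s) G) s := by
  refine (deriv_avg (v := fun q => bw P w b bz (seg l0 d q) G) (bw_pos P b bz hw _ G)
    (fun x => deriv_bw_t P b bz hpos hs G x)
    (F := fun q xs => φ (fld b (seg l0 d q) G xs) xs)
    (fun xs => deriv_phi h1c hd1 xs (h := fun q => fld b (seg l0 d q) G xs)
      fun a l => deriv_lin_t hpos hs (b a) G (xs l))).congr_deriv ?_
  simp only [oU, oV, ← avg_const_mul, ← avg_sum, ← avg_add]
  refine congrArg (avg (bw P w b bz (seg l0 d s) G) r) (funext fun xs => ?_)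
  set lam := seg l0 d s
  have em : ∑ y, gibbs (bw P w b bz lam G) y *
      ((∑ i, rate l0 d s i * G i * dir P b bz lam G y i) - 1 / 2 * comp bz d y)
      = (∑ i, rate l0 d s i * G i * fU P w b bz lam i G) + fV P w b bz d lam G := by
    simp only [fU, fV, Finset.mul_sum, mul_sub]
    rw [Finset.sum_comm (s := (Finset.univ : Finset I)), ← Finset.sum_add_distrib]
    refine Finset.sum_congr rfl fun y _ => ?_
    rw [sub_eq_add_neg]
    congr 1
    · exact Finset.sum_congr rfl fun i _ => by ring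
    · ring
  rw [em]
  have e1 : ∑ a, ∑ l, φ1 a l (fld b lam G xs) xs * ∑ i, rate l0 d s i * G i * b a (xs l) i
      = ∑ i, rate l0 d s i * G i * oL b φ1 lam i G xs := by
    simp only [oL, Finset.mul_sum]
    conv_rhs => rw [Finset.sum_comm]
    refine Finset.sum_congr rfl fun a _ => ?_
    conv_rhs => rw [Finset.sum_comm]
    exact Finset.sum_congr rfl fun l _ => Finset.sum_congr rfl fun i _ => by ring
  have e2 : ∑ l, ((∑ i, rate l0 d s i * G i * dir P b bz lam G (xs l) i) - 1 / 2 * comp bz d (xs l)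
      - ((∑ i, rate l0 d s i * G i * fU P w b bz lam i G) + fV P w b bz d lam G))
      = (∑ i, rate l0 d s i * G i * oS P w b bz lam i G xs)
        + ∑ l, (-(1 / 2) * comp bz d (xs l) - fV P w b bz d lam G) := by
    simp only [oS, Finset.mul_sum]
    rw [Finset.sum_comm (s := (Finset.univ : Finset I)), ← Finset.sum_add_distrib]
    refine Finset.sum_congr rfl fun l _ => ?_
    simp only [mul_sub, Finset.sum_sub_distrib]
    ring
  rw [e1, e2, mul_add, Finset.mul_sum, ← add_assoc, ← Finset.sum_add_distrib]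
  congr 1
  exact Finset.sum_congr rfl fun i _ => by ring

/-- Off-diagonal absolute values of a kernel on the replicas. -/
noncomputable def offSum (O : T → T → ℝ) (xs : Fin r → T) : ℝ :=
  ∑ l, ∑ k, if k = l then 0 else |O (xs l) (xs k)|

/-- Absolute values against one more replica. -/
noncomputable def mixSum (u : T → ℝ) (O : T → T → ℝ) (xs : Fin r → T) : ℝ :=
  ∑ l, ∑ y, gibbs u y * |O (xs l) y|

omit hw in
theorem avg_offSum {u : T → ℝ} (hu : ∀ x, 0 < u x) (O : T → T → ℝ) :
    avg u r (offSum O) = ((r : ℝ) ^ 2 - r) * avg2 u fun x y => |O x y| := by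
  unfold offSum
  rw [avg_sum]
  simp only [avg_sum]
  have : ∀ l k : Fin r, avg u r (fun xs => if k = l then 0 else |O (xs l) (xs k)|)
      = (avg2 u fun x y => |O x y|) - if k = l then avg2 u fun x y => |O x y| else 0 := by
    intro l k
    by_cases hk : k = l
    · simp [hk, avg_const hu]
    · simp only [hk, if_false, sub_zero]
      exact avg_two hu (Ne.symm hk) fun x y => |O x y|
  simp [this, Finset.sum_sub_distrib]
  ring

omit hw in
theorem avg_mixSum {u : T → ℝ} (hu : ∀ x, 0 < u x) (O : T → T → ℝ) :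
    avg u r (mixSum u O) = r * avg2 u fun x y => |O x y| := by
  unfold mixSum
  rw [avg_sum]
  have : ∀ l : Fin r, avg u r (fun xs => ∑ y, gibbs u y * |O (xs l) y|)
      = avg2 u fun x y => |O x y| := fun l => by
    rw [avg_one hu l fun x => ∑ y, gibbs u y * |O x y|, avg2_eq]
  simp [this]

omit hw [Nonempty T] [Fintype T] in
theorem bdir_sum (hD : Disj b bz) (d lam G : I → ℝ) (a : Fin M) (x y : T) :
    ∑ i, d i * (b a x i * dir P b bz lam G y i)
      = (∑ i, d i * (b a x i * b a y i)) * P.f1 (lin (b a) lam G y) := by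
  rw [Finset.sum_mul]
  refine Finset.sum_congr rfl fun i _ => ?_
  have : b a x i * ∑ a', P.f1 (lin (b a') lam G y) * b a' y i
      = b a x i * b a y i * P.f1 (lin (b a) lam G y) := by
    rw [Finset.mul_sum, Finset.sum_eq_single a]
    · ring
    · intro a' _ ha; rw [mul_left_comm, hD.orth a a' (Ne.symm ha), mul_zero]
    · simp
  rw [dir, mul_add, this, hD.orthz, add_zero]; ring

theorem obs_key (hD : Disj b bz) {d : I → ℝ} (hdiag : ∀ a x, ∑ i, d i * b a x i ^ 2 = 0)
    (lam G : I → ℝ) :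
    (∑ i, d i / 2 * oW P w b bz φ φ1 φ2 lam i G) + oV P w b bz φ d lam G
      = avg (bw P w b bz lam G) r fun xs =>
          1 / 2 * (φ (fld b lam G xs) xs * oA P w b bz d lam G xs) + oB P w b bz φ1 d lam G xs
            + 1 / 2 * oC b φ2 d lam G xs := by
  set g := bw P w b bz lam G with hg
  have hu : ∀ x, 0 < g x := bw_pos P b bz hw lam G
  set Γ := grad P b bz lam d G with hΓ
  set Cr : Fin M → T → T → ℝ := fun a x y => ∑ i, d i * (b a x i * b a y i) with hCr
  set G1 : T → ℝ := fun x => ∑ y, gibbs g y * Γ x y with hG1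
  set G0 := avg2 g Γ with hG0
  have eW : ∑ i, d i * fW P w b bz lam i G = -2 * fV P w b bz d lam G - G0 := by
    have h := free_identity P b bz hD hdiag lam G (w := w)
    have e : ∑ i, d i / 2 * fW P w b bz lam i G = 1 / 2 * ∑ i, d i * fW P w b bz lam i G := by
      rw [Finset.mul_sum]; exact Finset.sum_congr rfl fun i _ => by ring
    rw [e] at h; rw [hG0, hΓ, hg]; linarith
  have eU : ∀ x, ∑ i, d i * (dir P b bz lam G x i * fU P w b bz lam i G) = G1 x := fun x => by
    simp only [fU, hG1, hΓ, ← dir_mul_sum P b bz hD lam d G, Finset.mul_sum]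
    rw [Finset.sum_comm]
    exact Finset.sum_congr rfl fun y _ => Finset.sum_congr rfl fun i _ => by ring
  have eU2 : ∑ i, d i * (fU P w b bz lam i G * fU P w b bz lam i G) = G0 := by
    rw [hG0, avg2_eq]
    calc ∑ i, d i * (fU P w b bz lam i G * fU P w b bz lam i G)
        = ∑ x, gibbs g x * ∑ i, d i * (dir P b bz lam G x i * fU P w b bz lam i G) := by
          conv_lhs => enter [2, i, 2, 1]; rw [fU]
          simp only [Finset.mul_sum, Finset.sum_mul, hg]
          rw [Finset.sum_comm]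
          exact Finset.sum_congr rfl fun y _ => Finset.sum_congr rfl fun i _ => by ring
      _ = _ := by simp only [eU, hG1]
  set A : (Fin r → T) → ℝ := fun xs => (∑ l, ∑ k, if k = l then 0 else Γ (xs l) (xs k))
    - 2 * r * (∑ l, G1 (xs l)) + ((r : ℝ) ^ 2 + r) * G0 with hA
  set B : (Fin r → T) → ℝ := fun xs => ∑ a, ∑ l, φ1 a l (fld b lam G xs) xs *
    ((∑ k, Cr a (xs l) (xs k) * P.f1 (lin (b a) lam G (xs k)))
      - r * ∑ y, gibbs g y * (Cr a (xs l) y * P.f1 (lin (b a) lam G y))) with hB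
  set Q : (Fin r → T) → ℝ := fun xs => ∑ a, ∑ l, ∑ k,
    φ2 a l k (fld b lam G xs) xs * Cr a (xs l) (xs k) with hQ
  show _ = avg g r fun xs => 1 / 2 * (φ (fld b lam G xs) xs * A xs) + B xs + 1 / 2 * Q xs
  simp only [oW, oV, ← hg, ← avg_const_mul, ← avg_sum, ← avg_add]
  refine congrArg (avg g r) (funext fun xs => ?_)
  have eS : ∑ i, d i * oS P w b bz lam i G xs ^ 2
      = (∑ l, ∑ k, Γ (xs l) (xs k)) - 2 * r * (∑ l, G1 (xs l)) + (r : ℝ) ^ 2 * G0 := by
    have : ∀ i, d i * oS P w b bz lam i G xs ^ 2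
        = (∑ l, ∑ k, d i * (dir P b bz lam G (xs l) i * dir P b bz lam G (xs k) i))
          - 2 * r * (∑ l, d i * (dir P b bz lam G (xs l) i * fU P w b bz lam i G))
          + (r : ℝ) ^ 2 * (d i * (fU P w b bz lam i G * fU P w b bz lam i G)) := fun i => by
      simp only [oS, Finset.sum_sub_distrib, Finset.sum_const, Finset.card_univ,
        Fintype.card_fin, nsmul_eq_mul, ← Finset.mul_sum, ← Finset.sum_mul]
      ring
    simp only [this, Finset.sum_add_distrib, Finset.sum_sub_distrib]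
    rw [← Finset.mul_sum, ← Finset.mul_sum, eU2, Finset.sum_comm,
      Finset.sum_comm (s := (Finset.univ : Finset I))]
    simp only [eU, hΓ, ← dir_mul_sum P b bz hD lam d G]
    congr 2
    exact Finset.sum_congr rfl fun l _ => Finset.sum_comm
  have eq' : ∑ i, d i * ∑ l, (crv P b lam G (xs l) i - fW P w b bz lam i G)
      = (r : ℝ) * (2 * fV P w b bz d lam G + G0) := by
    simp only [Finset.sum_sub_distrib, Finset.sum_const, Finset.card_univ, Fintype.card_fin,
      nsmul_eq_mul, mul_sub, Finset.mul_sum]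
    rw [Finset.sum_comm]
    simp only [crv_sum P b hdiag, Finset.sum_const_zero, zero_sub, mul_left_comm (d _),
      ← Finset.mul_sum, eW]
    ring
  have eD : ∑ l, ∑ k, Γ (xs l) (xs k)
      = (∑ l, ∑ k, if k = l then 0 else Γ (xs l) (xs k)) + ∑ l, comp bz d (xs l) := by
    rw [← Finset.sum_add_distrib]
    refine Finset.sum_congr rfl fun l _ => ?_
    rw [← Finset.add_sum_erase _ _ (Finset.mem_univ l),
      ← Finset.add_sum_erase _ (fun k => if k = l then 0 else Γ (xs l) (xs k))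
        (Finset.mem_univ l), hΓ, grad_self P b bz hdiag]
    simp only [if_true, zero_add]
    rw [add_comm]
    congr 1
    exact Finset.sum_congr rfl fun k hk => (if_neg (Finset.ne_of_mem_erase hk)).symm
  have eL : ∑ i, d i * (oL b φ1 lam i G xs * oS P w b bz lam i G xs) = B xs := by
    have e : ∀ i, d i * (oL b φ1 lam i G xs * oS P w b bz lam i G xs)
        = ∑ a, ∑ l, φ1 a l (fld b lam G xs) xs *
            ((∑ k, d i * (b a (xs l) i * dir P b bz lam G (xs k) i))
              - r * (d i * (b a (xs l) i * fU P w b bz lam i G))) := fun i => by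
      simp only [oL, oS, Finset.sum_sub_distrib, Finset.sum_const, Finset.card_univ,
        Fintype.card_fin, nsmul_eq_mul, Finset.sum_mul, ← Finset.mul_sum]
      rw [Finset.mul_sum]
      refine Finset.sum_congr rfl fun a _ => ?_
      rw [Finset.mul_sum]
      refine Finset.sum_congr rfl fun l _ => ?_
      ring
    simp only [e, hB]
    rw [Finset.sum_comm]
    refine Finset.sum_congr rfl fun a _ => ?_
    rw [Finset.sum_comm]
    refine Finset.sum_congr rfl fun l _ => ?_
    rw [← Finset.mul_sum, Finset.sum_sub_distrib, Finset.sum_comm]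
    simp only [bdir_sum hD, hCr, ← Finset.mul_sum]
    congr 3
    simp only [← bdir_sum (P := P) hD d lam G a, fU, Finset.mul_sum, hg]
    rw [Finset.sum_comm]
    exact Finset.sum_congr rfl fun y _ => Finset.sum_congr rfl fun i _ => by ring
  have eQ : ∑ i, d i * oQ b φ2 lam i G xs = Q xs := by
    simp only [oQ, hQ, hCr, Finset.mul_sum]
    rw [Finset.sum_comm]
    refine Finset.sum_congr rfl fun a _ => ?_
    rw [Finset.sum_comm]
    refine Finset.sum_congr rfl fun l _ => ?_
    rw [Finset.sum_comm]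
    exact Finset.sum_congr rfl fun k _ => Finset.sum_congr rfl fun i _ => by ring
  have eC : ∑ l, (-(1 / 2) * comp bz d (xs l) - fV P w b bz d lam G)
      = -(1 / 2) * (∑ l, comp bz d (xs l)) - r * fV P w b bz d lam G := by
    simp [Finset.sum_sub_distrib, ← Finset.mul_sum]
  calc _ = 1 / 2 * (φ (fld b lam G xs) xs * ∑ i, d i * oS P w b bz lam i G xs ^ 2)
        + (∑ i, d i * (oL b φ1 lam i G xs * oS P w b bz lam i G xs))
        + 1 / 2 * (φ (fld b lam G xs) xs *
            ∑ i, d i * ∑ l, (crv P b lam G (xs l) i - fW P w b bz lam i G))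
        + 1 / 2 * (∑ i, d i * oQ b φ2 lam i G xs)
        + φ (fld b lam G xs) xs *
            ∑ l, (-(1 / 2) * comp bz d (xs l) - fV P w b bz d lam G) := by
        have lin4 : ∀ (c : ℝ) (X Y Z V : I → ℝ),
            ∑ i, d i / 2 * (c * X i + 2 * Y i + c * Z i + V i)
              = 1 / 2 * (c * ∑ i, d i * X i) + (∑ i, d i * Y i) + 1 / 2 * (c * ∑ i, d i * Z i)
                + 1 / 2 * ∑ i, d i * V i := fun c X Y Z V => by
          simp only [Finset.mul_sum, ← Finset.sum_add_distrib]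
          exact Finset.sum_congr rfl fun i _ => by ring
        rw [lin4]
    _ = _ := by rw [eS, eq', eD, eL, eQ, eC, hA]; ring

theorem obs_identity (hD : Disj b bz) {d : I → ℝ} (hdiag : ∀ a x, ∑ i, d i * b a x i ^ 2 = 0)
    {g0 : ℝ} {g1 g2 : Fin M → ℝ} (h0 : ∀ h xs, |φ h xs| ≤ g0)
    (h1 : ∀ a l h xs, |φ1 a l h xs| ≤ g1 a) (h2 : ∀ a l l' h xs, |φ2 a l l' h xs| ≤ g2 a)
    (lam G : I → ℝ) :
    |(∑ i, d i / 2 * oW P w b bz φ φ1 φ2 lam i G) + oV P w b bz φ d lam G|
      ≤ 2 * (r : ℝ) ^ 2 * avg2 (bw P w b bz lam G) (fun x y =>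
          g0 * |grad P b bz lam d G x y| +
            ∑ a, (g1 a * P.b1 + g2 a) * |∑ i, d i * (b a x i * b a y i)|) := by
  set g := bw P w b bz lam G with hg
  have hu : ∀ x, 0 < g x := bw_pos P b bz hw lam G
  set Γ := grad P b bz lam d G with hΓ
  set Cr : Fin M → T → T → ℝ := fun a x y => ∑ i, d i * (b a x i * b a y i) with hCr
  rw [obs_key hw hD hdiag]
  have hf1 := P.h1
  have nC : ∀ a, 0 ≤ avg2 g fun x y => |Cr a x y| := fun a =>
    Finset.sum_nonneg fun x _ => Finset.sum_nonneg fun y _ =>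
      mul_nonneg (mul_nonneg (gibbs_nonneg hu x) (gibbs_nonneg hu y)) (abs_nonneg _)
  refine (abs_avg_le hu (F' := fun xs => 1 / 2 * g0 * (offSum Γ xs + 2 * r * mixSum g Γ xs
      + ((r : ℝ) ^ 2 + r) * avg2 g fun x y => |Γ x y|)
    + (∑ a, g1 a * P.b1 * (offSum (Cr a) xs + r * mixSum g (Cr a) xs))
    + 1 / 2 * ∑ a, g2 a * offSum (Cr a) xs) fun xs => ?_).trans ?_
  · refine (abs_add_le _ _).trans (add_le_add ((abs_add_le _ _).trans (add_le_add ?_ ?_)) ?_)
    · rw [abs_mul, abs_of_pos (by norm_num : (0 : ℝ) < 1 / 2), mul_assoc, abs_mul]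
      refine mul_le_mul_of_nonneg_left
        (mul_le_mul (h0 _ xs) ?_ (abs_nonneg _) ((abs_nonneg _).trans (h0 (fld b lam G xs) xs)))
        (by norm_num)
      refine (abs_add_le _ _).trans (add_le_add ((abs_sub _ _).trans (add_le_add ?_ ?_)) ?_)
      · refine (Finset.abs_sum_le_sum_abs _ _).trans (Finset.sum_le_sum fun l _ => ?_)
        refine (Finset.abs_sum_le_sum_abs _ _).trans (Finset.sum_le_sum fun k _ => ?_)
        split_ifs <;> simp [hΓ]
      · rw [abs_mul, abs_of_nonneg (by positivity : (0 : ℝ) ≤ 2 * r)]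
        refine mul_le_mul_of_nonneg_left ((Finset.abs_sum_le_sum_abs _ _).trans
          (Finset.sum_le_sum fun l _ => ?_)) (by positivity)
        refine (Finset.abs_sum_le_sum_abs _ _).trans (Finset.sum_le_sum fun y _ => ?_)
        rw [abs_mul, abs_of_nonneg (gibbs_nonneg hu y)]
      · rw [abs_mul, abs_of_nonneg (by positivity : (0 : ℝ) ≤ (r : ℝ) ^ 2 + r)]
        refine mul_le_mul_of_nonneg_left ?_ (by positivity)
        refine (Finset.abs_sum_le_sum_abs _ _).trans (Finset.sum_le_sum fun x _ => ?_)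
        refine (Finset.abs_sum_le_sum_abs _ _).trans (Finset.sum_le_sum fun y _ => ?_)
        rw [abs_mul, abs_of_nonneg (mul_nonneg (gibbs_nonneg hu x) (gibbs_nonneg hu y))]
    · refine (Finset.abs_sum_le_sum_abs _ _).trans (Finset.sum_le_sum fun a _ => ?_)
      rw [offSum, mixSum, Finset.mul_sum (a := (r : ℝ)), ← Finset.sum_add_distrib, Finset.mul_sum]
      refine (Finset.abs_sum_le_sum_abs _ _).trans (Finset.sum_le_sum fun l _ => ?_)
      rw [abs_mul, mul_assoc]
      refine mul_le_mul (h1 a l _ xs) ?_ (abs_nonneg _) ((abs_nonneg _).trans (h1 a l (fld b lam G xs) xs))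
      rw [mul_add, ← mul_assoc, mul_comm P.b1 (r : ℝ), mul_assoc]
      refine (abs_sub _ _).trans (add_le_add ?_ ?_)
      · rw [Finset.mul_sum]
        refine (Finset.abs_sum_le_sum_abs _ _).trans (Finset.sum_le_sum fun k _ => ?_)
        rcases eq_or_ne k l with rfl | hk
        · simp [hCr, ← pow_two, hdiag]
        · rw [if_neg hk, abs_mul, mul_comm P.b1]
          exact mul_le_mul_of_nonneg_left (hf1 _) (abs_nonneg _)
      · rw [abs_mul, Nat.abs_cast, Finset.mul_sum (a := P.b1)]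
        refine mul_le_mul_of_nonneg_left ((Finset.abs_sum_le_sum_abs _ _).trans
          (Finset.sum_le_sum fun y _ => ?_)) (Nat.cast_nonneg _)
        rw [abs_mul, abs_mul, abs_of_nonneg (gibbs_nonneg hu y), mul_left_comm P.b1,
          mul_comm P.b1]
        exact mul_le_mul_of_nonneg_left (mul_le_mul_of_nonneg_left (hf1 _) (abs_nonneg _))
          (gibbs_nonneg hu y)
    · rw [abs_mul, abs_of_pos (by norm_num : (0 : ℝ) < 1 / 2)]
      refine mul_le_mul_of_nonneg_left ((Finset.abs_sum_le_sum_abs _ _).trans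
        (Finset.sum_le_sum fun a _ => ?_)) (by norm_num)
      rw [offSum, Finset.mul_sum]
      refine (Finset.abs_sum_le_sum_abs _ _).trans (Finset.sum_le_sum fun l _ => ?_)
      rw [Finset.mul_sum]
      refine (Finset.abs_sum_le_sum_abs _ _).trans (Finset.sum_le_sum fun k _ => ?_)
      rcases eq_or_ne k l with rfl | hk
      · simp [hCr, ← pow_two, hdiag]
      · rw [if_neg hk, abs_mul]
        exact mul_le_mul_of_nonneg_right (h2 a l k _ xs) (abs_nonneg _)
  · simp only [avg_add, avg_const_mul, avg_sum, avg_offSum hu, avg_mixSum hu, avg_const hu]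
    have eR : (avg2 g fun x y => g0 * |Γ x y| +
          ∑ a, (g1 a * P.b1 + g2 a) * |∑ i, d i * (b a x i * b a y i)|)
        = g0 * (avg2 g fun x y => |Γ x y|)
          + ∑ a, (g1 a * P.b1 + g2 a) * avg2 g fun x y => |Cr a x y| := by
      simp only [avg2_eq, Finset.mul_sum, mul_add, Finset.sum_add_distrib]
      congr 1
      · exact Finset.sum_congr rfl fun x _ => Finset.sum_congr rfl fun y _ => by ring
      · conv_rhs => rw [Finset.sum_comm]
        refine Finset.sum_congr rfl fun x _ => ?_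
        rw [Finset.sum_comm]
        exact Finset.sum_congr rfl fun a _ => Finset.sum_congr rfl fun y _ => by ring
    rw [eR, mul_add (2 * (r : ℝ) ^ 2)]
    rw [Finset.mul_sum (a := (1 : ℝ) / 2), Finset.mul_sum (a := 2 * (r : ℝ) ^ 2), add_assoc,
      ← Finset.sum_add_distrib]
    refine add_le_add (le_of_eq (by ring)) (Finset.sum_le_sum fun a _ => ?_)
    rcases Nat.eq_zero_or_pos r with hr | hr
    · subst hr; simp
    obtain ⟨x⟩ := (inferInstance : Nonempty T)
    have n1 : 0 ≤ g1 a := (abs_nonneg _).trans (h1 a ⟨0, hr⟩ (fun _ _ => 0) fun _ => x)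
    have n2 : 0 ≤ g2 a := (abs_nonneg _).trans (h2 a ⟨0, hr⟩ ⟨0, hr⟩ (fun _ _ => 0) fun _ => x)
    have hr' : (0 : ℝ) ≤ r := Nat.cast_nonneg r
    nlinarith [mul_nonneg (mul_nonneg (mul_nonneg n1 (b1_nonneg P)) (nC a)) hr',
      mul_nonneg (mul_nonneg n2 (nC a)) hr', mul_nonneg (mul_nonneg n2 (nC a)) (sq_nonneg (r : ℝ))]

/-- The derivative controlled by the observable when the brackets are bounded. -/
theorem obs_weighted (hD : Disj b bz) {d : I → ℝ} (hdiag : ∀ a x, ∑ i, d i * b a x i ^ 2 = 0)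
    {g1 g2 : Fin M → ℝ} (h1 : ∀ a l h xs, |φ1 a l h xs| ≤ g1 a)
    (h2 : ∀ a l l' h xs, |φ2 a l l' h xs| ≤ g2 a) (hφ0 : ∀ h xs, 0 ≤ φ h xs)
    {Dg : ℝ} {Da : Fin M → ℝ} (lam G : I → ℝ) (hDg : ∀ x y, |grad P b bz lam d G x y| ≤ Dg)
    (hDa : ∀ a x y, |∑ i, d i * (b a x i * b a y i)| ≤ Da a) :
    |(∑ i, d i / 2 * oW P w b bz φ φ1 φ2 lam i G) + oV P w b bz φ d lam G|
      ≤ 2 * (r : ℝ) ^ 2 * (Dg * avg (bw P w b bz lam G) r (fun xs => φ (fld b lam G xs) xs)
          + ∑ a, (g1 a * P.b1 + g2 a) * Da a) := by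
  set g := bw P w b bz lam G with hg
  have hu : ∀ x, 0 < g x := bw_pos P b bz hw lam G
  obtain ⟨x0⟩ := (inferInstance : Nonempty T)
  have hDg0 : 0 ≤ Dg := (abs_nonneg _).trans (hDg x0 x0)
  have hDa0 : ∀ a, 0 ≤ Da a := fun a => (abs_nonneg _).trans (hDa a x0 x0)
  rw [obs_key hw hD hdiag]
  refine (abs_avg_le hu (F' := fun xs => 2 * (r : ℝ) ^ 2 * (Dg * φ (fld b lam G xs) xs
    + ∑ a, (g1 a * P.b1 + g2 a) * Da a)) fun xs => ?_).trans_eq ?_
  · have hf := hφ0 (fld b lam G xs) xs
    have hA : |oA P w b bz d lam G xs| ≤ 4 * (r : ℝ) ^ 2 * Dg := by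
      have e1 : |∑ l, ∑ k, if k = l then 0 else grad P b bz lam d G (xs l) (xs k)|
          ≤ ((r : ℝ) ^ 2 - r) * Dg := by
        refine (Finset.abs_sum_le_sum_abs _ _).trans ((Finset.sum_le_sum fun l _ =>
          (Finset.abs_sum_le_sum_abs _ _).trans (Finset.sum_le_sum (g := fun k =>
            Dg - if k = l then Dg else 0) fun k _ => ?_)).trans_eq ?_)
        · split_ifs with hk
          · simp
          · simpa using hDg (xs l) (xs k)
        · simp [Finset.sum_sub_distrib]; ring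
      have e2 : |∑ l, ∑ y, gibbs g y * grad P b bz lam d G (xs l) y| ≤ r * Dg := by
        refine (Finset.abs_sum_le_sum_abs _ _).trans ((Finset.sum_le_sum (g := fun _ => Dg)
          fun l _ => abs_mean_le hu (hDg (xs l))).trans_eq (by simp))
      have e3 : |avg2 g (grad P b bz lam d G)| ≤ Dg := abs_avg2_le hu hDg
      unfold oA
      refine (abs_add_le _ _).trans ((add_le_add (abs_sub _ _) le_rfl).trans ?_)
      rw [abs_mul, abs_mul _ (avg2 _ _), abs_of_nonneg (by positivity : (0 : ℝ) ≤ 2 * r),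
        abs_of_nonneg (by positivity : (0 : ℝ) ≤ (r : ℝ) ^ 2 + r)]
      nlinarith [mul_le_mul_of_nonneg_left e2 (by positivity : (0 : ℝ) ≤ 2 * r),
        mul_le_mul_of_nonneg_left e3 (by positivity : (0 : ℝ) ≤ (r : ℝ) ^ 2 + r)]
    have hB : |oB P w b bz φ1 d lam G xs| ≤ ∑ a, 2 * (r : ℝ) ^ 2 * (g1 a * P.b1) * Da a := by
      refine (Finset.abs_sum_le_sum_abs _ _).trans (Finset.sum_le_sum fun a _ => ?_)
      refine (Finset.abs_sum_le_sum_abs _ _).trans ((Finset.sum_le_sum
        (g := fun _ => 2 * (r : ℝ) * (g1 a * P.b1) * Da a) fun l _ => ?_).trans_eq (by simp; ring))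
      rw [abs_mul, show 2 * (r : ℝ) * (g1 a * P.b1) * Da a
        = g1 a * (r * (Da a * P.b1) + r * (Da a * P.b1)) by ring]
      refine mul_le_mul (h1 a l _ xs) ((abs_sub _ _).trans (add_le_add ?_ ?_)) (abs_nonneg _)
        ((abs_nonneg _).trans (h1 a l (fld b lam G xs) xs))
      · refine (Finset.abs_sum_le_sum_abs _ _).trans
          ((Finset.sum_le_sum (g := fun _ => Da a * P.b1) fun k _ => ?_).trans_eq (by simp))
        rw [abs_mul]
        exact mul_le_mul (hDa a _ _) (P.h1 _) (abs_nonneg _) (hDa0 a)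
      · rw [abs_mul, Nat.abs_cast]
        refine mul_le_mul_of_nonneg_left (abs_mean_le hu fun y => ?_) (Nat.cast_nonneg _)
        rw [abs_mul]
        exact mul_le_mul (hDa a _ _) (P.h1 _) (abs_nonneg _) (hDa0 a)
    have hC : |oC b φ2 d lam G xs| ≤ ∑ a, (r : ℝ) ^ 2 * g2 a * Da a := by
      refine (Finset.abs_sum_le_sum_abs _ _).trans (Finset.sum_le_sum fun a _ => ?_)
      refine (Finset.abs_sum_le_sum_abs _ _).trans ((Finset.sum_le_sum
        (g := fun _ => (r : ℝ) * (g2 a * Da a)) fun l _ => ?_).trans_eq (by simp; ring))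
      refine (Finset.abs_sum_le_sum_abs _ _).trans ((Finset.sum_le_sum
        (g := fun _ => g2 a * Da a) fun k _ => ?_).trans_eq (by simp))
      rw [abs_mul]
      exact mul_le_mul (h2 a l k _ xs) (hDa a _ _) (abs_nonneg _)
        ((abs_nonneg _).trans (h2 a l k (fld b lam G xs) xs))
    have e : ∑ a, (g1 a * P.b1 + g2 a) * (2 * (r : ℝ) ^ 2 * Da a)
        = (∑ a, 2 * (r : ℝ) ^ 2 * (g1 a * P.b1) * Da a)
          + 2 * ∑ a, (r : ℝ) ^ 2 * g2 a * Da a := by
      rw [Finset.mul_sum (a := (2 : ℝ)), ← Finset.sum_add_distrib]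
      exact Finset.sum_congr rfl fun a _ => by ring
    have e' : 2 * (r : ℝ) ^ 2 * ∑ a, (g1 a * P.b1 + g2 a) * Da a
        = ∑ a, (g1 a * P.b1 + g2 a) * (2 * (r : ℝ) ^ 2 * Da a) := by
      rw [Finset.mul_sum]; exact Finset.sum_congr rfl fun a _ => by ring
    refine (abs_add_le _ _).trans ((add_le_add (abs_add_le _ _) le_rfl).trans ?_)
    rw [abs_mul (1 / 2 : ℝ), abs_mul (φ _ _), abs_mul (1 / 2 : ℝ) (oC _ _ _ _ _ _),
      abs_of_nonneg hf, abs_of_pos (by norm_num : (0 : ℝ) < 1 / 2), mul_add (2 * (r : ℝ) ^ 2), e', e]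
    nlinarith [mul_le_mul_of_nonneg_left hA hf,
      abs_nonneg (oC b φ2 d lam G xs)]
  · simp only [avg_const_mul, avg_add, avg_const hu]

end Itp

open Itp

section Obs

variable {T I : Type*} [Fintype T] [Nonempty T] [Fintype I] {M : ℕ} (P : Pot) {w : T → ℝ}
  (b : Fin M → T → I → ℝ) (bz : T → I → ℝ)

/-- Replica observable of the pattern fields. -/
noncomputable def obs {r : ℕ} (φ : (Fin M → Fin r → ℝ) → (Fin r → T) → ℝ) (w : T → ℝ)
    (lam : I → ℝ) : ℝ :=
  ∫ G, avg (bw P w b bz lam G) r (fun xs => φ (fun a l => lin (b a) lam G (xs l)) xs) ∂gaus I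

theorem continuous_obs (hw : ∀ x, 0 < w x) {r : ℕ}
    (φ : (Fin M → Fin r → ℝ) → (Fin r → T) → ℝ) (hφ : ∀ xs, Continuous fun h => φ h xs) {g0 : ℝ}
    (h0 : ∀ h xs, |φ h xs| ≤ g0) : Continuous fun lam => obs P b bz φ w lam := by
  have hc : Continuous fun p : (I → ℝ) × (I → ℝ) =>
      avg (bw P w b bz p.1 p.2) r fun xs => φ (fld b p.1 p.2 xs) xs := by
    have : ∀ xs : Fin r → T, Continuous fun p : (I → ℝ) × (I → ℝ) => φ (fld b p.1 p.2 xs) xs :=
      fun xs => Continuous.comp (g := fun h => φ h xs)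
        (f := fun p : (I → ℝ) × (I → ℝ) => fld b p.1 p.2 xs) (hφ xs) (cont_fld2 b xs)
    simp only [avg]
    exact continuous_finsetSum _ fun xs _ =>
      (continuous_finsetProd _ fun l _ => cont_gibbs2 P b bz hw (xs l)).mul (this xs)
  have h1 : ∀ lam : I → ℝ, Continuous fun G =>
      avg (bw P w b bz lam G) r fun xs => φ (fld b lam G xs) xs := fun lam =>
    Continuous.comp (g := fun p : (I → ℝ) × (I → ℝ) =>
      avg (bw P w b bz p.1 p.2) r fun xs => φ (fld b p.1 p.2 xs) xs)
      (f := fun G => (lam, G)) hc (continuous_const.prodMk continuous_id)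
  have h2 : ∀ G : I → ℝ, Continuous fun lam =>
      avg (bw P w b bz lam G) r fun xs => φ (fld b lam G xs) xs := fun G =>
    Continuous.comp (g := fun p : (I → ℝ) × (I → ℝ) =>
      avg (bw P w b bz p.1 p.2) r fun xs => φ (fld b p.1 p.2 xs) xs)
      (f := fun lam => (lam, G)) hc (continuous_id.prodMk continuous_const)
  exact continuous_of_dominated (bound := fun _ => g0) (fun lam => (h1 lam).aestronglyMeasurable)
    (fun lam => ae_of_all _ fun G =>
      (Real.norm_eq_abs _).trans_le (abs_avg_const hw fun xs => h0 _ xs))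
    (integrable_const g0) (ae_of_all _ h2)

/-- The derivative of a replica observable as a Gaussian mean. -/
theorem hasDerivAt_obs_eq (hD : Disj b bz) (hw : ∀ x, 0 < w x) {l0 d : I → ℝ}
    (hpos : ∀ t ∈ Icc (0 : ℝ) 1, ∀ i, 0 ≤ l0 i + t * d i)
    (hdiag : ∀ a x, ∑ i, d i * b a x i ^ 2 = 0) {r : ℕ}
    (φ : (Fin M → Fin r → ℝ) → (Fin r → T) → ℝ) (g0 : ℝ) (g1 g2 : Fin M → ℝ)
    (φ1 : Fin M → Fin r → (Fin M → Fin r → ℝ) → (Fin r → T) → ℝ)
    (φ2 : Fin M → Fin r → Fin r → (Fin M → Fin r → ℝ) → (Fin r → T) → ℝ)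
    (hφ : ∀ xs, Continuous fun h => φ h xs)
    (hφ1c : ∀ a l xs, Continuous fun h => φ1 a l h xs)
    (hφ2c : ∀ a l l' xs, Continuous fun h => φ2 a l l' h xs)
    (hd1 : ∀ a l h xs, HasDerivAt
      (fun u => φ (Function.update h a (Function.update (h a) l u)) xs) (φ1 a l h xs) (h a l))
    (hd2 : ∀ a l l' h xs, HasDerivAt
      (fun u => φ1 a l (Function.update h a (Function.update (h a) l' u)) xs)
      (φ2 a l l' h xs) (h a l'))
    (h0 : ∀ h xs, |φ h xs| ≤ g0) (h1 : ∀ a l h xs, |φ1 a l h xs| ≤ g1 a)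
    (h2 : ∀ a l l' h xs, |φ2 a l l' h xs| ≤ g2 a) {t : ℝ} (ht : t ∈ Ioo (0 : ℝ) 1) :
    HasDerivAt (fun u : ℝ => obs P b bz φ w fun i => l0 i + u * d i)
      (∫ G, (∑ i, d i / 2 * oW P w b bz φ φ1 φ2 (seg l0 d t) i G)
        + oV P w b bz φ d (seg l0 d t) G ∂gaus I) t := by
  classical
  set lam : ℝ → I → ℝ := seg l0 d with hlam
  have hg0 : 0 ≤ g0 :=
    (abs_nonneg _).trans (h0 (fun _ _ => 0) fun _ => Classical.arbitrary T)
  set S0 : ℝ := r * (2 * dbd P b bz)
  set L0 : ℝ := ∑ a, r * (|g1 a| * ∑ x, ∑ j, |b a x j|)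
  set Q0 : ℝ := ∑ a, r * (r * (|g2 a| * (∑ x, ∑ j, |b a x j|) ^ 2))
  set W0 : ℝ := r * (dbd P b bz + (dbd P b bz + dbd P b bz * (dbd P b bz + dbd P b bz)))
  have hU : ∀ q i G, |oU P w b bz φ φ1 (lam q) i G| ≤ g0 * S0 + L0 := fun q i G =>
    abs_avg_const hw fun xs => (abs_add_le _ _).trans (add_le_add
      ((abs_mul _ _).trans_le (mul_le_mul (h0 _ xs) (abs_oS_le hw _ i G xs) (abs_nonneg _) hg0))
      (abs_oL_le h1 _ i G xs))
  have hV : ∀ q G, |oV P w b bz φ d (lam q) G| ≤ g0 * (r * (2 * ∑ x, |comp bz d x|)) := fun q G =>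
    abs_avg_const hw fun xs => (abs_mul _ _).trans_le (mul_le_mul (h0 _ xs)
      ((Finset.abs_sum_le_sum_abs _ _).trans ((Finset.sum_le_sum
        (g := fun _ => 2 * ∑ x, |comp bz d x|) fun l _ => (abs_sub _ _).trans (by
          have e1 := Finset.single_le_sum (f := fun x => |comp bz d x|) (fun y _ => abs_nonneg _)
            (Finset.mem_univ (xs l))
          have e2 := abs_fV_le P b bz hw d (lam q) G
          rw [abs_mul, abs_neg, abs_of_pos (by norm_num : (0 : ℝ) < 1 / 2)]
          linarith [abs_nonneg (comp bz d (xs l))])).trans_eq (by simp))) (abs_nonneg _) hg0)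
  have hcS := fun q i xs => cont_oS (P := P) (b := b) (bz := bz) (r := r) hw (lam q) i xs
  have hcP := fun q xs => cont_phi (b := b) hφ (lam q) xs
  have hcL := fun q i xs => cont_oL (b := b) hφ1c (lam q) i xs
  have hcQ := fun q i xs => cont_oQ (b := b) hφ2c (lam q) i xs
  have h := deriv_gauss hpos ht
    (Φ := fun q G => avg (bw P w b bz (lam q) G) r fun xs => φ (fld b (lam q) G xs) xs)
    (U := fun q => oU P w b bz φ φ1 (lam q)) (V := fun q => oV P w b bz φ d (lam q))
    (W := oW P w b bz φ φ1 φ2 (lam t))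
    (fun q => cont_avg hw _ fun xs => hcP q xs)
    (integrable_bdd (cont_avg hw _ fun xs => hcP t xs) fun G => abs_avg_const hw fun xs => h0 _ xs)
    (fun q i => cont_avg hw _ fun xs => ((hcP q xs).mul (hcS q i xs)).add (hcL q i xs))
    (fun q => cont_avg hw _ fun xs => (hcP q xs).mul (by
      have := cont_fV P b bz hw d (lam q)
      fun_prop))
    (fun q i G => (hU q i G).trans (le_max_left _ (g0 * (r * (2 * ∑ x, |comp bz d x|)))))
    (fun q G => (hV q G).trans (le_max_right (g0 * S0 + L0) _))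
    (fun q hq G => deriv_obs_t hw hpos hφ1c hd1 hq G)
    (fun i G => deriv_oU_G hw hD hφ1c hφ2c hd1 hd2 _ i G)
    (fun i => cont_avg hw _ fun xs => (((hcP t xs).mul ((hcS t i xs).pow 2)).add
      (continuous_const.mul ((hcL t i xs).mul (hcS t i xs)))).add
      ((hcP t xs).mul (by
        have := fun l => cont_crv P b (lam t) (xs l) i
        have := cont_fW P b bz hw (lam t) i
        fun_prop)) |>.add (hcQ t i xs))
    (C' := g0 * S0 ^ 2 + 2 * (L0 * S0) + g0 * W0 + Q0)
    (fun i G => abs_avg_const hw fun xs => (abs_add_le _ _).trans (add_le_add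
      ((abs_add_le _ _).trans (add_le_add ((abs_add_le _ _).trans (add_le_add
        ((abs_mul _ _).trans_le (mul_le_mul (h0 _ xs) ((abs_pow _ 2).trans_le
          (pow_le_pow_left₀ (abs_nonneg _) (abs_oS_le hw _ i G xs) 2)) (abs_nonneg _) hg0))
        ((abs_mul _ _).trans_le (by
          rw [abs_mul, abs_two]
          exact mul_le_mul_of_nonneg_left (mul_le_mul (abs_oL_le h1 _ i G xs)
            (abs_oS_le hw _ i G xs) (abs_nonneg _)
            (Finset.sum_nonneg fun a _ => mul_nonneg (Nat.cast_nonneg _) (mul_nonneg (abs_nonneg _)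
              (Finset.sum_nonneg fun x _ => Finset.sum_nonneg fun j _ => abs_nonneg _)))) (by norm_num)))))
        ((abs_mul _ _).trans_le (mul_le_mul (h0 _ xs) ((Finset.abs_sum_le_sum_abs _ _).trans
          ((Finset.sum_le_sum fun l _ => (abs_sub _ _).trans (add_le_add
            (abs_crv_le P b bz _ G (xs l) i) (abs_fW_le P b bz hw _ i G))).trans_eq (by simp [W0]; ring)))
          (abs_nonneg _) hg0))))
      (abs_oQ_le h2 _ i G xs)))
  exact h

/-- Derivative of replica observables along a segment: only pair terms occur. -/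
theorem hasDerivAt_obs (hD : Disj b bz) (hw : ∀ x, 0 < w x) {l0 d : I → ℝ}
    (hpos : ∀ t ∈ Icc (0 : ℝ) 1, ∀ i, 0 ≤ l0 i + t * d i)
    (hdiag : ∀ a x, ∑ i, d i * b a x i ^ 2 = 0) {r : ℕ}
    (φ : (Fin M → Fin r → ℝ) → (Fin r → T) → ℝ) (g0 : ℝ) (g1 g2 : Fin M → ℝ)
    (φ1 : Fin M → Fin r → (Fin M → Fin r → ℝ) → (Fin r → T) → ℝ)
    (φ2 : Fin M → Fin r → Fin r → (Fin M → Fin r → ℝ) → (Fin r → T) → ℝ)
    (hφ : ∀ xs, Continuous fun h => φ h xs)
    (hφ1c : ∀ a l xs, Continuous fun h => φ1 a l h xs)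
    (hφ2c : ∀ a l l' xs, Continuous fun h => φ2 a l l' h xs)
    (hd1 : ∀ a l h xs, HasDerivAt
      (fun u => φ (Function.update h a (Function.update (h a) l u)) xs) (φ1 a l h xs) (h a l))
    (hd2 : ∀ a l l' h xs, HasDerivAt
      (fun u => φ1 a l (Function.update h a (Function.update (h a) l' u)) xs)
      (φ2 a l l' h xs) (h a l'))
    (h0 : ∀ h xs, |φ h xs| ≤ g0) (h1 : ∀ a l h xs, |φ1 a l h xs| ≤ g1 a)
    (h2 : ∀ a l l' h xs, |φ2 a l l' h xs| ≤ g2 a) {t : ℝ} (ht : t ∈ Ioo (0 : ℝ) 1) :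
    ∃ D : ℝ, HasDerivAt (fun u : ℝ => obs P b bz φ w fun i => l0 i + u * d i) D t ∧
      |D| ≤ 2 * (r : ℝ) ^ 2 * pair P w b bz (fun i => l0 i + t * d i)
        (fun G x y => g0 * |grad P b bz (fun i => l0 i + t * d i) d G x y| +
          ∑ a, (g1 a * P.b1 + g2 a) * |∑ i, d i * (b a x i * b a y i)|) := by
  set lam : ℝ → I → ℝ := seg l0 d with hlam
  have hg0 : 0 ≤ g0 :=
    (abs_nonneg _).trans (h0 (fun _ _ => 0) fun _ => Classical.arbitrary T)
  have h := hasDerivAt_obs_eq P b bz hD hw hpos hdiag φ g0 g1 g2 φ1 φ2 hφ hφ1c hφ2c hd1 hd2 h0 h1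
    h2 ht
  refine ⟨_, h, ?_⟩
  show |_| ≤ 2 * (r : ℝ) ^ 2 * pair P w b bz (lam t) _
  have hgi := fun G => obs_identity (P := P) hw hD hdiag h0 h1 h2 (lam t) G
  rw [pair, ← integral_const_mul]
  refine abs_integral_le_integral_abs.trans ?_
  refine integral_mono_of_nonneg (ae_of_all _ fun G => abs_nonneg _) ?_ (ae_of_all _ hgi)
  refine (integrable_bdd (C := g0 * gbd P b bz d + ∑ a, (|g1 a| * P.b1 + |g2 a|) *
    ∑ x, ∑ y, |∑ i, d i * (b a x i * b a y i)|) ?_ fun G => ?_).const_mul _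
  · have := cont_gibbs P b bz hw (lam t)
    have := cont_f1 P
    have := fun a x => cont_lin (b a) (lam t) x
    unfold avg2 grad; fun_prop
  · refine abs_avg2_le (bw_pos P b bz hw _ G) fun x y => (abs_add_le _ _).trans (add_le_add ?_ ?_)
    · rw [abs_mul, abs_abs, abs_of_nonneg hg0]
      exact mul_le_mul_of_nonneg_left (abs_grad_le P b bz _ d G x y) hg0
    · refine (Finset.abs_sum_le_sum_abs _ _).trans (Finset.sum_le_sum fun a _ => ?_)
      rw [abs_mul, abs_abs]
      refine mul_le_mul ((abs_add_le _ _).trans (add_le_add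
        ((abs_mul _ _).trans_le (by rw [abs_of_nonneg (b1_nonneg P)])) le_rfl))
        ((Finset.single_le_sum (f := fun y => |∑ i, d i * (b a x i * b a y i)|)
          (fun _ _ => abs_nonneg _) (Finset.mem_univ y)).trans (Finset.single_le_sum
          (f := fun x => ∑ y, |∑ i, d i * (b a x i * b a y i)|)
          (fun _ _ => Finset.sum_nonneg fun _ _ => abs_nonneg _) (Finset.mem_univ x)))
        (abs_nonneg _) (add_nonneg (mul_nonneg (abs_nonneg _) (b1_nonneg P)) (abs_nonneg _))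

/-- For a nonnegative observable and bounded brackets the derivative is controlled by the observable
itself. -/
theorem hasDerivAt_obs_weighted (hD : Disj b bz) (hw : ∀ x, 0 < w x) {l0 d : I → ℝ}
    (hpos : ∀ t ∈ Icc (0 : ℝ) 1, ∀ i, 0 ≤ l0 i + t * d i)
    (hdiag : ∀ a x, ∑ i, d i * b a x i ^ 2 = 0) {r : ℕ}
    (φ : (Fin M → Fin r → ℝ) → (Fin r → T) → ℝ) (g0 : ℝ) (g1 g2 : Fin M → ℝ)
    (φ1 : Fin M → Fin r → (Fin M → Fin r → ℝ) → (Fin r → T) → ℝ)
    (φ2 : Fin M → Fin r → Fin r → (Fin M → Fin r → ℝ) → (Fin r → T) → ℝ)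
    (hφ : ∀ xs, Continuous fun h => φ h xs)
    (hφ1c : ∀ a l xs, Continuous fun h => φ1 a l h xs)
    (hφ2c : ∀ a l l' xs, Continuous fun h => φ2 a l l' h xs)
    (hd1 : ∀ a l h xs, HasDerivAt
      (fun u => φ (Function.update h a (Function.update (h a) l u)) xs) (φ1 a l h xs) (h a l))
    (hd2 : ∀ a l l' h xs, HasDerivAt
      (fun u => φ1 a l (Function.update h a (Function.update (h a) l' u)) xs)
      (φ2 a l l' h xs) (h a l'))
    (h0 : ∀ h xs, |φ h xs| ≤ g0) (h1 : ∀ a l h xs, |φ1 a l h xs| ≤ g1 a)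
    (h2 : ∀ a l l' h xs, |φ2 a l l' h xs| ≤ g2 a) (hφ0 : ∀ h xs, 0 ≤ φ h xs) {Dg : ℝ} {Da : Fin M → ℝ}
    {t : ℝ} (ht : t ∈ Ioo (0 : ℝ) 1)
    (hDg : ∀ G x y, |grad P b bz (fun i => l0 i + t * d i) d G x y| ≤ Dg)
    (hDa : ∀ a x y, |∑ i, d i * (b a x i * b a y i)| ≤ Da a) :
    ∃ D : ℝ, HasDerivAt (fun u : ℝ => obs P b bz φ w fun i => l0 i + u * d i) D t ∧
      |D| ≤ 2 * (r : ℝ) ^ 2 * (Dg * obs P b bz φ w (fun i => l0 i + t * d i)
        + ∑ a, (g1 a * P.b1 + g2 a) * Da a) := by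
  have h := hasDerivAt_obs_eq P b bz hD hw hpos hdiag φ g0 g1 g2 φ1 φ2 hφ hφ1c hφ2c hd1 hd2 h0 h1
    h2 ht
  refine ⟨_, h, abs_integral_le_integral_abs.trans ?_⟩
  set lam := seg l0 d t with hlam
  have hb := fun G => obs_weighted (P := P) hw hD hdiag h1 h2 hφ0 (Dg := Dg) (Da := Da) lam G
    (hDg G) hDa
  have hi : Integrable (fun G => avg (bw P w b bz lam G) r
      fun xs => φ (fld b lam G xs) xs) (gaus I) :=
    integrable_bdd (cont_avg hw _ fun xs => cont_phi (b := b) hφ lam xs)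
      fun G => abs_avg_const hw fun xs => h0 _ xs
  refine (integral_mono_of_nonneg (ae_of_all _ fun G => abs_nonneg _)
    (((hi.const_mul Dg).add (integrable_const _)).const_mul _) (ae_of_all _ hb)).trans_eq ?_
  rw [integral_const_mul]
  congr 1
  rw [integral_add' (hi.const_mul Dg) (integrable_const _), integral_const_mul]
  simp only [integral_const, probReal_univ, one_smul]
  rfl

end Obs

/-- Two-sided Gronwall bound on the unit interval. -/
theorem gronwall_both {g g1 : ℝ → ℝ} {C c : ℝ} (hC : 0 ≤ C) (hc : 0 ≤ c)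
    (hcont : ContinuousOn g (Icc 0 1)) (hg : ∀ t ∈ Icc (0 : ℝ) 1, 0 ≤ g t)
    (hd : ∀ t ∈ Ioo (0 : ℝ) 1, HasDerivAt g (g1 t) t)
    (hb : ∀ t ∈ Ioo (0 : ℝ) 1, |g1 t| ≤ C * g t + c) {s t : ℝ} (hs : s ∈ Icc (0 : ℝ) 1)
    (ht : t ∈ Icc (0 : ℝ) 1) : g t ≤ Real.exp C * (g s + c) := by
  have he : ∀ u : ℝ, HasDerivAt (fun u => Real.exp (C * u)) (C * Real.exp (C * u)) u := fun u => by
    simpa [mul_comm] using ((hasDerivAt_id u).const_mul C).exp
  have he' : ∀ u : ℝ, HasDerivAt (fun u => Real.exp (-(C * u))) (-(C * Real.exp (-(C * u)))) u :=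
    fun u => by
      have h := (((hasDerivAt_id u).const_mul C).neg).exp
      simp only [Pi.neg_apply, id_eq, mul_one, mul_neg] at h
      exact h.congr_deriv (by ring)
  have gs := hg s hs
  have gt := hg t ht
  rcases le_total s t with hst | hts
  · have hA : AntitoneOn (fun u => Real.exp (-(C * u)) * g u - c * u) (Icc 0 1) := by
      refine antitoneOn_of_hasDerivWithinAt_nonpos (convex_Icc 0 1)
        (f' := fun u => -(C * Real.exp (-(C * u))) * g u + Real.exp (-(C * u)) * g1 u - c)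
        ((Continuous.continuousOn (by fun_prop) |>.mul hcont).sub
          (Continuous.continuousOn (by fun_prop))) (fun u hu => ?_) (fun u hu => ?_)
      · rw [interior_Icc] at hu
        exact ((((he' u).mul (hd u hu)).sub ((hasDerivAt_id u).const_mul c)).congr_deriv
          (by ring)).hasDerivWithinAt
      · rw [interior_Icc] at hu
        have h1 := abs_le.1 (hb u hu)
        have h2 : Real.exp (-(C * u)) ≤ 1 := Real.exp_le_one_iff.2 (by nlinarith [hu.1])
        have h3 := Real.exp_pos (-(C * u))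
        nlinarith [mul_le_mul_of_nonneg_left h1.2 h3.le]
    have h := hA hs ht hst
    simp only at h
    have e1 : Real.exp (C * t) * Real.exp (-(C * t)) = 1 := by rw [← Real.exp_add]; simp
    have h4 : Real.exp (-(C * s)) ≤ 1 := Real.exp_le_one_iff.2 (by nlinarith [hs.1])
    have h5 : Real.exp (C * t) ≤ Real.exp C := Real.exp_le_exp.2 (by nlinarith [ht.2])
    have h6 : Real.exp (-(C * t)) * g t ≤ g s + c := by
      nlinarith [mul_le_mul_of_nonneg_right h4 gs, ht.2, hs.1]
    calc g t = Real.exp (C * t) * (Real.exp (-(C * t)) * g t) := by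
          rw [← mul_assoc, e1, one_mul]
      _ ≤ Real.exp (C * t) * (g s + c) := mul_le_mul_of_nonneg_left h6 (Real.exp_pos _).le
      _ ≤ _ := mul_le_mul_of_nonneg_right h5 (by linarith)
  · have hA : MonotoneOn (fun u => Real.exp (C * u) * g u + c * Real.exp C * u) (Icc 0 1) := by
      refine monotoneOn_of_hasDerivWithinAt_nonneg (convex_Icc 0 1)
        (f' := fun u => C * Real.exp (C * u) * g u + Real.exp (C * u) * g1 u + c * Real.exp C)
        ((Continuous.continuousOn (by fun_prop) |>.mul hcont).add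
          (Continuous.continuousOn (by fun_prop))) (fun u hu => ?_) (fun u hu => ?_)
      · rw [interior_Icc] at hu
        exact ((((he u).mul (hd u hu)).add ((hasDerivAt_id u).const_mul (c * Real.exp C))).congr_deriv
          (by ring)).hasDerivWithinAt
      · rw [interior_Icc] at hu
        have h1 := abs_le.1 (hb u hu)
        have h2 : Real.exp (C * u) ≤ Real.exp C := Real.exp_le_exp.2 (by nlinarith [hu.2])
        have h3 := Real.exp_pos (C * u)
        nlinarith [mul_le_mul_of_nonneg_left h1.1 h3.le, mul_le_mul_of_nonneg_left h2 hc]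
    have h := hA ht hs hts
    simp only at h
    have h4 : Real.exp (C * s) ≤ Real.exp C := Real.exp_le_exp.2 (by nlinarith [hs.2])
    have h5 : 1 ≤ Real.exp (C * t) := Real.one_le_exp (mul_nonneg hC ht.1)
    nlinarith [mul_le_mul_of_nonneg_right h4 gs, mul_le_mul_of_nonneg_right h5 gt,
      mul_nonneg (mul_nonneg hc (Real.exp_pos C).le) ht.1,
      mul_le_mul_of_nonneg_left hs.2 (mul_nonneg hc (Real.exp_pos C).le)]

section Transfer

variable {T I : Type*} [Fintype T] [Nonempty T] [Fintype I] {M : ℕ} (P : Pot) {w : T → ℝ}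
  (b : Fin M → T → I → ℝ) (bz : T → I → ℝ)

/-- A small nonnegative observable stays small along a segment with bounded brackets. -/
theorem obs_gronwall (hD : Disj b bz) (hw : ∀ x, 0 < w x) {l0 d : I → ℝ}
    (hpos : ∀ t ∈ Icc (0 : ℝ) 1, ∀ i, 0 ≤ l0 i + t * d i)
    (hdiag : ∀ a x, ∑ i, d i * b a x i ^ 2 = 0) {r : ℕ}
    (φ : (Fin M → Fin r → ℝ) → (Fin r → T) → ℝ) (g0 : ℝ) (g1 g2 : Fin M → ℝ)
    (φ1 : Fin M → Fin r → (Fin M → Fin r → ℝ) → (Fin r → T) → ℝ)
    (φ2 : Fin M → Fin r → Fin r → (Fin M → Fin r → ℝ) → (Fin r → T) → ℝ)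
    (hφ : ∀ xs, Continuous fun h => φ h xs)
    (hφ1c : ∀ a l xs, Continuous fun h => φ1 a l h xs)
    (hφ2c : ∀ a l l' xs, Continuous fun h => φ2 a l l' h xs)
    (hd1 : ∀ a l h xs, HasDerivAt
      (fun u => φ (Function.update h a (Function.update (h a) l u)) xs) (φ1 a l h xs) (h a l))
    (hd2 : ∀ a l l' h xs, HasDerivAt
      (fun u => φ1 a l (Function.update h a (Function.update (h a) l' u)) xs)
      (φ2 a l l' h xs) (h a l'))
    (h0 : ∀ h xs, |φ h xs| ≤ g0) (h1 : ∀ a l h xs, |φ1 a l h xs| ≤ g1 a)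
    (h2 : ∀ a l l' h xs, |φ2 a l l' h xs| ≤ g2 a) (hφ0 : ∀ h xs, 0 ≤ φ h xs) {Dg : ℝ} {Da : Fin M → ℝ}
    (hDg0 : 0 ≤ Dg) (hsum : 0 ≤ ∑ a, (g1 a * P.b1 + g2 a) * Da a)
    (hDg : ∀ t ∈ Ioo (0 : ℝ) 1, ∀ G x y, |grad P b bz (fun i => l0 i + t * d i) d G x y| ≤ Dg)
    (hDa : ∀ a x y, |∑ i, d i * (b a x i * b a y i)| ≤ Da a)
    {u v : ℝ} (hu : u ∈ Icc (0 : ℝ) 1) (hv : v ∈ Icc (0 : ℝ) 1) :
    obs P b bz φ w (fun i => l0 i + v * d i) ≤ Real.exp (2 * (r : ℝ) ^ 2 * Dg) *
      (obs P b bz φ w (fun i => l0 i + u * d i)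
        + 2 * (r : ℝ) ^ 2 * ∑ a, (g1 a * P.b1 + g2 a) * Da a) := by
  have hex : ∀ s, ∃ D : ℝ, s ∈ Ioo (0 : ℝ) 1 →
      HasDerivAt (fun u : ℝ => obs P b bz φ w fun i => l0 i + u * d i) D s ∧
      |D| ≤ 2 * (r : ℝ) ^ 2 * (Dg * obs P b bz φ w (fun i => l0 i + s * d i)
        + ∑ a, (g1 a * P.b1 + g2 a) * Da a) := fun s => by
    by_cases hs : s ∈ Ioo (0 : ℝ) 1
    · obtain ⟨D, hD'⟩ := hasDerivAt_obs_weighted P b bz hD hw hpos hdiag φ g0 g1 g2 φ1 φ2 hφ hφ1c
        hφ2c hd1 hd2 h0 h1 h2 hφ0 hs (hDg s hs) hDa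
      exact ⟨D, fun _ => hD'⟩
    · exact ⟨0, fun h => absurd h hs⟩
  choose D hDd using hex
  refine gronwall_both (g := fun u => obs P b bz φ w fun i => l0 i + u * d i) (g1 := D)
    (by positivity) (mul_nonneg (by positivity) hsum)
    ((continuous_obs P b bz hw φ hφ h0).comp (by fun_prop : Continuous fun u : ℝ =>
      fun i => l0 i + u * d i)).continuousOn
    (fun s _ => integral_nonneg fun G => Finset.sum_nonneg fun xs _ => mul_nonneg
      (Finset.prod_nonneg fun l _ => gibbs_nonneg (bw_pos P b bz hw _ G) _) (hφ0 _ xs))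
    (fun s hs => (hDd s hs).1) (fun s hs => ((hDd s hs).2).trans_eq (by ring)) hu hv

end Transfer

end Vale.Agent.P157.Casc
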