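import Vale.Agent.P157.Casc.Transfer
import Vale.Agent.P157.Casc.InterpObs

/-!
Transfer of the overlap errors and of bounded pair observables along segments of systems.
-/

open MeasureTheory ProbabilityTheory Filter Topology Set

namespace Vale.Agent.P157.Casc

variable {N M K n : ℕ}

theorem pull_seg (c c' : CIdx N M K → ℝ) (t : ℝ) :
    (pull fun i => c i + t * (c' i - c i) : GIdx N M K n → ℝ)
      = fun i => pull c i + t * pull (fun i => c' i - c i) i := by
  funext i
  rcases i with p | ⟨o, i⟩ <;> rfl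

theorem pull_seg_one (c c' : CIdx N M K → ℝ) :
    (fun i : GIdx N M K n => pull c i + 1 * pull (fun i => c' i - c i) i) = pull c' := by
  funext i
  rcases i with p | ⟨o, i⟩ <;> simp [pull]

theorem measurable_mpair_fun (P : Pot) (π : Prior N) (c : CIdx N M K → ℝ)
    {O : (GIdx N M K n → ℝ) → State π K n → State π K n → ℝ}
    (hO : ∀ x y, Continuous fun G => O G x y) {B : ℝ} (hB : 0 ≤ B)
    (hOb : ∀ G x y, |O G x y| ≤ B) :
    Integrable (fun p => avg2 (mbw P π c p) (O p.2)) (envLaw N M K n) :=
  Integrable.mono' (integrable_const B) (aestronglyMeasurable_avg2 P π c hO).aestronglyMeasurable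
    ((ae_mbw_pos P π c).mono fun p hp => abs_avg2_le _ (fun x => (hp x).le) hB (hOb p.2))

/-- Mean pair averages as averages over the weights of the system averages. -/
theorem mpair_eq_stw (P : Pot) (π : Prior N) (c : CIdx N M K → ℝ)
    {O : (GIdx N M K n → ℝ) → State π K n → State π K n → ℝ}
    (hO : ∀ x y, Continuous fun G => O G x y) {B : ℝ} (hB : 0 ≤ B)
    (hOb : ∀ G x y, |O G x y| ≤ B) :
    Integrable (fun W => pair P (stw π W) (bpat (M := M) π) (bspin π) (pull c) O)
      (casW (mlev K) n) ∧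
    mpair n P π c O
      = ∫ W, pair P (stw π W) (bpat (M := M) π) (bspin π) (pull c) O ∂casW (mlev K) n := by
  have h := measurable_mpair_fun (n := n) P π c hO hB hOb
  exact ⟨h.integral_prod_left, integral_prod _ h⟩

/-- The squared error of the prediction `p` of the overlap of derivatives, as an observable. -/
noncomputable def devP (P : Pot) (π : Prior N) (p : Fin (K + 1) → ℝ)
    (h : Fin M → Fin 2 → ℝ) (xs : Fin 2 → State π K n) : ℝ :=
  ((∑ a, P.f1 (h a 0) * P.f1 (h a 1)) / N - p (ovU π (xs 0) (xs 1))) ^ 2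

/-- Its first derivative. -/
noncomputable def devP1 (P : Pot) (π : Prior N) (p : Fin (K + 1) → ℝ) (a : Fin M) (l : Fin 2)
    (h : Fin M → Fin 2 → ℝ) (xs : Fin 2 → State π K n) : ℝ :=
  2 * ((∑ a, P.f1 (h a 0) * P.f1 (h a 1)) / N - p (ovU π (xs 0) (xs 1)))
    * (P.f2 (h a l) * P.f1 (h a (1 - l)) / N)

/-- Its second derivative. -/
noncomputable def devP2 (P : Pot) (π : Prior N) (p : Fin (K + 1) → ℝ) (a : Fin M) (l l' : Fin 2)
    (h : Fin M → Fin 2 → ℝ) (xs : Fin 2 → State π K n) : ℝ :=
  2 * (P.f2 (h a l') * P.f1 (h a (1 - l')) / N) * (P.f2 (h a l) * P.f1 (h a (1 - l)) / N)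
    + 2 * ((∑ a, P.f1 (h a 0) * P.f1 (h a 1)) / N - p (ovU π (xs 0) (xs 1)))
      * ((if l' = l then P.f3 (h a l) * P.f1 (h a (1 - l)) else P.f2 (h a l) * P.f2 (h a (1 - l)))
        / N)

/-- Bound for the derivative terms of `devP` per pattern. -/
noncomputable def gamP (P : Pot) (N M : ℕ) (Lp : ℝ) : ℝ :=
  2 * ((M : ℝ) * P.b1 ^ 2 / N + Lp) * (P.b2 * P.b1 / N) * P.b1
    + (2 * (P.b2 * P.b1 / N) ^ 2
      + 2 * ((M : ℝ) * P.b1 ^ 2 / N + Lp) * ((P.b3 * P.b1 + P.b2 ^ 2) / N))

section

variable (P : Pot) (π : Prior N) {p : Fin (K + 1) → ℝ} {Lp : ℝ} (hp : ∀ u, |p u| ≤ Lp)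
include hp

theorem abs_dev_le (h : Fin M → Fin 2 → ℝ) (xs : Fin 2 → State π K n) :
    |(∑ a, P.f1 (h a 0) * P.f1 (h a 1)) / N - p (ovU π (xs 0) (xs 1))|
      ≤ (M : ℝ) * P.b1 ^ 2 / N + Lp := by
  refine (abs_sub _ _).trans (add_le_add ?_ (hp _))
  rw [abs_div, Nat.abs_cast]
  refine div_le_div_of_nonneg_right ((Finset.abs_sum_le_sum_abs _ _).trans ?_) (Nat.cast_nonneg N)
  refine (Finset.sum_le_sum fun a _ => ?_).trans_eq
    (by rw [Finset.sum_const, Finset.card_univ, Fintype.card_fin, nsmul_eq_mul])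
  rw [abs_mul, sq]
  exact mul_le_mul (P.h1 _) (P.h1 _) (abs_nonneg _) (Itp.b1_nonneg P)

/-- The transfer of a small error of the overlap of derivatives along a segment, per weights. -/
theorem devP_gronwall {W : Node K n → ℝ} (hW : ∀ v, 0 < W v) (hn : 0 < n) {l0 d : GIdx N M K n → ℝ}
    (hpos : ∀ t ∈ Icc (0 : ℝ) 1, ∀ i, 0 ≤ l0 i + t * d i)
    (hdiag : ∀ a (x : State π K n), ∑ i, d i * bpat π a x i ^ 2 = 0) {Dg Da : ℝ}
    (hDg0 : 0 ≤ Dg) (hDa0 : 0 ≤ Da)
    (hDg : ∀ t ∈ Ioo (0 : ℝ) 1, ∀ G x y,
      |grad P (bpat π) (bspin π) (fun i => l0 i + t * d i) d G x y| ≤ Dg)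
    (hDa : ∀ a (x y : State π K n), |∑ i, d i * (bpat π a x i * bpat π a y i)| ≤ Da)
    {u v : ℝ} (hu : u ∈ Icc (0 : ℝ) 1) (hv : v ∈ Icc (0 : ℝ) 1) :
    obs P (bpat π) (bspin π) (devP P π p) (stw π W) (fun i => l0 i + v * d i)
      ≤ Real.exp (8 * Dg) *
        (obs P (bpat π) (bspin π) (devP P π p) (stw π W) (fun i => l0 i + u * d i)
          + 8 * (M * (gamP P N M Lp * Da))) := by
  have := state_ne (K := K) π hn
  set G0 := (M : ℝ) * P.b1 ^ 2 / N + Lp
  have hG0 : 0 ≤ G0 := (abs_nonneg _).trans (abs_dev_le P π hp (fun _ _ => 0) fun _ => Classical.arbitrary (State π K n))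
  have hb1 := Itp.b1_nonneg P
  have hb2 := Itp.b2_nonneg P
  have hb3 : 0 ≤ P.b3 := (abs_nonneg _).trans (P.h3 0)
  have hq : ∀ x y, |P.f2 x * P.f1 y / (N : ℝ)| ≤ P.b2 * P.b1 / N := fun x y => by
    rw [abs_div, abs_mul, Nat.abs_cast]
    exact div_le_div_of_nonneg_right (mul_le_mul (P.h2 _) (P.h1 _) (abs_nonneg _) hb2)
      (Nat.cast_nonneg N)
  have hgam : 0 ≤ gamP P N M Lp := by unfold gamP; positivity
  have key := obs_gronwall P (bpat π) (bspin π) (disj_model π) (stw_pos π hW) hpos hdiag
    (devP P π p) (G0 ^ 2) (fun _ => 2 * G0 * (P.b2 * P.b1 / N))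
    (fun _ => 2 * (P.b2 * P.b1 / N) ^ 2 + 2 * G0 * ((P.b3 * P.b1 + P.b2 ^ 2) / N))
    (devP1 P π p) (devP2 P π p)
    (fun xs => by have := Itp.cont_f1 P; unfold devP; fun_prop)
    (fun a l xs => by have := Itp.cont_f1 P; have := P.c2; unfold devP1; fun_prop)
    (fun a l l' xs => by
      have := Itp.cont_f1 P; have := P.c2; have := P.c3
      unfold devP2; split_ifs <;> fun_prop)
    (fun a l h xs => ?_) (fun a l l' h xs => ?_)
    (fun h xs => ?_) (fun a l h xs => ?_) (fun a l l' h xs => ?_) (fun h xs => sq_nonneg _)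
    hDg0 (Finset.sum_nonneg fun a _ => mul_nonneg (by positivity) hDa0) hDg
    (fun a x y => hDa a x y) hu hv
  · generalize obs P (bpat π) (bspin π) (devP P π p) (stw π W) (fun i => l0 i + u * d i) = X at key ⊢
    refine key.trans (le_of_eq ?_)
    simp only [Finset.sum_const, Finset.card_univ, Fintype.card_fin, nsmul_eq_mul, gamP, G0]
    push_cast
    ring_nf
  · have e : ∀ u : ℝ, ∑ a', P.f1 (Function.update h a (Function.update (h a) l u) a' 0)
          * P.f1 (Function.update h a (Function.update (h a) l u) a' 1)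
        = P.f1 u * P.f1 (h a (1 - l)) + ∑ a' ∈ Finset.univ.erase a, P.f1 (h a' 0) * P.f1 (h a' 1) := by
      intro u
      rw [← Finset.add_sum_erase _ _ (Finset.mem_univ a)]
      congr 1
      · fin_cases l <;> simp [mul_comm]
      · exact Finset.sum_congr rfl fun a' ha' => by
          rw [Function.update_of_ne (Finset.ne_of_mem_erase ha')]
    simp only [devP, e]
    refine ((((P.d2 (h a l)).mul_const _).add_const _).div_const (N : ℝ) |>.sub_const _ |>.pow 2).congr_deriv ?_
    simp only [devP1, Nat.cast_ofNat, Nat.add_one_sub_one, pow_one]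
    have e0 := e (h a l)
    simp only [Function.update_eq_self] at e0
    rw [e0]
  · have e : ∀ u : ℝ, ∑ a', P.f1 (Function.update h a (Function.update (h a) l' u) a' 0)
          * P.f1 (Function.update h a (Function.update (h a) l' u) a' 1)
        = P.f1 u * P.f1 (h a (1 - l')) + ∑ a' ∈ Finset.univ.erase a, P.f1 (h a' 0) * P.f1 (h a' 1) := by
      intro u
      rw [← Finset.add_sum_erase _ _ (Finset.mem_univ a)]
      congr 1
      · fin_cases l' <;> simp [mul_comm]
      · exact Finset.sum_congr rfl fun a' ha' => by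
          rw [Function.update_of_ne (Finset.ne_of_mem_erase ha')]
    have e0 := e (h a l')
    simp only [Function.update_eq_self] at e0
    have d1 := ((((P.d2 (h a l')).mul_const (P.f1 (h a (1 - l')))).add_const
      (∑ a' ∈ Finset.univ.erase a, P.f1 (h a' 0) * P.f1 (h a' 1))).div_const (N : ℝ)).sub_const
        (p (ovU π (xs 0) (xs 1)))
    simp only [devP1, e, Function.update_self]
    by_cases hll : l' = l
    · subst hll
      have hne : (1 - l' : Fin 2) ≠ l' := by fin_cases l' <;> decide
      simp only [Function.update_self, Function.update_of_ne hne]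
      refine ((d1.const_mul 2).mul (((P.d3 (h a l')).mul_const
        (P.f1 (h a (1 - l')))).div_const (N : ℝ))).congr_deriv ?_
      simp only [devP2, if_true, e0]
    · have hl : (1 - l : Fin 2) = l' := by
        revert hll; fin_cases l <;> fin_cases l' <;> decide
      have hl' : (1 - l' : Fin 2) = l := by
        revert hll; fin_cases l <;> fin_cases l' <;> decide
      simp only [hl, Function.update_self, Function.update_of_ne (Ne.symm hll)]
      refine ((d1.const_mul 2).mul (((P.d2 (h a l')).const_mul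
        (P.f2 (h a l))).div_const (N : ℝ))).congr_deriv ?_
      simp only [devP2, if_neg hll, e0, hl, hl']
  · simp only [devP, abs_pow]
    exact pow_le_pow_left₀ (abs_nonneg _) (abs_dev_le P π hp h xs) 2
  · simp only [devP1, abs_mul, abs_two]
    exact mul_le_mul (mul_le_mul_of_nonneg_left (abs_dev_le P π hp h xs) zero_le_two) (hq _ _)
      (abs_nonneg _) (by positivity)
  · simp only [devP2]
    refine (abs_add_le _ _).trans (add_le_add ?_ ?_)
    · rw [abs_mul, abs_mul, abs_two, sq, mul_assoc]
      exact mul_le_mul_of_nonneg_left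
        (mul_le_mul (hq _ _) (hq _ _) (abs_nonneg _) (by positivity)) zero_le_two
    · rw [abs_mul, abs_mul, abs_two]
      refine mul_le_mul (mul_le_mul_of_nonneg_left (abs_dev_le P π hp h xs) zero_le_two) ?_
        (abs_nonneg _) (by positivity)
      rw [abs_div, Nat.abs_cast]
      refine div_le_div_of_nonneg_right ?_ (Nat.cast_nonneg N)
      split_ifs
      · rw [abs_mul]
        exact (mul_le_mul (P.h3 _) (P.h1 _) (abs_nonneg _) hb3).trans
          (le_add_of_nonneg_right (sq_nonneg _))
      · rw [abs_mul, sq]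
        exact (mul_le_mul (P.h2 _) (P.h2 _) (abs_nonneg _) hb2).trans
          (le_add_of_nonneg_left (mul_nonneg hb3 hb1))

end

theorem obs_eq_pair (P : Pot) (π : Prior N) {W : Node K n → ℝ} (hW : ∀ v, 0 < W v)
    [Nonempty (State π K n)] (lam : GIdx N M K n → ℝ)
    (φ : (Fin M → Fin 2 → ℝ) → (Fin 2 → State π K n) → ℝ)
    (O : (GIdx N M K n → ℝ) → State π K n → State π K n → ℝ)
    (h : ∀ G xs, φ (fun a l => lin (bpat π a) lam G (xs l)) xs = O G (xs 0) (xs 1)) :
    obs P (bpat π) (bspin π) φ (stw π W) lam = pair P (stw π W) (bpat π) (bspin π) lam O := by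
  refine integral_congr_ae (ae_of_all _ fun G => ?_)
  simp only [h]
  exact Itp.avg_two (Itp.bw_pos P (bpat π) (bspin π) (stw_pos π hW) lam G) (by decide) (O G)

theorem abs_ovR_le_one (π : Prior N) (st st' : State π K n) : |ovR N π st st'| ≤ 1 := by
  simp only [ovR, Fin.is_lt, if_true]
  rw [abs_div, Nat.abs_cast]
  refine div_le_one_of_le₀ ?_ (Nat.cast_nonneg N)
  calc |∑ j, π.spin st.1 j * π.spin st'.1 j|
      ≤ ∑ j, (π.spin st.1 j ^ 2 + π.spin st'.1 j ^ 2) / 2 := by
        refine (Finset.abs_sum_le_sum_abs _ _).trans (Finset.sum_le_sum fun j _ => ?_)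
        rw [abs_mul, ← sq_abs (π.spin st.1 j), ← sq_abs (π.spin st'.1 j)]
        linarith [two_mul_le_add_sq |π.spin st.1 j| |π.spin st'.1 j|]
    _ = (N : ℝ) := by
        rw [← Finset.sum_div, Finset.sum_add_distrib, π.norm_spin, π.norm_spin]
        ring

theorem continuous_ovP (P : Pot) (π : Prior N) (c : CIdx N M K → ℝ) (x y : State π K n) :
    Continuous fun G => ovP N P π c G x y := by
  have := Itp.cont_f1 P
  unfold ovP lin
  fun_prop

theorem abs_ovP_le (P : Pot) (π : Prior N) (c : CIdx N M K → ℝ) (G : GIdx N M K n → ℝ)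
    (x y : State π K n) : |ovP N P π c G x y| ≤ (M : ℝ) * P.b1 ^ 2 / N := by
  rw [ovP, abs_div, Nat.abs_cast]
  refine div_le_div_of_nonneg_right ((Finset.abs_sum_le_sum_abs _ _).trans ?_) (Nat.cast_nonneg N)
  refine (Finset.sum_le_sum fun a _ => ?_).trans_eq
    (by rw [Finset.sum_const, Finset.card_univ, Fintype.card_fin, nsmul_eq_mul])
  rw [abs_mul, sq]
  exact mul_le_mul (P.h1 _) (P.h1 _) (abs_nonneg _) (Itp.b1_nonneg P)

/-- Along a segment with bounded brackets both errors stay small, and a bounded field-free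
observable moves by at most the size of the bracket. -/
theorem seg_bound (P : Pot) (π : Prior N) (hn : 0 < n) {c c' : CIdx N M K → ℝ}
    (hc : ∀ i, 0 ≤ c i) (hc' : ∀ i, 0 ≤ c' i)
    (hdiag : ∀ a (x : State π K n), ∑ i, pull (fun i => c' i - c i) i * bpat π a x i ^ 2 = 0)
    {q p : Fin (K + 1) → ℝ} {Lp : ℝ} (hq : ∀ u, |q u| ≤ 1) (hp : ∀ u, |p u| ≤ Lp)
    {Dg Da B0 A A' : ℝ} (hDg0 : 0 ≤ Dg) (hDa0 : 0 ≤ Da) (_hB0 : 0 ≤ B0) (hA : 0 ≤ A) (hA' : 0 ≤ A')
    (hDg : ∀ t ∈ Ioo (0 : ℝ) 1, ∀ (G : GIdx N M K n → ℝ) (x y : State π K n),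
      |grad P (bpat π) (bspin π) (pull fun i => c i + t * (c' i - c i))
        (pull fun i => c' i - c i) G x y| ≤ Dg)
    (hDa : ∀ a (x y : State π K n),
      |∑ i, pull (fun i => c' i - c i) i * (bpat π a x i * bpat π a y i)| ≤ Da)
    (hB : ∀ t ∈ Ioo (0 : ℝ) 1, ∀ (G : GIdx N M K n → ℝ) (x y : State π K n),
      |grad P (bpat π) (bspin π) (pull fun i => c i + t * (c' i - c i))
        (pull fun i => c' i - c i) G x y|
        ≤ B0 + A * (ovR N π x y - q (ovU π x y)) ^ 2
          + A' * (ovP N P π (fun i => c i + t * (c' i - c i)) G x y - p (ovU π x y)) ^ 2)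
    (O : State π K n → State π K n → ℝ) (hO : ∀ x y, |O x y| ≤ 1) :
    errR n P π c' q ≤ Real.exp (8 * Dg) * errR n P π c q ∧
    errP n P π c' p
      ≤ Real.exp (8 * Dg) * (errP n P π c p + 8 * (M * (gamP P N M Lp * Da))) ∧
    |mpair n P π c' (fun _ => O) - mpair n P π c (fun _ => O)|
      ≤ 8 * (B0 + A * (Real.exp (8 * Dg) * errR n P π c q)
        + A' * (Real.exp (8 * Dg) * (errP n P π c p + 8 * (M * (gamP P N M Lp * Da))))) := by
  have := state_ne (K := K) π hn
  set d : GIdx N M K n → ℝ := pull fun i => c' i - c i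
  set G0 := (M : ℝ) * P.b1 ^ 2 / N + Lp
  have hG0 : 0 ≤ G0 := (abs_nonneg _).trans
    (abs_dev_le P π hp (fun _ _ => 0) fun _ => Classical.arbitrary (State π K n))
  set oR := fun (x y : State π K n) => (ovR N π x y - q (ovU π x y)) ^ 2
  have hR4 : ∀ x y, |oR x y| ≤ 4 := fun x y => by
    simp only [oR, abs_pow]
    calc |ovR N π x y - q (ovU π x y)| ^ 2 ≤ 2 ^ 2 := pow_le_pow_left₀ (abs_nonneg _)
          ((abs_sub _ _).trans (by linarith [abs_ovR_le_one π x y, hq (ovU π x y)])) 2
      _ = 4 := by norm_num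
  set oP := fun (ct : CIdx N M K → ℝ) (G : GIdx N M K n → ℝ) (x y : State π K n) =>
    (ovP N P π ct G x y - p (ovU π x y)) ^ 2
  have hP4 : ∀ ct G x y, |oP ct G x y| ≤ G0 ^ 2 := fun ct G x y => by
    simp only [oP, abs_pow]
    exact pow_le_pow_left₀ (abs_nonneg _)
      ((abs_sub _ _).trans (add_le_add (abs_ovP_le P π ct G x y) (hp _))) 2
  have hPc : ∀ ct x y, Continuous fun G => oP ct G x y := fun ct x y =>
    ((continuous_ovP P π ct x y).sub continuous_const).pow 2
  have eR := fun ct : CIdx N M K → ℝ => mpair_eq_stw (n := n) P π ct (O := fun _ => oR) (fun _ _ => continuous_const)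
    (by norm_num : (0 : ℝ) ≤ 4) (fun _ => hR4)
  have eP := fun ct : CIdx N M K → ℝ => mpair_eq_stw (n := n) P π ct (O := oP ct) (hPc ct) (sq_nonneg G0) (hP4 ct)
  have eO := fun ct : CIdx N M K → ℝ => mpair_eq_stw (n := n) P π ct (O := fun _ => O) (fun _ _ => continuous_const)
    zero_le_one (fun _ => hO)
  have hpos : ∀ t ∈ Icc (0 : ℝ) 1, ∀ i, 0 ≤ pull c i + t * d i := by
    intro t ht i
    have h1 : ∀ j, 0 ≤ c j + t * (c' j - c j) := fun j => by
      nlinarith [hc j, hc' j, ht.1, ht.2, mul_nonneg (sub_nonneg.2 ht.2) (hc j),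
        mul_nonneg ht.1 (hc' j)]
    rcases i with e | ⟨o, e⟩ <;> exact h1 _
  -- the facts at fixed weights
  have key : ∀ W : Node K n → ℝ, (∀ v, 0 < W v) →
      pair P (stw π W) (bpat π) (bspin π) (pull c') (fun _ => oR) ≤ Real.exp (8 * Dg)
        * pair P (stw π W) (bpat π) (bspin π) (pull c) (fun _ => oR) ∧
      pair P (stw π W) (bpat π) (bspin π) (pull c') (oP c') ≤ Real.exp (8 * Dg)
        * (pair P (stw π W) (bpat π) (bspin π) (pull c) (oP c)
          + 8 * (M * (gamP P N M Lp * Da))) ∧
      |pair P (stw π W) (bpat π) (bspin π) (pull c') (fun _ => O)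
        - pair P (stw π W) (bpat π) (bspin π) (pull c) (fun _ => O)|
        ≤ 8 * (B0 + A * (Real.exp (8 * Dg)
            * pair P (stw π W) (bpat π) (bspin π) (pull c) (fun _ => oR))
          + A' * (Real.exp (8 * Dg) * (pair P (stw π W) (bpat π) (bspin π) (pull c) (oP c)
            + 8 * (M * (gamP P N M Lp * Da))))) := by
    intro W hW
    set lam : ℝ → GIdx N M K n → ℝ := fun t i => pull c i + t * d i with hlam
    have hl : ∀ t, lam t = pull fun i => c i + t * (c' i - c i) := fun t => (pull_seg c c' t).symm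
    have hl0 : lam 0 = pull c := funext fun i => by simp [hlam]
    have hl1 : lam 1 = pull c' := pull_seg_one c c'
    set g := fun t => pair P (stw π W) (bpat π) (bspin π) (lam t) (fun _ => oR)
    set h := fun t => pair P (stw π W) (bpat π) (bspin π) (lam t)
      (oP fun i => c i + t * (c' i - c i))
    have hDg' : ∀ t ∈ Ioo (0 : ℝ) 1, ∀ G x y,
        |grad P (bpat π) (bspin π) (lam t) d G x y| ≤ Dg := fun t ht G x y => by
      rw [hl t]; exact hDg t ht G x y
    have gR : ∀ u ∈ Icc (0 : ℝ) 1, g u ≤ Real.exp (8 * Dg) * g 0 := by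
      intro u hu
      have := obs_gronwall P (bpat π) (bspin π) (disj_model π) (stw_pos π hW) hpos hdiag
        (r := 2) (fun _ xs => oR (xs 0) (xs 1)) 4 (fun _ => 0) (fun _ => 0)
        (fun _ _ _ _ => 0) (fun _ _ _ _ _ => 0) (fun _ => continuous_const)
        (fun _ _ _ => continuous_const) (fun _ _ _ _ => continuous_const)
        (fun _ _ _ _ => hasDerivAt_const _ _) (fun _ _ _ _ _ => hasDerivAt_const _ _)
        (fun _ xs => hR4 _ _) (fun _ _ _ _ => by simp) (fun _ _ _ _ _ => by simp)
        (fun _ _ => sq_nonneg _) (Da := fun _ => Da) hDg0 (by simp) hDg'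
        (fun a x y => hDa a x y) (left_mem_Icc.2 zero_le_one) hu
      simp only [zero_mul, add_zero, Finset.sum_const_zero, mul_zero] at this
      rw [obs_eq_pair P π hW _ _ (fun _ => oR) (fun _ _ => rfl),
        obs_eq_pair P π hW _ _ (fun _ => oR) (fun _ _ => rfl)] at this
      calc g u ≤ Real.exp (2 * ((2 : ℕ) : ℝ) ^ 2 * Dg) * g 0 := by simpa [g, hlam] using this
        _ = _ := by norm_num
    have gP : ∀ u ∈ Icc (0 : ℝ) 1,
        h u ≤ Real.exp (8 * Dg) * (h 0 + 8 * (M * (gamP P N M Lp * Da))) := by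
      intro u hu
      have := devP_gronwall P π hp hW hn hpos hdiag hDg0 hDa0 hDg' hDa
        (left_mem_Icc.2 zero_le_one) hu
      rw [obs_eq_pair P π hW _ _ (oP fun i => c i + u * (c' i - c i)) (fun G xs => by
          simp only [devP, oP, ovP]; rw [← hl u]),
        obs_eq_pair P π hW _ _ (oP fun i => c i + (0 : ℝ) * (c' i - c i)) (fun G xs => by
          simp only [devP, oP, ovP]; rw [← hl 0])] at this
      exact this
    refine ⟨?_, ?_, ?_⟩
    · have := gR 1 (right_mem_Icc.2 zero_le_one)
      simp only [g, hl0, hl1] at this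
      exact this
    · have := gP 1 (right_mem_Icc.2 zero_le_one)
      simp only [h, hl0, hl1] at this
      simpa using this
    · set φO := fun (_ : Fin M → Fin 2 → ℝ) (xs : Fin 2 → State π K n) => O (xs 0) (xs 1)
      set F := fun u => obs P (bpat π) (bspin π) φO (stw π W) (lam u)
      have hder : ∀ t ∈ Ioo (0 : ℝ) 1, ∃ D : ℝ, HasDerivAt F D t ∧
          |D| ≤ 8 * (B0 + A * g t + A' * h t) := by
        intro t ht
        obtain ⟨D, hD, hDle⟩ := hasDerivAt_obs P (bpat π) (bspin π) (disj_model π) (stw_pos π hW)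
          hpos hdiag φO 1 (fun _ => 0) (fun _ => 0) (fun _ _ _ _ => 0) (fun _ _ _ _ _ => 0)
          (fun _ => continuous_const) (fun _ _ _ => continuous_const)
          (fun _ _ _ _ => continuous_const)
          (fun _ _ _ _ => hasDerivAt_const _ _) (fun _ _ _ _ _ => hasDerivAt_const _ _)
          (fun _ xs => hO _ _) (fun _ _ _ _ => by simp) (fun _ _ _ _ _ => by simp) ht
        refine ⟨D, hD, hDle.trans ?_⟩
        simp only [zero_mul, add_zero, one_mul, Finset.sum_const_zero, g, h, pair]
        have h8 : (2 : ℝ) * ((2 : ℕ) : ℝ) ^ 2 = 8 := by norm_num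
        rw [h8]
        refine mul_le_mul_of_nonneg_left ?_ (by norm_num)
        have hu := fun G => Itp.bw_pos P (bpat π) (bspin π) (stw_pos π hW) (lam t) G
        have hcg := fun x => Itp.cont_gibbs P (bpat π) (bspin π) (stw_pos π hW) (lam t) x
        have i1 : Integrable (fun G => avg2 (bw P (stw π W) (bpat π) (bspin π) (lam t) G) oR)
            (gaus _) := Itp.integrable_bdd (by unfold avg2; fun_prop)
          (C := 4) fun G => abs_avg2_le _ (fun x => (hu G x).le) (by norm_num) hR4
        have i2 : Integrable (fun G => avg2 (bw P (stw π W) (bpat π) (bspin π) (lam t) G)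
            (oP (fun i => c i + t * (c' i - c i)) G)) (gaus _) := Itp.integrable_bdd
          (by have := fun x y => hPc (fun i => c i + t * (c' i - c i)) x y; unfold avg2; fun_prop)
          (C := G0 ^ 2) fun G => abs_avg2_le _ (fun x => (hu G x).le) (sq_nonneg _)
            (hP4 (fun i => c i + t * (c' i - c i)) G)
        rw [← integral_const_mul, ← integral_const_mul]
        refine le_of_le_of_eq (integral_mono_of_nonneg (ae_of_all _ fun G => ?_)
          (((integrable_const B0).add (i1.const_mul A)).add (i2.const_mul A'))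
          (ae_of_all _ fun G => ?_)) ?_
        · exact Finset.sum_nonneg fun x _ => Finset.sum_nonneg fun y _ => mul_nonneg
            (mul_nonneg (Itp.gibbs_nonneg (hu G) x) (Itp.gibbs_nonneg (hu G) y)) (abs_nonneg _)
        · have e0 : avg2 (bw P (stw π W) (bpat π) (bspin π) (lam t) G)
              (fun _ _ => B0) = B0 := by
            have := Itp.sum_gibbs (hu G)
            simp only [avg2, ← Finset.sum_mul, ← Finset.mul_sum, this, one_mul, mul_one]
          have hle : avg2 (bw P (stw π W) (bpat π) (bspin π) (lam t) G)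
              (fun x y => |grad P (bpat π) (bspin π) (lam t) d G x y|)
            ≤ avg2 (bw P (stw π W) (bpat π) (bspin π) (lam t) G) (fun x y => B0 + A * oR x y
              + A' * oP (fun i => c i + t * (c' i - c i)) G x y) := by
            refine Finset.sum_le_sum fun x _ => Finset.sum_le_sum fun y _ =>
              mul_le_mul_of_nonneg_left ?_
                (mul_nonneg (Itp.gibbs_nonneg (hu G) x) (Itp.gibbs_nonneg (hu G) y))
            rw [hl t]
            exact hB t ht G x y
          refine hle.trans_eq ?_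
          simp only [Pi.add_apply]
          conv_rhs => rw [← e0]
          simp only [avg2, mul_add, Finset.sum_add_distrib, Finset.mul_sum]
          congr 2 <;> first
            | (funext x; exact Finset.sum_congr rfl fun y _ => by ring)
            | exact Finset.sum_congr rfl fun x _ => Finset.sum_congr rfl fun y _ => by ring
        · simp only [Pi.add_apply]
          have j1 := (integrable_const (μ := gaus (GIdx N M K n)) B0).add (i1.const_mul A)
          simp only [Pi.add_def] at j1
          rw [integral_add j1 (i2.const_mul A'), integral_add (integrable_const B0) (i1.const_mul A),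
            integral_const]
          simp
      choose! D hD hDb using hder
      have hcont : Continuous F := (continuous_obs P (bpat π) (bspin π) (stw_pos π hW) φO
        (fun _ => continuous_const) (g0 := 1) (fun _ xs => hO _ _)).comp
          (continuous_pi fun i => continuous_const.add (continuous_id.mul continuous_const))
      obtain ⟨t, ht, hsl⟩ := exists_hasDerivAt_eq_slope F D zero_lt_one hcont.continuousOn hD
      have hF : ∀ u, F u = pair P (stw π W) (bpat π) (bspin π) (lam u) (fun _ => O) := fun u =>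
        obs_eq_pair P π hW _ _ _ fun _ _ => rfl
      rw [sub_zero, div_one, hF 1, hF 0, hl0, hl1] at hsl
      rw [← hsl]
      refine (hDb t ht).trans (mul_le_mul_of_nonneg_left ?_ (by norm_num))
      have h1 := gR t (Ioo_subset_Icc_self ht)
      have h2 := gP t (Ioo_subset_Icc_self ht)
      have hg0 : g 0 = pair P (stw π W) (bpat π) (bspin π) (pull c) (fun _ => oR) := by
        simp only [g, hl0]
      have hh0 : h 0 = pair P (stw π W) (bpat π) (bspin π) (pull c) (oP c) := by
        simp only [h, hl0, zero_mul, add_zero]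
      rw [← hg0, ← hh0]
      exact add_le_add (add_le_add le_rfl (mul_le_mul_of_nonneg_left h1 hA))
        (mul_le_mul_of_nonneg_left h2 hA')
  have hae := ae_casW_pos (K := K) (mlev K) n
  refine ⟨?_, ?_, ?_⟩
  · show mpair n P π c' (fun _ => oR) ≤ _ * mpair n P π c (fun _ => oR)
    rw [(eR c').2, (eR c).2, ← integral_const_mul]
    exact integral_mono_ae (eR c').1 ((eR c).1.const_mul _) (hae.mono fun W hW => (key W hW).1)
  · show mpair n P π c' (oP c') ≤ _ * (mpair n P π c (oP c) + _)
    have i0 := ((eP c).1.add (integrable_const (8 * ((M : ℝ) * (gamP P N M Lp * Da))))).const_mul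
      (Real.exp (8 * Dg))
    refine ((eP c').2.trans_le (integral_mono_ae (eP c').1 i0
      (hae.mono fun W hW => (key W hW).2.1))).trans_eq ?_
    simp only [Pi.add_apply]
    rw [integral_const_mul, integral_add (eP c).1 (integrable_const _), ← (eP c).2, integral_const]
    simp
  · show |_| ≤ 8 * (B0 + A * (_ * mpair n P π c (fun _ => oR))
      + A' * (_ * (mpair n P π c (oP c) + _)))
    rw [(eO c').2, (eO c).2, ← integral_sub (eO c').1 (eO c).1]
    have iR := ((eR c).1.const_mul (Real.exp (8 * Dg))).const_mul A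
    have iP := (((eP c).1.add (integrable_const (8 * ((M : ℝ) * (gamP P N M Lp * Da))))).const_mul
      (Real.exp (8 * Dg))).const_mul A'
    have iB := (((integrable_const (μ := casW (mlev K) n) B0).add iR).add iP).const_mul (8 : ℝ)
    refine abs_integral_le_integral_abs.trans ((integral_mono_ae
      ((eO c').1.sub (eO c).1).abs iB (hae.mono fun W hW => (key W hW).2.2)).trans_eq ?_)
    simp only [Pi.add_apply]
    have j1 := (integrable_const (μ := casW (mlev K) n) B0).add iR
    simp only [Pi.add_def] at j1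
    simp only [Pi.add_apply] at iP
    rw [integral_const_mul, integral_add j1 iP, integral_add (integrable_const B0) iR]
    simp only [integral_const_mul]
    rw [integral_add (eP c).1 (integrable_const _), ← (eP c).2, ← (eR c).2]
    simp

end Vale.Agent.P157.Casc
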