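import Vale.Agent.P157.Casc.MLimit
import Vale.Agent.P157.Casc.FreeEnd
import Vale.Agent.P157.Casc.Seg

/-!
Limits of level averages as the degree of the tree grows, and their uniformity over the parameters.
-/

open MeasureTheory ProbabilityTheory Filter Topology Set

namespace Vale.Agent.P157.Casc

variable {N M K n : ℕ}

theorem eq_join (G : GIdx N M K n → ℝ) :
    G = join (fun i => G (Sum.elim Sum.inl (fun l => Sum.inr (none, l)) i))
      (fun u l => G (Sum.inr (some u, l))) := by
  funext i
  rcases i with p | ⟨_ | u, l⟩ <;> rfl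

theorem lin_bpat_branch (π : Prior N) (c : CIdx N M K → ℝ) (z : RIdx N M → ℝ)
    (ξ : Node K n → LIdx N M → ℝ) (a : Fin M) (st : State π K n) :
    lin (bpat π a) (pull c) (join z ξ) st
      = lin (bpat (n := 1) π a) (pull c) (branch z (path ξ st.2)) (st.1, fun _ => 0) := by
  simp only [lin_bpat]
  rfl

theorem measurable_leafAvg (P : Pot) (π : Prior N) (c : CIdx N M K → ℝ)
    {φ : Fin π.c → (GIdx N M K 1 → ℝ) → ℝ} (hφ : ∀ σ, Continuous (φ σ)) :
    Measurable (Function.uncurry fun (z : RIdx N M → ℝ) (y : Fin K → LIdx N M → ℝ) =>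
      leafAvg P π c φ z y) := by
  have h : ∀ σ, Measurable fun p : (RIdx N M → ℝ) × (Fin K → LIdx N M → ℝ) => π.w σ *
      Real.exp (ham P (bpat (n := 1) π) (bspin π) (pull c) (branch p.1 p.2) (σ, fun _ => 0))
        * φ σ (branch p.1 p.2) := fun σ =>
    (((Real.continuous_exp.comp ((continuous_ham_branch P π σ).comp
      (f := fun p : (RIdx N M → ℝ) × (Fin K → LIdx N M → ℝ) => (c, p.1, p.2))
      (continuous_const.prodMk continuous_id))).const_mul _).mul
        ((hφ σ).comp continuous_branch)).measurable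
  exact (Finset.measurable_sum _ fun σ _ => h σ).div (measurable_leafY P π c)

theorem abs_leafAvg_le (P : Pot) (π : Prior N) (c : CIdx N M K → ℝ)
    {φ : Fin π.c → (GIdx N M K 1 → ℝ) → ℝ} {B : ℝ} (hB : ∀ σ g, |φ σ g| ≤ B)
    (z : RIdx N M → ℝ) (y : Fin K → LIdx N M → ℝ) : |leafAvg P π c φ z y| ≤ B := by
  rw [leafAvg, abs_div, abs_of_pos (leafY_pos P π c z y), div_le_iff₀ (leafY_pos P π c z y),
    leafY, Finset.mul_sum]
  refine (Finset.abs_sum_le_sum_abs _ _).trans (Finset.sum_le_sum fun σ _ => ?_)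
  rw [abs_mul, abs_of_pos (mul_pos (π.w_pos σ) (Real.exp_pos _)), mul_comm B]
  exact mul_le_mul_of_nonneg_left (hB _ _) (mul_pos (π.w_pos σ) (Real.exp_pos _)).le

/-- Limit of level averages of products of one-state functions along converging variances. -/
theorem tendsto_level (P : Pot) (π : Prior N) {c : ℕ → CIdx N M K → ℝ} {cl : CIdx N M K → ℝ}
    (hc : Tendsto c atTop (𝓝 cl)) {nn : ℕ → ℕ} (hn : Tendsto nn atTop atTop) {d : ℕ}
    {φ : (CIdx N M K → ℝ) → Fin d → Fin π.c → (GIdx N M K 1 → ℝ) → ℝ}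
    (hφ : ∀ i σ, Continuous fun p : (CIdx N M K → ℝ) × (GIdx N M K 1 → ℝ) => φ p.1 i σ p.2)
    {B : ℝ} (hB : ∀ c i σ g, |φ c i σ g| ≤ B) (l : Fin (K + 1))
    (O : ∀ n : ℕ, (CIdx N M K → ℝ) → (GIdx N M K n → ℝ) → State π K n → State π K n → ℝ)
    (hO : ∀ n c z ξ st st', O n c (join z ξ) st st' = onLev l (ovU π st st')
      (∑ i, φ c i st.1 (branch z (path ξ st.2)) * φ c i st'.1 (branch z (path ξ st'.2)))) :
    Tendsto (fun k => mpair (nn k) P π (c k) (O (nn k) (c k))) atTop
      (𝓝 (pi0 K * ∑ i, ∫ z, csq (gaus (LIdx N M)) K (mlev K)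
        (fun y => Real.log (leafY P π cl z y)) (fun y => leafAvg P π cl (φ cl i) z y) l
          ∂gaus (RIdx N M))) := by
  obtain ⟨A, hA⟩ := conv_leafY P π hc
  have hcol : ∀ c i σ, Continuous (φ c i σ) := fun c i σ =>
    (hφ i σ).comp (continuous_const.prodMk continuous_id)
  have h := casc_mono (grid_mlev K) hA hn (d := d)
    (a := fun k z y i => leafAvg P π (c k) (φ (c k) i) z y)
    (al := fun z y i => leafAvg P π cl (φ cl i) z y) (B := B)
    (fun k => measurable_pi_lambda _ fun i => measurable_leafAvg P π _ (hcol _ i))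
    (measurable_pi_lambda _ fun i => measurable_leafAvg P π _ (hcol _ i))
    (fun k z y i => abs_leafAvg_le P π _ (hB _ i) z y)
    (fun z y => tendsto_pi_nhds.2 fun i => by
      have hcont : Continuous fun c : CIdx N M K → ℝ => leafAvg P π c (φ c i) z y := by
        have h1 : Continuous fun c : CIdx N M K → ℝ => leafY P π c z y :=
          (continuous_leafY (M := M) (K := K) P π).comp (f := fun c => (c, z, y))
            (continuous_id.prodMk continuous_const)
        have h2 : ∀ σ, Continuous fun c : CIdx N M K → ℝ => Real.exp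
            (ham P (bpat (n := 1) π) (bspin π) (pull c) (branch z y) (σ, fun _ => 0)) := fun σ =>
          Real.continuous_exp.comp ((continuous_ham_branch P π σ).comp
            (f := fun c => (c, z, y)) (continuous_id.prodMk continuous_const))
        exact (continuous_finsetSum _ fun σ _ => ((h2 σ).const_mul _).mul
          ((hφ i σ).comp (continuous_id.prodMk continuous_const))).div h1
            fun c => (leafY_pos P π c z y).ne'
      exact (hcont.tendsto cl).comp hc) l
  rw [gap_mlev] at h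
  refine h.congr fun k => ?_
  rw [mpair_level P π (c k) (φ (c k)) (hcol _) (hB _) l (O (nn k) (c k)) (hO _ _)]
  · intro x y
    have hG : (fun G => O (nn k) (c k) G x y) = fun G => onLev l (ovU π x y)
        (∑ i, φ (c k) i x.1 (branch (fun i => G (Sum.elim Sum.inl (fun l => Sum.inr (none, l)) i))
            (path (fun u l => G (Sum.inr (some u, l))) x.2))
          * φ (c k) i y.1 (branch (fun i => G (Sum.elim Sum.inl (fun l => Sum.inr (none, l)) i))
            (path (fun u l => G (Sum.inr (some u, l))) y.2))) := by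
      funext G
      conv_lhs => rw [eq_join G]
      exact hO _ _ _ _ _ _
    rw [hG]
    unfold onLev
    split_ifs
    · refine continuous_finsetSum _ fun i _ => ((hcol _ i _).comp ?_).mul ((hcol _ i _).comp ?_) <;>
        · refine continuous_pi fun i' => ?_
          rcases i' with q | ⟨_ | u, i'⟩ <;> simp only [branch, path] <;> exact continuous_apply _
    · exact continuous_const
  · intro G x y
    rw [eq_join G, hO, onLev]
    split_ifs
    · refine (Finset.abs_sum_le_sum_abs _ _).trans ((Finset.sum_le_sum fun i _ => ?_).trans_eq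
        (by rw [Finset.sum_const, Finset.card_univ, Fintype.card_fin, nsmul_eq_mul]))
      rw [abs_mul, sq]
      exact mul_le_mul (hB _ _ _ _) (hB _ _ _ _) (abs_nonneg _)
        ((abs_nonneg _).trans (hB (c k) i x.1 fun _ => 0))
    · rw [abs_zero]
      positivity

theorem abs_spin_le (π : Prior N) (σ : Fin π.c) (j : Fin N) : |π.spin σ j| ≤ √(N : ℝ) :=
  Real.abs_le_sqrt <| (Finset.single_le_sum (f := fun j => π.spin σ j ^ 2)
    (fun _ _ => sq_nonneg _) (Finset.mem_univ j)).trans (π.norm_spin σ).le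

/-- Limit of the spin overlaps at the levels. -/
noncomputable def qlim (P : Pot) (π : Prior N) (cl : CIdx N M K → ℝ) (l : Fin (K + 1)) : ℝ :=
  ∑ j, ∫ z, csq (gaus (LIdx N M)) K (mlev K) (fun y => Real.log (leafY P π cl z y))
    (fun y => leafAvg P π cl (fun σ _ => π.spin σ j / √(N : ℝ)) z y) l ∂gaus (RIdx N M)

/-- Limit of the overlaps of derivatives at the levels. -/
noncomputable def plim (P : Pot) (π : Prior N) (cl : CIdx N M K → ℝ) (l : Fin (K + 1)) : ℝ :=
  ∑ a, ∫ z, csq (gaus (LIdx N M)) K (mlev K) (fun y => Real.log (leafY P π cl z y))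
    (fun y => leafAvg P π cl
      (fun σ g => P.f1 (lin (bpat (n := 1) π a) (pull cl) g (σ, fun _ => 0)) / √(N : ℝ)) z y) l
    ∂gaus (RIdx N M)

section

variable (P : Pot) (π : Prior N) {c : ℕ → CIdx N M K → ℝ} {cl : CIdx N M K → ℝ}
  {nn : ℕ → ℕ}

theorem tendsto_piX (hc : Tendsto c atTop (𝓝 cl)) (hn : Tendsto nn atTop atTop) (l : Fin (K + 1)) :
    Tendsto (fun k => piX (nn k) P π (c k) l) atTop (𝓝 (pi0 K)) := by
  have h := tendsto_level P π hc hn (d := 1) (φ := fun _ _ _ _ => 1)
    (fun _ _ => continuous_const) (B := 1) (fun _ _ _ _ => (abs_one).le) l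
    (fun n _ _ st st' => onLev l (ovU π st st') 1) (fun _ _ _ _ _ _ => by simp)
  have e : ∀ z, csq (gaus (LIdx N M)) K (mlev K) (fun y => Real.log (leafY P π cl z y))
      (fun y => leafAvg P π cl (fun _ _ => 1) z y) l = 1 := fun z => by
    have e1 : (fun y => leafAvg P π cl (fun _ _ => 1) z y) = fun _ => (1 : ℝ) := funext fun y => by
      simp only [leafAvg, mul_one]
      exact div_self (leafY_pos P π cl z y).ne'
    rw [e1, (csq_const 1 K (grid_mlev K) (continuous_leafY_y P π cl z).measurable.log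
      (integrable_exp_logY P π cl z)).2 l, one_pow]
  simpa [e, piX] using h

theorem tendsto_qX (hc : Tendsto c atTop (𝓝 cl)) (hn : Tendsto nn atTop atTop) (l : Fin (K + 1)) :
    Tendsto (fun k => qX (nn k) N P π (c k) l) atTop (𝓝 (qlim P π cl l)) := by
  have hpi : pi0 K ≠ 0 := by rw [pi0]; positivity
  have h := tendsto_level P π hc hn (d := N) (φ := fun _ j σ _ => π.spin σ j / √(N : ℝ))
    (fun _ _ => continuous_const) (B := 1) (fun _ j σ _ => by
      rw [abs_div, abs_of_nonneg (Real.sqrt_nonneg _)]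
      exact div_le_one_of_le₀ (abs_spin_le π σ j) (Real.sqrt_nonneg _)) l
    (fun n _ _ st st' => onLev l (ovU π st st') (ovR N π st st')) (fun _ _ _ _ _ _ => by
      simp [ovR, Finset.sum_div, div_mul_div_comm])
  have h2 := h.div_const (pi0 K)
  rwa [mul_div_cancel_left₀ _ hpi] at h2

theorem tendsto_pX (hc : Tendsto c atTop (𝓝 cl)) (hn : Tendsto nn atTop atTop) (l : Fin (K + 1)) :
    Tendsto (fun k => pX (nn k) N P π (c k) l) atTop (𝓝 (plim P π cl l)) := by
  have hpi : pi0 K ≠ 0 := by rw [pi0]; positivity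
  have h := tendsto_level P π hc hn (d := M)
    (φ := fun c a σ g => P.f1 (lin (bpat (n := 1) π a) (pull c) g (σ, fun _ => 0)) / √(N : ℝ))
    (fun a σ => by
      have := pot_continuous1 P
      have hp : Continuous fun p : (CIdx N M K → ℝ) × (GIdx N M K 1 → ℝ) =>
          (pull p.1 : GIdx N M K 1 → ℝ) := by
        refine continuous_pi fun i => ?_
        rcases i with q | ⟨o, i⟩ <;> simp only [pull] <;> fun_prop
      unfold lin
      fun_prop) (B := P.b1 / √(N : ℝ)) (fun c a σ g => by
      rw [abs_div, abs_of_nonneg (Real.sqrt_nonneg _)]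
      exact div_le_div_of_nonneg_right (P.h1 _) (Real.sqrt_nonneg _)) l
    (fun n c G st st' => onLev l (ovU π st st') (ovP N P π c G st st'))
    (fun _ _ _ _ _ _ => by
      simp [ovP, Finset.sum_div, div_mul_div_comm, lin_bpat_branch])
  have h2 := h.div_const (pi0 K)
  rwa [mul_div_cancel_left₀ _ hpi] at h2

end

theorem integrable_csq_leaf (P : Pot) (π : Prior N) (c : CIdx N M K → ℝ)
    {φ : Fin π.c → (GIdx N M K 1 → ℝ) → ℝ} (hφ : ∀ σ, Continuous (φ σ)) {B : ℝ}
    (hB : ∀ σ g, |φ σ g| ≤ B) :
    (∀ l, Integrable (fun z => csq (gaus (LIdx N M)) K (mlev K)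
      (fun y => Real.log (leafY P π c z y)) (fun y => leafAvg P π c φ z y) l)
        (gaus (RIdx N M))) ∧
    Monotone (fun l => ∫ z, csq (gaus (LIdx N M)) K (mlev K)
      (fun y => Real.log (leafY P π c z y)) (fun y => leafAvg P π c φ z y) l ∂gaus (RIdx N M)) ∧
    0 ≤ ∫ z, csq (gaus (LIdx N M)) K (mlev K) (fun y => Real.log (leafY P π c z y))
      (fun y => leafAvg P π c φ z y) 0 ∂gaus (RIdx N M) := by
  have hmy : ∀ z, Measurable fun y : Fin K → LIdx N M → ℝ => leafAvg P π c φ z y := fun z => by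
    have h : ∀ σ, Continuous fun y : Fin K → LIdx N M → ℝ => π.w σ *
        Real.exp (ham P (bpat (n := 1) π) (bspin π) (pull c) (branch z y) (σ, fun _ => 0))
          * φ σ (branch z y) := fun σ =>
      ((Real.continuous_exp.comp ((continuous_ham_branch P π σ).comp
        (f := fun y : Fin K → LIdx N M → ℝ => (c, z, y))
        (continuous_const.prodMk (continuous_const.prodMk continuous_id)))).const_mul _).mul
          ((hφ σ).comp (continuous_branch.comp
            (f := fun y : Fin K → LIdx N M → ℝ => (z, y)) (continuous_const.prodMk continuous_id)))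
    exact (Finset.measurable_sum _ fun σ _ => (h σ).measurable).div
      (continuous_leafY_y P π c z).measurable
  have key := fun z => csq_bound_mono (ν := gaus (LIdx N M)) K (grid_mlev K)
    (H := fun y => Real.log (leafY P π c z y)) (a := fun y => leafAvg P π c φ z y)
    (continuous_leafY_y P π c z).measurable.log
    (hmy z) (integrable_exp_logY P π c z)
    (B := B) fun y => abs_leafAvg_le P π c hB z y
  have hi : ∀ l, Integrable (fun z => csq (gaus (LIdx N M)) K (mlev K)
      (fun y => Real.log (leafY P π c z y)) (fun y => leafAvg P π c φ z y) l)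
        (gaus (RIdx N M)) := fun l =>
    integrable_of_bdd (measurable_csq_param (ν := gaus (LIdx N M)) K (mlev K)
      (H := fun z y => Real.log (leafY P π c z y)) (a := fun z y => leafAvg P π c φ z y)
      (measurable_leafY P π c).log (measurable_leafAvg P π c hφ) l).aestronglyMeasurable
      fun z => (key z).1 l
  refine ⟨hi, fun i j hij => integral_mono (hi i) (hi j) fun z => (key z).2 hij, ?_⟩
  exact integral_nonneg fun z => by rw [csq_zero]; exact sq_nonneg _

/-- The limit path of spin overlaps is monotone and nonnegative. -/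
theorem qlim_mono (P : Pot) (π : Prior N) (cl : CIdx N M K → ℝ) :
    Monotone (qlim P π cl) ∧ ∀ l, 0 ≤ qlim P π cl l := by
  have h := fun j => integrable_csq_leaf P π cl
    (φ := fun σ _ => π.spin σ j / √(N : ℝ)) (fun σ => continuous_const) (B := 1) fun σ g => by
      rw [abs_div, abs_of_nonneg (Real.sqrt_nonneg _)]
      exact div_le_one_of_le₀ (abs_spin_le π σ j) (Real.sqrt_nonneg _)
  have hm : Monotone (qlim P π cl) := fun a b hab =>
    Finset.sum_le_sum fun j _ => (h j).2.1 hab
  exact ⟨hm, fun l => (Finset.sum_nonneg fun j _ => (h j).2.2).trans (hm (Fin.zero_le l))⟩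

/-- The limit path of overlaps of derivatives is monotone and nonnegative. -/
theorem plim_mono (P : Pot) (π : Prior N) (cl : CIdx N M K → ℝ) :
    Monotone (plim P π cl) ∧ ∀ l, 0 ≤ plim P π cl l := by
  have h := fun a => integrable_csq_leaf P π cl
    (φ := fun σ g => P.f1 (lin (bpat (n := 1) π a) (pull cl) g (σ, fun _ => 0)) / √(N : ℝ))
    (fun σ => by
      have := pot_continuous1 P
      unfold lin
      fun_prop) (B := P.b1 / √(N : ℝ)) fun σ g => by
      rw [abs_div, abs_of_nonneg (Real.sqrt_nonneg _)]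
      exact div_le_div_of_nonneg_right (P.h1 _) (Real.sqrt_nonneg _)
  have hm : Monotone (plim P π cl) := fun a b hab =>
    Finset.sum_le_sum fun j _ => (h j).2.1 hab
  exact ⟨hm, fun l => (Finset.sum_nonneg fun j _ => (h j).2.2).trans (hm (Fin.zero_le l))⟩

theorem qX_le (P : Pot) (π : Prior N) (c : CIdx N M K → ℝ) (l : Fin (K + 1)) :
    qX n N P π c l ≤ piX n P π c l / pi0 K := by
  refine div_le_div_of_nonneg_right ?_ (by rw [pi0]; positivity)
  have hO : ∀ (g : ℝ), |g| ≤ 1 → ∀ u : Fin (K + 1), |onLev l u g| ≤ 1 := fun g hg u => by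
    unfold onLev
    split_ifs
    exacts [hg, by simp]
  refine integral_mono_ae
    (measurable_mpair_fun P π c (O := fun _ st st' => onLev l (ovU π st st') (ovR N π st st'))
      (fun _ _ => continuous_const) zero_le_one fun _ x y => hO _ (abs_ovR_le_one π x y) _)
    (measurable_mpair_fun P π c (O := fun _ st st' => onLev l (ovU π st st') 1)
      (fun _ _ => continuous_const) zero_le_one fun _ x y => hO 1 abs_one.le _) ?_
  filter_upwards [ae_mbw_pos P π c] with p hp
  refine Finset.sum_le_sum fun x _ => Finset.sum_le_sum fun y _ =>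
    mul_le_mul_of_nonneg_left ?_ (mul_nonneg ?_ ?_)
  · simp only [onLev]
    split_ifs
    exacts [(le_abs_self _).trans (abs_ovR_le_one π x y), le_rfl]
  all_goals exact div_nonneg (hp _).le (Finset.sum_nonneg fun z _ => (hp z).le)

/-- In the limit the spin-overlap path is its monotone projection. -/
theorem tendsto_qhat (P : Pot) (π : Prior N) {c : ℕ → CIdx N M K → ℝ} {cl : CIdx N M K → ℝ}
    (hc : Tendsto c atTop (𝓝 cl)) {nn : ℕ → ℕ} (hn : Tendsto nn atTop atTop) {l : Fin (K + 1)}
    (hl : l ≠ Fin.last K) :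
    Tendsto (fun k => qhat (nn k) P π (c k) l) atTop (𝓝 (qlim P π cl l)) := by
  have hq := tendsto_qX P π hc hn
  have h1 : ∀ l, qlim P π cl l ≤ 1 := fun l => by
    refine le_of_tendsto_of_tendsto' (hq l) ?_ fun k => qX_le P π (c k) l
    have := (tendsto_piX P π hc hn l).div_const (pi0 K)
    rwa [div_self (show pi0 K ≠ 0 by rw [pi0]; positivity)] at this
  obtain ⟨hm, h0⟩ := qlim_mono P π cl
  have hfix : monoP 1 (qlim P π cl) l = qlim P π cl l := sub_eq_zero.1 <| abs_nonpos_iff.1
    (abs_monoP_sub_le hm h0 h1 (fun i => by simp) l)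
  simp only [qhat, if_neg hl]
  rw [← hfix]
  exact ((continuous_apply l).comp (continuous_monoP 1)).tendsto _ |>.comp (tendsto_pi_nhds.2 hq)

theorem isCompact_Adm (K : ℕ) (L : ℝ) : IsCompact {Λ : Par K | Adm K L Λ} := by
  have hc : ∀ i : Fin (K + 1), Continuous fun Λ : Par K => Λ.2.1 i := fun i =>
    (continuous_apply i).comp (continuous_fst.comp continuous_snd)
  have hd : ∀ i : Fin (K + 1), Continuous fun Λ : Par K => Λ.2.2 i := fun i =>
    (continuous_apply i).comp (continuous_snd.comp continuous_snd)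
  refine IsCompact.of_isClosed_subset (isCompact_Icc (a := ((0 : ℝ),
    (fun _ : Fin (K + 1) => (0 : ℝ)), fun _ : Fin (K + 1) => (0 : ℝ))) (b := (1, fun _ => 1,
      fun _ => L))) ?_ fun Λ h => ?_
  · simp only [Adm, Set.ofPred_and, Monotone, Set.ofPred_forall]
    refine (isClosed_Icc.preimage continuous_fst).inter ((isClosed_iInter fun a => isClosed_iInter
      fun b => isClosed_iInter fun _ => isClosed_le (hc a) (hc b)).inter ((isClosed_le
        continuous_const (hc 0)).inter ((isClosed_eq (hc _) (continuous_const.sub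
          continuous_fst)).inter ((isClosed_iInter fun a => isClosed_iInter fun b => isClosed_iInter
            fun _ => isClosed_le (hd a) (hd b)).inter ((isClosed_le continuous_const (hd 0)).inter
              (isClosed_le (hd _) continuous_const))))))
  · obtain ⟨hs, hQ, hQ0, hQl, hC, hC0, hCl⟩ := h
    exact ⟨⟨hs.1, fun l => hQ0.trans (hQ (Fin.zero_le l)), fun l => hC0.trans (hC (Fin.zero_le l))⟩,
      hs.2, fun l => (hQ (Fin.le_last l)).trans (by rw [hQl]; linarith [hs.1]),
      fun l => (hC (Fin.le_last l)).trans hCl⟩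

/-- Parameters with perturbation weights. -/
def boxPar (N K : ℕ) (L : ℝ) : Set (Par K × (Fin N → ℝ)) :=
  {Λ | Adm K L Λ} ×ˢ Set.univ.pi fun _ => Icc (1 : ℝ) 2

theorem isCompact_boxPar (N K : ℕ) (L : ℝ) : IsCompact (boxPar N K L) :=
  (isCompact_Adm K L).prod (isCompact_univ_pi fun _ => isCompact_Icc)

theorem continuous_stdc2 :
    Continuous fun p : Par K × (Fin N → ℝ) => (stdc p.1 (ext0 p.2) : CIdx N M K → ℝ) := by
  have he : ∀ j : ℕ, Continuous fun p : Par K × (Fin N → ℝ) => ext0 p.2 j := fun j => by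
    unfold ext0
    split_ifs <;> fun_prop
  have hf : Continuous fun p : Par K × (Fin N → ℝ) => (fieldc p.1 : CIdx N M K → ℝ) := by
    refine continuous_pi fun i => ?_
    rcases i with q | ⟨l, a | j | t⟩ <;> simp only [fieldc]
    · fun_prop
    · refine Fin.cases ?_ (fun r => ?_) l <;> simp only [incr, Fin.cases_zero, Fin.cases_succ] <;>
        fun_prop
    · refine Fin.cases ?_ (fun r => ?_) l <;> simp only [incr, Fin.cases_zero, Fin.cases_succ] <;>
        fun_prop
    · exact continuous_const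
  refine continuous_pi fun i => ?_
  unfold stdc
  refine ((continuous_apply i).comp hf).add ?_
  rcases i with p | ⟨l, a | j | ⟨j, i, t⟩⟩ <;> simp only [pertc] <;> try exact continuous_const
  split_ifs
  · have := he j
    fun_prop
  · exact continuous_const

/-- Uniformity in the parameters of the standard systems from limits along sequences. -/
theorem uniform_std (L : ℝ) {D : ℕ → (CIdx N M K → ℝ) → ℝ}
    (h : ∀ (c : ℕ → CIdx N M K → ℝ) (cl : CIdx N M K → ℝ) (nn : ℕ → ℕ),
      Tendsto c atTop (𝓝 cl) → Tendsto nn atTop atTop → ∀ ε, 0 < ε →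
        ∀ᶠ k in atTop, D (nn k) (c k) ≤ ε)
    {ε : ℝ} (hε : 0 < ε) : ∃ n0, ∀ n ≥ n0, ∀ Λ : Par K, Adm K L Λ → ∀ x : Fin N → ℝ,
      (∀ i, x i ∈ Icc (1 : ℝ) 2) → D n (stdc Λ (ext0 x)) ≤ ε := by
  obtain ⟨n0, hn0⟩ := uniform_of_seq (isCompact_boxPar N K L)
    (D := fun n p => D n (stdc p.1 (ext0 p.2)))
    (fun c cl nn _ _ hlim hn => h _ _ nn ((continuous_stdc2.tendsto cl).comp hlim) hn) hε
  exact ⟨n0, fun n hn Λ hΛ x hx => hn0 n hn (Λ, x) ⟨hΛ, fun i _ => hx i⟩⟩

/-- Uniform convergence of the probabilities of levels and of the spin-overlap path. -/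
theorem level_uniform (P : Pot) (L : ℝ) (N M K : ℕ) (π : Prior N) {η : ℝ} (hη : 0 < η) :
    ∃ n0, ∀ n ≥ n0, ∀ Λ : Par K, Adm K L Λ → ∀ x : Fin N → ℝ, (∀ i, x i ∈ Icc (1 : ℝ) 2) →
      (∀ l, |piX n P π (stdc Λ (ext0 x) : CIdx N M K → ℝ) l - pi0 K| ≤ η) ∧
        ∀ l, l ≠ Fin.last K → |qX n N P π (stdc Λ (ext0 x) : CIdx N M K → ℝ) l
          - qhat n P π (stdc Λ (ext0 x) : CIdx N M K → ℝ) l| ≤ η := by
  set e : ℕ → (CIdx N M K → ℝ) → Fin (K + 1) → ℝ := fun n c l =>
    |piX n P π c l - pi0 K| + if l = Fin.last K then 0 else |qX n N P π c l - qhat n P π c l|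
  have he : ∀ (n : ℕ) (c : CIdx N M K → ℝ) (l : Fin (K + 1)), (0 : ℝ) ≤ (if l = Fin.last K then 0 else |qX n N P π c l - qhat n P π c l|) :=
    fun n c l => by split_ifs <;> positivity
  obtain ⟨n0, hn0⟩ := uniform_std (M := M) L (D := fun n c => ∑ l, e n c l)
    (fun c cl nn hc hn ε hε => by
      have ht : ∀ l, Tendsto (fun k => e (nn k) (c k) l) atTop (𝓝 0) := fun l => by
        have h1 := ((tendsto_piX P π hc hn l).sub_const (pi0 K)).abs
        rw [sub_self, abs_zero] at h1
        rw [← add_zero (0 : ℝ)]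
        refine h1.add ?_
        split_ifs with hl
        · exact tendsto_const_nhds
        · have h2 := ((tendsto_qX P π hc hn l).sub (tendsto_qhat P π hc hn hl)).abs
          rwa [sub_self, abs_zero] at h2
      have hs := tendsto_finsetSum Finset.univ fun l _ => ht l
      rw [Finset.sum_const_zero] at hs
      exact hs.eventually (eventually_le_nhds hε)) hη
  refine ⟨n0, fun n hn Λ hΛ x hx => ?_⟩
  have h := fun l => (Finset.single_le_sum (f := e n (stdc Λ (ext0 x)))
    (fun i _ => add_nonneg (abs_nonneg _) (he _ _ i)) (Finset.mem_univ l)).trans (hn0 n hn Λ hΛ x hx)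
  refine ⟨fun l => le_trans (le_add_of_nonneg_right (he _ _ l)) (h l), fun l hl => ?_⟩
  have := h l
  simp only [e, if_neg hl] at this
  exact le_trans (le_add_of_nonneg_left (abs_nonneg _)) this

end Vale.Agent.P157.Casc
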