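import Vale.Agent.P157.Casc.Conc
import Vale.Agent.P157.Casc.Uniform
import Vale.Agent.P157.Casc.SyncMeas

/-!
Concentration of the logarithm of the partition function of the standard systems.
-/

open MeasureTheory ProbabilityTheory Filter Topology Set

namespace Vale.Agent.P157.Casc

section Lipschitz

variable {T I : Type*} [Fintype T] [Fintype I] {M : ℕ} (P : Pot)
  (b : Fin M → T → I → ℝ) (bz : T → I → ℝ)

omit [Fintype T] in
/-- The energy of a state is Lipschitz in the Gaussian coordinates. -/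
theorem ham_lip (hD : Disj b bz) {lam : I → ℝ} (hl : ∀ i, 0 ≤ lam i) {A B : ℝ} (x : T)
    (hA : ∑ a, ∑ i, lam i * b a x i ^ 2 ≤ A) (hB : ∑ i, lam i * bz x i ^ 2 ≤ B) (G G' : I → ℝ) :
    ham P b bz lam G x ≤ ham P b bz lam G' x
      + (P.b1 * √A + √B) * √(∑ i, (G i - G' i) ^ 2) := by
  have hlip : ∀ u v : ℝ, P.f u - P.f v ≤ P.b1 * |u - v| := fun u v => by
    have h := convex_univ.norm_image_sub_le_of_norm_hasDerivWithin_le (f := P.f) (f' := P.f1)
      (fun y _ => (P.d1 y).hasDerivWithinAt) (fun y _ => by rw [Real.norm_eq_abs]; exact P.h1 y)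
      (mem_univ v) (mem_univ u)
    simp only [Real.norm_eq_abs] at h
    exact (le_abs_self _).trans h
  have hb1 := Itp.b1_nonneg P
  set δ : I → ℝ := fun i => |G i - G' i|
  have hδ : ∀ i, δ i ^ 2 = (G i - G' i) ^ 2 := fun i => sq_abs _
  have hdiff : ∀ v : T → I → ℝ, |lin v lam G x - lin v lam G' x| ≤ ∑ i, |√(lam i) * v x i| * δ i :=
    fun v => by
      simp only [lin, ← Finset.sum_sub_distrib, ← mul_sub]
      refine (Finset.abs_sum_le_sum_abs _ _).trans_eq ?_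
      simp only [abs_mul, δ]
  -- the patterns together
  set u : I → ℝ := fun i => ∑ a, |√(lam i) * b a x i|
  have hu : ∀ i, u i ^ 2 = ∑ a, lam i * b a x i ^ 2 := fun i => by
    have e : ∀ a, lam i * b a x i ^ 2 = |√(lam i) * b a x i| ^ 2 := fun a => by
      rw [sq_abs, mul_pow, Real.sq_sqrt (hl i)]
    simp only [e, u]
    rw [sq, Finset.sum_mul]
    refine Finset.sum_congr rfl fun a _ => ?_
    rw [Finset.mul_sum, Finset.sum_eq_single a (fun a' _ ha => ?_)
      (fun h => absurd (Finset.mem_univ _) h), sq]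
    rw [← abs_mul, show √(lam i) * b a x i * (√(lam i) * b a' x i)
      = √(lam i) * √(lam i) * (b a x i * b a' x i) by ring, hD.orth a a' ha.symm, mul_zero, abs_zero]
  have hpat : (∑ a, (P.f (lin (b a) lam G x) - P.f (lin (b a) lam G' x)))
      ≤ P.b1 * (√A * √(∑ i, (G i - G' i) ^ 2)) := by
    calc (∑ a, (P.f (lin (b a) lam G x) - P.f (lin (b a) lam G' x)))
        ≤ ∑ a, P.b1 * ∑ i, |√(lam i) * b a x i| * δ i := Finset.sum_le_sum fun a _ =>
          (hlip _ _).trans (mul_le_mul_of_nonneg_left (hdiff (b a)) hb1)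
      _ = P.b1 * ∑ i, u i * δ i := by
          rw [← Finset.mul_sum, Finset.sum_comm]
          simp only [u, Finset.sum_mul]
      _ ≤ P.b1 * (√(∑ i, u i ^ 2) * √(∑ i, δ i ^ 2)) :=
          mul_le_mul_of_nonneg_left (Real.sum_mul_le_sqrt_mul_sqrt _ _ _) hb1
      _ ≤ _ := by
          simp only [hu, hδ]
          rw [Finset.sum_comm]
          exact mul_le_mul_of_nonneg_left
            (mul_le_mul_of_nonneg_right (Real.sqrt_le_sqrt hA) (Real.sqrt_nonneg _)) hb1
  have hz : lin bz lam G x - lin bz lam G' x ≤ √B * √(∑ i, (G i - G' i) ^ 2) := by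
    refine (le_abs_self _).trans ((hdiff bz).trans ((Real.sum_mul_le_sqrt_mul_sqrt _ _ _).trans ?_))
    simp only [hδ, sq_abs, mul_pow]
    refine mul_le_mul_of_nonneg_right (Real.sqrt_le_sqrt ?_) (Real.sqrt_nonneg _)
    refine le_trans (le_of_eq (Finset.sum_congr rfl fun i _ => ?_)) hB
    rw [Real.sq_sqrt (hl i)]
  rw [Finset.sum_sub_distrib] at hpat
  simp only [ham]
  linarith

end Lipschitz

variable {N M K : ℕ}

theorem sum_sq_branch (z z' : RIdx N M → ℝ) (y : Fin K → LIdx N M → ℝ) :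
    ∑ i : GIdx N M K 1, (branch z y i - branch z' y i) ^ 2 = ∑ i, (z i - z' i) ^ 2 := by
  simp only [Fintype.sum_sum_type, Fintype.sum_prod_type, Fintype.sum_option, Fintype.sum_sigma,
    branch, sub_self, ne_eq, OfNat.ofNat_ne_zero, not_false_eq_true, zero_pow,
    Finset.sum_const_zero, add_zero]

/-- The two quadratic sizes of a branch of a standard system. -/
theorem stdc_sizes {L X : ℝ} {Λ : Par K} (hΛ : Adm K L Λ) {x : ℕ → ℝ} (hx : ∀ j, |x j| ≤ X)
    (π : Prior N) (hN : 0 < N) (σ : Fin π.c) :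
    (∑ a, ∑ i, (pull (stdc Λ x : CIdx N M K → ℝ) i : ℝ)
        * bpat (n := 1) π a (σ, fun _ => 0) i ^ 2) = M ∧
      (∑ i, pull (stdc Λ x : CIdx N M K → ℝ) i * bspin (n := 1) π (σ, fun _ => 0) i ^ 2)
        ≤ L * N + X ^ 2 * (N : ℝ) ^ ((3 : ℝ) / 4) / 3 := by
  have hN' : (N : ℝ) ≠ 0 := Nat.cast_ne_zero.2 hN.ne'
  have hnorm : ∑ j, π.spin σ j * π.spin σ j = (N : ℝ) := by
    simpa [pow_two] using π.norm_spin σ
  have hf : ∀ a j, (stdc Λ x : CIdx N M K → ℝ) (Sum.inl (a, j)) = Λ.1 := fun a j => by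
    simp [stdc, fieldc, pertc]
  have hQ : ∀ l a, (stdc Λ x : CIdx N M K → ℝ) (Sum.inr (l, Sum.inl a)) = incr Λ.2.1 l := fun l a => by
    simp [stdc, fieldc, pertc]
  have hC : ∀ l j, (stdc Λ x : CIdx N M K → ℝ) (Sum.inr (l, Sum.inr (Sum.inl j))) = incr Λ.2.2 l :=
    fun l j => by simp [stdc, fieldc, pertc]
  have hP : ∀ l t, (stdc Λ x : CIdx N M K → ℝ) (Sum.inr (l, Sum.inr (Sum.inr t)))
      = pertc N x (Sum.inr (l, Sum.inr (Sum.inr t))) := fun l t => zero_add _
  constructor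
  · have h1 : ∀ a : Fin M, ∑ i, (pull (stdc Λ x : CIdx N M K → ℝ) i : ℝ)
        * bpat (n := 1) π a (σ, fun _ => 0) i ^ 2 = 1 := fun a => by
      simp only [sq, cov_bpat, hf, hQ, com_self, sum_incr, ← Finset.mul_sum, hnorm]
      rw [mul_div_assoc, div_self hN', mul_one, hΛ.2.2.2.1]
      ring
    simp [h1]
  · simp only [sq (bspin _ _ _), cov_bspin, hC, hP, com_self, sum_incr]
    refine add_le_add ?_ ?_
    · rw [← Finset.sum_mul, hnorm, mul_comm]
      exact mul_le_mul_of_nonneg_right hΛ.2.2.2.2.2.2 (Nat.cast_nonneg N)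
    · have e := cov_pertS (M := M) π Finset.univ x ((σ, fun _ => 0) : State π K 1) (σ, fun _ => 0)
      simp only [com_self] at e
      rw [pertc_eq_pertS, e]
      refine le_trans ?_ (amp_sum_le hx)
      refine (Finset.sum_le_sum_of_subset_of_nonneg (Finset.filter_subset _ _)
        fun j _ _ => mul_nonneg (sq_nonneg _) (pow_nonneg ?_ _)).trans (Finset.sum_le_sum fun j _ => ?_)
      all_goals
        have h1 : ovSet Finset.univ π ((σ, fun _ => 0) : State π K 1) (σ, fun _ => 0) = 1 := by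
          simp only [ovSet, hnorm, Finset.card_univ, Fintype.card_fin, div_self hN']
      · rw [h1]; positivity
      · rw [Finset.card_univ, Fintype.card_fin, h1]
        refine mul_le_of_le_one_right (sq_nonneg _) (pow_le_one₀ (by positivity) ?_)
        rw [div_le_one (by positivity), Fin.val_last]
        push_cast
        linarith

/-- The logarithm of a leaf factor is Lipschitz in the root. -/
theorem leafY_lip (P : Pot) (π : Prior N) {L X : ℝ} {Λ : Par K} (hΛ : Adm K L Λ) {x : ℕ → ℝ}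
    (hx : ∀ j, |x j| ≤ X) (hN : 0 < N) (z z' : RIdx N M → ℝ) (y : Fin K → LIdx N M → ℝ) :
    Real.log (leafY P π (stdc Λ x) z y) ≤ Real.log (leafY P π (stdc Λ x) z' y)
      + (P.b1 * √(M : ℝ) + √(L * N + X ^ 2 * (N : ℝ) ^ ((3 : ℝ) / 4) / 3))
        * √(∑ i, (z i - z' i) ^ 2) := by
  set c : CIdx N M K → ℝ := stdc Λ x
  set D := (P.b1 * √(M : ℝ) + √(L * N + X ^ 2 * (N : ℝ) ^ ((3 : ℝ) / 4) / 3))
    * √(∑ i, (z i - z' i) ^ 2)
  have hnn : ∀ i, 0 ≤ c i := fun i => by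
    obtain ⟨hs, hq, hq0, -, hp, hp0, -⟩ := hΛ
    have hi : ∀ v : Fin (K + 1) → ℝ, Monotone v → 0 ≤ v 0 → ∀ l, 0 ≤ incr v l :=
      fun v hv h0 l => Fin.cases (by simpa [incr] using h0)
        (fun r => by simpa [incr] using hv (Fin.castSucc_le_succ r)) l
    refine add_nonneg ?_ (pertc_nonneg x i)
    rcases i with j | ⟨l, a | j | t⟩
    exacts [hs.1, hi _ hq hq0 l, hi _ hp hp0 l, le_rfl]
  have hle : leafY P π c z y ≤ Real.exp D * leafY P π c z' y := by
    rw [leafY, leafY, Finset.mul_sum]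
    refine Finset.sum_le_sum fun σ _ => ?_
    rw [mul_left_comm, ← Real.exp_add]
    refine mul_le_mul_of_nonneg_left (Real.exp_le_exp.2 ?_) (π.w_pos σ).le
    obtain ⟨hA, hB⟩ := stdc_sizes (M := M) hΛ hx π hN σ
    have h := ham_lip P (bpat (n := 1) π) (bspin π) (disj_model π) (lam := pull c)
      (fun i => by rcases i with q | ⟨o, i⟩ <;> exact hnn _) ((σ, fun _ => 0) : State π K 1)
      hA.le hB (branch z y) (branch z' y)
    rw [sum_sq_branch] at h
    linarith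
  have h := Real.log_le_log (leafY_pos P π c z y) hle
  rw [Real.log_mul (Real.exp_pos _).ne' (leafY_pos P π c z' y).ne', Real.log_exp] at h
  linarith

/-- Concentration for the standard systems, uniformly in the parameters. -/
theorem model_conc_gen (P : Pot) (α L X : ℝ) (hX : 0 ≤ X) (K : ℕ) :
    ∃ C : ℝ, 0 ≤ C ∧ ∀ N M : ℕ, 0 < N → (M : ℝ) ≤ α * N → ∀ π : Prior N,
      ∃ n0, ∀ n ≥ n0, ∀ Λ : Par K, Adm K L Λ → ∀ x : Fin N → ℝ, (∀ i, |x i| ≤ X) →
        ∫ p, |Real.log (∑ st, mbw P π (stdc Λ (ext0 x) : CIdx N M K → ℝ) p st)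
            - ∫ q, Real.log (∑ st, mbw P π (stdc Λ (ext0 x) : CIdx N M K → ℝ) q st)
              ∂envLaw N M K n| ∂envLaw N M K n
          ≤ C * √(N : ℝ) := by
  obtain ⟨C0, hC0, hconc⟩ := tree_conc (grid_mlev K)
  set cL := P.b1 * √|α| + √(|L| + X ^ 2 / 3) + 1
  have hb1 := Itp.b1_nonneg P
  have hcL : 0 < cL := by positivity
  refine ⟨C0 + C0 * cL + 1, by positivity, fun N M hN hM π => ?_⟩
  have hN1 : (1 : ℝ) ≤ N := by exact_mod_cast hN
  set Lz := cL * √(N : ℝ)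
  have hLz : 0 < Lz := mul_pos hcL (Real.sqrt_pos.2 (by linarith))
  have hLle : P.b1 * √(M : ℝ) + √(L * N + X ^ 2 * (N : ℝ) ^ ((3 : ℝ) / 4) / 3) ≤ Lz := by
    have h1 : √(M : ℝ) ≤ √|α| * √(N : ℝ) := by
      rw [← Real.sqrt_mul (abs_nonneg α)]
      exact Real.sqrt_le_sqrt (hM.trans (mul_le_mul_of_nonneg_right (le_abs_self α) (by linarith)))
    have h2 : √(L * N + X ^ 2 * (N : ℝ) ^ ((3 : ℝ) / 4) / 3) ≤ √(|L| + X ^ 2 / 3) * √(N : ℝ) := by
      rw [← Real.sqrt_mul (by positivity)]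
      refine Real.sqrt_le_sqrt ?_
      have h3 : (N : ℝ) ^ ((3 : ℝ) / 4) ≤ N :=
        (Real.rpow_le_rpow_of_exponent_le hN1 (by norm_num)).trans_eq (Real.rpow_one _)
      nlinarith [mul_le_mul_of_nonneg_left h3 (sq_nonneg X), le_abs_self L]
    simp only [Lz, cL]
    nlinarith [mul_le_mul_of_nonneg_left h1 hb1, Real.sqrt_nonneg (N : ℝ)]
  set s : Set (Par K × (Fin N → ℝ)) := {Λ | Adm K L Λ} ×ˢ Set.univ.pi fun _ => Icc (-X) X
  have hs : IsCompact s := (isCompact_Adm K L).prod (isCompact_univ_pi fun _ => isCompact_Icc)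
  set B := C0 + C0 * Lz
  set Dv : ℕ → Par K × (Fin N → ℝ) → ℝ := fun n p =>
    (∫ q, |Real.log (∑ st, mbw P π (stdc p.1 (ext0 p.2) : CIdx N M K → ℝ) q st)
      - ∫ r, Real.log (∑ st, mbw P π (stdc p.1 (ext0 p.2) : CIdx N M K → ℝ) r st)
        ∂envLaw N M K n| ∂envLaw N M K n) - B
  obtain ⟨n0, hn0⟩ := uniform_of_seq hs (D := Dv) (fun c cl nn _ hcl hlim hnn ε hε => by
    have hext : ∀ j, |ext0 cl.2 j| ≤ X := fun j => by
      unfold ext0
      split_ifs
      · exact abs_le.2 (hcl.2 _ (mem_univ _))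
      · rw [abs_zero]; exact hX
    obtain ⟨A, hA⟩ := conv_leafY P π ((continuous_stdc2 (M := M)).tendsto cl |>.comp hlim)
    have h := hconc (RIdx N M) (LIdx N M → ℝ) inferInstance inferInstance (gaus (LIdx N M))
      inferInstance _ _ _ hA Lz hLz (fun z z' y =>
        (leafY_lip P π hcl.1 hext hN z z' y).trans
          (add_le_add le_rfl (mul_le_mul_of_nonneg_right hLle (Real.sqrt_nonneg _)))) nn hnn
    filter_upwards [h] with k hk
    simp only [Dv]
    have hmeas : Measurable fun q : (Node K (nn k) → ℝ) × (GIdx N M K (nn k) → ℝ) =>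
        Real.log (∑ st, mbw P π (stdc (c k).1 (ext0 (c k).2) : CIdx N M K → ℝ) q st) :=
      (Finset.measurable_sum _ fun st _ => (continuous_mbw P π _ st).measurable).log
    have hmp := mp_env (N := N) (M := M) (K := K) (n := nn k)
    have hint : ∀ g : (Node K (nn k) → ℝ) × (GIdx N M K (nn k) → ℝ) → ℝ, Measurable g →
        ∫ q, g q ∂envLaw N M K (nn k) = ∫ q, g (q.2.1, join q.1 q.2.2) ∂(gaus (RIdx N M)).prod
          ((casW (mlev K) (nn k)).prod (casX K (nn k) (gaus (LIdx N M)))) := fun g hg => by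
      rw [← hmp.map_eq]
      exact integral_map hmp.measurable.aemeasurable hg.aestronglyMeasurable
    rw [hint _ hmeas, hint _ (by fun_prop)]
    simp only [log_sum_mbw_join]
    simp only [Function.comp_apply] at hk
    linarith) zero_lt_one
  refine ⟨n0, fun n hn Λ hΛ x hx => ?_⟩
  have h := hn0 n hn (Λ, x) ⟨hΛ, fun i _ => abs_le.1 (hx i)⟩
  simp only [Dv, B, Lz] at h
  have hs1 : 1 ≤ √(N : ℝ) := Real.one_le_sqrt.2 hN1
  nlinarith

/-- The Ising case on the box of the shifted parameters. -/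
theorem model_conc (P : Pot) (α L : ℝ) (K : ℕ) : ∃ C : ℝ, 0 ≤ C ∧ ∀ N : ℕ, 0 < N → ∀ M : ℕ,
    (M : ℝ) ≤ α * N → ∃ n0 : ℕ, ∀ n ≥ n0, ∀ Λ : Par K, Adm K L Λ → ∀ x : Fin N → ℝ,
      (∀ i, x i ∈ Icc (0 : ℝ) 3) →
      ∫ p, |Real.log (∑ st, mbw P (isingP N) (stdc Λ (ext0 x) : CIdx N M K → ℝ) p st)
          - (mfree n P (isingP N) (stdc Λ (ext0 x) : CIdx N M K → ℝ) + cst (mlev K) n)|
        ∂envLaw N M K n ≤ C * √(N : ℝ) := by
  obtain ⟨C, hC, h⟩ := model_conc_gen P α L 3 (by norm_num) K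
  refine ⟨C, hC, fun N hN M hM => ?_⟩
  obtain ⟨n0, hn0⟩ := h N M hN hM (isingP N)
  refine ⟨n0, fun n hn Λ hΛ x hx => ?_⟩
  simp only [mfree, sub_add_cancel]
  exact hn0 n hn Λ hΛ x fun i => abs_le.2 ⟨by linarith [(hx i).1], (hx i).2⟩

end Vale.Agent.P157.Casc
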