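import Vale.Agent.P157.Casc.InterpBase

/-!
Interpolation of the free energy: continuity, derivative along segments of variances, and the mean
value identity under random weights.
-/

open MeasureTheory ProbabilityTheory Filter Topology Set

namespace Vale.Agent.P157.Casc

/-- The directions of the fields have disjoint supports. -/
structure Disj {T I : Type*} {M : ℕ} (b : Fin M → T → I → ℝ) (bz : T → I → ℝ) : Prop where
  orth : ∀ a a', a ≠ a' → ∀ x y i, b a x i * b a' y i = 0
  orthz : ∀ a x y i, b a x i * bz y i = 0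

namespace Itp

theorem cont_f (P : Pot) : Continuous P.f :=
  continuous_iff_continuousAt.2 fun x => (P.d1 x).continuousAt

theorem cont_f1 (P : Pot) : Continuous P.f1 :=
  continuous_iff_continuousAt.2 fun x => (P.d2 x).continuousAt

theorem bF_nonneg (P : Pot) : 0 ≤ P.bF := (abs_nonneg _).trans (P.hF 0)
theorem b1_nonneg (P : Pot) : 0 ≤ P.b1 := (abs_nonneg _).trans (P.h1 0)
theorem b2_nonneg (P : Pot) : 0 ≤ P.b2 := (abs_nonneg _).trans (P.h2 0)

variable {T I : Type*} {M : ℕ}

/-- The segment of variances. -/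
def seg (l0 d : I → ℝ) (r : ℝ) : I → ℝ := fun i => l0 i + r * d i

/-- Speed of the square roots along the segment. -/
noncomputable def rate (l0 d : I → ℝ) (r : ℝ) (i : I) : ℝ := d i / (2 * √(seg l0 d r i))

section Seg

variable {l0 d : I → ℝ} (hpos : ∀ t ∈ Icc (0 : ℝ) 1, ∀ i, 0 ≤ l0 i + t * d i) {r : ℝ}
  (hr : r ∈ Ioo (0 : ℝ) 1)
include hpos hr

theorem seg_pos {i : I} (hd : d i ≠ 0) : 0 < seg l0 d r i := by
  have h0 := hpos 0 ⟨le_rfl, zero_le_one⟩ i
  have h1 := hpos 1 ⟨zero_le_one, le_rfl⟩ i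
  rcases lt_or_gt_of_ne hd with hn | hp
  · simp only [seg]; nlinarith [hr.2]
  · simp only [seg]; nlinarith [hr.1]

theorem deriv_sqrt_seg (i : I) :
    HasDerivAt (fun q => √(seg l0 d q i)) (rate l0 d r i) r := by
  by_cases hd : d i = 0
  · simpa [seg, rate, hd] using hasDerivAt_const r (√(l0 i))
  · have h : HasDerivAt (fun q => seg l0 d q i) (d i) r := by
      simpa [seg] using ((hasDerivAt_id r).mul_const (d i)).const_add (l0 i)
    exact h.sqrt (seg_pos hpos hr hd).ne'

theorem rate_mul_sqrt (i : I) : rate l0 d r i * √(seg l0 d r i) = d i / 2 := by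
  by_cases hd : d i = 0
  · simp [rate, hd]
  · have := (Real.sqrt_pos.2 (seg_pos hpos hr hd)).ne'
    unfold rate; field_simp

theorem rate_cont (i : I) : ContinuousAt (fun q => rate l0 d q i) r := by
  by_cases hd : d i = 0
  · simpa [rate, hd] using continuousAt_const
  · have := (Real.sqrt_pos.2 (seg_pos hpos hr hd)).ne'
    exact ContinuousAt.div continuousAt_const
      (by unfold seg; fun_prop) (by positivity)

end Seg

variable [Fintype T] [Fintype I]

/-- Derivative of the Hamiltonian per unit move of a coordinate. -/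
noncomputable def dir (P : Pot) (b : Fin M → T → I → ℝ) (bz : T → I → ℝ) (lam : I → ℝ)
    (G : I → ℝ) (x : T) (i : I) : ℝ :=
  (∑ a, P.f1 (lin (b a) lam G x) * b a x i) + bz x i

/-- Its derivative per unit move of the same coordinate. -/
noncomputable def crv (P : Pot) (b : Fin M → T → I → ℝ) (lam : I → ℝ) (G : I → ℝ) (x : T)
    (i : I) : ℝ :=
  ∑ a, P.f2 (lin (b a) lam G x) * b a x i ^ 2

/-- Compensator of the linear field. -/
def comp (bz : T → I → ℝ) (d : I → ℝ) (x : T) : ℝ := ∑ i, d i * bz x i ^ 2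

/-- Bound on `dir` and `crv`. -/
noncomputable def dbd (P : Pot) (b : Fin M → T → I → ℝ) (bz : T → I → ℝ) : ℝ :=
  ∑ x, ∑ i, ((∑ a, (P.b1 * |b a x i| + P.b2 * b a x i ^ 2)) + |bz x i|)

variable (P : Pot) {w : T → ℝ} (b : Fin M → T → I → ℝ) (bz : T → I → ℝ)

theorem dbd_nonneg : 0 ≤ dbd P b bz :=
  Finset.sum_nonneg fun x _ => Finset.sum_nonneg fun i _ => add_nonneg
    (Finset.sum_nonneg fun a _ => add_nonneg (mul_nonneg (b1_nonneg P) (abs_nonneg _))
      (mul_nonneg (b2_nonneg P) (sq_nonneg _))) (abs_nonneg _)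

theorem dbd_ge (x : T) (i : I) :
    (∑ a, (P.b1 * |b a x i| + P.b2 * b a x i ^ 2)) + |bz x i| ≤ dbd P b bz := by
  have hn : ∀ x i, 0 ≤ (∑ a, (P.b1 * |b a x i| + P.b2 * b a x i ^ 2)) + |bz x i| := fun x i =>
    add_nonneg (Finset.sum_nonneg fun a _ => add_nonneg (mul_nonneg (b1_nonneg P) (abs_nonneg _))
      (mul_nonneg (b2_nonneg P) (sq_nonneg _))) (abs_nonneg _)
  exact (Finset.single_le_sum (fun j _ => hn x j) (Finset.mem_univ i)).trans
    (Finset.single_le_sum
      (f := fun x => ∑ i, ((∑ a, (P.b1 * |b a x i| + P.b2 * b a x i ^ 2)) + |bz x i|))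
      (fun y _ => Finset.sum_nonneg fun j _ => hn y j) (Finset.mem_univ x))

omit [Fintype T] in
theorem cont_lin (v : T → I → ℝ) (lam : I → ℝ) (x : T) :
    Continuous fun G => lin v lam G x := by unfold lin; fun_prop

omit [Fintype T] in
theorem cont_lin2 (v : T → I → ℝ) (x : T) :
    Continuous fun p : (I → ℝ) × (I → ℝ) => lin v p.1 p.2 x := by unfold lin; fun_prop

theorem abs_dir_le (lam G : I → ℝ) (x : T) (i : I) : |dir P b bz lam G x i| ≤ dbd P b bz := by
  refine le_trans ?_ (dbd_ge P b bz x i)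
  refine (abs_add_le _ _).trans (add_le_add ((Finset.abs_sum_le_sum_abs _ _).trans
    (Finset.sum_le_sum fun a _ => ?_)) le_rfl)
  rw [abs_mul]
  nlinarith [P.h1 (lin (b a) lam G x), abs_nonneg (b a x i), sq_nonneg (b a x i),
    mul_nonneg (b2_nonneg P) (sq_nonneg (b a x i))]

theorem abs_crv_le (lam G : I → ℝ) (x : T) (i : I) : |crv P b lam G x i| ≤ dbd P b bz := by
  refine le_trans ?_ (dbd_ge P b bz x i)
  refine ((Finset.abs_sum_le_sum_abs _ _).trans
    (Finset.sum_le_sum fun a _ => ?_)).trans (le_add_of_nonneg_right (abs_nonneg _))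
  rw [abs_mul, abs_pow, sq_abs]
  nlinarith [P.h2 (lin (b a) lam G x), abs_nonneg (b a x i), sq_nonneg (b a x i),
    mul_nonneg (b1_nonneg P) (abs_nonneg (b a x i))]

theorem cont_dir (lam : I → ℝ) (x : T) (i : I) :
    Continuous fun G => dir P b bz lam G x i := by
  have := cont_f1 P
  have := fun a => cont_lin (b a) lam x
  unfold dir; fun_prop

theorem cont_crv (lam : I → ℝ) (x : T) (i : I) :
    Continuous fun G => crv P b lam G x i := by
  have := P.c2
  have := fun a => cont_lin (b a) lam x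
  unfold crv; fun_prop

theorem cont_ham (x : T) :
    Continuous fun p : (I → ℝ) × (I → ℝ) => ham P b bz p.1 p.2 x := by
  have := cont_f P
  have := fun a => cont_lin2 (b a) x
  have := cont_lin2 bz x
  unfold ham; fun_prop

variable (hw : ∀ x, 0 < w x)
include hw

theorem bw_pos (lam G : I → ℝ) (x : T) : 0 < bw P w b bz lam G x := mul_pos (hw x) (Real.exp_pos _)

variable [Nonempty T]

theorem cont_logsum2 :
    Continuous fun p : (I → ℝ) × (I → ℝ) => Real.log (∑ x, bw P w b bz p.1 p.2 x) := by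
  have := fun x => cont_ham P b bz x
  refine Continuous.log ?_ fun p => (sum_u_pos (bw_pos P b bz hw p.1 p.2)).ne'
  unfold bw; fun_prop

theorem cont_gibbs2 (x : T) :
    Continuous fun p : (I → ℝ) × (I → ℝ) => gibbs (bw P w b bz p.1 p.2) x := by
  have := fun x => cont_ham P b bz x
  refine Continuous.div ?_ ?_ fun p => (sum_u_pos (bw_pos P b bz hw p.1 p.2)).ne'
  · unfold bw; fun_prop
  · unfold bw; fun_prop

theorem cont_gibbs (lam : I → ℝ) (x : T) :
    Continuous fun G => gibbs (bw P w b bz lam G) x :=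
  Continuous.comp (g := fun p : (I → ℝ) × (I → ℝ) => gibbs (bw P w b bz p.1 p.2) x)
    (f := fun G => (lam, G)) (cont_gibbs2 P b bz hw x) (continuous_const.prodMk continuous_id)

theorem cont_logsum (lam : I → ℝ) :
    Continuous fun G => Real.log (∑ x, bw P w b bz lam G x) :=
  Continuous.comp (g := fun p : (I → ℝ) × (I → ℝ) => Real.log (∑ x, bw P w b bz p.1 p.2 x))
    (f := fun G => (lam, G)) (cont_logsum2 P b bz hw) (continuous_const.prodMk continuous_id)

omit hw [Fintype T] [Nonempty T] in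
theorem deriv_lin_t {l0 d : I → ℝ} (hpos : ∀ t ∈ Icc (0 : ℝ) 1, ∀ i, 0 ≤ l0 i + t * d i)
    {r : ℝ} (hr : r ∈ Ioo (0 : ℝ) 1) (v : T → I → ℝ) (G : I → ℝ) (x : T) :
    HasDerivAt (fun q => lin v (seg l0 d q) G x) (∑ i, rate l0 d r i * G i * v x i) r := by
  refine (HasDerivAt.fun_sum (u := Finset.univ) fun i _ =>
    ((deriv_sqrt_seg hpos hr i).mul_const (v x i)).mul_const (G i)).congr_deriv ?_
  exact Finset.sum_congr rfl fun i _ => by ring

omit hw [Fintype T] [Nonempty T] in
theorem deriv_lin_G [DecidableEq I] (v : T → I → ℝ) (lam G : I → ℝ) (j : I) (z : ℝ) (x : T) :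
    HasDerivAt (fun z => lin v lam (Function.update G j z) x) (√(lam j) * v x j) z := by
  have h : ∀ i, HasDerivAt (fun z => √(lam i) * v x i * Function.update G j z i)
      (if i = j then √(lam i) * v x i else 0) z := fun i => by
    by_cases hi : i = j
    · subst hi; simpa using (hasDerivAt_id z).const_mul (√(lam i) * v x i)
    · simpa [hi] using hasDerivAt_const z (√(lam i) * v x i * G i)
  refine (HasDerivAt.fun_sum (u := Finset.univ) fun i _ => h i).congr_deriv ?_
  simp

omit hw [Nonempty T] in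
theorem deriv_ham_t {l0 d : I → ℝ} (hpos : ∀ t ∈ Icc (0 : ℝ) 1, ∀ i, 0 ≤ l0 i + t * d i)
    {r : ℝ} (hr : r ∈ Ioo (0 : ℝ) 1) (G : I → ℝ) (x : T) :
    HasDerivAt (fun q => ham P b bz (seg l0 d q) G x)
      ((∑ i, rate l0 d r i * G i * dir P b bz (seg l0 d r) G x i) - 1 / 2 * comp bz d x) r := by
  have h3 : HasDerivAt (fun q => 1 / 2 * ∑ i, seg l0 d q i * bz x i ^ 2)
      (1 / 2 * comp bz d x) r :=
    (HasDerivAt.fun_sum (u := Finset.univ) fun i _ => by
      simpa [seg] using (((hasDerivAt_id r).mul_const (d i)).const_add (l0 i)).mul_const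
        (bz x i ^ 2)).const_mul _
  refine (((HasDerivAt.fun_sum (u := Finset.univ) fun a _ =>
    (P.d1 _).comp r (deriv_lin_t hpos hr (b a) G x)).add
      (deriv_lin_t hpos hr bz G x)).sub h3).congr_deriv ?_
  simp only [dir, mul_add, Finset.sum_add_distrib, Finset.mul_sum]
  rw [Finset.sum_comm]
  congr 2
  exact Finset.sum_congr rfl fun i _ => Finset.sum_congr rfl fun a _ => by ring

omit hw [Nonempty T] in
theorem deriv_ham_G [DecidableEq I] (lam G : I → ℝ) (j : I) (x : T) :
    HasDerivAt (fun z => ham P b bz lam (Function.update G j z) x)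
      (√(lam j) * dir P b bz lam G x j) (G j) := by
  refine (((HasDerivAt.fun_sum (u := Finset.univ) fun a _ =>
    (P.d1 _).comp (G j) (deriv_lin_G (b a) lam G j (G j) x)).add
      (deriv_lin_G bz lam G j (G j) x)).sub_const _).congr_deriv ?_
  simp only [Function.update_eq_self, dir, mul_add, Finset.mul_sum]
  congr 1
  exact Finset.sum_congr rfl fun a _ => by ring

omit hw [Nonempty T] in
theorem deriv_bw_t {l0 d : I → ℝ} (hpos : ∀ t ∈ Icc (0 : ℝ) 1, ∀ i, 0 ≤ l0 i + t * d i)
    {r : ℝ} (hr : r ∈ Ioo (0 : ℝ) 1) (G : I → ℝ) (x : T) :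
    HasDerivAt (fun q => bw P w b bz (seg l0 d q) G x)
      (bw P w b bz (seg l0 d r) G x *
        ((∑ i, rate l0 d r i * G i * dir P b bz (seg l0 d r) G x i) - 1 / 2 * comp bz d x)) r :=
  ((deriv_ham_t P b bz hpos hr G x).exp.const_mul (w x)).congr_deriv (by simp only [bw]; ring)

omit hw [Nonempty T] in
theorem deriv_bw_G [DecidableEq I] (lam G : I → ℝ) (j : I) (x : T) :
    HasDerivAt (fun z => bw P w b bz lam (Function.update G j z) x)
      (bw P w b bz lam G x * (√(lam j) * dir P b bz lam G x j)) (G j) :=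
  ((deriv_ham_G P b bz lam G j x).exp.const_mul (w x)).congr_deriv
    (by simp only [Function.update_eq_self, bw]; ring)

omit hw [Nonempty T] in
theorem deriv_dir_G [DecidableEq I] (lam G : I → ℝ) (j : I) (x : T) :
    HasDerivAt (fun z => dir P b bz lam (Function.update G j z) x j)
      (√(lam j) * crv P b lam G x j) (G j) := by
  refine ((HasDerivAt.fun_sum (u := Finset.univ) fun a _ =>
    ((P.d2 _).comp (G j) (deriv_lin_G (b a) lam G j (G j) x)).mul_const (b a x j)).add_const
      _).congr_deriv ?_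
  simp only [Function.update_eq_self, crv, Finset.mul_sum]
  exact Finset.sum_congr rfl fun a _ => by ring

omit hw [Fintype T] [Nonempty T] in
theorem dir_mul_sum (hD : Disj b bz) (lam d G : I → ℝ) (x y : T) :
    ∑ i, d i * (dir P b bz lam G x i * dir P b bz lam G y i) = grad P b bz lam d G x y := by
  have e : ∀ i, d i * (dir P b bz lam G x i * dir P b bz lam G y i)
      = (∑ a, d i * (b a x i * b a y i) *
          (P.f1 (lin (b a) lam G x) * P.f1 (lin (b a) lam G y))) + d i * (bz x i * bz y i) := by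
    intro i
    have h1 : (∑ a, P.f1 (lin (b a) lam G x) * b a x i) * bz y i = 0 := by
      rw [Finset.sum_mul]
      exact Finset.sum_eq_zero fun a _ => by rw [mul_assoc, hD.orthz, mul_zero]
    have h2 : bz x i * (∑ a, P.f1 (lin (b a) lam G y) * b a y i) = 0 := by
      rw [Finset.mul_sum]
      exact Finset.sum_eq_zero fun a _ => by
        rw [mul_left_comm, mul_comm (bz x i), hD.orthz, mul_zero]
    have h3 : (∑ a, P.f1 (lin (b a) lam G x) * b a x i) *
        (∑ a, P.f1 (lin (b a) lam G y) * b a y i)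
          = ∑ a, b a x i * b a y i * (P.f1 (lin (b a) lam G x) * P.f1 (lin (b a) lam G y)) := by
      rw [Finset.sum_mul]
      refine Finset.sum_congr rfl fun a _ => ?_
      rw [Finset.mul_sum, Finset.sum_eq_single a]
      · ring
      · intro a' _ ha
        rw [mul_mul_mul_comm, hD.orth a a' (Ne.symm ha), mul_zero]
      · simp
    simp only [dir]
    rw [show ∀ A B z z' : ℝ, (A + z) * (B + z') = A * B + A * z' + z * B + z * z' from
      fun _ _ _ _ => by ring, h1, h2, h3, add_zero, add_zero, mul_add, Finset.mul_sum]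
    congr 1
    exact Finset.sum_congr rfl fun a _ => by ring
  simp only [e, grad, Finset.sum_add_distrib]
  rw [Finset.sum_comm]
  simp only [Finset.sum_mul]

omit hw [Fintype T] [Nonempty T] in
theorem grad_self {d : I → ℝ} (hdiag : ∀ a x, ∑ i, d i * b a x i ^ 2 = 0) (lam G : I → ℝ)
    (x : T) : grad P b bz lam d G x x = comp bz d x := by
  simp only [grad, comp, ← pow_two, hdiag, zero_mul, Finset.sum_const_zero, zero_add]

omit hw [Fintype T] [Nonempty T] in
theorem crv_sum {d : I → ℝ} (hdiag : ∀ a x, ∑ i, d i * b a x i ^ 2 = 0) (lam G : I → ℝ) (x : T) :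
    ∑ i, d i * crv P b lam G x i = 0 := by
  simp only [crv, Finset.mul_sum]
  rw [Finset.sum_comm]
  refine Finset.sum_eq_zero fun a _ => ?_
  calc ∑ i, d i * (P.f2 (lin (b a) lam G x) * b a x i ^ 2)
      = P.f2 (lin (b a) lam G x) * ∑ i, d i * b a x i ^ 2 := by
        rw [Finset.mul_sum]; exact Finset.sum_congr rfl fun i _ => by ring
    _ = 0 := by rw [hdiag, mul_zero]

omit hw [Fintype T] [Nonempty T] in
/-- Differentiation of a Gaussian mean along a segment, by integration by parts. -/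
theorem deriv_gauss [DecidableEq I] {l0 d : I → ℝ}
    (hpos : ∀ t ∈ Icc (0 : ℝ) 1, ∀ i, 0 ≤ l0 i + t * d i) {t : ℝ} (ht : t ∈ Ioo (0 : ℝ) 1)
    {Φ : ℝ → (I → ℝ) → ℝ} {U : ℝ → I → (I → ℝ) → ℝ} {V : ℝ → (I → ℝ) → ℝ}
    {W : I → (I → ℝ) → ℝ} {C : ℝ} (hΦc : ∀ r, Continuous (Φ r))
    (hΦi : Integrable (Φ t) (gaus I)) (hUc : ∀ r i, Continuous (U r i))
    (hVc : ∀ r, Continuous (V r)) (hU : ∀ r i G, |U r i G| ≤ C) (hV : ∀ r G, |V r G| ≤ C)
    (hd : ∀ r ∈ Ioo (0 : ℝ) 1, ∀ G,
      HasDerivAt (fun q => Φ q G) ((∑ i, rate l0 d r i * G i * U r i G) + V r G) r)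
    (hUd : ∀ i G, HasDerivAt (fun z => U t i (Function.update G i z))
      (√(seg l0 d t i) * W i G) (G i))
    (hWc : ∀ i, Continuous (W i)) {C' : ℝ} (hW : ∀ i G, |W i G| ≤ C') :
    HasDerivAt (fun q => ∫ G, Φ q G ∂gaus I)
      (∫ G, (∑ i, d i / 2 * W i G) + V t G ∂gaus I) t := by
  set K : ℝ := ∑ i, (|rate l0 d t i| + 1) with hK
  have hev : ∀ᶠ r in 𝓝 t, r ∈ Ioo (0 : ℝ) 1 ∧ ∀ i, |rate l0 d r i| ≤ |rate l0 d t i| + 1 := by
    refine Filter.Eventually.and (Ioo_mem_nhds ht.1 ht.2) (eventually_all.2 fun i => ?_)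
    have := ((rate_cont hpos ht i).abs).eventually
      (eventually_le_nhds (lt_add_one |rate l0 d t i|))
    exact this
  set D : ℝ → (I → ℝ) → ℝ := fun r G => (∑ i, rate l0 d r i * G i * U r i G) + V r G with hDdef
  have hmain := (hasDerivAt_integral_of_dominated_loc_of_deriv_le (μ := gaus I) (F := Φ) (F' := D)
    (bound := fun G => C + K * C * ∑ i, |G i|) hev
    (Eventually.of_forall fun r => (hΦc r).aestronglyMeasurable) hΦi
    (by
      have : Continuous (D t) := by
        have := hUc t; have := hVc t; simp only [hDdef]; fun_prop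
      exact this.aestronglyMeasurable)
    (ae_of_all _ fun G r hr => ?_)
    ((integrable_const C).add ((integrable_finsetSum _ fun i _ =>
      (integrable_coord i).abs).const_mul (K * C)))
    (ae_of_all _ fun G r hr => hd r hr.1 G)).2
  · refine hmain.congr_deriv ?_
    have iG : ∀ i, Integrable (fun G => G i * U t i G) (gaus I) := fun i =>
      integrable_coord_mul (hUc t i) (hU t i) i
    have iW : ∀ i, Integrable (W i) (gaus I) := fun i => integrable_bdd (hWc i) (hW i)
    have iV : Integrable (V t) (gaus I) := integrable_bdd (hVc t) (hV t)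
    simp only [hDdef, mul_assoc]
    rw [integral_add (integrable_finsetSum _ fun i _ => (iG i).const_mul _) iV,
      integral_add (integrable_finsetSum _ fun i _ => (iW i).const_mul _) iV,
      integral_finsetSum _ fun i _ => (iG i).const_mul _,
      integral_finsetSum _ fun i _ => (iW i).const_mul _]
    congr 1
    refine Finset.sum_congr rfl fun i _ => ?_
    rw [integral_const_mul, integral_const_mul,
      ibp_gaus (F' := fun G => √(seg l0 d t i) * W i G) (C' := |√(seg l0 d t i)| * C') i (hUc t i)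
        (continuous_const.mul (hWc i)) (hU t i) (fun G => ?_) (hUd i), integral_const_mul,
      ← mul_assoc, rate_mul_sqrt hpos ht]
    rw [abs_mul]
    exact mul_le_mul_of_nonneg_left (hW i G) (abs_nonneg _)
  · simp only [Real.norm_eq_abs, hDdef]
    refine (abs_add_le _ _).trans ?_
    rw [add_comm C]
    refine add_le_add ((Finset.abs_sum_le_sum_abs _ _).trans ?_) (hV r G)
    rw [Finset.mul_sum]
    refine Finset.sum_le_sum fun i _ => ?_
    rw [abs_mul, abs_mul, mul_right_comm K C]
    refine mul_le_mul (mul_le_mul_of_nonneg_right ((hr.2 i).trans ?_) (abs_nonneg _)) (hU r i G)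
      (abs_nonneg _) ?_
    · exact Finset.single_le_sum (f := fun i => |rate l0 d t i| + 1)
        (fun j _ => add_nonneg (abs_nonneg _) zero_le_one) (Finset.mem_univ i)
    · exact mul_nonneg (Finset.sum_nonneg fun j _ => add_nonneg (abs_nonneg _) zero_le_one)
        (abs_nonneg _)

/-- Mean of `dir`. -/
noncomputable def fU (P : Pot) (w : T → ℝ) (b : Fin M → T → I → ℝ) (bz : T → I → ℝ)
    (lam : I → ℝ) (i : I) (G : I → ℝ) : ℝ :=
  ∑ x, gibbs (bw P w b bz lam G) x * dir P b bz lam G x i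

/-- Mean compensator. -/
noncomputable def fV (P : Pot) (w : T → ℝ) (b : Fin M → T → I → ℝ) (bz : T → I → ℝ) (d : I → ℝ)
    (lam : I → ℝ) (G : I → ℝ) : ℝ :=
  ∑ x, gibbs (bw P w b bz lam G) x * (-(1 / 2) * comp bz d x)

/-- Derivative of the mean of `dir`, up to the amplitude. -/
noncomputable def fW (P : Pot) (w : T → ℝ) (b : Fin M → T → I → ℝ) (bz : T → I → ℝ)
    (lam : I → ℝ) (i : I) (G : I → ℝ) : ℝ :=
  ∑ x, gibbs (bw P w b bz lam G) x *
    (crv P b lam G x i + dir P b bz lam G x i * (dir P b bz lam G x i - fU P w b bz lam i G))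

theorem cont_fU (lam : I → ℝ) (i : I) : Continuous (fU P w b bz lam i) := by
  have := cont_gibbs P b bz hw lam
  have := fun x => cont_dir P b bz lam x i
  unfold fU; fun_prop

theorem cont_fV (d lam : I → ℝ) : Continuous (fV P w b bz d lam) := by
  have := cont_gibbs P b bz hw lam
  unfold fV; fun_prop

theorem cont_fW (lam : I → ℝ) (i : I) : Continuous (fW P w b bz lam i) := by
  have := cont_gibbs P b bz hw lam
  have := fun x => cont_dir P b bz lam x i
  have := fun x => cont_crv P b lam x i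
  have := cont_fU P b bz hw lam i
  unfold fW; fun_prop

theorem abs_fU_le (lam : I → ℝ) (i : I) (G : I → ℝ) :
    |fU P w b bz lam i G| ≤ dbd P b bz :=
  abs_mean_le (bw_pos P b bz hw lam G) fun x => abs_dir_le P b bz lam G x i

theorem abs_fV_le (d lam G : I → ℝ) : |fV P w b bz d lam G| ≤ ∑ x, |comp bz d x| :=
  abs_mean_le (bw_pos P b bz hw lam G) fun x => by
    rw [abs_mul, abs_neg, abs_of_pos (by norm_num : (0 : ℝ) < 1 / 2)]
    have := Finset.single_le_sum (f := fun x => |comp bz d x|) (fun y _ => abs_nonneg _)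
      (Finset.mem_univ x)
    linarith [abs_nonneg (comp bz d x)]

theorem abs_fW_le (lam : I → ℝ) (i : I) (G : I → ℝ) :
    |fW P w b bz lam i G| ≤ dbd P b bz + dbd P b bz * (dbd P b bz + dbd P b bz) :=
  abs_mean_le (bw_pos P b bz hw lam G) fun x => by
    refine (abs_add_le _ _).trans (add_le_add (abs_crv_le P b bz lam G x i) ?_)
    rw [abs_mul]
    exact mul_le_mul (abs_dir_le P b bz lam G x i) ((abs_sub _ _).trans (add_le_add
      (abs_dir_le P b bz lam G x i) (abs_fU_le P b bz hw lam i G)))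
      (abs_nonneg _) (dbd_nonneg P b bz)

omit hw [Nonempty T] in
theorem mean_smul_dir (lam G : I → ℝ) (c : ℝ) (i : I) :
    ∑ y, gibbs (bw P w b bz lam G) y * (c * dir P b bz lam G y i) = c * fU P w b bz lam i G := by
  rw [fU, Finset.mul_sum]; exact Finset.sum_congr rfl fun y _ => by ring

theorem deriv_log_t {l0 d : I → ℝ} (hpos : ∀ t ∈ Icc (0 : ℝ) 1, ∀ i, 0 ≤ l0 i + t * d i)
    {r : ℝ} (hr : r ∈ Ioo (0 : ℝ) 1) (G : I → ℝ) :
    HasDerivAt (fun q => Real.log (∑ x, bw P w b bz (seg l0 d q) G x))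
      ((∑ i, rate l0 d r i * G i * fU P w b bz (seg l0 d r) i G)
        + fV P w b bz d (seg l0 d r) G) r := by
  refine (deriv_logsum (v := fun q => bw P w b bz (seg l0 d q) G)
    (bw_pos P b bz hw _ G) fun x => deriv_bw_t P b bz hpos hr G x).congr_deriv ?_
  simp only [fU, fV, Finset.mul_sum]
  rw [Finset.sum_comm, ← Finset.sum_add_distrib]
  refine Finset.sum_congr rfl fun x _ => ?_
  rw [mul_sub, Finset.mul_sum, sub_eq_add_neg]
  congr 1
  · exact Finset.sum_congr rfl fun i _ => by ring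
  · ring

theorem deriv_fU_G [DecidableEq I] (lam : I → ℝ) (i : I) (G : I → ℝ) :
    HasDerivAt (fun z => fU P w b bz lam i (Function.update G i z))
      (√(lam i) * fW P w b bz lam i G) (G i) := by
  refine (deriv_mean (v := fun z => bw P w b bz lam (Function.update G i z))
    (dv := fun x => √(lam i) * dir P b bz lam G x i) (s := G i)
    (fun x => bw_pos P b bz hw _ _ x)
    (fun x => by simpa using deriv_bw_G P b bz lam G i x)
    (F := fun z x => dir P b bz lam (Function.update G i z) x i)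
    (fun x => deriv_dir_G P b bz lam G i x)).congr_deriv ?_
  simp only [Function.update_eq_self]
  rw [mean_smul_dir P b bz, fW, Finset.mul_sum]
  exact Finset.sum_congr rfl fun x _ => by ring

omit hw [Nonempty T] in
theorem free_identity (hD : Disj b bz) {d : I → ℝ} (hdiag : ∀ a x, ∑ i, d i * b a x i ^ 2 = 0)
    (lam G : I → ℝ) :
    (∑ i, d i / 2 * fW P w b bz lam i G) + fV P w b bz d lam G
      = -(1 / 2) * avg2 (bw P w b bz lam G) (grad P b bz lam d G) := by
  set g := gibbs (bw P w b bz lam G)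
  set u := dir P b bz lam G
  have e1 : ∀ x, ∑ i, d i * (crv P b lam G x i + u x i * (u x i - fU P w b bz lam i G))
      = comp bz d x - ∑ y, g y * grad P b bz lam d G x y := fun x => by
    have h1 : ∑ i, d i * (u x i * fU P w b bz lam i G) = ∑ y, g y * grad P b bz lam d G x y := by
      simp only [fU, ← dir_mul_sum P b bz hD lam d G, Finset.mul_sum]
      rw [Finset.sum_comm]
      exact Finset.sum_congr rfl fun y _ => Finset.sum_congr rfl fun i _ => by ring
    rw [← h1, ← grad_self P b bz hdiag lam G x, ← dir_mul_sum P b bz hD lam d G x x]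
    simp only [mul_add, mul_sub, Finset.sum_add_distrib, Finset.sum_sub_distrib]
    rw [crv_sum P b hdiag, zero_add]
  have e2 : (∑ i, d i / 2 * fW P w b bz lam i G) + fV P w b bz d lam G
      = ∑ x, g x * (1 / 2 * (∑ i, d i * (crv P b lam G x i + u x i *
          (u x i - fU P w b bz lam i G))) - 1 / 2 * comp bz d x) := by
    simp only [fW, fV, Finset.mul_sum, mul_sub (g _)]
    rw [Finset.sum_comm, ← Finset.sum_add_distrib]
    refine Finset.sum_congr rfl fun x _ => ?_
    rw [sub_eq_add_neg]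
    congr 1
    · exact Finset.sum_congr rfl fun i _ => by ring
    · ring
  rw [e2, avg2_eq, Finset.mul_sum]
  refine Finset.sum_congr rfl fun x _ => ?_
  rw [e1]; ring


/-- Bound on `grad`. -/
noncomputable def gbd (P : Pot) (b : Fin M → T → I → ℝ) (bz : T → I → ℝ) (d : I → ℝ) : ℝ :=
  ∑ x, ∑ y, ((∑ a, |∑ i, d i * (b a x i * b a y i)| * (P.b1 * P.b1))
    + |∑ i, d i * (bz x i * bz y i)|)

omit hw [Nonempty T] in
theorem abs_grad_le (lam d G : I → ℝ) (x y : T) :
    |grad P b bz lam d G x y| ≤ gbd P b bz d := by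
  have hn : ∀ x y, 0 ≤ (∑ a, |∑ i, d i * (b a x i * b a y i)| * (P.b1 * P.b1))
      + |∑ i, d i * (bz x i * bz y i)| := fun x y => add_nonneg
    (Finset.sum_nonneg fun a _ => mul_nonneg (abs_nonneg _) (mul_self_nonneg _)) (abs_nonneg _)
  refine le_trans ?_ ((Finset.single_le_sum (fun j _ => hn x j) (Finset.mem_univ y)).trans
    (Finset.single_le_sum (f := fun x => ∑ y, ((∑ a, |∑ i, d i * (b a x i * b a y i)| *
      (P.b1 * P.b1)) + |∑ i, d i * (bz x i * bz y i)|))
      (fun z _ => Finset.sum_nonneg fun j _ => hn z j) (Finset.mem_univ x)))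
  refine (abs_add_le _ _).trans (add_le_add ((Finset.abs_sum_le_sum_abs _ _).trans
    (Finset.sum_le_sum fun a _ => ?_)) le_rfl)
  rw [abs_mul, abs_mul (P.f1 _)]
  exact mul_le_mul_of_nonneg_left
    (mul_le_mul (P.h1 _) (P.h1 _) (abs_nonneg _) (b1_nonneg P)) (abs_nonneg _)

theorem abs_log_le (lam G : I → ℝ) :
    |Real.log (∑ x, bw P w b bz lam G x) - Real.log (∑ x, w x)|
      ≤ M * P.bF + ∑ x, ∑ i, (√(lam i) * |bz x i| * |G i| + |lam i| * bz x i ^ 2) := by
  set B := M * P.bF + ∑ x, ∑ i, (√(lam i) * |bz x i| * |G i| + |lam i| * bz x i ^ 2)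
  have hn : ∀ x i, 0 ≤ √(lam i) * |bz x i| * |G i| + |lam i| * bz x i ^ 2 := fun x i =>
    add_nonneg (mul_nonneg (mul_nonneg (Real.sqrt_nonneg _) (abs_nonneg _)) (abs_nonneg _))
      (mul_nonneg (abs_nonneg _) (sq_nonneg _))
  have hh : ∀ x, |ham P b bz lam G x| ≤ B := fun x => by
    refine le_trans ?_ (add_le_add le_rfl (Finset.single_le_sum
      (fun y _ => Finset.sum_nonneg fun i _ => hn y i) (Finset.mem_univ x)))
    have h1 : |∑ a, P.f (lin (b a) lam G x)| ≤ M * P.bF :=
      (Finset.abs_sum_le_sum_abs _ _).trans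
        ((Finset.sum_le_sum fun a _ => P.hF _).trans (by simp))
    have h2 : |lin bz lam G x - 1 / 2 * ∑ i, lam i * bz x i ^ 2|
        ≤ ∑ i, (√(lam i) * |bz x i| * |G i| + |lam i| * bz x i ^ 2) := by
      refine (abs_sub _ _).trans ?_
      rw [Finset.sum_add_distrib]
      refine add_le_add ((Finset.abs_sum_le_sum_abs _ _).trans (Finset.sum_le_sum fun i _ => ?_)) ?_
      · rw [abs_mul, abs_mul, abs_of_nonneg (Real.sqrt_nonneg _)]
      · rw [abs_mul, abs_of_pos (by norm_num : (0 : ℝ) < 1 / 2)]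
        refine le_trans (b := |∑ i, lam i * bz x i ^ 2|) ?_ ((Finset.abs_sum_le_sum_abs _ _).trans
          (Finset.sum_le_sum (g := fun i => |lam i| * bz x i ^ 2) fun i _ => ?_))
        · linarith [abs_nonneg (∑ i, lam i * bz x i ^ 2)]
        · rw [abs_mul, abs_of_nonneg (sq_nonneg (bz x i))]
    rw [ham, add_sub_assoc]
    exact (abs_add_le _ _).trans (add_le_add h1 h2)
  have hsw := sum_u_pos hw
  have hsb := sum_u_pos (bw_pos P b bz hw lam G)
  have hup : ∑ x, bw P w b bz lam G x ≤ Real.exp B * ∑ x, w x := by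
    rw [Finset.mul_sum]
    refine Finset.sum_le_sum fun x _ => ?_
    rw [bw, mul_comm]
    exact mul_le_mul_of_nonneg_right (Real.exp_le_exp.2 (abs_le.1 (hh x)).2) (hw x).le
  have hlo : Real.exp (-B) * ∑ x, w x ≤ ∑ x, bw P w b bz lam G x := by
    rw [Finset.mul_sum]
    refine Finset.sum_le_sum fun x _ => ?_
    rw [bw, mul_comm (w x)]
    exact mul_le_mul_of_nonneg_right (Real.exp_le_exp.2 (abs_le.1 (hh x)).1) (hw x).le
  have l1 := Real.log_le_log hsb hup
  have l2 := Real.log_le_log (mul_pos (Real.exp_pos _) hsw) hlo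
  rw [Real.log_mul (Real.exp_pos _).ne' hsw.ne', Real.log_exp] at l1 l2
  rw [abs_le]; constructor <;> linarith

/-- Envelope of the logarithm for variances bounded by `R`. -/
noncomputable def lenv (P : Pot) (M : ℕ) (bz : T → I → ℝ) (R : ℝ) (G : I → ℝ) : ℝ :=
  (M * P.bF + ∑ x, ∑ i, R * bz x i ^ 2) + (√R * ∑ x, ∑ i, |bz x i|) * ∑ i, |G i|

theorem abs_log_env {lam : I → ℝ} {R : ℝ} (hR : ∀ i, |lam i| ≤ R) (G : I → ℝ) :
    |Real.log (∑ x, bw P w b bz lam G x)| ≤ |Real.log (∑ x, w x)| + lenv P M bz R G := by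
  have h := abs_log_le P b bz hw lam G
  have h' : ∑ x, ∑ i, (√(lam i) * |bz x i| * |G i| + |lam i| * bz x i ^ 2)
      ≤ (∑ x, ∑ i, R * bz x i ^ 2) + (√R * ∑ x, ∑ i, |bz x i|) * ∑ i, |G i| := by
    simp only [Finset.mul_sum (a := √R), Finset.sum_mul]
    rw [← Finset.sum_add_distrib]
    refine Finset.sum_le_sum fun x _ => ?_
    rw [← Finset.sum_add_distrib]
    refine Finset.sum_le_sum fun i _ => ?_
    rw [add_comm (R * _)]
    refine add_le_add (mul_le_mul (mul_le_mul_of_nonneg_right
      (Real.sqrt_le_sqrt ((le_abs_self _).trans (hR i))) (abs_nonneg _))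
      (Finset.single_le_sum (f := fun i => |G i|) (fun j _ => abs_nonneg _) (Finset.mem_univ i))
      (abs_nonneg _) (mul_nonneg (Real.sqrt_nonneg _) (abs_nonneg _)))
      (mul_le_mul_of_nonneg_right (hR i) (sq_nonneg _))
  have := abs_sub_abs_le_abs_sub (Real.log (∑ x, bw P w b bz lam G x)) (Real.log (∑ x, w x))
  unfold lenv
  linarith

omit hw [Nonempty T] in
theorem integrable_lenv (R : ℝ) : Integrable (lenv P M bz R) (gaus I) :=
  (integrable_const _).add
    ((integrable_finsetSum _ fun i _ => (integrable_coord i).abs).const_mul _)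

theorem integrable_log (lam : I → ℝ) :
    Integrable (fun G => Real.log (∑ x, bw P w b bz lam G x)) (gaus I) := by
  refine Integrable.mono'
    ((integrable_const |Real.log (∑ x, w x)|).add (integrable_lenv (M := M) P bz (∑ i, |lam i|)))
    (cont_logsum P b bz hw lam).aestronglyMeasurable
    (ae_of_all _ fun G => ?_)
  simpa [Real.norm_eq_abs] using abs_log_env P b bz hw
    (fun i => Finset.single_le_sum (f := fun i => |lam i|) (fun j _ => abs_nonneg _)
      (Finset.mem_univ i)) G

theorem abs_free_le {lam : I → ℝ} {R : ℝ} (hR : ∀ i, |lam i| ≤ R) :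
    |free P w b bz lam| ≤ |Real.log (∑ x, w x)| + ∫ G, lenv P M bz R G ∂gaus I := by
  refine abs_integral_le_integral_abs.trans ?_
  refine (integral_mono (integrable_log P b bz hw lam).abs
    ((integrable_const _).add (integrable_lenv P bz R))
    fun G => abs_log_env P b bz hw hR G).trans_eq ?_
  rw [integral_add' (integrable_const _) (integrable_lenv P bz R)]
  simp

end Itp

open Itp

section Interp

variable {T I : Type*} [Fintype T] [Nonempty T] [Fintype I] {M : ℕ} (P : Pot) {w : T → ℝ}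
  (b : Fin M → T → I → ℝ) (bz : T → I → ℝ)

theorem abs_log_bw_le (hw : ∀ x, 0 < w x) {lam : I → ℝ} (hl : ∀ i, 0 ≤ lam i) (G : I → ℝ) :
    |Real.log (∑ x, bw P w b bz lam G x) - Real.log (∑ x, w x)|
      ≤ M * P.bF + ∑ x, ∑ i, (√(lam i) * |bz x i| * |G i| + lam i * bz x i ^ 2) := by
  simpa [abs_of_nonneg (hl _)] using abs_log_le P b bz hw lam G

theorem continuous_free (hw : ∀ x, 0 < w x) : Continuous fun lam => free P w b bz lam := by
  refine continuous_iff_continuousAt.2 fun lam0 => ?_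
  set R := ∑ i, |lam0 i| + 1
  refine continuousAt_of_dominated
    (bound := fun G => |Real.log (∑ x, w x)| + lenv P M bz R G)
    (Eventually.of_forall fun lam => (integrable_log P b bz hw lam).aestronglyMeasurable) ?_
    ((integrable_const _).add (integrable_lenv P bz R))
    (ae_of_all _ fun G =>
      ((cont_logsum2 P b bz hw).comp (continuous_id.prodMk continuous_const)).continuousAt)
  have hev : ∀ᶠ lam : I → ℝ in 𝓝 lam0, ∀ i, |lam i| ≤ R := eventually_all.2 fun i => by
    refine ((continuous_apply i).abs.continuousAt).eventually (eventually_le_nhds ?_)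
    have := Finset.single_le_sum (f := fun i => |lam0 i|) (fun j _ => abs_nonneg _)
      (Finset.mem_univ i)
    simp only [R]
    linarith
  filter_upwards [hev] with lam hlam
  exact ae_of_all _ fun G => (Real.norm_eq_abs _).trans_le (abs_log_env P b bz hw hlam G)

theorem continuous_pair (hw : ∀ x, 0 < w x) {O : (I → ℝ) → (I → ℝ) → T → T → ℝ} {C : ℝ}
    (hO : ∀ x y, Continuous fun p : (I → ℝ) × (I → ℝ) => O p.1 p.2 x y)
    (hC : ∀ l G x y, |O l G x y| ≤ C) :
    Continuous fun lam => pair P w b bz lam (O lam) := by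
  have hc : Continuous fun p : (I → ℝ) × (I → ℝ) => avg2 (bw P w b bz p.1 p.2) (O p.1 p.2) := by
    have := fun x => cont_gibbs2 P b bz hw x
    unfold avg2; fun_prop
  have h1 : ∀ lam : I → ℝ, Continuous fun G => avg2 (bw P w b bz lam G) (O lam G) := fun lam =>
    Continuous.comp (g := fun p : (I → ℝ) × (I → ℝ) => avg2 (bw P w b bz p.1 p.2) (O p.1 p.2))
      (f := fun G => (lam, G)) hc (continuous_const.prodMk continuous_id)
  have h2 : ∀ G : I → ℝ, Continuous fun lam => avg2 (bw P w b bz lam G) (O lam G) := fun G =>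
    Continuous.comp (g := fun p : (I → ℝ) × (I → ℝ) => avg2 (bw P w b bz p.1 p.2) (O p.1 p.2))
      (f := fun lam => (lam, G)) hc (continuous_id.prodMk continuous_const)
  unfold pair
  exact continuous_of_dominated (bound := fun _ => C) (fun lam => (h1 lam).aestronglyMeasurable)
    (fun lam => ae_of_all _ fun G =>
      (Real.norm_eq_abs _).trans_le (abs_avg2_le (bw_pos P b bz hw lam G) (hC lam G)))
    (integrable_const C) (ae_of_all _ h2)

theorem hasDerivAt_free (hD : Disj b bz) (hw : ∀ x, 0 < w x) {l0 d : I → ℝ}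
    (hpos : ∀ t ∈ Icc (0 : ℝ) 1, ∀ i, 0 ≤ l0 i + t * d i)
    (hdiag : ∀ a x, ∑ i, d i * b a x i ^ 2 = 0) {t : ℝ} (ht : t ∈ Ioo (0 : ℝ) 1) :
    HasDerivAt (fun r : ℝ => free P w b bz fun i => l0 i + r * d i)
      (-(1 / 2) * pair P w b bz (fun i => l0 i + t * d i)
        (grad P b bz (fun i => l0 i + t * d i) d)) t := by
  classical
  have h := deriv_gauss hpos ht (Φ := fun r G => Real.log (∑ x, bw P w b bz (seg l0 d r) G x))
    (U := fun r => fU P w b bz (seg l0 d r)) (V := fun r => fV P w b bz d (seg l0 d r))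
    (W := fW P w b bz (seg l0 d t))
    (fun r => cont_logsum P b bz hw _) (integrable_log P b bz hw _)
    (fun r => cont_fU P b bz hw _) (fun r => cont_fV P b bz hw d _)
    (fun r i G => (abs_fU_le P b bz hw _ i G).trans (le_max_left _ (∑ x, |comp bz d x|)))
    (fun r G => (abs_fV_le P b bz hw d _ G).trans (le_max_right (dbd P b bz) _))
    (fun r hr G => deriv_log_t P b bz hw hpos hr G) (fun i G => deriv_fU_G P b bz hw _ i G)
    (fun i => cont_fW P b bz hw _ i) (fun i G => abs_fW_le P b bz hw _ i G)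
  refine h.congr_deriv ?_
  rw [pair, ← integral_const_mul]
  exact integral_congr_ae (ae_of_all _ fun G => free_identity P b bz hD hdiag _ G)

/-- Averaged over random weights and starting points. -/
theorem free_avg_mvt (hD : Disj b bz) {Ω : Type*} [MeasurableSpace Ω] (μ : Measure Ω)
    [IsProbabilityMeasure μ]
    {w : Ω → T → ℝ} (hwm : ∀ x, Measurable fun ω => w ω x) (hw : ∀ ω x, 0 < w ω x)
    (hwi : Integrable (fun ω => Real.log (∑ x, w ω x)) μ)
    {l0 : Ω → I → ℝ} (hlm : ∀ i, Measurable fun ω => l0 ω i) {R : ℝ} (hR : ∀ ω i, |l0 ω i| ≤ R)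
    {d : I → ℝ} (hpos : ∀ ω, ∀ t ∈ Icc (0 : ℝ) 1, ∀ i, 0 ≤ l0 ω i + t * d i)
    (hdiag : ∀ a x, ∑ i, d i * b a x i ^ 2 = 0) :
    ∃ t ∈ Ioo (0 : ℝ) 1,
      (∫ ω, free P (w ω) b bz (fun i => l0 ω i + d i) ∂μ) - ∫ ω, free P (w ω) b bz (l0 ω) ∂μ
        = -(1 / 2) * ∫ ω, pair P (w ω) b bz (fun i => l0 ω i + t * d i)
            (grad P b bz (fun i => l0 ω i + t * d i) d) ∂μ := by
  have mf := (cont_f P).measurable
  have mf1 := (cont_f1 P).measurable
  have mF : ∀ r, AEStronglyMeasurable (fun ω => free P (w ω) b bz (seg (l0 ω) d r)) μ := fun r => by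
    have hm : Measurable fun p : Ω × (I → ℝ) =>
        Real.log (∑ x, bw P (w p.1) b bz (seg (l0 p.1) d r) p.2 x) := by
      unfold bw ham lin seg; fun_prop
    exact (hm.stronglyMeasurable.integral_prod_right' (ν := gaus I)).aestronglyMeasurable
  have mP : ∀ r, AEStronglyMeasurable (fun ω => -(1 / 2) * pair P (w ω) b bz (seg (l0 ω) d r)
      (grad P b bz (seg (l0 ω) d r) d)) μ := fun r => by
    have hm : Measurable fun p : Ω × (I → ℝ) =>
        avg2 (bw P (w p.1) b bz (seg (l0 p.1) d r) p.2)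
          (grad P b bz (seg (l0 p.1) d r) d p.2) := by
      unfold avg2 gibbs grad bw ham lin seg; fun_prop
    exact (hm.stronglyMeasurable.integral_prod_right' (ν := gaus I)).aestronglyMeasurable.const_mul
      (-(1 / 2))
  set R' := R + ∑ i, |d i|
  set K := ∫ G, lenv P M bz R' G ∂gaus I
  have hseg : ∀ r ∈ Icc (0 : ℝ) 1, ∀ ω i, |seg (l0 ω) d r i| ≤ R' := fun r hr ω i => by
    refine (abs_add_le _ _).trans (add_le_add (hR ω i) ?_)
    rw [abs_mul, abs_of_nonneg hr.1]
    exact (mul_le_of_le_one_left (abs_nonneg _) hr.2).trans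
      (Finset.single_le_sum (f := fun i => |d i|) (fun j _ => abs_nonneg _) (Finset.mem_univ i))
  have hb : ∀ r ∈ Icc (0 : ℝ) 1, ∀ ω,
      ‖free P (w ω) b bz (seg (l0 ω) d r)‖ ≤ |Real.log (∑ x, w ω x)| + K := fun r hr ω =>
    (Real.norm_eq_abs _).trans_le (abs_free_le P b bz (hw ω) (hseg r hr ω))
  have hbi : Integrable (fun ω => |Real.log (∑ x, w ω x)| + K) μ :=
    hwi.abs.add (integrable_const K)
  have hc : ContinuousOn (fun r => ∫ ω, free P (w ω) b bz (seg (l0 ω) d r) ∂μ) (Icc 0 1) :=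
    continuousOn_of_dominated (fun r _ => mF r) (fun r hr => ae_of_all _ (hb r hr)) hbi
      (ae_of_all _ fun ω => ((continuous_free P b bz (hw ω)).comp
        (by unfold seg; fun_prop)).continuousOn)
  have hd' : ∀ t ∈ Ioo (0 : ℝ) 1,
      HasDerivAt (fun r => ∫ ω, free P (w ω) b bz (seg (l0 ω) d r) ∂μ)
      (∫ ω, -(1 / 2) * pair P (w ω) b bz (seg (l0 ω) d t) (grad P b bz (seg (l0 ω) d t) d) ∂μ)
      t := fun t ht =>
    (hasDerivAt_integral_of_dominated_loc_of_deriv_le (μ := μ)
      (F := fun r ω => free P (w ω) b bz (seg (l0 ω) d r))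
      (F' := fun r ω => -(1 / 2) * pair P (w ω) b bz (seg (l0 ω) d r)
        (grad P b bz (seg (l0 ω) d r) d))
      (bound := fun _ => 1 / 2 * gbd P b bz d) (Ioo_mem_nhds ht.1 ht.2)
      (Eventually.of_forall mF) (hbi.mono' (mF t) (ae_of_all _ (hb t (Ioo_subset_Icc_self ht))))
      (mP t)
      (ae_of_all _ fun ω r _ => by
        rw [Real.norm_eq_abs, abs_mul, abs_neg, abs_of_pos (by norm_num : (0 : ℝ) < 1 / 2)]
        refine mul_le_mul_of_nonneg_left ?_ (by norm_num)
        rw [← Real.norm_eq_abs, pair]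
        refine (norm_integral_le_of_norm_le_const (ae_of_all _ fun G =>
          (Real.norm_eq_abs _).trans_le (abs_avg2_le (bw_pos P b bz (hw ω) _ G)
            fun x y => abs_grad_le P b bz _ d G x y))).trans_eq ?_
        simp)
      (integrable_const _)
      (ae_of_all _ fun ω r hr => hasDerivAt_free P b bz hD (hw ω) (hpos ω) hdiag hr)).2
  obtain ⟨t, ht, he⟩ := exists_hasDerivAt_eq_slope _ _ zero_lt_one hc hd'
  refine ⟨t, ht, ?_⟩
  rw [sub_zero, div_one, integral_const_mul] at he
  have s1 : ∀ ω, seg (l0 ω) d 1 = fun i => l0 ω i + d i := fun ω => funext fun i => by simp [seg]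
  have s0 : ∀ ω, seg (l0 ω) d 0 = l0 ω := fun ω => funext fun i => by simp [seg]
  simp only [s1, s0] at he
  exact he.symm

end Interp

end Vale.Agent.P157.Casc
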