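import Vale.Agent.P157.Casc.Sys
import Vale.Agent.P157.Casc.Interp
import Vale.Agent.P157.Hybrid

/-!
The model free energy along segments of variances: reduction to a fixed environment, mean value
identity, the effect of the perturbation, and the value at the starting parameters.
-/

open MeasureTheory ProbabilityTheory Filter Topology Set

namespace Vale.Agent.P157.Casc

variable {N M K n : ℕ}

/-- Weights made positive everywhere; they are unchanged almost surely. -/
noncomputable def posV (W : Node K n → ℝ) (v : Node K n) : ℝ := if 0 < W v then W v else 1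

theorem posV_pos (W : Node K n → ℝ) (v : Node K n) : 0 < posV W v := by
  unfold posV; split <;> [assumption; exact one_pos]

theorem measurable_posV : Measurable (posV : (Node K n → ℝ) → Node K n → ℝ) :=
  measurable_pi_lambda _ fun v => Measurable.ite
    (measurableSet_lt measurable_const (measurable_pi_apply v)) (measurable_pi_apply v) measurable_const

theorem ae_posV (m : Fin K → ℝ) : ∀ᵐ W ∂casW m n, posV W = W := by
  filter_upwards [ae_casW_pos m n] with W hW
  exact funext fun v => if_pos (hW v)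

/-- Weights of the states in a repaired environment. -/
noncomputable def pwt (π : Prior N) (W : Node K n → ℝ) : State π K n → ℝ := stw π (posV W)

theorem pwt_pos (π : Prior N) (W : Node K n → ℝ) (st : State π K n) : 0 < pwt π W st :=
  mul_pos (π.w_pos _) (wgt_pos _ (posV_pos W) _)

theorem measurable_pwt (π : Prior N) (st : State π K n) :
    Measurable fun W : Node K n → ℝ => pwt π W st := by
  unfold pwt stw wgt
  exact (Finset.measurable_prod _ fun l _ =>
    ((measurable_pi_apply (node st.2 l)).comp measurable_posV).mul_const _).const_mul _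

theorem prior_ne (π : Prior N) : Nonempty (Fin π.c) := by
  by_contra h
  have := π.w_sum
  rw [not_nonempty_iff] at h
  simp at this

theorem state_ne (π : Prior N) (hn : 0 < n) : Nonempty (State π K n) :=
  (prior_ne π).elim fun σ => ⟨(σ, fun _ => ⟨0, hn⟩)⟩

theorem disj_model (π : Prior N) :
    Disj (bpat (M := M) (K := K) (n := n) π) (bspin π) := by
  refine ⟨fun a a' h x y i => ?_, fun a x y i => ?_⟩
  · rcases i with ⟨b, j⟩ | ⟨o, b | b⟩ <;> simp only [bpat]
    · split_ifs with h1 h2 <;> first | (exact absurd (h1.symm.trans h2) h) | simp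
    · split_ifs with h1 h2 <;> first | (exact absurd (h1.symm.trans h2) h) | simp
    · simp
  · rcases i with ⟨b, j⟩ | ⟨o, b | b | b⟩ <;> simp [bpat, bspin]

theorem integrable_log_pareto {m : ℝ} : Integrable (fun w => |Real.log w|) (pareto m) := by
  rw [pareto, integrable_map_measure (by fun_prop) (by fun_prop)]
  have h : IntegrableOn Real.log (Ioc (0 : ℝ) 1) volume :=
    (intervalIntegral.intervalIntegrable_log' (a := 0) (b := 1)).1
  refine ((h.norm).const_mul |1 / m|).congr ?_
  filter_upwards [ae_restrict_mem measurableSet_Ioc] with u hu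
  simp [Real.log_rpow hu.1, abs_mul]

/-- A bound on the logarithm of the weights of the states. -/
theorem abs_log_stw (π : Prior N) (hn : 0 < n) (W : Node K n → ℝ) (hW : ∀ v, 0 < W v) :
    |Real.log (∑ st : State π K n, stw π W st)| ≤
      |Real.log (Fintype.card (Leaf K n))| +
        ((∑ v : Node K n, |Real.log (W v)|) + ∑ l : Fin K, |1 / mlev K l * Real.log n|) := by
  set A := (∑ v : Node K n, |Real.log (W v)|) + ∑ l : Fin K, |1 / mlev K l * Real.log n|
  have hnR : (0 : ℝ) < n := by exact_mod_cast hn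
  have hterm : ∀ α : Leaf K n, Real.exp (-A) ≤ wgt (mlev K) W α ∧
      wgt (mlev K) W α ≤ Real.exp A := fun α => by
    have hpos := wgt_pos (mlev K) hW α
    have hlog : |Real.log (wgt (mlev K) W α)| ≤ A := by
      unfold wgt
      rw [Real.log_prod fun l _ => (mul_pos (hW _) (Real.rpow_pos_of_pos hnR _)).ne']
      refine (Finset.abs_sum_le_sum_abs _ _).trans ?_
      calc ∑ l, |Real.log (W (node α l) * (n : ℝ) ^ (-(1 / mlev K l)))|
          ≤ ∑ l, (|Real.log (W (node α l))| + |1 / mlev K l * Real.log n|) := by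
            refine Finset.sum_le_sum fun l _ => ?_
            rw [Real.log_mul (hW _).ne' (Real.rpow_pos_of_pos hnR _).ne', Real.log_rpow hnR]
            refine (abs_add_le _ _).trans (le_of_eq ?_)
            rw [neg_mul, abs_neg]
        _ ≤ A := by
            rw [Finset.sum_add_distrib]
            refine add_le_add ?_ le_rfl
            have hinj : Function.Injective (node α : Fin K → Node K n) := fun a b h => by
              simpa [node] using congrArg Sigma.fst h
            rw [← Finset.sum_image (f := fun v => |Real.log (W v)|) fun a _ b _ h => hinj h]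
            exact Finset.sum_le_sum_of_subset_of_nonneg (Finset.subset_univ _)
              fun v _ _ => abs_nonneg _
    rw [abs_le] at hlog
    exact ⟨(Real.le_log_iff_exp_le hpos).1 hlog.1, (Real.log_le_iff_le_exp hpos).1 hlog.2⟩
  have hsum : ∑ st : State π K n, stw π W st = ∑ α : Leaf K n, wgt (mlev K) W α := by
    simp only [stw, Fintype.sum_prod_type, ← Finset.mul_sum, ← Finset.sum_mul, π.w_sum, one_mul]
  rw [hsum]
  have hne : Nonempty (Leaf K n) := ⟨fun _ => ⟨0, hn⟩⟩
  set C : ℝ := ((Fintype.card (Leaf K n) : ℕ) : ℝ)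
  have hC : 0 < C := by simp only [C]; exact_mod_cast Fintype.card_pos
  have h1 : C * Real.exp (-A) ≤ ∑ α : Leaf K n, wgt (mlev K) W α := by
    simpa [C, nsmul_eq_mul] using
      Finset.sum_le_sum fun α (_ : α ∈ Finset.univ) => (hterm α).1
  have h2 : ∑ α : Leaf K n, wgt (mlev K) W α ≤ C * Real.exp A := by
    simpa [C, nsmul_eq_mul] using
      Finset.sum_le_sum fun α (_ : α ∈ Finset.univ) => (hterm α).2
  have hS := (mul_pos hC (Real.exp_pos (-A))).trans_le h1
  have l1 := Real.log_le_log (mul_pos hC (Real.exp_pos _)) h1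
  have l2 := Real.log_le_log hS h2
  rw [Real.log_mul hC.ne' (Real.exp_pos _).ne', Real.log_exp] at l1 l2
  rw [abs_le]
  constructor <;> linarith [le_abs_self (Real.log C), neg_abs_le (Real.log C)]

theorem integrable_log_pwt (π : Prior N) (hn : 0 < n) :
    Integrable (fun W : Node K n → ℝ => Real.log (∑ st, pwt π W st)) (casW (mlev K) n) := by
  have hv : ∀ v : Node K n, Integrable (fun W : Node K n → ℝ => |Real.log (W v)|) (casW (mlev K) n) :=
    fun v => integrable_comp_eval (μ := fun v : Node K n => pareto (mlev K v.1))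
      (f := fun w => |Real.log w|) integrable_log_pareto
  refine Integrable.mono' ((integrable_const |Real.log (Fintype.card (Leaf K n))|).add
    ((integrable_finsetSum (Finset.univ : Finset (Node K n)) fun v _ => hv v).add
      (integrable_const (∑ l : Fin K, |1 / mlev K l * Real.log n|))))
    (Finset.measurable_sum _ fun st _ => measurable_pwt π st).log.aestronglyMeasurable ?_
  filter_upwards [ae_posV (mlev K), ae_casW_pos (mlev K) n] with W hW hpos
  rw [Real.norm_eq_abs]
  simp only [pwt, hW, Pi.add_apply]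
  exact abs_log_stw π hn W hpos

theorem abs_pull_le {c : CIdx N M K → ℝ} {R : ℝ} (h : ∀ i, |c i| ≤ R) (i : GIdx N M K n) :
    |pull c i| ≤ R := by
  rcases i with q | ⟨o, i⟩ <;> exact h _

theorem pull_add (c d : CIdx N M K → ℝ) (t : ℝ) (i : GIdx N M K n) :
    pull (fun j => c j + t * d j) i = pull c i + t * pull d i := by
  rcases i with q | ⟨o, i⟩ <;> rfl

instance envLaw_isProb : IsProbabilityMeasure (envLaw N M K n) := by
  unfold envLaw; infer_instance

variable {Y : Type*} [MeasurableSpace Y]

theorem measurable_bw {T I : Type*} [Fintype I] (P : Pot) (b : Fin M → T → I → ℝ) (bz : T → I → ℝ)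
    {w : Y → T → ℝ} {l G : Y → I → ℝ} (hw : ∀ x, Measurable fun y => w y x)
    (hl : ∀ i, Measurable fun y => l y i) (hG : ∀ i, Measurable fun y => G y i) (x : T) :
    Measurable fun y => bw P (w y) b bz (l y) (G y) x := by
  have mf := (pot_continuous P).measurable
  unfold bw ham lin; fun_prop

theorem measurable_grad {T I : Type*} [Fintype I] (P : Pot) (b : Fin M → T → I → ℝ)
    (bz : T → I → ℝ) (d : I → ℝ) {l G : Y → I → ℝ} (hl : ∀ i, Measurable fun y => l y i)
    (hG : ∀ i, Measurable fun y => G y i) (x x' : T) :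
    Measurable fun y => grad P b bz (l y) d (G y) x x' := by
  have mf1 := (pot_continuous1 P).measurable
  unfold grad lin; fun_prop

/-- The free energy of the model as an average of fixed-environment free energies. -/
theorem mfree_eq (P : Pot) (π : Prior N) (hn : 0 < n) (c : CIdx N M K → ℝ) :
    Integrable (fun W => free P (pwt π W) (bpat π) (bspin π) (pull c)) (casW (mlev K) n) ∧
    mfree n P π c = (∫ W, free P (pwt π W) (bpat π) (bspin π) (pull c) ∂casW (mlev K) n)
      - cst (mlev K) n := by
  have := state_ne (K := K) π hn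
  set F : (Node K n → ℝ) × (GIdx N M K n → ℝ) → ℝ := fun p =>
    Real.log (∑ st, bw P (pwt π p.1) (bpat π) (bspin π) (pull c) p.2 st) with hF
  have hFm : Measurable F := by
    have hb : ∀ st, Measurable fun p : (Node K n → ℝ) × (GIdx N M K n → ℝ) =>
        bw P (pwt π p.1) (bpat π) (bspin π) (pull c) p.2 st := fun st =>
      measurable_bw (Y := (Node K n → ℝ) × (GIdx N M K n → ℝ)) P (bpat π) (bspin π) (w := fun p => pwt π p.1)
        (l := fun _ => pull c) (G := fun p => p.2)
        (fun x => (measurable_pwt π x).comp measurable_fst) (fun i => measurable_const)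
        (fun i => (measurable_pi_apply i).comp measurable_snd) st
    exact (Finset.measurable_sum _ fun st _ => hb st).log
  set R := ∑ i, |pull (n := n) c i|
  have hR : ∀ i, |pull (n := n) c i| ≤ R := fun i =>
    Finset.single_le_sum (f := fun i => |pull (n := n) c i|) (fun _ _ => abs_nonneg _)
      (Finset.mem_univ i)
  have hFi : Integrable F (envLaw N M K n) := by
    have hg : Integrable (fun p : (Node K n → ℝ) × (GIdx N M K n → ℝ) =>
        |Real.log (∑ st, pwt π p.1 st)| + Itp.lenv P M (bspin (K := K) (n := n) π) R p.2)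
        ((casW (mlev K) n).prod (gaus (GIdx N M K n))) :=
      ((integrable_log_pwt (K := K) (n := n) π hn).abs.comp_fst _).add
        ((Itp.integrable_lenv (M := M) P (bspin (K := K) (n := n) π) R).comp_snd _)
    refine hg.mono' hFm.aestronglyMeasurable (ae_of_all _ fun p => ?_)
    rw [Real.norm_eq_abs]
    exact Itp.abs_log_env P (bpat π) (bspin π) (pwt_pos π p.1) hR p.2
  have he : ∀ᵐ p ∂envLaw N M K n, Real.log (∑ st, mbw P π c p st) = F p := by
    filter_upwards [Measure.quasiMeasurePreserving_fst.ae (ae_posV (mlev K))] with p hp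
    simp only [hF, mbw, pwt, hp]
  refine ⟨hFi.integral_prod_left, ?_⟩
  rw [mfree, integral_congr_ae he, envLaw, integral_prod _ hFi]
  rfl

/-- Pair averages of bounded observables as averages over the environment. -/
theorem mpair_eq (P : Pot) (π : Prior N) (hn : 0 < n) (c : CIdx N M K → ℝ)
    {O : (GIdx N M K n → ℝ) → State π K n → State π K n → ℝ}
    (hO : ∀ x y, Continuous fun G => O G x y) {C : ℝ} (hC : ∀ G x y, |O G x y| ≤ C) :
    mpair n P π c O = ∫ W, pair P (pwt π W) (bpat π) (bspin π) (pull c) O ∂casW (mlev K) n := by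
  have := state_ne (K := K) π hn
  have mf := (pot_continuous P).measurable
  have hm : Measurable fun p : (Node K n → ℝ) × (GIdx N M K n → ℝ) =>
      avg2 (bw P (pwt π p.1) (bpat π) (bspin π) (pull c) p.2) (O p.2) := by
    have hb : ∀ st, Measurable fun p : (Node K n → ℝ) × (GIdx N M K n → ℝ) =>
        bw P (pwt π p.1) (bpat π) (bspin π) (pull c) p.2 st := fun st =>
      measurable_bw (Y := (Node K n → ℝ) × (GIdx N M K n → ℝ)) P (bpat π) (bspin π) (w := fun p => pwt π p.1)
      (l := fun _ => pull c) (G := fun p => p.2) (fun x => (measurable_pwt π x).comp measurable_fst) (fun i => measurable_const)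
      (fun i => (measurable_pi_apply i).comp measurable_snd) st
    have hO' : ∀ x y, Measurable fun p : (Node K n → ℝ) × (GIdx N M K n → ℝ) => O p.2 x y :=
      fun x y => (hO x y).measurable.comp measurable_snd
    unfold avg2 gibbs; fun_prop
  have hi : Integrable (fun p : (Node K n → ℝ) × (GIdx N M K n → ℝ) =>
      avg2 (bw P (pwt π p.1) (bpat π) (bspin π) (pull c) p.2) (O p.2)) (envLaw N M K n) :=
    integrable_of_bdd hm.aestronglyMeasurable fun p =>
      Itp.abs_avg2_le (Itp.bw_pos P (bpat π) (bspin π) (pwt_pos π p.1) _ p.2) (hC p.2)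
  have he : ∀ᵐ p ∂envLaw N M K n, avg2 (mbw P π c p) (O p.2)
      = avg2 (bw P (pwt π p.1) (bpat π) (bspin π) (pull c) p.2) (O p.2) := by
    filter_upwards [Measure.quasiMeasurePreserving_fst.ae (ae_posV (mlev K))] with p hp
    simp only [pwt, hp]; rfl
  rw [mpair, integral_congr_ae he, envLaw, integral_prod _ hi]
  rfl

theorem continuous_grad (P : Pot) (π : Prior N) (c d : GIdx N M K n → ℝ) (x y : State π K n) :
    Continuous fun G => grad P (bpat π) (bspin π) c d G x y := by
  have := pot_continuous1 P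
  have := fun a z => Itp.cont_lin (bpat (M := M) π a) c z
  unfold grad; fun_prop

theorem continuous_mfree_param (P : Pot) (π : Prior N) (hn : 0 < n) {X : Type*} [MeasurableSpace X]
    (μ : Measure X) [IsFiniteMeasure μ] {c : X → CIdx N M K → ℝ}
    (hcm : ∀ i, Measurable fun x => c x i) {R : ℝ} (hR : ∀ x i, |c x i| ≤ R) :
    Integrable (fun p : X × (Node K n → ℝ) =>
        free P (pwt π p.2) (bpat π) (bspin π) (pull (c p.1))) (μ.prod (casW (mlev K) n)) ∧
      Integrable (fun x => mfree n P π (c x)) μ := by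
  have := state_ne (K := K) π hn
  have mf := (pot_continuous P).measurable
  have hi : ∀ i : GIdx N M K n, Measurable fun x => pull (c x) i := fun i => by
    rcases i with q | ⟨o, i⟩ <;> exact hcm _
  have hm : Measurable fun p : (X × (Node K n → ℝ)) × (GIdx N M K n → ℝ) =>
      Real.log (∑ st, bw P (pwt π p.1.2) (bpat π) (bspin π) (pull (c p.1.1)) p.2 st) := by
    exact (Finset.measurable_sum _ fun st _ => measurable_bw (Y := (X × (Node K n → ℝ)) × (GIdx N M K n → ℝ)) P (bpat π) (bspin π)
      (w := fun p => pwt π p.1.2) (l := fun p => pull (c p.1.1)) (G := fun p => p.2)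
      (fun x => (measurable_pwt π x).comp (measurable_snd.comp measurable_fst))
      (fun i => (hi i).comp (measurable_fst.comp measurable_fst))
      (fun i => (measurable_pi_apply i).comp measurable_snd) st).log
  have hmeas : AEStronglyMeasurable (fun p : X × (Node K n → ℝ) =>
      free P (pwt π p.2) (bpat π) (bspin π) (pull (c p.1))) (μ.prod (casW (mlev K) n)) :=
    (hm.stronglyMeasurable.integral_prod_right' (ν := gaus (GIdx N M K n))).aestronglyMeasurable
  have hb : Integrable (fun p : X × (Node K n → ℝ) => |Real.log (∑ st, pwt π p.2 st)| +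
      ∫ G, Itp.lenv P M (bspin π) R G ∂gaus (GIdx N M K n)) (μ.prod (casW (mlev K) n)) :=
    ((integrable_log_pwt (K := K) (n := n) π hn).abs.comp_snd μ).add (integrable_const _)
  have hI : Integrable (fun p : X × (Node K n → ℝ) =>
      free P (pwt π p.2) (bpat π) (bspin π) (pull (c p.1))) (μ.prod (casW (mlev K) n)) := by
    refine hb.mono' hmeas (ae_of_all _ fun p => ?_)
    rw [Real.norm_eq_abs]
    exact Itp.abs_free_le P (bpat π) (bspin π) (pwt_pos π p.2) (abs_pull_le (hR p.1))
  refine ⟨hI, (hI.integral_prod_left.sub (integrable_const (cst (mlev K) n))).congr ?_⟩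
  exact ae_of_all _ fun x => ((mfree_eq P π hn (c x)).2).symm

theorem integrable_pair_seg (P : Pot) (π : Prior N) (hn : 0 < n) {X : Type*} [MeasurableSpace X]
    (μ : Measure X) [IsFiniteMeasure μ] {c : X → CIdx N M K → ℝ}
    (hcm : ∀ i, Measurable fun x => c x i) (d : CIdx N M K → ℝ) (t : ℝ) :
    Integrable (fun p : X × (Node K n → ℝ) => pair P (pwt π p.2) (bpat π) (bspin π)
      (pull fun i => c p.1 i + t * d i)
      (grad P (bpat π) (bspin π) (pull fun i => c p.1 i + t * d i) (pull d)))
      (μ.prod (casW (mlev K) n)) := by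
  have := state_ne (K := K) π hn
  set ν := casW (mlev K) n
  have hct : ∀ i, Measurable fun x => c x i + t * d i := fun i => (hcm i).add_const _
  have hti : ∀ i : GIdx N M K n, Measurable fun x => pull (fun j => c x j + t * d j) i := fun i => by
    rcases i with q | ⟨o, i⟩ <;> exact hct _
  have mf := (pot_continuous P).measurable
  have mf1 := (pot_continuous1 P).measurable
  have hpm : Measurable fun p : (X × (Node K n → ℝ)) × (GIdx N M K n → ℝ) =>
      avg2 (bw P (pwt π p.1.2) (bpat π) (bspin π) (pull fun i => c p.1.1 i + t * d i) p.2)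
        (grad P (bpat π) (bspin π) (pull fun i => c p.1.1 i + t * d i) (pull d) p.2) := by
    have hb : ∀ st, Measurable fun p : (X × (Node K n → ℝ)) × (GIdx N M K n → ℝ) =>
        bw P (pwt π p.1.2) (bpat π) (bspin π) (pull fun i => c p.1.1 i + t * d i) p.2 st :=
      measurable_bw (Y := (X × (Node K n → ℝ)) × (GIdx N M K n → ℝ)) P (bpat π) (bspin π)
        (w := fun p => pwt π p.1.2) (l := fun p => pull fun i => c p.1.1 i + t * d i) (G := fun p => p.2)
        (fun x => (measurable_pwt π x).comp (measurable_snd.comp measurable_fst))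
        (fun i => (hti i).comp (measurable_fst.comp measurable_fst))
        (fun i => (measurable_pi_apply i).comp measurable_snd)
    have hg : ∀ x y, Measurable fun p : (X × (Node K n → ℝ)) × (GIdx N M K n → ℝ) =>
        grad P (bpat π) (bspin π) (pull fun i => c p.1.1 i + t * d i) (pull d) p.2 x y :=
      measurable_grad (Y := (X × (Node K n → ℝ)) × (GIdx N M K n → ℝ)) P (bpat π) (bspin π) (pull d)
        (l := fun p => pull fun i => c p.1.1 i + t * d i) (G := fun p => p.2) (fun i => (hti i).comp (measurable_fst.comp measurable_fst))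
        (fun i => (measurable_pi_apply i).comp measurable_snd)
    unfold avg2 gibbs; fun_prop
  set C := Itp.gbd P (bpat (M := M) (K := K) (n := n) π) (bspin π) (pull d)
  have hp : Integrable (fun p : X × (Node K n → ℝ) => pair P (pwt π p.2) (bpat π) (bspin π)
      (pull fun i => c p.1 i + t * d i)
      (grad P (bpat π) (bspin π) (pull fun i => c p.1 i + t * d i) (pull d))) (μ.prod ν) := by
    refine integrable_of_bdd
      (hpm.stronglyMeasurable.integral_prod_right' (ν := gaus (GIdx N M K n))).aestronglyMeasurable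
      (C := C) fun p => ?_
    rw [pair, ← Real.norm_eq_abs]
    refine (norm_integral_le_of_norm_le_const (ae_of_all _ fun G =>
      (Real.norm_eq_abs _).trans_le (Itp.abs_avg2_le
        (Itp.bw_pos P (bpat π) (bspin π) (pwt_pos π p.2) _ G)
        fun x y => Itp.abs_grad_le P (bpat π) (bspin π) _ (pull d) G x y))).trans_eq ?_
    simp [C]
  exact hp

/-- Mean value identity for the averaged free energy along a segment. -/
theorem mfree_mvt (P : Pot) (π : Prior N) (hn : 0 < n) {X : Type*} [MeasurableSpace X]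
    (μ : Measure X) [IsProbabilityMeasure μ] {c : X → CIdx N M K → ℝ}
    (hcm : ∀ i, Measurable fun x => c x i) {R : ℝ} (hR : ∀ x i, |c x i| ≤ R)
    {d : CIdx N M K → ℝ} (hpos : ∀ x, ∀ t ∈ Icc (0 : ℝ) 1, ∀ i, 0 ≤ c x i + t * d i)
    (hdiag : ∀ a (st : State π K n), ∑ i, pull d i * bpat π a st i ^ 2 = 0) :
    ∃ t ∈ Ioo (0 : ℝ) 1,
      (∫ x, mfree n P π (fun i => c x i + d i) ∂μ) - ∫ x, mfree n P π (c x) ∂μ
        = -(1 / 2) * ∫ x, mpair n P π (fun i => c x i + t * d i)
            (grad P (bpat π) (bspin π) (pull fun i => c x i + t * d i) (pull d)) ∂μ := by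
  have := state_ne (K := K) π hn
  set ν := casW (mlev K) n with hν
  have hi : ∀ i : GIdx N M K n, Measurable fun x => pull (c x) i := fun i => by
    rcases i with q | ⟨o, i⟩ <;> exact hcm _
  obtain ⟨t, ht, he⟩ := free_avg_mvt P (bpat π) (bspin π) (disj_model π) (μ.prod ν)
    (w := fun p => pwt π p.2) (fun st => (measurable_pwt π st).comp measurable_snd)
    (fun p => pwt_pos π p.2)
    ((integrable_log_pwt (K := K) (n := n) π hn).comp_snd μ)
    (l0 := fun p => pull (c p.1)) (fun i => (hi i).comp measurable_fst) (R := R)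
    (fun p => abs_pull_le (hR p.1)) (d := pull d)
    (fun p s hs i => by rw [← pull_add]; rcases i with q | ⟨o, i⟩ <;> exact hpos p.1 s hs _)
    hdiag
  refine ⟨t, ht, ?_⟩
  have hR1 : ∀ x i, |c x i + d i| ≤ R + ∑ i, |d i| := fun x i => (abs_add_le _ _).trans
    (add_le_add (hR x i) (Finset.single_le_sum (f := fun i => |d i|) (fun _ _ => abs_nonneg _)
      (Finset.mem_univ i)))
  have hcm1 : ∀ i, Measurable fun x => c x i + d i := fun i => (hcm i).add_const _
  obtain ⟨h0, h0'⟩ := continuous_mfree_param P π hn μ hcm hR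
  obtain ⟨h1, h1'⟩ := continuous_mfree_param P π hn μ hcm1 hR1
  have e1 : ∀ x, (fun i => pull (c x) i + pull d i) = pull (n := n) fun i => c x i + d i :=
    fun x => funext fun i => by rcases i with q | ⟨o, i⟩ <;> rfl
  have et : ∀ x, (fun i => pull (c x) i + t * pull d i) = pull (n := n) fun i => c x i + t * d i :=
    fun x => funext fun i => (pull_add (c x) d t i).symm
  simp only [e1, et] at he
  rw [integral_prod _ h1, integral_prod _ h0] at he
  have i1 : Integrable (fun x => ∫ W, free P (pwt π W) (bpat π) (bspin π)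
      (pull fun i => c x i + d i) ∂ν) μ := h1.integral_prod_left
  have i0 : Integrable (fun x => ∫ W, free P (pwt π W) (bpat π) (bspin π) (pull (c x)) ∂ν) μ :=
    h0.integral_prod_left
  simp only [(mfree_eq P π hn _).2]
  rw [integral_sub i1 (integrable_const _), integral_sub i0 (integrable_const _)]
  simp only [hν] at he ⊢
  rw [show ∀ a b k : ℝ, a - k - (b - k) = a - b from fun a b k => by ring, he]
  congr 1
  rw [integral_prod _ (integrable_pair_seg P π hn μ hcm d t)]
  refine integral_congr_ae (ae_of_all _ fun x => ?_)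
  have hx := mpair_eq P π hn (fun i => c x i + t * d i)
    (O := grad P (bpat π) (bspin π) (pull fun i => c x i + t * d i) (pull d))
    (fun st st' => continuous_grad P π (pull fun i => c x i + t * d i) (pull d) st st')
    (C := Itp.gbd P (bpat (M := M) (K := K) (n := n) π) (bspin π) (pull d))
    (fun G st st' => Itp.abs_grad_le P (bpat π) (bspin π) _ _ G st st')
  dsimp only
  rw [hx]

/-- Mean value identity along one segment. -/
theorem mfree_mvt_point (P : Pot) (π : Prior N) (hn : 0 < n) {c d : CIdx N M K → ℝ}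
    (hpos : ∀ t ∈ Icc (0 : ℝ) 1, ∀ i, 0 ≤ c i + t * d i)
    (hdiag : ∀ a (st : State π K n), ∑ i, pull d i * bpat π a st i ^ 2 = 0) :
    ∃ t ∈ Ioo (0 : ℝ) 1, mfree n P π (fun i => c i + d i) - mfree n P π c =
      -(1 / 2) * mpair n P π (fun i => c i + t * d i)
        (grad P (bpat π) (bspin π) (pull fun i => c i + t * d i) (pull d)) := by
  obtain ⟨t, ht, he⟩ := mfree_mvt P π hn (Measure.dirac ()) (c := fun _ => c)
    (fun i => measurable_const) (R := ∑ i, |c i|)
    (fun _ i => Finset.single_le_sum (f := fun i => |c i|) (fun _ _ => abs_nonneg _)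
      (Finset.mem_univ i))
    (d := d) (fun _ => hpos) hdiag
  simp only [integral_dirac] at he
  exact ⟨t, ht, he⟩

/-- The law of the pattern matrix is the Gaussian vector on pairs. -/
theorem mp_uncurry (M N : ℕ) : MeasurePreserving
    (fun (G : Fin M → Fin N → ℝ) (p : Fin M × Fin N) => G p.1 p.2)
    (Measure.pi fun _ : Fin M => gaus (Fin N)) (gaus (Fin M × Fin N)) := by
  have hm : Measurable fun (G : Fin M → Fin N → ℝ) (p : Fin M × Fin N) => G p.1 p.2 :=
    measurable_pi_lambda _ fun p => (measurable_pi_apply p.2).comp (measurable_pi_apply p.1)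
  refine ⟨hm, (Measure.pi_eq fun s hs => ?_).symm⟩
  rw [Measure.map_apply hm (MeasurableSet.univ_pi hs)]
  have e : (fun (G : Fin M → Fin N → ℝ) (p : Fin M × Fin N) => G p.1 p.2) ⁻¹' Set.univ.pi s =
      Set.univ.pi fun a => Set.univ.pi fun j => s (a, j) := by
    ext G
    simp only [Set.mem_preimage, Set.mem_univ_pi]
    exact ⟨fun h a j => h (a, j), fun h p => h p.1 p.2⟩
  rw [e, Measure.pi_pi]
  simp only [gaus, Measure.pi_pi, Fintype.prod_prod_type]

theorem incr_of_zero : incr (0 : Fin (K + 1) → ℝ) = 0 := by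
  funext l
  refine Fin.cases ?_ (fun i => ?_) l <;> simp [incr]

/-- At full pattern strength the model is the perceptron. -/
theorem mfree_real (P : Pot) (π : Prior N) (hn : 0 < n) :
    mfree n P π (fieldc (1, 0, 0) : CIdx N M K → ℝ) = pressP M P.f π := by
  have hne := state_ne (K := K) π hn
  set c : CIdx N M K → ℝ := fieldc (1, 0, 0) with hc
  set h : (Fin M × Fin N → ℝ) → ℝ := fun G => Real.log (∑ σ, π.w σ * Real.exp (∑ a : Fin M,
    P.f ((∑ j, G (a, j) * π.spin σ j) / √(N : ℝ)))) with hh
  have hcl : ∀ l i, c (Sum.inr (l, i)) = 0 := fun l i => by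
    rcases i with a | j | t <;> simp [hc, fieldc, incr_of_zero]
  have hham : ∀ (G : GIdx N M K n → ℝ) (st : State π K n), ham P (bpat π) (bspin π) (pull c) G st =
      ∑ a : Fin M, P.f ((∑ j, G (Sum.inl (a, j)) * π.spin st.1 j) / √(N : ℝ)) := by
    intro G st
    simp only [ham, lin_bpat, lin_bspin, comp_bspin, hcl, Real.sqrt_zero, zero_mul, mul_zero,
      Finset.sum_const_zero, add_zero, sub_zero]
    refine Finset.sum_congr rfl fun a _ => congrArg P.f ?_
    rw [Finset.sum_div]
    refine Finset.sum_congr rfl fun j _ => ?_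
    simp [hc, fieldc]; ring
  have hsplit : ∀ (W : Node K n → ℝ) (G : GIdx N M K n → ℝ),
      Real.log (∑ st, bw P (pwt π W) (bpat π) (bspin π) (pull c) G st) =
        Real.log (∑ α, wgt (mlev K) (posV W) α) + h (fun p => G (Sum.inl p)) := by
    intro W G
    have hLne : Nonempty (Leaf K n) := ⟨fun _ => ⟨0, hn⟩⟩
    have hσne := prior_ne π
    have h1 : 0 < ∑ α, wgt (mlev K) (posV W) α :=
      Finset.sum_pos (fun α _ => wgt_pos _ (posV_pos W) α) Finset.univ_nonempty
    have h2 : 0 < ∑ σ, π.w σ * Real.exp (∑ a : Fin M,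
        P.f ((∑ j, G (Sum.inl (a, j)) * π.spin σ j) / √(N : ℝ))) :=
      Finset.sum_pos (fun σ _ => mul_pos (π.w_pos σ) (Real.exp_pos _)) Finset.univ_nonempty
    simp only [bw, pwt, stw, hham, Fintype.sum_prod_type]
    rw [hh, ← Real.log_mul h1.ne' h2.ne', Finset.mul_sum]
    refine congrArg Real.log (Finset.sum_congr rfl fun σ _ => ?_)
    rw [Finset.sum_mul]
    exact Finset.sum_congr rfl fun α _ => by ring
  have hfree : ∀ W : Node K n → ℝ, free P (pwt π W) (bpat π) (bspin π) (pull c) =
      Real.log (∑ α, wgt (mlev K) (posV W) α) + pressP M P.f π := by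
    intro W
    have mf := (pot_continuous P).measurable
    have hmh : Measurable h := by rw [hh]; fun_prop
    have hinl : MeasurePreserving (fun (G : GIdx N M K n → ℝ) (p : Fin M × Fin N) => G (Sum.inl p))
        (gaus (GIdx N M K n)) (gaus (Fin M × Fin N)) :=
      P157.mp_comp (gaussianReal 0 1) Sum.inl_injective
    have hi : Integrable (fun G : GIdx N M K n → ℝ =>
        Real.log (∑ α, wgt (mlev K) (posV W) α) + h (fun p => G (Sum.inl p)))
        (gaus (GIdx N M K n)) := by
      simp only [← hsplit]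
      exact Itp.integrable_log P (bpat π) (bspin π) (pwt_pos π W) _
    have hi2 : Integrable (fun G : GIdx N M K n → ℝ => h (fun p => G (Sum.inl p)))
        (gaus (GIdx N M K n)) := by
      simpa [Pi.sub_def] using hi.sub (integrable_const (Real.log (∑ α, wgt (mlev K) (posV W) α)))
    simp only [free, hsplit]
    rw [integral_add (integrable_const _) hi2, integral_const]
    simp only [probReal_univ, smul_eq_mul, one_mul]
    congr 1
    rw [← integral_map (φ := fun (G : GIdx N M K n → ℝ) (p : Fin M × Fin N) => G (Sum.inl p))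
      hinl.measurable.aemeasurable hmh.aestronglyMeasurable, hinl.map_eq, ← (mp_uncurry M N).map_eq,
      integral_map (mp_uncurry M N).measurable.aemeasurable hmh.aestronglyMeasurable]
    rfl
  rw [(mfree_eq P π hn c).2]
  simp only [hfree]
  have hW : Integrable (fun W : Node K n → ℝ => Real.log (∑ α, wgt (mlev K) (posV W) α))
      (casW (mlev K) n) := by
    refine (integrable_log_pwt π hn).congr (ae_of_all _ fun W => congrArg Real.log ?_)
    simp only [pwt, stw, Fintype.sum_prod_type, ← Finset.mul_sum, ← Finset.sum_mul, π.w_sum, one_mul]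
  rw [integral_add hW (integrable_const _), cst]
  have : ∫ W, Real.log (∑ α, wgt (mlev K) (posV W) α) ∂casW (mlev K) n
      = ∫ W, Real.log (∑ α, wgt (mlev K) W α) ∂casW (mlev K) n :=
    integral_congr_ae (by filter_upwards [ae_posV (mlev K)] with W hW; rw [hW])
  simp [this]

theorem abs_dot_le (π : Prior N) (σ τ : Fin π.c) :
    |∑ j, π.spin σ j * π.spin τ j| ≤ (N : ℝ) := by
  refine (Finset.abs_sum_le_sum_abs _ _).trans ?_
  have h : ∀ j ∈ Finset.univ, |π.spin σ j * π.spin τ j| ≤ (π.spin σ j ^ 2 + π.spin τ j ^ 2) / 2 := by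
    intro j _
    rw [abs_mul]
    nlinarith [sq_nonneg (|π.spin σ j| - |π.spin τ j|), sq_abs (π.spin σ j), sq_abs (π.spin τ j)]
  refine (Finset.sum_le_sum h).trans_eq ?_
  rw [← Finset.sum_div, Finset.sum_add_distrib, π.norm_spin, π.norm_spin]
  ring

theorem pertc_nonneg (x : ℕ → ℝ) (i : CIdx N M K) : 0 ≤ pertc N x i := by
  rcases i with p | ⟨l, a | j | ⟨j, i, t⟩⟩ <;> simp only [pertc, le_refl]
  split_ifs
  · refine div_nonneg (mul_nonneg (sq_nonneg _) (mul_nonneg (by positivity) ?_)) (by positivity)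
    refine Fin.cases ?_ (fun r => ?_) l
    · simp only [incr, Fin.cases_zero, powPath]; positivity
    · simp only [incr, Fin.cases_succ, powPath, Fin.val_succ, Fin.val_castSucc]
      have : ((r : ℕ) : ℝ) ^ (j.val + 1 - i.val) ≤ ((r : ℕ) + 1 : ℝ) ^ (j.val + 1 - i.val) :=
        pow_le_pow_left₀ (Nat.cast_nonneg _) (by linarith) _
      push_cast
      linarith
  · exact le_rfl

theorem amp_sum_le {x : ℕ → ℝ} {X : ℝ} (hx : ∀ i, |x i| ≤ X) :
    ∑ j : Fin N, (amp N j * x j) ^ 2 ≤ X ^ 2 * (N : ℝ) ^ ((3 : ℝ) / 4) / 3 := by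
  rcases Nat.eq_zero_or_pos N with rfl | hN
  · simp only [Finset.univ_eq_empty, Finset.sum_empty]; positivity
  have hN' : (0 : ℝ) < N := by exact_mod_cast hN
  have h : ∀ j : Fin N, (amp N j * x j) ^ 2 ≤
      X ^ 2 * (N : ℝ) ^ ((3 : ℝ) / 4) * ((1 : ℝ) / 4) ^ ((j : ℕ) + 1) := fun j => by
    rw [mul_pow]
    have e : amp N j ^ 2 = (N : ℝ) ^ ((3 : ℝ) / 4) * ((1 : ℝ) / 4) ^ ((j : ℕ) + 1) := by
      rw [amp, div_pow, one_div, inv_pow, ← Real.rpow_natCast ((N : ℝ) ^ ((3 : ℝ) / 8)) 2,
        ← Real.rpow_mul hN'.le, ← pow_mul, mul_comm ((j : ℕ) + 1) 2, pow_mul]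
      norm_num
      ring
    have hx2 : x j ^ 2 ≤ X ^ 2 := sq_abs (x j) ▸ pow_le_pow_left₀ (abs_nonneg _) (hx _) 2
    rw [e]
    calc (N : ℝ) ^ ((3 : ℝ) / 4) * ((1 : ℝ) / 4) ^ ((j : ℕ) + 1) * x j ^ 2
        ≤ (N : ℝ) ^ ((3 : ℝ) / 4) * ((1 : ℝ) / 4) ^ ((j : ℕ) + 1) * X ^ 2 :=
          mul_le_mul_of_nonneg_left hx2 (by positivity)
      _ = _ := by ring
  refine (Finset.sum_le_sum fun j _ => h j).trans ?_
  rw [← Finset.mul_sum, mul_div_assoc (X ^ 2) ((N : ℝ) ^ ((3 : ℝ) / 4)) 3,
    show X ^ 2 * ((N : ℝ) ^ ((3 : ℝ) / 4) / 3) = X ^ 2 * (N : ℝ) ^ ((3 : ℝ) / 4) * (1 / 3) by ring]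
  refine mul_le_mul_of_nonneg_left ?_ (by positivity)
  have hs := (hasSum_geometric_of_lt_one (by norm_num : (0 : ℝ) ≤ 1 / 4) (by norm_num)).mul_left
    (1 / 4)
  rw [Fin.sum_univ_eq_sum_range (fun j => ((1 : ℝ) / 4) ^ (j + 1)) N]
  refine le_trans (le_of_eq (Finset.sum_congr rfl fun j _ => pow_succ' _ j))
    ((sum_le_hasSum _ (fun j _ => by positivity) hs).trans_eq (by norm_num))

theorem abs_grad_pert_le (P : Pot) (π : Prior N) {x : ℕ → ℝ} {X : ℝ} (hx : ∀ i, |x i| ≤ X)
    (lam G : GIdx N M K n → ℝ) (st st' : State π K n) :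
    |grad P (bpat π) (bspin π) lam (pull (pertc N x : CIdx N M K → ℝ)) G st st'| ≤
      X ^ 2 * (N : ℝ) ^ ((3 : ℝ) / 4) / 3 := by
  simp only [grad, cov_bpat, cov_bspin]
  have h0 : ∀ a j, (pertc N x : CIdx N M K → ℝ) (Sum.inl (a, j)) = 0 := fun a j => rfl
  have h1 : ∀ l a, (pertc N x : CIdx N M K → ℝ) (Sum.inr (l, Sum.inl a)) = 0 := fun l a => rfl
  have h2 : ∀ l j, (pertc N x : CIdx N M K → ℝ) (Sum.inr (l, Sum.inr (Sum.inl j))) = 0 :=
    fun l j => rfl
  simp only [h0, h1, h2, zero_mul, Finset.sum_const_zero, zero_div, add_zero, zero_add, mul_zero]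
  rw [pertc_eq_pertS, cov_pertS]
  refine (Finset.abs_sum_le_sum_abs _ _).trans (le_trans ?_ (amp_sum_le hx))
  refine (Finset.sum_le_sum_of_subset_of_nonneg (Finset.filter_subset _ _)
    fun j _ _ => abs_nonneg _).trans (Finset.sum_le_sum fun j _ => ?_)
  rw [Finset.card_univ, Fintype.card_fin, abs_mul, abs_of_nonneg (sq_nonneg _), abs_pow]
  refine mul_le_of_le_one_right (sq_nonneg _) (pow_le_one₀ (abs_nonneg _) ?_)
  rw [abs_div, Nat.abs_cast, div_le_one (by positivity)]
  have hR : |ovSet Finset.univ π st st'| ≤ 1 := by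
    rw [ovSet, Finset.card_univ, Fintype.card_fin, abs_div, Nat.abs_cast]
    exact div_le_one_of_le₀ (abs_dot_le π _ _) (Nat.cast_nonneg N)
  have hu : ((com st.2 st'.2 : ℕ) : ℝ) ≤ K := by
    exact_mod_cast Nat.lt_succ_iff.1 (com st.2 st'.2).isLt
  refine (abs_add_le _ _).trans ?_
  rw [abs_of_nonneg (show (0 : ℝ) ≤ 3 * ((com st.2 st'.2 : ℕ) : ℝ) by positivity)]
  push_cast
  linarith

/-- The perturbation changes the free energy by less than order `N`. -/
theorem mfree_pert (P : Pot) (π : Prior N) (hn : 0 < n) {c : CIdx N M K → ℝ} (hc : ∀ i, 0 ≤ c i)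
    {x : ℕ → ℝ} (hx : ∀ i, |x i| ≤ 4) :
    |mfree n P π (fun i => c i + pertc N x i) - mfree n P π c| ≤ 3 * (N : ℝ) ^ ((3 : ℝ) / 4) := by
  obtain ⟨t, -, ht⟩ := mfree_mvt P π hn (Measure.dirac ()) (c := fun _ => c)
    (fun i => measurable_const) (R := ∑ i, |c i|)
    (fun _ i => Finset.single_le_sum (f := fun i => |c i|) (fun _ _ => abs_nonneg _)
      (Finset.mem_univ i))
    (d := pertc N x) (fun _ t ht i => add_nonneg (hc i) (mul_nonneg ht.1 (pertc_nonneg x i)))
    (fun a st => by
      simp only [sq, cov_bpat]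
      simp [pertc])
  simp only [integral_dirac] at ht
  rw [ht, abs_mul, abs_neg, abs_of_pos (by norm_num : (0 : ℝ) < 1 / 2)]
  set cc := pull (n := n) fun i => c i + t * pertc N x i
  set E := (4 : ℝ) ^ 2 * (N : ℝ) ^ ((3 : ℝ) / 4) / 3
  have hE : 0 ≤ E := by positivity
  have h : |mpair n P π (fun i => c i + t * pertc N x i)
      (grad P (bpat π) (bspin π) cc (pull (pertc N x)))| ≤ E := by
    rw [mpair, ← Real.norm_eq_abs]
    refine (norm_integral_le_of_norm_le_const (C := E) ?_).trans_eq (by simp)
    filter_upwards [ae_mbw_pos P π fun i => c i + t * pertc N x i] with p hp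
    rw [Real.norm_eq_abs]
    exact abs_avg2_le _ (fun s => (hp s).le) hE fun s s' => abs_grad_pert_le P π hx _ _ s s'
  have := Real.rpow_nonneg (Nat.cast_nonneg N : (0 : ℝ) ≤ N) ((3 : ℝ) / 4)
  linarith [show E = 16 * (N : ℝ) ^ ((3 : ℝ) / 4) / 3 by simp only [E]; norm_num]

end Vale.Agent.P157.Casc
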