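import Vale.Agent.P157.Casc.GrownValue
import Vale.Agent.P157.Formula.Opt

/-!
The decoupled endpoint: at pattern strength zero the free energy is the sum of the functionals.
-/

open MeasureTheory ProbabilityTheory Filter Topology Set

namespace Vale.Agent.P157.Casc

theorem mfree_zero_aux (P : Pot) (L : ℝ) {B k K : ℕ} {ε : ℝ} (hε : 0 < ε) :
    ∃ n0 : ℕ, ∀ n ≥ n0, ∀ Λ : Par K, Adm K L Λ → Λ.1 = 0 →
      |mfree n P (isingP (0 + B)) (fieldc Λ : CIdx (0 + B) (0 + k) K → ℝ)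
        - (B * psiI Λ.2.2 + k * psiF P.f Λ.2.1)| ≤ ε := by
  set s : Set ((Fin (K + 1) → ℝ) × (Fin (K + 1) → ℝ)) := pathsQ K ×ˢ pathsP K L
  have hs : IsCompact s := isCompact_pathsQ.prod (isCompact_pathsP L)
  set C' : (Fin (K + 1) → ℝ) × (Fin (K + 1) → ℝ) → CIdx (0 + B) (0 + k) K → ℝ :=
    fun e => fieldc (0, e.1, e.2)
  have hC' : Continuous C' := continuous_pi fun i => by
    rcases i with p | ⟨l, a | j | t⟩ <;> simp only [C', fieldc] <;>
      first
        | exact continuous_const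
        | (refine Fin.cases ?_ (fun l => ?_) l <;> simp only [incr, Fin.cases_zero, Fin.cases_succ]
           all_goals fun_prop)
  have hG : ∀ e ∈ s, Grown (N := 0) (M := 0) (C' e) (fun _ => 0) e.1 e.2 := fun e _ =>
    ⟨fun a => a.elim0, fun a => a.elim0, fun a j => rfl,
      fun l i => by
        rcases i with a | j | ⟨j, _⟩
        · exact a.elim0
        · exact j.elim0
        · exact j.elim0,
      fun l a => rfl, fun l j => rfl, fun l t _ => rfl⟩
  obtain ⟨n0, hn0⟩ := grown_uniform hs (Or.inr rfl) P hC' continuous_const continuous_fst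
    continuous_snd hG (half_pos hε)
  obtain ⟨n1, hn1⟩ := eventually_atTop.1 (Metric.tendsto_nhds.1
    (tendsto_mfree P (isingP 0) (tendsto_const_nhds (x := (fun _ => 0 : CIdx 0 0 K → ℝ)))
      tendsto_id) (ε / 2) (half_pos hε))
  refine ⟨max n0 n1, fun n hn Λ hΛ h0 => ?_⟩
  have hQ : Λ.2.1 ∈ pathsQ K := ⟨hΛ.2.1, hΛ.2.2.1, by rw [hΛ.2.2.2.1, h0, sub_zero]⟩
  have hP : Λ.2.2 ∈ pathsP K L := ⟨hΛ.2.2.2.2.1, hΛ.2.2.2.2.2.1, hΛ.2.2.2.2.2.2⟩
  have h1 := hn0 n (le_of_max_le_left hn) (Λ.2.1, Λ.2.2) ⟨hQ, hP⟩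
  have h2 := hn1 n (le_of_max_le_right hn)
  have e : C' (Λ.2.1, Λ.2.2) = fieldc Λ := by
    simp only [C']
    rw [← h0]
  simp only [casc_zero_var, integral_zero, Real.dist_eq, sub_zero, id_eq] at h2
  rw [e] at h1
  rw [abs_le] at h1 ⊢
  have h2' := abs_le.1 h2.le
  constructor <;> linarith [h1.1, h1.2, h2'.1, h2'.2]

/-- At pattern strength zero the free energy converges to the sum of the functionals, uniformly
in the paths. -/
theorem mfree_zero (P : Pot) (L : ℝ) (N M K : ℕ) {ε : ℝ} (hε : 0 < ε) :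
    ∃ n0 : ℕ, ∀ n ≥ n0, ∀ Λ : Par K, Adm K L Λ → Λ.1 = 0 →
      |mfree n P (isingP N) (fieldc Λ : CIdx N M K → ℝ)
        - (N * psiI Λ.2.2 + M * psiF P.f Λ.2.1)| ≤ ε := by
  have key : ∀ B k N' M' : ℕ, N' = 0 + B → M' = 0 + k → ∃ n0 : ℕ, ∀ n ≥ n0, ∀ Λ : Par K,
      Adm K L Λ → Λ.1 = 0 → |mfree n P (isingP N') (fieldc Λ : CIdx N' M' K → ℝ)
        - (B * psiI Λ.2.2 + k * psiF P.f Λ.2.1)| ≤ ε := by
    rintro B k _ _ rfl rfl
    exact mfree_zero_aux P L hε
  exact key N M N M (zero_add N).symm (zero_add M).symm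

end Vale.Agent.P157.Casc
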