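import Vale.Agent.P157.Casc.Cov

/-!
Errors of the predicted overlaps, and the systems of the cavity arguments.
-/

open MeasureTheory ProbabilityTheory Filter Topology

namespace Vale.Agent.P157.Casc

variable {N M K : ℕ}

/-- Mean squared error of the spin-overlap prediction. -/
noncomputable def errR (n : ℕ) (P : Pot) (π : Prior N) (c : CIdx N M K → ℝ)
    (q : Fin (K + 1) → ℝ) : ℝ :=
  mpair n P π c fun _ st st' => (ovR N π st st' - q (ovU π st st')) ^ 2

/-- Mean squared error of the prediction of the overlap of derivatives. -/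
noncomputable def errP (n : ℕ) (P : Pot) (π : Prior N) (c : CIdx N M K → ℝ)
    (p : Fin (K + 1) → ℝ) : ℝ :=
  mpair n P π c fun G st st' => (ovP N P π c G st st' - p (ovU π st st')) ^ 2

/-- Spin-overlap path of the standard system. -/
noncomputable def stdQ (n M N : ℕ) (P : Pot) (Λ : Par K) (x : ℕ → ℝ) : Fin (K + 1) → ℝ :=
  qhat n P (isingP N) (stdc Λ x : CIdx N M K → ℝ)

/-- Predicted overlap of derivatives of the standard system. -/
noncomputable def stdP (n M N : ℕ) (P : Pot) (Λ : Par K) (x : ℕ → ℝ) : Fin (K + 1) → ℝ :=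
  pvec P ((M : ℝ) / N) Λ (stdQ n M N P Λ x)

/-- Both errors of the standard system. -/
noncomputable def baseErr (n M N : ℕ) (P : Pot) (Λ : Par K) (x : ℕ → ℝ) : ℝ :=
  errR n P (isingP N) (stdc Λ x : CIdx N M K → ℝ) (stdQ n M N P Λ x)
    + errP n P (isingP N) (stdc Λ x : CIdx N M K → ℝ) (stdP n M N P Λ x)

/-- Defect of the stationarity equation of the standard system. -/
noncomputable def statErr (n M N : ℕ) (P : Pot) (Λ : Par K) (x : ℕ → ℝ) : ℝ :=
  pi0 K * ∑ l, |stdQ n M N P Λ x l - vI (ceff Λ (stdP n M N P Λ x)) l|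

/-- Two patterns decoupled: their fields become hierarchical with path `qeff`. -/
def decPat (Λ : Par K) (q : Fin (K + 1) → ℝ) (a b : Fin M) (c : CIdx N M K → ℝ) :
    CIdx N M K → ℝ
  | Sum.inl (a', j) => if a' = a ∨ a' = b then 0 else c (Sum.inl (a', j))
  | Sum.inr (l, Sum.inl a') =>
      if a' = a ∨ a' = b then incr (qeff Λ q) l else c (Sum.inr (l, Sum.inl a'))
  | Sum.inr (l, Sum.inr i) => c (Sum.inr (l, Sum.inr i))

/-- The spins outside `S` decoupled: they see fields with path `ceff`. -/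
noncomputable def decSpin (Λ : Par K) (p : Fin (K + 1) → ℝ) (S : Finset (Fin N)) (x : ℕ → ℝ) :
    CIdx N M K → ℝ
  | Sum.inl (_, j) => if j ∈ S then Λ.1 * N / S.card else 0
  | Sum.inr (l, Sum.inl _) => incr Λ.2.1 l
  | Sum.inr (l, Sum.inr (Sum.inl j)) => if j ∈ S then incr Λ.2.2 l else incr (ceff Λ p) l
  | Sum.inr (l, Sum.inr (Sum.inr t)) => pertS (M := M) S x (Sum.inr (l, Sum.inr (Sum.inr t)))

end Vale.Agent.P157.Casc
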