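import Vale.Agent.P157.Casc.Seg
import Vale.Agent.P157.Casc.SyncMeas
import Vale.Agent.P157.Casc.Sys
import Vale.Agent.P157.Casc.LimitRec
import Vale.Agent.P157.Casc.Endpoint
import Vale.Agent.P157.Casc.Uniform
import Vale.Agent.P157.Formula.Opt

/-!
The upper bound: at every overlap path the free energy is at most the maximum of the functional
over the spin paths, from the predictions of the overlaps and their stationarity equation.
-/

open MeasureTheory ProbabilityTheory Filter Topology Set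

namespace Vale.Agent.P157.Casc

variable {N M K n : ℕ}

theorem abs_le_add_sq {δ : ℝ} (hδ : 0 < δ) (a : ℝ) : |a| ≤ δ + a ^ 2 / δ := by
  rw [← sq_abs a]
  rcases le_or_gt |a| δ with h | h
  · linarith [show (0 : ℝ) ≤ |a| ^ 2 / δ by positivity]
  · have : |a| ≤ |a| ^ 2 / δ := by
      rw [le_div_iff₀ hδ, sq]
      exact mul_le_mul_of_nonneg_left h.le (abs_nonneg a)
    linarith

/-- The overlap of derivatives of the energy functional: measurable, nonnegative, monotone. -/
theorem vF_bounds (P : Pot) :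
    (∀ l, Measurable fun Q : Fin (K + 1) → ℝ => vF P Q l) ∧
      ∀ Q : Fin (K + 1) → ℝ, Monotone (vF P Q) ∧ ∀ l, vF P Q l ∈ Icc 0 (P.b1 ^ 2) := by
  set γ := gaussianReal 0 1
  have hc : Continuous fun r : ((Fin (K + 1) → ℝ) × ℝ) × (Fin K → ℝ) =>
      pathField r.1.1 r.1.2 r.2 := by
    unfold pathField; fun_prop
  have hH := ((pot_continuous P).comp hc).measurable
  have ha := ((pot_continuous1 P).comp hc).measurable
  have hm : ∀ l, Measurable fun r : (Fin (K + 1) → ℝ) × ℝ => csq γ K (mlev K)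
      (fun y => P.f (pathField r.1 r.2 y)) (fun y => P.f1 (pathField r.1 r.2 y)) l := fun l =>
    measurable_csq_param (ν := γ) K (mlev K)
      (H := fun (r : (Fin (K + 1) → ℝ) × ℝ) y => P.f (pathField r.1 r.2 y))
      (a := fun (r : (Fin (K + 1) → ℝ) × ℝ) y => P.f1 (pathField r.1 r.2 y)) hH ha l
  refine ⟨fun l => (StronglyMeasurable.integral_prod_right' (ν := γ)
    (hm l).stronglyMeasurable).measurable, fun Q => ?_⟩
  have hb := fun z => csq_mono (ν := γ) (grid_mlev K)
    (H := fun y => P.f (pathField Q z y)) (a := fun y => P.f1 (pathField Q z y))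
    (((pot_continuous P).comp hc).comp (continuous_const.prodMk continuous_id :
      Continuous fun y : Fin K → ℝ => ((Q, z), y))).measurable
    (((pot_continuous1 P).comp hc).comp (continuous_const.prodMk continuous_id :
      Continuous fun y : Fin K → ℝ => ((Q, z), y))).measurable
    (B := P.b1) (fun y => P.h1 _)
    (fun t => Integrable.of_bound (((continuous_const.mul ((pot_continuous P).comp (hc.comp
      (continuous_const.prodMk continuous_id :
        Continuous fun y : Fin K → ℝ => ((Q, z), y)))).abs).rexp).aestronglyMeasurable)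
      (Real.exp (|t| * P.bF)) (ae_of_all _ fun y => by
        rw [Real.norm_eq_abs, Real.abs_exp, Real.exp_le_exp]
        refine (le_abs_self _).trans ?_
        rw [abs_mul]
        exact mul_le_mul_of_nonneg_left (by simpa using P.hF _) (abs_nonneg t)))
  have hbd : ∀ l z, csq γ K (mlev K) (fun y => P.f (pathField Q z y))
      (fun y => P.f1 (pathField Q z y)) l ∈ Icc 0 (P.b1 ^ 2) := fun l z =>
    ⟨(hb z).2.1.trans ((hb z).1 (Fin.zero_le l)), ((hb z).1 (Fin.le_last l)).trans (hb z).2.2⟩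
  have hi : ∀ l, Integrable (fun z => csq γ K (mlev K) (fun y => P.f (pathField Q z y))
      (fun y => P.f1 (pathField Q z y)) l) γ := fun l =>
    Integrable.of_bound ((hm l).comp measurable_prodMk_left).aestronglyMeasurable (P.b1 ^ 2)
      (ae_of_all _ fun z => by rw [Real.norm_eq_abs, abs_of_nonneg (hbd l z).1]; exact (hbd l z).2)
  refine ⟨fun l l' h => integral_mono (hi l) (hi l') fun z => (hb z).1 h, fun l =>
    ⟨integral_nonneg fun z => (hbd l z).1, ?_⟩⟩
  exact (integral_mono (hi l) (integrable_const _) fun z => (hbd l z).2).trans_eq (by simp)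

/-- Predicted overlaps of the standard system are admissible paths. -/
theorem stdP_mem (P : Pot) {α L : ℝ} (hL : α * P.b1 ^ 2 ≤ L) (hM : (M : ℝ) ≤ α * N) (hN : 0 < N)
    (Λ : Par K) (x : ℕ → ℝ) : stdP n M N P Λ x ∈ pathsP K L := by
  obtain ⟨hmono, hb⟩ := (vF_bounds (K := K) P).2 (qeff Λ (stdQ n M N P Λ x))
  refine ⟨fun a b hab => mul_le_mul_of_nonneg_left (hmono hab) (by positivity),
    mul_nonneg (by positivity) (hb 0).1, le_trans ?_ hL⟩
  exact mul_le_mul ((div_le_iff₀ (by exact_mod_cast hN)).2 hM) (hb _).2 (hb _).1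
    (le_trans (by positivity) ((div_le_iff₀ (b := (M : ℝ)) (by exact_mod_cast hN)).2 hM))

theorem measurable_stdQ (n : ℕ) (P : Pot) (Λ : Par K) :
    Measurable fun x : Fin N → ℝ => stdQ n M N P Λ (ext0 x) := by
  have hc := (continuous_stdc (M := M) (N := N) Λ).measurable
  have hX : ∀ l, Measurable fun x : Fin N → ℝ =>
      qX n N P (isingP N) (stdc Λ (ext0 x) : CIdx N M K → ℝ) l := fun l =>
    (measurable_mpair_param P (isingP N) hc (O := fun _ _ st st' =>
      onLev l (ovU (isingP N) st st') (ovR N (isingP N) st st'))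
      fun _ _ => measurable_const).div_const _
  refine measurable_pi_lambda _ fun l => ?_
  unfold stdQ qhat
  by_cases hl : l = Fin.last K
  · simp only [if_pos hl]; exact measurable_const
  · simp only [if_neg hl]
    exact (measurable_pi_apply l).comp
      ((continuous_monoP 1).measurable.comp (measurable_pi_lambda _ hX))

theorem measurable_stdP (n : ℕ) (P : Pot) (Λ : Par K) :
    Measurable fun x : Fin N → ℝ => stdP n M N P Λ (ext0 x) := by
  have hq := measurable_stdQ (M := M) (N := N) n P Λ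
  refine measurable_pi_lambda _ fun l => (((vF_bounds P).1 l).comp
    (measurable_pi_lambda _ fun i => ?_)).const_mul _
  exact (((measurable_pi_apply i).comp hq).const_mul Λ.1).add_const _

/-- A function of the common level averages against the probabilities of the levels. -/
theorem mpair_ovU (P : Pot) (π : Prior N) (c : CIdx N M K → ℝ) (g : Fin (K + 1) → ℝ) :
    mpair n P π c (fun _ st st' => g (ovU π st st')) = ∑ l, g l * piX n P π c l := by
  have hi : ∀ l : Fin (K + 1), Integrable (fun p => g l * avg2 (mbw P π c p)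
      fun st st' => onLev l (ovU π st st') 1) (envLaw N M K n) := fun l =>
    (measurable_mpair_fun P π c (O := fun _ st st' => onLev l (ovU π st st') 1)
      (fun _ _ => continuous_const) zero_le_one fun _ _ _ => by
        unfold onLev; split_ifs <;> simp).const_mul _
  simp only [piX, mpair, ← integral_const_mul]
  rw [← integral_finsetSum _ fun l _ => hi l]
  refine integral_congr_ae (ae_of_all _ fun p => ?_)
  simp only [avg2, Finset.mul_sum]
  conv_rhs => rw [Finset.sum_comm]
  refine Finset.sum_congr rfl fun a _ => ?_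
  conv_rhs => rw [Finset.sum_comm]
  refine Finset.sum_congr rfl fun b _ => ?_
  rw [Finset.sum_eq_single (ovU π a b)]
  · simp [onLev]; ring
  · intro l _ hl; simp [onLev, Ne.symm hl]
  · intro h; exact absurd (Finset.mem_univ _) h

/-- Lower bound of a pair average by a function of the level and a square error. -/
theorem mpair_lower (P : Pot) (π : Prior N) (hn : 0 < n) (c : CIdx N M K → ℝ)
    {H E1 E2 : (GIdx N M K n → ℝ) → State π K n → State π K n → ℝ} {g : Fin (K + 1) → ℝ}
    {a b B : ℝ} (hB : 0 ≤ B) (hH : ∀ x y, Continuous fun G => H G x y)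
    (hE1 : ∀ x y, Continuous fun G => E1 G x y) (hE2 : ∀ x y, Continuous fun G => E2 G x y)
    (hHb : ∀ G x y, |H G x y| ≤ B) (hEb1 : ∀ G x y, |E1 G x y| ≤ B)
    (hEb2 : ∀ G x y, |E2 G x y| ≤ B)
    (h : ∀ G x y, g (ovU π x y) + a + b * (E1 G x y + E2 G x y) ≤ H G x y) :
    (∑ l, g l * piX n P π c l) + a + b * (mpair n P π c E1 + mpair n P π c E2)
      ≤ mpair n P π c H := by
  have := state_ne (K := K) π hn
  set C := ∑ l, |g l|
  have hg : ∀ u, |g u| ≤ C := fun u => Finset.single_le_sum (f := fun l => |g l|)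
    (fun _ _ => abs_nonneg _) (Finset.mem_univ u)
  have ig := measurable_mpair_fun (n := n) P π c (O := fun _ x y => g (ovU π x y))
    (fun _ _ => continuous_const) ((abs_nonneg _).trans (hg 0)) fun _ _ _ => hg _
  have i1 := measurable_mpair_fun (n := n) P π c hE1 hB hEb1
  have i2 := measurable_mpair_fun (n := n) P π c hE2 hB hEb2
  have iH := measurable_mpair_fun (n := n) P π c hH hB hHb
  rw [← mpair_ovU]
  simp only [mpair]
  rw [← integral_add i1 i2, ← integral_const_mul]
  have ia : Integrable (fun p => avg2 (mbw P π c p) (fun x y => g (ovU π x y)) + a)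
      (envLaw N M K n) := ig.add (integrable_const a)
  have ib : Integrable (fun p => b * (avg2 (mbw P π c p) (E1 p.2) + avg2 (mbw P π c p) (E2 p.2)))
      (envLaw N M K n) := (i1.add i2).const_mul b
  calc (∫ p, avg2 (mbw P π c p) (fun x y => g (ovU π x y)) ∂envLaw N M K n) + a
        + ∫ p, b * (avg2 (mbw P π c p) (E1 p.2) + avg2 (mbw P π c p) (E2 p.2)) ∂envLaw N M K n
      = ∫ p, avg2 (mbw P π c p) (fun x y => g (ovU π x y)) + a
        + b * (avg2 (mbw P π c p) (E1 p.2) + avg2 (mbw P π c p) (E2 p.2)) ∂envLaw N M K n := by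
        rw [integral_add ia ib, integral_add ig (integrable_const a)]
        simp
    _ ≤ _ := by
        refine integral_mono_ae (ia.add ib) iH ?_
        filter_upwards [ae_mbw_pos P π c] with p hp
        have hs : 0 < ∑ x, mbw P π c p x :=
          Finset.sum_pos (fun x _ => hp x) Finset.univ_nonempty
        have hone : ∑ x, gibbs (mbw P π c p) x = 1 := by
          simp only [gibbs, ← Finset.sum_div, div_self hs.ne']
        have h0 : ∀ x, 0 ≤ gibbs (mbw P π c p) x := fun x => div_nonneg (hp x).le hs.le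
        set u := gibbs (mbw P π c p)
        have hlin : ∑ x, ∑ y, u x * u y * (g (ovU π x y) + a + b * (E1 p.2 x y + E2 p.2 x y))
            = (∑ x, ∑ y, u x * u y * g (ovU π x y)) + a
              + b * ((∑ x, ∑ y, u x * u y * E1 p.2 x y) + ∑ x, ∑ y, u x * u y * E2 p.2 x y) := by
          have e : ∑ x, ∑ y, u x * u y * a = a := by
            simp only [← Finset.sum_mul, ← Finset.mul_sum, hone, mul_one, one_mul]
          have e' : ∀ x y, u x * u y * (g (ovU π x y) + a + b * (E1 p.2 x y + E2 p.2 x y))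
              = u x * u y * g (ovU π x y) + u x * u y * a
                + (b * (u x * u y * E1 p.2 x y) + b * (u x * u y * E2 p.2 x y)) := fun x y => by
            ring
          simp only [e', Finset.sum_add_distrib, ← Finset.mul_sum, e]
          ring
        simp only [avg2]
        rw [← hlin]
        exact Finset.sum_le_sum fun x _ => Finset.sum_le_sum fun y _ =>
          mul_le_mul_of_nonneg_left (h _ x y) (mul_nonneg (h0 x) (h0 y))

/-- The direction of the segment from the decoupled to the full system. -/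
theorem grad_line (P : Pot) (π : Prior N) (hN : 0 < N) (q p : Fin (K + 1) → ℝ)
    (c : CIdx N M K → ℝ) (G : GIdx N M K n → ℝ) (x y : State π K n) :
    grad P (bpat π) (bspin π) (pull c) (pull (fieldc (1, -q, -p) : CIdx N M K → ℝ)) G x y =
      (N : ℝ) * (ovP N P π c G x y * (ovR N π x y - q (ovU π x y))
        - p (ovU π x y) * ovR N π x y) := by
  have hN' : (N : ℝ) ≠ 0 := Nat.cast_ne_zero.2 hN.ne'
  simp only [grad, cov_bpat, cov_bspin, fieldc, sum_incr, Finset.sum_const_zero, mul_zero,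
    add_zero, one_mul, Pi.neg_apply, ovR, ovP, ovU, Fin.is_lt, if_true, ← Finset.sum_mul,
    ← Finset.mul_sum]
  field_simp
  ring

theorem fieldc_nonneg {L : ℝ} {Λ : Par K} (h : Adm K L Λ) (i : CIdx N M K) :
    0 ≤ fieldc Λ i := by
  obtain ⟨hs, hq, hq0, -, hp, hp0, -⟩ := h
  have hi : ∀ v : Fin (K + 1) → ℝ, Monotone v → 0 ≤ v 0 → ∀ l, 0 ≤ incr v l :=
    fun v hv h0 l => Fin.cases (by simpa [incr] using h0)
      (fun r => by simpa [incr] using hv (Fin.castSucc_le_succ r)) l
  rcases i with j | ⟨l, a | j | t⟩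
  · exact hs.1
  · exact hi _ hq hq0 l
  · exact hi _ hp hp0 l
  · exact le_rfl

/-- The segment from the decoupled system `(0, q, p)` to the full one. -/
def line (t : ℝ) (q p : Fin (K + 1) → ℝ) : Par K :=
  (t, (fun l => (1 - t) * q l), fun l => (1 - t) * p l)

theorem fieldc_line (t : ℝ) (q p : Fin (K + 1) → ℝ) (i : CIdx N M K) :
    fieldc (line 0 q p) i + t * fieldc (1, -q, -p) i = fieldc (line t q p) i := by
  have hi : ∀ v : Fin (K + 1) → ℝ, ∀ l, incr (fun l => (1 - 0) * v l) l + t * incr (-v) l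
      = incr (fun l => (1 - t) * v l) l := fun v l =>
    Fin.cases (by simp [incr]; ring) (fun r => by simp [incr]; ring) l
  rcases i with j | ⟨l, a | j | s⟩ <;> simp only [fieldc, line]
  · ring
  · exact hi q l
  · exact hi p l
  · ring

theorem line_adm {L : ℝ} {t : ℝ} (ht : t ∈ Icc (0 : ℝ) 1) {q p : Fin (K + 1) → ℝ}
    (hq : q ∈ pathsQ K) (hp : p ∈ pathsP K L) : Adm K L (line t q p) := by
  have h : 0 ≤ 1 - t := sub_nonneg.2 ht.2
  refine ⟨ht, fun a b hab => mul_le_mul_of_nonneg_left (hq.1 hab) h, mul_nonneg h hq.2.1, ?_,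
    fun a b hab => mul_le_mul_of_nonneg_left (hp.1 hab) h, mul_nonneg h hp.2.1, ?_⟩
  · simp [line, hq.2.2]
  · exact (mul_le_of_le_one_left (hp.2.1.trans (hp.1 (Fin.zero_le _))) (by linarith [ht.1])).trans
      hp.2.2

theorem ae_xlaw_box : ∀ᵐ x ∂xlaw N, ∀ i, x i ∈ Icc (1 : ℝ) 2 :=
  ae_all_iff.2 fun _ =>
    Measure.tendsto_eval_ae_ae.eventually (ae_restrict_mem measurableSet_Icc)

/-- The sign of the derivative: tangents at both ends and the first-order condition. -/
theorem line_sign {L t : ℝ} (ht : t ∈ Ioo (0 : ℝ) 1) {q p ph : Fin (K + 1) → ℝ}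
    (hp : p ∈ pathsP K L) (hph : ph ∈ pathsP K L)
    (hopt : ∀ r ∈ pathsP K L, ∑ l, (q l - vI p l) * (r l - p l) ≤ 0) :
    0 ≤ ∑ l, (vI (ceff (line t q p) ph) l - q l) * (ph l - p l) := by
  set w := ceff (line t q p) ph with hw
  have hwm : w ∈ pathsP K L := by
    have := convex_pathsP L hp hph (sub_nonneg.2 ht.2.le) ht.1.le (by ring)
    exact this
  have h1 := psiI_tangent hwm.1 hwm.2.1 hp.1 hp.2.1
  have h2 := psiI_tangent hp.1 hp.2.1 hwm.1 hwm.2.1
  have e : ∀ v : Fin (K + 1) → ℝ, ∑ l, v l * (p l - w l) = -(t * ∑ l, v l * (ph l - p l)) :=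
    fun v => by
      rw [Finset.mul_sum, ← Finset.sum_neg_distrib]
      exact Finset.sum_congr rfl fun l _ => by simp only [hw, ceff, line]; ring
  have e' : ∑ l, vI p l * (w l - p l) = t * ∑ l, vI p l * (ph l - p l) := by
    rw [Finset.mul_sum]
    exact Finset.sum_congr rfl fun l _ => by simp only [hw, ceff, line]; ring
  rw [e] at h2
  rw [e'] at h1
  have hpi : 0 < pi0 K / 2 := by unfold pi0; positivity
  have h3 : ∑ l, vI p l * (ph l - p l) ≤ ∑ l, vI w l * (ph l - p l) := by
    nlinarith [mul_pos hpi ht.1]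
  have h4 := hopt ph hph
  simp only [sub_mul, Finset.sum_sub_distrib] at h4 ⊢
  linarith

/-- The estimate at fixed sizes: the upper bound on the free energy by the value at one path. -/
theorem upper_step (P : Pot) {α L : ℝ} (hL : α * P.b1 ^ 2 ≤ L) (hN : 0 < N)
    (hM : (M : ℝ) ≤ α * N) (hn : 0 < n) {q p : Fin (K + 1) → ℝ} (hq : q ∈ pathsQ K)
    (hp : p ∈ pathsP K L) (hopt : ∀ r ∈ pathsP K L, ∑ l, (q l - vI p l) * (r l - p l) ≤ 0)
    {δ η εb εs : ℝ} (hδ : 0 < δ)
    (hbase : ∀ Λ : Par K, Adm K L Λ → ∫ x, baseErr n M N P Λ (ext0 x) ∂xlaw N ≤ εb)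
    (hstat : ∀ Λ : Par K, Adm K L Λ → ∫ x, statErr n M N P Λ (ext0 x) ∂xlaw N ≤ εs)
    (hlev : ∀ Λ : Par K, Adm K L Λ → ∀ x : Fin N → ℝ, (∀ i, x i ∈ Icc (1 : ℝ) 2) →
      ∀ l, |piX n P (isingP N) (stdc Λ (ext0 x) : CIdx N M K → ℝ) l - pi0 K| ≤ η) :
    pressP M P.f (isingP N) ≤
      mfree n P (isingP N) (fieldc (0, q, p) : CIdx N M K → ℝ) + 6 * (N : ℝ) ^ ((3 : ℝ) / 4)
        + (N : ℝ) / 2 * (pi0 K * ∑ l, p l * q l + L * εs + 2 * L * ((K + 1) * η)
          + (2 + L) * δ + (2 + L) / δ * εb) := by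
  set π := isingP N
  set Λ0 := line 0 q p
  set d : CIdx N M K → ℝ := fieldc (1, -q, -p)
  have hL0 : 0 ≤ L := hp.2.1.trans ((hp.1 (Fin.zero_le _)).trans hp.2.2)
  have hN' : (0 : ℝ) < N := by exact_mod_cast hN
  let cl : (Fin N → ℝ) → Fin N → ℝ := fun x i => max 1 (min 2 (x i))
  have hcl : ∀ x i, cl x i ∈ Icc (1 : ℝ) 2 := fun x i =>
    ⟨le_max_left _ _, max_le one_le_two (min_le_left _ _)⟩
  have hclc : Continuous cl := by
    simp only [cl]; fun_prop
  have hclae : ∀ᵐ x ∂xlaw N, cl x = x := by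
    filter_upwards [ae_xlaw_box] with x hx
    funext i
    simp only [cl]
    rw [min_eq_right (hx i).2, max_eq_right (hx i).1]
  obtain ⟨R, hR⟩ := (isCompact_univ_pi fun _ : Fin N => isCompact_Icc (a := (1 : ℝ)) (b := 2))
    |>.exists_bound_of_continuousOn (continuous_stdc (M := M) Λ0).continuousOn
  have hline : ∀ t (x : ℕ → ℝ), (fun i => stdc Λ0 x i + t * d i) =
      (stdc (line t q p) x : CIdx N M K → ℝ) := fun t x => funext fun i => by
    simp only [stdc, d, Λ0]
    rw [← fieldc_line t q p i]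
    ring
  obtain ⟨t, ht, hmvt⟩ := mfree_mvt P π hn (xlaw N)
    (c := fun x => (stdc Λ0 (ext0 (cl x)) : CIdx N M K → ℝ))
    (fun i => ((continuous_apply i).comp ((continuous_stdc Λ0).comp hclc)).measurable)
    (R := R) (fun x i => ((Real.norm_eq_abs _).symm.trans_le (norm_le_pi_norm _ i)).trans
      (hR (cl x) fun i _ => hcl x i))
    (d := d)
    (fun x s hs i => by
      rw [show stdc Λ0 (ext0 (cl x)) i + s * d i =
        (fun i => stdc Λ0 (ext0 (cl x)) i + s * d i) i from rfl, hline]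
      exact add_nonneg (fieldc_nonneg (line_adm hs hq hp) i) (pertc_nonneg _ i))
    (fun a st => by
      have hdot : ∑ j, π.spin st.1 j * π.spin st.1 j = N := by
        simpa only [sq] using π.norm_spin st.1
      simp only [sq, cov_bpat, d, fieldc, sum_incr, com_self, Pi.neg_apply, one_mul, hdot, hq.2.2]
      rw [div_self hN'.ne']
      ring)
  set Λ := line t q p
  have hΛ : Adm K L Λ := line_adm (Ioo_subset_Icc_self ht) hq hp
  -- the integrand of the derivative
  let H : (Fin N → ℝ) → (GIdx N M K n → ℝ) → State π K n → State π K n → ℝ :=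
    fun x G u v => ovP N P π (stdc Λ (ext0 x)) G u v * (ovR N π u v - q (ovU π u v))
      - p (ovU π u v) * ovR N π u v
  have hb01 : ∀ {v : Fin (K + 1) → ℝ}, v ∈ pathsQ K → ∀ u, v u ∈ Icc (0 : ℝ) 1 := fun hv u =>
    ⟨hv.2.1.trans (hv.1 (Fin.zero_le u)), (hv.1 (Fin.le_last u)).trans hv.2.2.le⟩
  have hbL : ∀ {v : Fin (K + 1) → ℝ}, v ∈ pathsP K L → ∀ u, v u ∈ Icc (0 : ℝ) L := fun hv u =>
    ⟨hv.2.1.trans (hv.1 (Fin.zero_le u)), (hv.1 (Fin.le_last u)).trans hv.2.2⟩
  have hqhat : ∀ x : Fin N → ℝ, stdQ n M N P Λ (ext0 x) ∈ pathsQ K := fun x => qhat_mem _ _ _ _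
  have hphat : ∀ x : Fin N → ℝ, stdP n M N P Λ (ext0 x) ∈ pathsP K L := fun x =>
    stdP_mem P hL hM hN Λ _
  set Bp := (M : ℝ) * P.b1 ^ 2 / N with hBp
  have hBp0 : 0 ≤ Bp := by rw [hBp]; positivity
  set B := (Bp + L + 2) ^ 2 + 2 * (Bp + L) + 4
  have hB : 0 ≤ B := by positivity
  have hHc : ∀ x u v, Continuous fun G => H x G u v := fun x u v =>
    ((continuous_ovP P π _ u v).mul continuous_const).sub continuous_const
  have hHb : ∀ x G u v, |H x G u v| ≤ B := fun x G u v => by
    have h1 := abs_ovP_le P π (stdc Λ (ext0 x) : CIdx N M K → ℝ) G u v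
    have h2 := abs_le.1 (abs_ovR_le_one π u v)
    obtain ⟨h3, h3'⟩ := hb01 hq (ovU π u v)
    obtain ⟨h4, h4'⟩ := hbL hp (ovU π u v)
    have h5 : |ovR N π u v - q (ovU π u v)| ≤ 2 := abs_le.2 ⟨by linarith, by linarith⟩
    refine (abs_sub _ _).trans ?_
    rw [abs_mul, abs_mul, abs_of_nonneg h4]
    have := mul_le_mul h1 h5 (abs_nonneg _) hBp0
    have := mul_le_mul h4' (abs_ovR_le_one π u v) (abs_nonneg _) hL0
    simp only [B]
    nlinarith [sq_nonneg (Bp + L + 2)]
  -- pointwise lower bound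
  have hlow : ∀ x : Fin N → ℝ, (∀ i, x i ∈ Icc (1 : ℝ) 2) →
      -(pi0 K * ∑ l, p l * q l) - L * statErr n M N P Λ (ext0 x) - 2 * L * ((K + 1) * η)
        - (2 + L) * δ - (2 + L) / δ * baseErr n M N P Λ (ext0 x)
        ≤ mpair n P π (stdc Λ (ext0 x) : CIdx N M K → ℝ) (H x) := by
    intro x hx
    set qh := stdQ n M N P Λ (ext0 x)
    set ph := stdP n M N P Λ (ext0 x)
    set g : Fin (K + 1) → ℝ := fun u => ph u * (qh u - q u) - p u * qh u
    have hqh : qh ∈ pathsQ K := hqhat x
    have hph : ph ∈ pathsP K L := hphat x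
    have h := mpair_lower P π hn (stdc Λ (ext0 x) : CIdx N M K → ℝ) (H := H x)
      (E1 := fun _ u v => (ovR N π u v - qh (ovU π u v)) ^ 2)
      (E2 := fun G u v => (ovP N P π (stdc Λ (ext0 x)) G u v - ph (ovU π u v)) ^ 2)
      (g := g) (a := -((2 + L) * δ)) (b := -((2 + L) / δ)) hB (hHc x)
      (fun _ _ => continuous_const)
      (fun u v => ((continuous_ovP P π _ u v).sub continuous_const).pow 2) (hHb x)
      (fun G u v => by
        have h2 := abs_le.1 (abs_ovR_le_one π u v)
        obtain ⟨h3, h3'⟩ := hb01 hqh (ovU π u v)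
        rw [abs_of_nonneg (sq_nonneg _)]
        simp only [B]
        nlinarith [sq_nonneg (Bp + L + 2)])
      (fun G u v => by
        have h1 := abs_le.1 (abs_ovP_le P π (stdc Λ (ext0 x) : CIdx N M K → ℝ) G u v)
        rw [← hBp] at h1
        obtain ⟨h4, h4'⟩ := hbL hph (ovU π u v)
        rw [abs_of_nonneg (sq_nonneg _)]
        simp only [B]
        nlinarith)
      (fun G u v => by
        set R := ovR N π u v
        set Pv := ovP N P π (stdc Λ (ext0 x)) G u v
        set l := ovU π u v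
        obtain ⟨q0, q1⟩ := hb01 hq l
        obtain ⟨p0, p1⟩ := hbL hp l
        obtain ⟨ph0, ph1⟩ := hbL hph l
        have hR' := abs_le.1 (abs_ovR_le_one π u v)
        have a1 : |(Pv - ph l) * (R - q l)| ≤ (δ + (Pv - ph l) ^ 2 / δ) * 2 := by
          rw [abs_mul]
          exact mul_le_mul (abs_le_add_sq hδ _) (abs_le.2 ⟨by linarith, by linarith⟩)
            (abs_nonneg _) (by positivity)
        have a2 : |(ph l - p l) * (R - qh l)| ≤ L * (δ + (R - qh l) ^ 2 / δ) := by
          rw [abs_mul]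
          exact mul_le_mul (abs_le.2 ⟨by linarith, by linarith⟩) (abs_le_add_sq hδ _)
            (abs_nonneg _) hL0
        have b1 := (abs_le.1 a1).1
        have b2 := (abs_le.1 a2).1
        have b3 : 0 ≤ L * ((Pv - ph l) ^ 2 / δ) := by positivity
        have b4 : 0 ≤ (R - qh l) ^ 2 / δ := by positivity
        rw [show -((2 + L) / δ) * ((R - qh l) ^ 2 + (Pv - ph l) ^ 2) =
          -((2 + L) * ((R - qh l) ^ 2 / δ + (Pv - ph l) ^ 2 / δ)) by ring]
        show _ ≤ Pv * (R - q l) - p l * R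
        simp only [g]
        linarith [show Pv * (R - q l) - p l * R = ph l * (qh l - q l) - p l * qh l
          + (Pv - ph l) * (R - q l) + (ph l - p l) * (R - qh l) by ring])
    refine le_trans ?_ h
    have hπ : ∑ l, g l * pi0 K - 2 * L * ((K + 1) * η)
        ≤ ∑ l, g l * piX n P π (stdc Λ (ext0 x) : CIdx N M K → ℝ) l := by
      have hl : ∀ l, g l * pi0 K - 2 * L * η
          ≤ g l * piX n P π (stdc Λ (ext0 x) : CIdx N M K → ℝ) l := fun l => by
        obtain ⟨q0, q1⟩ := hb01 hq l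
        obtain ⟨qh0, qh1⟩ := hb01 hqh l
        obtain ⟨p0, p1⟩ := hbL hp l
        obtain ⟨ph0, ph1⟩ := hbL hph l
        have hg : |g l| ≤ 2 * L := by
          refine (abs_sub _ _).trans ?_
          rw [abs_mul, abs_mul, abs_of_nonneg ph0, abs_of_nonneg p0, abs_of_nonneg qh0]
          nlinarith [mul_le_mul ph1 (show |qh l - q l| ≤ 1 from
            abs_le.2 ⟨by linarith, by linarith⟩) (abs_nonneg _) hL0,
            mul_le_mul p1 qh1 qh0 hL0]
        have := (abs_mul (g l) _).trans_le (mul_le_mul hg (hlev Λ hΛ x hx l) (abs_nonneg _)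
          (by linarith))
        linarith [(abs_le.1 this).1, mul_sub (g l)
          (piX n P π (stdc Λ (ext0 x) : CIdx N M K → ℝ) l) (pi0 K)]
      refine le_trans (le_of_eq ?_) (Finset.sum_le_sum fun l _ => hl l)
      rw [Finset.sum_sub_distrib, Finset.sum_const, Finset.card_univ, Fintype.card_fin, nsmul_eq_mul]
      push_cast; ring
    have hs : -(pi0 K * ∑ l, p l * q l) - L * statErr n M N P Λ (ext0 x)
        ≤ ∑ l, g l * pi0 K := by
      set w := ceff Λ ph
      have h1 : 0 ≤ ∑ l, (vI w l - q l) * (ph l - p l) := line_sign ht hp hph hopt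
      have h2 : -(L * ∑ l, |qh l - vI w l|) ≤ ∑ l, (qh l - vI w l) * (ph l - p l) := by
        rw [Finset.mul_sum, ← Finset.sum_neg_distrib]
        refine Finset.sum_le_sum fun l _ => ?_
        obtain ⟨p0, p1⟩ := hbL hp l
        obtain ⟨ph0, ph1⟩ := hbL hph l
        have := mul_le_mul_of_nonneg_left
          (show |ph l - p l| ≤ L from abs_le.2 ⟨by linarith, by linarith⟩)
          (abs_nonneg (qh l - vI w l))
        rw [← abs_mul] at this
        linarith [(abs_le.1 this).1]
      have hpi : 0 ≤ pi0 K := by unfold pi0; positivity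
      have e : ∑ l, g l * pi0 K = pi0 K * (∑ l, (qh l - vI w l) * (ph l - p l)
          + ∑ l, (vI w l - q l) * (ph l - p l) - ∑ l, p l * q l) := by
        rw [← Finset.sum_add_distrib, ← Finset.sum_sub_distrib, Finset.mul_sum]
        exact Finset.sum_congr rfl fun l _ => by simp only [g]; ring
      rw [e, show statErr n M N P Λ (ext0 x) = pi0 K * ∑ l, |qh l - vI w l| from rfl]
      nlinarith [mul_le_mul_of_nonneg_left (add_le_add h2 h1) hpi]
    have hbe : baseErr n M N P Λ (ext0 x) =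
        mpair n P π (stdc Λ (ext0 x) : CIdx N M K → ℝ)
          (fun _ u v => (ovR N π u v - qh (ovU π u v)) ^ 2)
        + mpair n P π (stdc Λ (ext0 x) : CIdx N M K → ℝ)
          (fun G u v => (ovP N P π (stdc Λ (ext0 x)) G u v - ph (ovU π u v)) ^ 2) := rfl
    rw [← hbe]
    linarith
  -- integrability in the parameters
  have hsm : Measurable fun x : Fin N → ℝ => statErr n M N P Λ (ext0 x) := by
    refine (Finset.measurable_sum _ fun l _ => Measurable.abs ?_).const_mul _
    refine ((measurable_pi_apply l).comp (measurable_stdQ n P Λ)).sub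
      ((continuous_vI l).measurable.comp (measurable_pi_lambda _ fun i => ?_))
    exact (((measurable_pi_apply i).comp (measurable_stdP n P Λ)).const_mul Λ.1).const_add _
  have hsi : Integrable (fun x : Fin N → ℝ => statErr n M N P Λ (ext0 x)) (xlaw N) := by
    have hc : ∀ l : Fin (K + 1), ∃ C, ∀ v ∈ pathsP K L, ‖vI v l‖ ≤ C := fun l =>
      (isCompact_pathsP L).exists_bound_of_continuousOn (continuous_vI l).continuousOn
    choose C hC using hc
    refine Integrable.of_bound hsm.aestronglyMeasurable (pi0 K * ∑ l, (1 + C l))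
      (ae_of_all _ fun x => ?_)
    have hpi : 0 ≤ pi0 K := by unfold pi0; positivity
    rw [Real.norm_eq_abs, statErr, abs_mul, abs_of_nonneg hpi]
    refine mul_le_mul_of_nonneg_left ((Finset.abs_sum_le_sum_abs _ _).trans
      (Finset.sum_le_sum fun l _ => ?_)) hpi
    rw [abs_abs]
    refine (abs_sub _ _).trans (add_le_add ?_ ?_)
    · obtain ⟨h1, h2⟩ := hb01 (hqhat x) l
      rwa [abs_of_nonneg h1]
    · refine (Real.norm_eq_abs _).symm.trans_le (hC l _ ?_)
      exact convex_pathsP L hp (hphat x) (sub_nonneg.2 ht.2.le) (show 0 ≤ t from ht.1.le)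
        (sub_add_cancel 1 t)
  have hcm := (continuous_stdc (M := M) (N := N) Λ).measurable
  have hPc : ∀ u v, Continuous fun y : (Fin N → ℝ) × (GIdx N M K n → ℝ) =>
      ovP N P π (stdc Λ (ext0 y.1)) y.2 u v := fun u v => by
    have hf := pot_continuous1 P
    have hc : Continuous fun y : (Fin N → ℝ) × (GIdx N M K n → ℝ) =>
        (pull (stdc Λ (ext0 y.1) : CIdx N M K → ℝ) : GIdx N M K n → ℝ) :=
      continuous_pi fun i => by
        rcases i with j | ⟨o, i⟩ <;>
          exact (continuous_apply _).comp ((continuous_stdc Λ).comp continuous_fst)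
    unfold ovP lin
    fun_prop
  have hbi : Integrable (fun x : Fin N → ℝ => baseErr n M N P Λ (ext0 x)) (xlaw N) := by
    have m1 := measurable_mpair_param (n := n) P π hcm (O := fun x _ u v =>
      (ovR N π u v - stdQ n M N P Λ (ext0 x) (ovU π u v)) ^ 2) fun u v =>
      (measurable_const.sub ((measurable_pi_apply (ovU π u v)).comp
        ((measurable_stdQ n P Λ).comp measurable_fst))).pow_const 2
    have m2 := measurable_mpair_param (n := n) P π hcm (O := fun x G u v =>
      (ovP N P π (stdc Λ (ext0 x)) G u v - stdP n M N P Λ (ext0 x) (ovU π u v)) ^ 2) fun u v =>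
      ((hPc u v).measurable.sub ((measurable_pi_apply (ovU π u v)).comp
        ((measurable_stdP n P Λ).comp measurable_fst))).pow_const 2
    refine (Integrable.of_bound m1.aestronglyMeasurable B (ae_of_all _ fun x => ?_)).add
      (Integrable.of_bound m2.aestronglyMeasurable B (ae_of_all _ fun x => ?_))
    · refine (Real.norm_eq_abs _).trans_le (abs_mpair_le P π _ hB fun G u v => ?_)
      have h2 := abs_le.1 (abs_ovR_le_one π u v)
      obtain ⟨h3, h3'⟩ := hb01 (hqhat x) (ovU π u v)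
      rw [abs_of_nonneg (sq_nonneg _)]
      simp only [B]
      nlinarith [sq_nonneg (Bp + L + 2)]
    · refine (Real.norm_eq_abs _).trans_le (abs_mpair_le P π _ hB fun G u v => ?_)
      have h1 := abs_le.1 (abs_ovP_le P π (stdc Λ (ext0 x) : CIdx N M K → ℝ) G u v)
      rw [← hBp] at h1
      obtain ⟨h4, h4'⟩ := hbL (hphat x) (ovU π u v)
      rw [abs_of_nonneg (sq_nonneg _)]
      simp only [B]
      nlinarith
  have hHi : Integrable (fun x : Fin N → ℝ =>
      mpair n P π (stdc Λ (ext0 x) : CIdx N M K → ℝ) (H x)) (xlaw N) :=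
    Integrable.of_bound (measurable_mpair_param P π hcm (O := H) fun u v =>
      (((hPc u v).mul continuous_const).sub continuous_const).measurable).aestronglyMeasurable B
      (ae_of_all _ fun x => (Real.norm_eq_abs _).trans_le (abs_mpair_le P π _ hB (hHb x)))
  -- the derivative
  have hder : -(pi0 K * ∑ l, p l * q l) - L * εs - 2 * L * ((K + 1) * η) - (2 + L) * δ
      - (2 + L) / δ * εb ≤ ∫ x, mpair n P π (stdc Λ (ext0 x) : CIdx N M K → ℝ) (H x) ∂xlaw N := by
    set k0 := -(pi0 K * ∑ l, p l * q l) - 2 * L * ((K + 1) * η) - (2 + L) * δ with hk0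
    have ia : Integrable (fun x : Fin N → ℝ => k0 - L * statErr n M N P Λ (ext0 x)) (xlaw N) :=
      (integrable_const k0).sub (hsi.const_mul L)
    have ib := hbi.const_mul ((2 + L) / δ)
    have : ∫ x, (k0 - L * statErr n M N P Λ (ext0 x) - (2 + L) / δ * baseErr n M N P Λ (ext0 x))
        ∂xlaw N ≤ _ := integral_mono_ae (ia.sub ib) hHi (by
      filter_upwards [ae_xlaw_box] with x hx
      have := hlow x hx
      rw [hk0]
      linarith)
    rw [integral_sub ia ib, integral_sub (integrable_const _) (hsi.const_mul L),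
      integral_const_mul, integral_const_mul, integral_const, probReal_univ, one_smul] at this
    rw [hk0] at this
    have := mul_le_mul_of_nonneg_left (hstat Λ hΛ) hL0
    have := mul_le_mul_of_nonneg_left (hbase Λ hΛ) (show 0 ≤ (2 + L) / δ by positivity)
    linarith
  have hgrad : ∀ x : Fin N → ℝ, mpair n P π (fun i => stdc Λ0 (ext0 x) i + t * d i)
      (grad P (bpat π) (bspin π) (pull fun i => stdc Λ0 (ext0 x) i + t * d i) (pull d))
      = (N : ℝ) * mpair n P π (stdc Λ (ext0 x) : CIdx N M K → ℝ) (H x) := fun x => by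
    rw [hline]
    simp only [mpair, ← integral_const_mul]
    refine integral_congr_ae (ae_of_all _ fun y => ?_)
    simp only [avg2, Finset.mul_sum]
    refine Finset.sum_congr rfl fun u _ => Finset.sum_congr rfl fun v _ => ?_
    rw [show grad P (bpat π) (bspin π) (pull (stdc Λ (ext0 x) : CIdx N M K → ℝ)) (pull d) y.2 u v
      = (N : ℝ) * H x y.2 u v from grad_line P π hN q p _ y.2 u v]
    ring
  have hrhs : ∫ x, mpair n P π (fun i => stdc Λ0 (ext0 (cl x)) i + t * d i)
      (grad P (bpat π) (bspin π) (pull fun i => stdc Λ0 (ext0 (cl x)) i + t * d i) (pull d))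
        ∂xlaw N = (N : ℝ) * ∫ x, mpair n P π (stdc Λ (ext0 x) : CIdx N M K → ℝ) (H x) ∂xlaw N := by
    rw [← integral_const_mul]
    refine integral_congr_ae ?_
    filter_upwards [hclae] with x hx
    rw [hx, hgrad]
  rw [hrhs] at hmvt
  -- the ends
  have hbox : ∀ x : Fin N → ℝ, ∀ i, |ext0 (cl x) i| ≤ 4 := fun x i => by
    unfold ext0
    split_ifs with h
    · rw [abs_of_nonneg (zero_le_one.trans (hcl x _).1)]
      linarith [(hcl x ⟨i, h⟩).2]
    · simp
  have hpert : ∀ Λ' : Par K, Adm K L Λ' → ∀ x : Fin N → ℝ,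
      |mfree n P π (stdc Λ' (ext0 (cl x)) : CIdx N M K → ℝ)
        - mfree n P π (fieldc Λ' : CIdx N M K → ℝ)| ≤ 3 * (N : ℝ) ^ ((3 : ℝ) / 4) := fun Λ' h x =>
    mfree_pert P π hn (c := (fieldc Λ' : CIdx N M K → ℝ)) (fieldc_nonneg h) (hbox x)
  have hint : ∀ Λ' : Par K, Adm K L Λ' → Integrable
      (fun x : Fin N → ℝ => mfree n P π (stdc Λ' (ext0 (cl x)) : CIdx N M K → ℝ)) (xlaw N) :=
    fun Λ' h => by
      obtain ⟨R', hR'⟩ := (isCompact_univ_pi fun _ : Fin N => isCompact_Icc (a := (1 : ℝ)) (b := 2))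
        |>.exists_bound_of_continuousOn (continuous_stdc (M := M) Λ').continuousOn
      exact (continuous_mfree_param P π hn (xlaw N)
        (c := fun x => (stdc Λ' (ext0 (cl x)) : CIdx N M K → ℝ))
        (fun i => ((continuous_apply i).comp ((continuous_stdc Λ').comp hclc)).measurable)
        (R := R') fun x i => ((Real.norm_eq_abs _).symm.trans_le (norm_le_pi_norm _ i)).trans
          (hR' (cl x) fun i _ => hcl x i)).2
  have hone : line 1 q p = ((1, 0, 0) : Par K) := by
    simp only [line, sub_self, zero_mul]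
    rfl
  have hzero : Λ0 = (0, q, p) := by simp [Λ0, line]
  have h1 : pressP M P.f π - 3 * (N : ℝ) ^ ((3 : ℝ) / 4)
      ≤ ∫ x, mfree n P π (fun i => stdc Λ0 (ext0 (cl x)) i + d i) ∂xlaw N := by
    have e : ∀ x : Fin N → ℝ, (fun i => stdc Λ0 (ext0 (cl x)) i + d i) =
        (stdc (line 1 q p) (ext0 (cl x)) : CIdx N M K → ℝ) := fun x =>
      (funext fun i => by rw [one_mul]).trans (hline 1 _)
    have hA := line_adm (t := 1) ⟨zero_le_one, le_rfl⟩ hq hp
    simp only [e]
    refine (le_of_eq ?_).trans (integral_mono (integrable_const _) (hint _ hA) fun x =>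
      (show mfree n P π (fieldc (line 1 q p) : CIdx N M K → ℝ) - 3 * (N : ℝ) ^ ((3 : ℝ) / 4) ≤ _
        by linarith [(abs_le.1 (hpert _ hA x)).1]))
    simp only [hone, mfree_real P π hn, integral_const, probReal_univ, one_smul]
  have h0 : ∫ x, mfree n P π (stdc Λ0 (ext0 (cl x)) : CIdx N M K → ℝ) ∂xlaw N
      ≤ mfree n P π (fieldc (0, q, p) : CIdx N M K → ℝ) + 3 * (N : ℝ) ^ ((3 : ℝ) / 4) := by
    have hA := line_adm (t := 0) ⟨le_rfl, zero_le_one⟩ hq hp
    refine (integral_mono (hint _ hA) (integrable_const _) fun x =>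
      (show _ ≤ mfree n P π (fieldc Λ0 : CIdx N M K → ℝ) + 3 * (N : ℝ) ^ ((3 : ℝ) / 4)
        by linarith [(abs_le.1 (hpert _ hA x)).2])).trans (le_of_eq ?_)
    simp only [hzero, integral_const, probReal_univ, one_smul]
  linarith [mul_le_mul_of_nonneg_left hder hN'.le]

/-- The upper bound from the estimates of the cavity computations. -/
theorem upper_of (P : Pot) {α L : ℝ} (hα : 0 < α) (hL : α * P.b1 ^ 2 ≤ L)
    (hbase : ∀ ε > (0 : ℝ), ∃ K0 : ℕ, ∀ K ≥ K0, ∃ N1 : ℕ, ∀ N ≥ N1, ∀ M : ℕ, (M : ℝ) ≤ α * N →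
      ∃ n0 : ℕ, ∀ n ≥ n0, ∀ Λ : Par K, Adm K L Λ →
        ∫ x, baseErr n M N P Λ (ext0 x) ∂xlaw N ≤ ε)
    (hstat : ∀ ε > (0 : ℝ), ∃ K0 : ℕ, ∀ K ≥ K0, ∃ N1 : ℕ, ∀ N ≥ N1, ∀ M : ℕ, (M : ℝ) ≤ α * N →
      ∃ n0 : ℕ, ∀ n ≥ n0, ∀ Λ : Par K, Adm K L Λ →
        ∫ x, statErr n M N P Λ (ext0 x) ∂xlaw N ≤ ε)
    {ε : ℝ} (hε : 0 < ε) :
    ∃ K0 : ℕ, ∀ K ≥ K0, ∃ N1 : ℕ, ∀ N ≥ N1, ∀ q ∈ pathsQ K, ∀ V : ℝ,
      (∀ p ∈ pathsP K L, pfun psiI α P.f p q ≤ V) →
        pressP ⌊α * N⌋₊ P.f (isingP N) / N ≤ V + ε := by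
  have hL0 : 0 ≤ L := le_trans (by positivity) hL
  set e := ε / (4 * (L + 2))
  have he : 0 < e := by positivity
  obtain ⟨Kb, hKb⟩ := hbase (e ^ 2) (by positivity)
  obtain ⟨Ks, hKs⟩ := hstat e he
  refine ⟨max Kb Ks, fun K hK => ?_⟩
  obtain ⟨Nb, hNb⟩ := hKb K (le_of_max_le_left hK)
  obtain ⟨Ns, hNs⟩ := hKs K (le_of_max_le_right hK)
  have hbF : 0 ≤ P.bF := (abs_nonneg _).trans (P.hF 0)
  obtain ⟨N2, hN2⟩ := eventually_atTop.1 (((tendsto_rpow_atTop (by norm_num : (0 : ℝ) < 1 / 4)).comp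
    tendsto_natCast_atTop_atTop).eventually_ge_atTop ((7 + P.bF) / (ε / 4)))
  refine ⟨max (max Nb Ns) (max N2 1), fun N hN q hq V hV => ?_⟩
  simp only [max_le_iff, ge_iff_le] at hN
  obtain ⟨⟨hN1, hN1'⟩, hN2', hN0⟩ := hN
  have hN' : (0 : ℝ) < N := by exact_mod_cast hN0
  set M := ⌊α * N⌋₊
  have hM : (M : ℝ) ≤ α * N := Nat.floor_le (by positivity)
  have hM' : α * N - 1 ≤ M := (Nat.sub_one_lt_floor _).le
  obtain ⟨nb, hnb⟩ := hNb N hN1 M hM
  obtain ⟨ns, hns⟩ := hNs N hN1' M hM
  obtain ⟨nl, hnl⟩ := level_uniform P L N M K (isingP N) (η := e / (K + 1)) (by positivity)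
  obtain ⟨p, hp, -, hopt⟩ := exists_argmax hL0 q
  obtain ⟨nz, hnz⟩ := mfree_zero P L N M K one_pos
  set n := nb + ns + nl + nz + 1
  have h := upper_step P hL hN0 hM (n := n) (by omega) hq hp hopt he
    (hnb n (by omega)) (hns n (by omega)) fun Λ h x hx => (hnl n (by omega) Λ h x hx).1
  have hz := (abs_le.1 (hnz n (by omega) (0, q, p)
    ⟨⟨le_rfl, zero_le_one⟩, hq.1, hq.2.1, hq.2.2.trans (sub_zero 1).symm, hp⟩ rfl)).2
  dsimp only at hz
  have hF := abs_le.1 (Formula.abs_psiF_le (pot_continuous P).measurable P.hF hq.1)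
  have hpV := hV p hp
  simp only [pfun] at hpV
  have herr : L * e + 2 * L * ((K + 1) * (e / (K + 1))) + (2 + L) * e + (2 + L) / e * e ^ 2
      ≤ 5 * ε / 4 := by
    have e1 : (L + 2) * e = ε / 4 := by simp only [e]; field_simp
    have e2 : (2 + L) / e * e ^ 2 = (2 + L) * e := by field_simp
    have e3 : ((K : ℝ) + 1) * (e / (K + 1)) = e := by field_simp
    rw [e2, e3]
    linarith
  have hr : (7 + P.bF) * 1 ≤ ε / 4 * (N : ℝ) ^ ((1 : ℝ) / 4) := by
    have := hN2 N hN2'
    simp only [Function.comp] at this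
    rw [div_le_iff₀ (by positivity)] at this
    linarith
  have hN34 : (1 : ℝ) ≤ (N : ℝ) ^ ((3 : ℝ) / 4) :=
    Real.one_le_rpow (by exact_mod_cast hN0) (by norm_num)
  have hrem : P.bF + 1 + 6 * (N : ℝ) ^ ((3 : ℝ) / 4) ≤ ε / 4 * N := by
    have := mul_le_mul_of_nonneg_right hr (zero_le_one.trans hN34)
    rw [mul_assoc (ε / 4), ← Real.rpow_add hN',
      show ((1 : ℝ) / 4) + 3 / 4 = 1 by norm_num, Real.rpow_one] at this
    have := mul_le_mul_of_nonneg_left hN34 hbF
    linarith
  have hMF : (M : ℝ) * psiF P.f q ≤ α * N * psiF P.f q + P.bF := by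
    nlinarith [mul_nonneg (sub_nonneg.2 hM) (sub_nonneg.2 hF.2),
      mul_nonneg (sub_nonneg.2 hM) (show 0 ≤ P.bF + psiF P.f q by linarith),
      mul_le_mul_of_nonneg_right (show α * N - M ≤ 1 by linarith) hbF]
  rw [div_le_iff₀ hN']
  have hVN := mul_le_mul_of_nonneg_right hpV hN'.le
  have herrN := mul_le_mul_of_nonneg_left herr (show (0 : ℝ) ≤ N / 2 by positivity)
  nlinarith [hVN, herrN, hrem, hMF, h, hz]

end Vale.Agent.P157.Casc
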