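import Vale.Agent.P157.Casc.GGFluct
import Vale.Agent.P157.Casc.Segment
import Vale.Agent.P157.Casc.SyncMeas
import Vale.Agent.P157.Casc.Upper

/-!
The averaged overlap identities of the standard systems: the perturbation of one degree is a
compensated field, and its fluctuation is small on average by convexity and concentration.
-/

open MeasureTheory ProbabilityTheory Filter Topology Set
open Vale.Agent.P166.Casc

namespace Vale.Agent.P157.Casc

variable {N M K n : ℕ}

/-- The logarithm of the total weight is integrable. -/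
theorem integrable_log_mbw (P : Pot) (π : Prior N) (hn : 0 < n) (c : CIdx N M K → ℝ) :
    Integrable (fun p => Real.log (∑ st, mbw P π c p st)) (envLaw N M K n) := by
  have := state_ne (K := K) π hn
  set R := ∑ i, |pull (n := n) c i|
  have hR : ∀ i, |pull (n := n) c i| ≤ R := fun i =>
    Finset.single_le_sum (f := fun i => |pull (n := n) c i|) (fun _ _ => abs_nonneg _)
      (Finset.mem_univ i)
  have hg : Integrable (fun p : (Node K n → ℝ) × (GIdx N M K n → ℝ) =>
      |Real.log (∑ st, pwt π p.1 st)| + Itp.lenv P M (bspin (K := K) (n := n) π) R p.2)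
      ((casW (mlev K) n).prod (gaus (GIdx N M K n))) :=
    ((integrable_log_pwt (K := K) (n := n) π hn).abs.comp_fst _).add
      ((Itp.integrable_lenv (M := M) P (bspin (K := K) (n := n) π) R).comp_snd _)
  refine hg.mono' (Finset.measurable_sum _ fun st _ =>
    (continuous_mbw P π c st).measurable).log.aestronglyMeasurable ?_
  filter_upwards [Measure.quasiMeasurePreserving_fst.ae (ae_posV (mlev K))] with p hp
  have h := Itp.abs_log_env P (bpat π) (bspin π) (pwt_pos π p.1) hR p.2
  rw [Real.norm_eq_abs]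
  simp only [pwt, hp] at h ⊢
  exact h

theorem amp_pos (hN : 0 < N) (j : ℕ) : 0 < amp N j := by
  have : (0 : ℝ) < N := by exact_mod_cast hN
  unfold amp; positivity

/-- Variances of the perturbation of one degree, with unit covariance. -/
noncomputable def degC (j : Fin N) : CIdx N M K → ℝ :=
  pertc N fun k => if k = j.val then (amp N j)⁻¹ else 0

/-- Directions of the perturbation of one degree. -/
noncomputable def degB (π : Prior N) (j : Fin N) (st : State π K n) (i : GIdx N M K n) : ℝ :=
  √(pull (degC j) i) * bspin π st i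

theorem degC_nonneg (j : Fin N) (i : CIdx N M K) : 0 ≤ degC j i := pertc_nonneg _ i

/-- The variances as those without the degree plus those of the degree. -/
theorem stdc_split (hN : 0 < N) (Λ : Par K) (x : Fin N → ℝ) (j : Fin N) (v : ℝ)
    (i : CIdx N M K) :
    stdc Λ (ext0 (Function.update x j v)) i
        = stdc Λ (ext0 (Function.update x j 0)) i + (amp N j * v) ^ 2 * degC j i ∧
      (degC j i = 0 ∨ stdc Λ (ext0 (Function.update x j 0)) i = 0) := by
  have ha := (amp_pos hN j).ne'
  rcases i with p | ⟨l, a | k | ⟨k, i, t⟩⟩ <;>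
    simp only [stdc, degC, fieldc, pertc, mul_zero, add_zero, true_or, and_true]
  rw [zero_add, zero_add]
  by_cases hk : k = j
  · subst hk
    simp only [ext0, k.isLt, dite_true, Fin.eta, Function.update_self, if_true,
      mul_inv_cancel₀ ha]
    split_ifs <;> simp <;> ring
  · have hv : (k : ℕ) ≠ j := fun e => hk (Fin.ext e)
    simp only [ext0, k.isLt, dite_true, Fin.eta, Function.update_of_ne hk, if_neg hv]
    split_ifs <;> simp

theorem degC_bpat (π : Prior N) (j : Fin N) (a : Fin M) (st : State π K n) (i : GIdx N M K n) :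
    pull (degC j) i * bpat π a st i = 0 := by
  rcases i with ⟨b, k⟩ | ⟨o, b | k | t⟩ <;> simp [pull, degC, pertc, bpat]

/-- The covariance of one degree is a power of the kernel. -/
theorem degB_cov (π : Prior N) (hN : 0 < N) (j : Fin N) (st st' : State π K n) :
    rker (degB (M := M) π j) st st' = ovS N π st st' ^ (j.val + 1) := by
  have ha := (amp_pos hN j).ne'
  have e : ∀ i : GIdx N M K n, degB π j st i * degB π j st' i =
      pull (degC j) i * (bspin π st i * bspin π st' i) := fun i => by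
    have : 0 ≤ pull (degC (M := M) (K := K) j) i := by
      rcases i with p | ⟨o, l⟩ <;> exact degC_nonneg j _
    simp only [degB]
    rw [mul_mul_mul_comm, Real.mul_self_sqrt this]
  simp only [rker, e]
  rw [cov_bspin]
  have h0 : ∀ l k, (degC j : CIdx N M K → ℝ) (Sum.inr (l, Sum.inr (Sum.inl k))) = 0 :=
    fun l k => rfl
  simp only [h0, Finset.sum_const_zero, mul_zero, zero_add]
  rw [degC, pertc_eq_pertS, cov_pertS,
    Finset.sum_eq_single_of_mem j (by simp) fun k _ hk => by
      simp [show (k : ℕ) ≠ j from fun e => hk (Fin.ext e)]]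
  simp [ovS, ovR, ovSet, ovU, mul_inv_cancel₀ ha]

theorem degB_unit (π : Prior N) (hN : 0 < N) (j : Fin N) (st : State π K n) :
    ∑ i, degB (M := M) π j st i ^ 2 = 1 := by
  have h := degB_cov (M := M) π hN j st st
  simp only [rker, ← pow_two] at h
  rw [h, ovS]
  have hdot : ovR N π st st = 1 := by
    have hN' : (N : ℝ) ≠ 0 := Nat.cast_ne_zero.2 hN.ne'
    simp only [ovR, Fin.is_lt, if_true, ← sq, π.norm_spin, div_self hN']
  rw [hdot, ovU, com_self, Fin.val_last]
  have : ((3 * K + 1 : ℕ) : ℝ) ≠ 0 := by positivity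
  rw [show (1 + 3 * (K : ℝ)) / ((3 * K + 1 : ℕ) : ℝ) = 1 by
    rw [div_eq_one_iff_eq this]; push_cast; ring, one_pow]

/-- Weights of the system without one degree. -/
noncomputable def degW (P : Pot) (π : Prior N) (Λ : Par K) (x : Fin N → ℝ) (j : Fin N)
    (W : Node K n → ℝ) (G : GIdx N M K n → ℝ) : State π K n → ℝ :=
  bw P (pwt π W) (bpat π) (bspin π) (pull (stdc Λ (ext0 (Function.update x j 0)))) G

theorem degW_hyp (P : Pot) (π : Prior N) (hN : 0 < N) (Λ : Par K) (x : Fin N → ℝ) (j : Fin N) :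
    RGGHyp (casW (mlev K) n) (degW (M := M) P π Λ x j) (degB π j)
      (Finset.univ.filter fun i => pull (degC j) i ≠ 0) where
  meas st := measurable_bw (Y := (Node K n → ℝ) × (GIdx N M K n → ℝ)) P (bpat π) (bspin π)
    (w := fun p => pwt π p.1)
    (l := fun _ => pull (stdc Λ (ext0 (Function.update x j 0)))) (G := fun p => p.2)
    (fun y => (measurable_pwt π y).comp measurable_fst) (fun i => measurable_const)
    (fun i => (measurable_pi_apply i).comp measurable_snd) st
  cont W st := by
    have := pot_continuous P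
    unfold degW bw ham lin
    fun_prop
  pos W G st := mul_pos (pwt_pos π W st) (Real.exp_pos _)
  indep W G G' h := by
    have hl : ∀ b : State π K n → GIdx N M K n → ℝ,
        lin b (pull (stdc Λ (ext0 (Function.update x j 0)))) G
          = lin b (pull (stdc Λ (ext0 (Function.update x j 0)))) G' := fun b => by
      funext st
      refine Finset.sum_congr rfl fun i _ => ?_
      by_cases hi : i ∈ Finset.univ.filter fun i => pull (degC (M := M) (K := K) j) i ≠ 0
      · have h0 : pull (stdc Λ (ext0 (Function.update x j 0)) : CIdx N M K → ℝ) i = 0 := by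
          simp only [Finset.mem_filter, Finset.mem_univ, true_and] at hi
          rcases i with p | ⟨o, l⟩ <;>
            exact ((stdc_split hN Λ x j 0 _).2).resolve_left hi
        rw [h0]; simp
      · rw [h i hi]
    funext st
    simp only [degW, bw, ham, hl]
  supp st i hi := by
    simp only [Finset.mem_filter, Finset.mem_univ, true_and, not_not] at hi
    simp [degB, hi]
  unit st := degB_unit π hN j st

/-- The system as the compensated tilt of the system without the degree. -/
theorem mbw_line (P : Pot) (π : Prior N) (hN : 0 < N) (Λ : Par K) (x : Fin N → ℝ) (j : Fin N)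
    {v : ℝ} (hv : 0 ≤ v) (p : (Node K n → ℝ) × (GIdx N M K n → ℝ)) (st : State π K n) :
    bw P (pwt π p.1) (bpat π) (bspin π) (pull (stdc Λ (ext0 (Function.update x j v)))) p.2 st
      = Real.exp (-((amp N j * v) ^ 2 / 2))
        * rtilt (degW P π Λ x j) (degB π j) (amp N j * v) p st := by
  set t := amp N j * v
  have ht : 0 ≤ t := mul_nonneg (amp_pos hN j).le hv
  set c0 := (pull (stdc Λ (ext0 (Function.update x j 0)) : CIdx N M K → ℝ) : GIdx N M K n → ℝ)
  set e := (pull (degC j : CIdx N M K → ℝ) : GIdx N M K n → ℝ)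
  set ct := (pull (stdc Λ (ext0 (Function.update x j v)) : CIdx N M K → ℝ) : GIdx N M K n → ℝ)
  have hsp : ∀ i, ct i = c0 i + t ^ 2 * e i ∧ (e i = 0 ∨ c0 i = 0) := fun i => by
    rcases i with q | ⟨o, l⟩ <;> exact stdc_split hN Λ x j v _
  have he : ∀ i, 0 ≤ e i := fun i => by rcases i with q | ⟨o, l⟩ <;> exact degC_nonneg j _
  have hsq : ∀ i, √(ct i) = √(c0 i) + t * √(e i) := fun i => by
    obtain ⟨h1, h2 | h2⟩ := hsp i <;> rw [h1, h2]
    · simp
    · simp [Real.sqrt_mul (sq_nonneg t), Real.sqrt_sq ht]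
  have h1 : ∀ a, lin (bpat π a) ct p.2 st = lin (bpat π a) c0 p.2 st := fun a => by
    refine Finset.sum_congr rfl fun i _ => ?_
    have hz : √(e i) * bpat π a st i = 0 := by
      rcases mul_eq_zero.1 (degC_bpat π j a st i) with h | h
      · rw [show e i = 0 from h, Real.sqrt_zero, zero_mul]
      · rw [h, mul_zero]
    rw [hsq, add_mul, add_mul, mul_assoc t, hz]
    ring
  have h2 : lin (bspin π) ct p.2 st = lin (bspin π) c0 p.2 st + t * ∑ i, degB π j st i * p.2 i := by
    rw [Finset.mul_sum]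
    simp only [lin, ← Finset.sum_add_distrib]
    refine Finset.sum_congr rfl fun i _ => ?_
    rw [hsq]
    simp only [degB, e]
    ring
  have h3 : ∑ i, ct i * bspin π st i ^ 2 = (∑ i, c0 i * bspin π st i ^ 2) + t ^ 2 := by
    conv_rhs => rw [← mul_one (t ^ 2), ← degB_unit (M := M) π hN j st, Finset.mul_sum,
      ← Finset.sum_add_distrib]
    refine Finset.sum_congr rfl fun i _ => ?_
    have : (√(e i) * bspin π st i) ^ 2 = e i * bspin π st i ^ 2 := by
      rw [mul_pow, Real.sq_sqrt (he i)]
    rw [(hsp i).1, degB, this]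
    ring
  simp only [rtilt, degW, bw, ham, h1, h2, h3]
  have key : ∀ a b c ww : ℝ, Real.exp a * (ww * Real.exp b * Real.exp c)
      = ww * Real.exp (a + b + c) := fun a b c ww => by
    rw [Real.exp_add, Real.exp_add]; ring
  rw [key]
  congr 2
  simp only [c0]
  ring

theorem log_line (P : Pot) (π : Prior N) (hN : 0 < N) (hn : 0 < n) (Λ : Par K) (x : Fin N → ℝ)
    (j : Fin N) {v : ℝ} (hv : 0 ≤ v) :
    ∀ᵐ p ∂envLaw N M K n,
      Real.log (∑ st, rtilt (degW P π Λ x j) (degB π j) (amp N j * v) p st)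
        = Real.log (∑ st, mbw P π (stdc Λ (ext0 (Function.update x j v))) p st)
          + (amp N j * v) ^ 2 / 2 := by
  have := state_ne (K := K) π hn
  filter_upwards [Measure.quasiMeasurePreserving_fst.ae (ae_posV (mlev K))] with p hp
  have e : ∀ st, mbw P π (stdc Λ (ext0 (Function.update x j v))) p st =
      Real.exp (-((amp N j * v) ^ 2 / 2))
        * rtilt (degW P π Λ x j) (degB π j) (amp N j * v) p st := fun st => by
    rw [← mbw_line P π hN Λ x j hv]
    simp only [mbw, pwt, hp]
  have hpos := Itp.sum_u_pos fun st => rtilt_pos (degW_hyp P π hN Λ x j) (amp N j * v) p st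
  simp only [e, ← Finset.mul_sum]
  rw [Real.log_mul (Real.exp_pos _).ne' hpos.ne', Real.log_exp]
  ring

theorem rlogz_line (P : Pot) (π : Prior N) (hN : 0 < N) (hn : 0 < n) (Λ : Par K) (x : Fin N → ℝ)
    (j : Fin N) {v : ℝ} (hv : 0 ≤ v) :
    Integrable (fun p => Real.log (∑ st, rtilt (degW (M := M) P π Λ x j) (degB π j)
        (amp N j * v) p st)) ((casW (mlev K) n).prod (gaus (GIdx N M K n))) ∧
      rlogz (casW (mlev K) n) (degW (M := M) P π Λ x j) (degB π j) (amp N j * v)
        = mfree n P π (stdc Λ (ext0 (Function.update x j v)) : CIdx N M K → ℝ) + cst (mlev K) n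
          + (amp N j * v) ^ 2 / 2 := by
  have he := log_line (M := M) P π hN hn Λ x j hv
  have hi := (integrable_log_mbw P π hn
    (stdc Λ (ext0 (Function.update x j v)) : CIdx N M K → ℝ))
  have hi' := (hi.add (integrable_const ((amp N j * v) ^ 2 / 2))).congr (he.mono fun p h => h.symm)
  refine ⟨hi', ?_⟩
  rw [rlogz, show (casW (mlev K) n).prod (gaus (GIdx N M K n)) = envLaw N M K n from rfl,
    integral_congr_ae he, integral_add hi (integrable_const _), mfree]
  simp

/-- Replica averages of the system as those of the tilt. -/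
theorem eavg_line (P : Pot) (π : Prior N) (hN : 0 < N) (Λ : Par K) (x : Fin N → ℝ) (j : Fin N)
    {v : ℝ} (hv : 0 ≤ v) (r : ℕ) (F : (Fin r → State π K n) → ℝ) :
    eavg (envLaw N M K n) (mbw P π (stdc Λ (ext0 (Function.update x j v)))) r F
      = ravg (casW (mlev K) n) (degW (M := M) P π Λ x j) (degB π j) (amp N j * v) r
          (fun _ _ => F) := by
  refine integral_congr_ae ?_
  filter_upwards [Measure.quasiMeasurePreserving_fst.ae (ae_posV (mlev K))] with p hp
  have e : mbw P π (stdc Λ (ext0 (Function.update x j v))) p = fun st =>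
      Real.exp (-((amp N j * v) ^ 2 / 2))
        * rtilt (degW P π Λ x j) (degB π j) (amp N j * v) p st := funext fun st => by
    rw [← mbw_line P π hN Λ x j hv]
    simp only [mbw, pwt, hp]
  simp only [avg, gibbs, e, ← Finset.mul_sum, mul_div_mul_left _ _ (Real.exp_pos _).ne']

/-- The identity of one degree at fixed parameters. -/
theorem gg_point (P : Pot) (π : Prior N) (hN : 0 < N) (hn : 0 < n) (Λ : Par K) (x : Fin N → ℝ)
    (j : Fin N) {u h D : ℝ} (hu : h ≤ u) (hh : 0 < h)
    (hD : ∀ v, v = u - h ∨ v = u ∨ v = u + h →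
      ∫ p, |Real.log (∑ st, mbw P π (stdc Λ (ext0 (Function.update x j v))) p st)
        - (mfree n P π (stdc Λ (ext0 (Function.update x j v)) : CIdx N M K → ℝ)
          + cst (mlev K) n)| ∂envLaw N M K n ≤ D) :
    0 ≤ mfree n P π (stdc Λ (ext0 (Function.update x j (u + h))) : CIdx N M K → ℝ)
        + mfree n P π (stdc Λ (ext0 (Function.update x j (u - h))) : CIdx N M K → ℝ)
        - 2 * mfree n P π (stdc Λ (ext0 (Function.update x j u)) : CIdx N M K → ℝ)
        + (amp N j * h) ^ 2 ∧
      ∀ (r : ℕ) (F : (Fin (r + 1) → State π K n) → ℝ), (∀ y, |F y| ≤ 1) →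
        |ggDef (envLaw N M K n) (mbw P π (stdc Λ (ext0 (Function.update x j u))))
          (fun s s' => ovS N π s s' ^ (j.val + 1)) r F|
        ≤ 2 * ((Real.log 2 + (mfree n P π (stdc Λ (ext0 (Function.update x j (u + h))) : CIdx N M K → ℝ)
            + mfree n P π (stdc Λ (ext0 (Function.update x j (u - h))) : CIdx N M K → ℝ)
            - 2 * mfree n P π (stdc Λ (ext0 (Function.update x j u)) : CIdx N M K → ℝ)
            + (amp N j * h) ^ 2) / 2 + 3 * D) / (amp N j * h)) / (amp N j * u) := by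
  have := state_ne (K := K) π hn
  set μ := casW (mlev K) n
  set w := degW (M := M) (n := n) P π Λ x j
  set b := degB (M := M) (K := K) (n := n) π j
  set t := amp N j * u
  set δ := amp N j * h
  have hu0 : 0 < u := hh.trans_le hu
  have hcase : ∀ s, s = t - δ ∨ s = t ∨ s = t + δ → ∃ v, 0 ≤ v ∧
      (v = u - h ∨ v = u ∨ v = u + h) ∧ s = amp N j * v := by
    rintro s (rfl | rfl | rfl)
    · exact ⟨u - h, by linarith, Or.inl rfl, by simp only [t, δ]; ring⟩
    · exact ⟨u, hu0.le, Or.inr (Or.inl rfl), rfl⟩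
    · exact ⟨u + h, by linarith, Or.inr (Or.inr rfl), by simp only [t, δ]; ring⟩
  have hint : ∀ s, s = t - δ ∨ s = t ∨ s = t + δ →
      Integrable (fun p => Real.log (∑ st, rtilt w b s p st)) (μ.prod (gaus _)) := fun s hs => by
    obtain ⟨v, hv0, -, rfl⟩ := hcase s hs
    exact (rlogz_line P π hN hn Λ x j hv0).1
  have hD' : ∀ s, s = t - δ ∨ s = t ∨ s = t + δ →
      ∫ p, |Real.log (∑ st, rtilt w b s p st) - rlogz μ w b s| ∂μ.prod (gaus _) ≤ D := fun s hs => by
    obtain ⟨v, hv0, hv, rfl⟩ := hcase s hs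
    refine (le_of_eq (integral_congr_ae ?_)).trans (hD v hv)
    filter_upwards [log_line P π hN hn Λ x j hv0] with p hp
    rw [hp, (rlogz_line P π hN hn Λ x j hv0).2, add_sub_add_right_eq_sub]
  have hH := degW_hyp (M := M) (n := n) P π hN Λ x j
  have hconv := rlogz_convex hH hint
  have hfl := rfluct_le hH (mul_pos (amp_pos hN j) hh) hint hD'
  have e : rlogz μ w b (t + δ) + rlogz μ w b (t - δ) - 2 * rlogz μ w b t =
      mfree n P π (stdc Λ (ext0 (Function.update x j (u + h))) : CIdx N M K → ℝ)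
        + mfree n P π (stdc Λ (ext0 (Function.update x j (u - h))) : CIdx N M K → ℝ)
        - 2 * mfree n P π (stdc Λ (ext0 (Function.update x j u)) : CIdx N M K → ℝ)
        + (amp N j * h) ^ 2 := by
    have e1 : t + δ = amp N j * (u + h) := by simp only [t, δ]; ring
    have e2 : t - δ = amp N j * (u - h) := by simp only [t, δ]; ring
    rw [e1, e2, (rlogz_line P π hN hn Λ x j (by linarith : 0 ≤ u + h)).2,
      (rlogz_line P π hN hn Λ x j (by linarith : 0 ≤ u - h)).2,
      (rlogz_line P π hN hn Λ x j hu0.le).2]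
    ring
  rw [e] at hconv hfl
  refine ⟨hconv, fun r F hF => ?_⟩
  have hT : RTest (Finset.univ.filter fun i => pull (degC (M := M) (K := K) j) i ≠ 0)
      (Ω := Node K n → ℝ) (I := GIdx N M K n) (fun _ _ => F) :=
    ⟨fun _ => measurable_const, fun _ _ => continuous_const, fun _ _ _ _ => rfl,
      fun _ _ y => hF y⟩
  have hgg := rgg_le hH (mul_pos (amp_pos hN j) hu0)
    ((rlogz μ w b (t + δ) - rlogz μ w b (t - δ)) / (2 * δ)) r hT
  simp only [ggDef, eavg_line P π hN Λ x j hu0.le]
  simp only [degB_cov π hN j] at hgg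
  refine hgg.trans ?_
  have hat : 0 < amp N j * u := mul_pos (amp_pos hN j) hu0
  gcongr

/-- The free energy is Lipschitz in the parameter of one degree. -/
theorem mfree_deg_lip (P : Pot) (π : Prior N) (hN : 0 < N) (hn : 0 < n) {L : ℝ} {Λ : Par K}
    (hΛ : Adm K L Λ) (x : Fin N → ℝ) (j : Fin N) {v v' : ℝ} (hv : v ∈ Icc (0 : ℝ) 3)
    (hv' : v' ∈ Icc (0 : ℝ) 3) :
    |mfree n P π (stdc Λ (ext0 (Function.update x j v)) : CIdx N M K → ℝ)
      - mfree n P π (stdc Λ (ext0 (Function.update x j v')) : CIdx N M K → ℝ)|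
      ≤ 3 * amp N j ^ 2 * |v - v'| := by
  set s := amp N j ^ 2 * (v ^ 2 - v' ^ 2)
  set c : CIdx N M K → ℝ := stdc Λ (ext0 (Function.update x j v')) with hc
  set d : CIdx N M K → ℝ := fun i => s * degC j i with hd
  have hcv : (stdc Λ (ext0 (Function.update x j v)) : CIdx N M K → ℝ) = fun i => c i + d i :=
    funext fun i => by
      rw [hc, hd, (stdc_split hN Λ x j v i).1]
      simp only [(stdc_split hN Λ x j v' i).1, s]
      ring
  have hpos : ∀ r ∈ Icc (0 : ℝ) 1, ∀ i, 0 ≤ c i + r * d i := fun r hr i => by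
    have h0 : 0 ≤ stdc Λ (ext0 (Function.update x j 0)) i :=
      add_nonneg (fieldc_nonneg hΛ i) (pertc_nonneg _ i)
    rw [hc, hd, (stdc_split hN Λ x j v' i).1]
    simp only [s]
    have h1 : 0 ≤ (1 - r) * v' ^ 2 + r * v ^ 2 :=
      add_nonneg (mul_nonneg (sub_nonneg.2 hr.2) (sq_nonneg _)) (mul_nonneg hr.1 (sq_nonneg _))
    have h2 := mul_nonneg (mul_nonneg (sq_nonneg (amp N j)) h1) (degC_nonneg j i)
    linarith
  have hpull : ∀ i : GIdx N M K n, pull d i = s * pull (degC j) i := fun i => by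
    rcases i with q | ⟨o, l⟩ <;> rfl
  have hbp : ∀ a (y y' : State π K n), ∑ i, pull d i * (bpat π a y i * bpat π a y' i) = 0 :=
    fun a y y' => Finset.sum_eq_zero fun i _ => by
      rw [hpull, mul_assoc, ← mul_assoc (pull (degC j) i), degC_bpat, zero_mul, mul_zero]
  obtain ⟨r, hr, he⟩ := mfree_mvt_point P π hn (c := c) (d := d) hpos
    fun a y => by simpa only [sq] using hbp a y y
  rw [hcv, he, abs_mul, abs_neg, abs_of_pos (by norm_num : (0 : ℝ) < 1 / 2)]
  have hg : ∀ (G : GIdx N M K n → ℝ) (y y' : State π K n), |grad P (bpat π) (bspin π)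
      (pull fun i => c i + r * d i) (pull d) G y y'| ≤ |s| := fun G y y' => by
    have hsum : ∑ i, pull d i * (bspin π y i * bspin π y' i) = s * rker (degB (M := M) π j) y y' := by
      simp only [rker, Finset.mul_sum, degB, hpull]
      refine Finset.sum_congr rfl fun i _ => ?_
      have : 0 ≤ pull (degC (M := M) (K := K) j) i := by
        rcases i with q | ⟨o, l⟩ <;> exact degC_nonneg j _
      rw [mul_mul_mul_comm (√(pull (degC j) i)), Real.mul_self_sqrt this]
      ring
    simp only [grad, hbp, zero_mul, Finset.sum_const_zero, zero_add, hsum, abs_mul]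
    refine mul_le_of_le_one_right (abs_nonneg _) ?_
    refine (Finset.abs_sum_le_sum_abs _ _).trans ?_
    have : ∀ i : GIdx N M K n, |degB π j y i * degB π j y' i| ≤
        (degB π j y i ^ 2 + degB π j y' i ^ 2) / 2 := fun i => by
      rw [abs_mul, ← sq_abs (degB π j y i), ← sq_abs (degB π j y' i)]
      linarith [two_mul_le_add_sq |degB π j y i| |degB π j y' i|]
    refine (Finset.sum_le_sum fun i _ => this i).trans_eq ?_
    rw [← Finset.sum_div, Finset.sum_add_distrib, degB_unit π hN, degB_unit π hN]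
    norm_num
  refine (mul_le_mul_of_nonneg_left (abs_mpair_le P π _ (abs_nonneg s) hg) (by norm_num)).trans ?_
  simp only [s]
  rw [abs_mul, abs_of_nonneg (sq_nonneg (amp N j)), sq_sub_sq, abs_mul]
  have h6 : |v + v'| ≤ 6 := abs_le.2 ⟨by linarith [hv.1, hv'.1], by linarith [hv.2, hv'.2]⟩
  have := mul_le_mul_of_nonneg_right h6 (abs_nonneg (v - v'))
  have := mul_le_mul_of_nonneg_left this (sq_nonneg (amp N j))
  linarith

/-- Projection of the parameters on `[1, 2]`. -/
noncomputable def clipBox (x : Fin N → ℝ) (i : Fin N) : ℝ := max 1 (min 2 (x i))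

theorem clipBox_mem (x : Fin N → ℝ) (i : Fin N) : clipBox x i ∈ Icc (1 : ℝ) 2 :=
  ⟨le_max_left _ _, max_le one_le_two (min_le_left _ _)⟩

theorem clipBox_id {x : Fin N → ℝ} (hx : ∀ i, x i ∈ Icc (1 : ℝ) 2) : clipBox x = x :=
  funext fun i => by rw [clipBox, min_eq_right (hx i).2, max_eq_right (hx i).1]

theorem update_box {x : Fin N → ℝ} (hx : ∀ i, x i ∈ Icc (1 : ℝ) 2) (j : Fin N) {v : ℝ}
    (hv : v ∈ Icc (0 : ℝ) 3) (i : Fin N) : Function.update x j v i ∈ Icc (0 : ℝ) 3 := by
  by_cases h : i = j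
  · subst h; rwa [Function.update_self]
  · rw [Function.update_of_ne h]; exact ⟨zero_le_one.trans (hx i).1, (hx i).2.trans (by norm_num)⟩

/-- The average over `[1, 2]` of the second difference of a Lipschitz function. -/
theorem integral_second_diff {g : ℝ → ℝ} {Lg h : ℝ} (hh : h ∈ Icc (0 : ℝ) 1)
    (hg : ∀ v ∈ Icc (0 : ℝ) 3, ∀ v' ∈ Icc (0 : ℝ) 3, |g v - g v'| ≤ Lg * |v - v'|) :
    ∫ u in Icc (1 : ℝ) 2, (g (u + h) + g (u - h) - 2 * g u) ≤ 2 * h * (Lg * h) := by
  have hLg : 0 ≤ Lg := by
    have := (abs_nonneg _).trans (hg 0 (by norm_num) 1 (by norm_num))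
    simpa using this
  have hc : ContinuousOn g (Icc 0 3) :=
    (LipschitzOnWith.of_dist_le_mul (K := Lg.toNNReal) fun v hv v' hv' => by
      rw [Real.dist_eq, Real.dist_eq, Real.coe_toNNReal _ hLg]
      exact hg v hv v' hv').continuousOn
  obtain ⟨hh0, hh1⟩ := hh
  set D := fun u => g (u + h) - g u with hD
  have hDc : ContinuousOn D (Icc 0 2) := by
    refine (hc.comp (continuous_add_const h).continuousOn fun u hu => ?_).sub
      (hc.mono (Icc_subset_Icc_right (by norm_num)))
    exact ⟨by linarith [hu.1], by linarith [hu.2]⟩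
  have hi : ∀ a b : ℝ, 0 ≤ a → a ≤ b → b ≤ 2 → IntervalIntegrable D volume a b := fun a b ha hab hb =>
    (hDc.mono (by rw [uIcc_of_le hab]; exact Icc_subset_Icc ha hb)).intervalIntegrable
  have hb : ∀ u ∈ Icc (0 : ℝ) 2, |D u| ≤ Lg * h := fun u hu => by
    refine (hg _ ⟨by linarith [hu.1], by linarith [hu.2]⟩ _
      ⟨hu.1, by linarith [hu.2]⟩).trans_eq ?_
    rw [add_sub_cancel_left, abs_of_nonneg hh0]
  rw [integral_Icc_eq_integral_Ioc, ← intervalIntegral.integral_of_le one_le_two]
  have e : ∀ u, g (u + h) + g (u - h) - 2 * g u = D u - D (u - h) := fun u => by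
    simp only [hD, sub_add_cancel]; ring
  simp only [e]
  have hshift : IntervalIntegrable (fun u => D (u - h)) volume 1 2 := by
    have := (hi (1 - h) (2 - h) (by linarith) (by linarith) (by linarith)).comp_sub_right h
    simpa using this
  rw [intervalIntegral.integral_sub (hi 1 2 zero_le_one one_le_two le_rfl) hshift,
    intervalIntegral.integral_comp_sub_right]
  rw [← intervalIntegral.integral_add_adjacent_intervals (a := 1) (b := 2 - h) (c := 2)
      (hi _ _ zero_le_one (by linarith) (by linarith)) (hi _ _ (by linarith) (by linarith) le_rfl),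
    ← intervalIntegral.integral_add_adjacent_intervals (a := 1 - h) (b := 1) (c := 2 - h)
      (hi _ _ (by linarith) (by linarith) one_le_two) (hi _ _ zero_le_one (by linarith) (by linarith))]
  have h1 := intervalIntegral.norm_integral_le_of_norm_le_const (a := 2 - h) (b := 2) (f := D)
    (C := Lg * h) fun u hu => by
      rw [uIoc_of_le (by linarith)] at hu
      exact (Real.norm_eq_abs _).trans_le (hb u ⟨by linarith [hu.1], hu.2⟩)
  have h2 := intervalIntegral.norm_integral_le_of_norm_le_const (a := 1 - h) (b := 1) (f := D)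
    (C := Lg * h) fun u hu => by
      rw [uIoc_of_le (by linarith)] at hu
      exact (Real.norm_eq_abs _).trans_le (hb u ⟨by linarith [hu.1], by linarith [hu.2]⟩)
  rw [Real.norm_eq_abs, sub_sub_cancel, abs_of_nonneg hh0] at h1 h2
  linarith [(abs_le.1 h1).2, (abs_le.1 h2).1]

/-- The averaged identities from the concentration of the logarithm of the total weight. -/
theorem model_gg (P : Pot) (α L : ℝ)
    (hconc : ∀ K : ℕ, ∃ C : ℝ, 0 ≤ C ∧ ∀ N : ℕ, 0 < N → ∀ M : ℕ, (M : ℝ) ≤ α * N →
      ∃ n0 : ℕ, ∀ n ≥ n0, ∀ Λ : Par K, Adm K L Λ → ∀ x : Fin N → ℝ, (∀ i, x i ∈ Icc (0 : ℝ) 3) →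
        ∫ p, |Real.log (∑ st, mbw P (isingP N) (stdc Λ (ext0 x)) p st)
          - (mfree n P (isingP N) (stdc Λ (ext0 x) : CIdx N M K → ℝ) + cst (mlev K) n)|
          ∂envLaw N M K n ≤ C * √(N : ℝ))
    (K j : ℕ) (ε : ℝ) (hε : 0 < ε) :
    ∃ Nmin : ℕ, ∀ N ≥ Nmin, j < N ∧ ∀ M : ℕ, (M : ℝ) ≤ α * N → ∃ n0, ∀ n ≥ n0,
      ∀ Λ : Par K, Adm K L Λ →
        ∃ δ : (Fin N → ℝ) → ℝ, Integrable δ (xlaw N) ∧ (∀ x, 0 ≤ δ x) ∧
          ∫ x, δ x ∂xlaw N ≤ ε ∧ ∀ x : Fin N → ℝ, (∀ i, x i ∈ Icc (1 : ℝ) 2) →
            ∀ (r : ℕ) (F : (Fin (r + 1) → State (isingP N) K n) → ℝ), (∀ y, |F y| ≤ 1) →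
              |ggDef (envLaw N M K n) (mbw P (isingP N) (stdc Λ (ext0 x)))
                (fun s s' => ovS N (isingP N) s s' ^ (j + 1)) r F| ≤ δ x := by
  obtain ⟨C, hC, hconcK⟩ := hconc K
  set A := (2 : ℝ) ^ (j + 2) * (5 + 3 * C)
  obtain ⟨N1, hN1⟩ := eventually_atTop.1 (((tendsto_rpow_atTop (by norm_num : (0 : ℝ) < 1 / 8)).comp
    tendsto_natCast_atTop_atTop).eventually_ge_atTop (max (A / ε) ((2 : ℝ) ^ (j + 2))))
  refine ⟨max N1 (j + 1), fun N hN => ⟨by omega, fun M hM => ?_⟩⟩
  have hN0 : 0 < N := by omega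
  have hjN : j < N := by omega
  have hNr : (0 : ℝ) < N := by exact_mod_cast hN0
  obtain ⟨n0, hn0⟩ := hconcK N hN0 M hM
  refine ⟨n0 + 1, fun n hn Λ hΛ => ?_⟩
  have hn' : 0 < n := by omega
  set jj : Fin N := ⟨j, hjN⟩
  set π := isingP N
  set y := (N : ℝ) ^ ((1 : ℝ) / 8) with hy
  have hy0 : 0 < y := Real.rpow_pos_of_pos hNr _
  have hN1' : max (A / ε) ((2 : ℝ) ^ (j + 2)) ≤ y := hN1 N (le_of_max_le_left hN)
  obtain ⟨hyA, hy2⟩ := max_le_iff.1 hN1'
  have e2 : (N : ℝ) ^ ((1 : ℝ) / 4) = y ^ 2 := by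
    rw [hy, ← Real.rpow_natCast, ← Real.rpow_mul hNr.le]; norm_num
  have e3 : (N : ℝ) ^ ((3 : ℝ) / 8) = y ^ 3 := by
    rw [hy, ← Real.rpow_natCast, ← Real.rpow_mul hNr.le]; norm_num
  have e4 : √(N : ℝ) = y ^ 4 := by
    rw [hy, Real.sqrt_eq_rpow, ← Real.rpow_natCast, ← Real.rpow_mul hNr.le]; norm_num
  have hamp : amp N j = y ^ 3 / 2 ^ (j + 1) := by rw [amp, e3]
  have ha : 0 < amp N j := amp_pos hN0 j
  set h := y ^ 2 / amp N j with hh
  have hah : amp N jj * h = y ^ 2 := by
    show amp N j * h = _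
    rw [hh]; field_simp
  have hh0 : 0 < h := by positivity
  have hh1 : h ≤ 1 / 2 := by
    rw [hh, hamp, div_div_eq_mul_div, div_le_iff₀ (by positivity)]
    have := mul_le_mul_of_nonneg_left hy2 (sq_nonneg y)
    rw [pow_succ (2 : ℝ) (j + 1)] at this
    linarith
  set G : (Fin N → ℝ) → ℝ → ℝ := fun x v =>
    mfree n P π (stdc Λ (ext0 (Function.update x jj v)) : CIdx N M K → ℝ)
  set E : (Fin N → ℝ) → ℝ := fun x => G (clipBox x) (clipBox x jj + h)
    + G (clipBox x) (clipBox x jj - h) - 2 * G (clipBox x) (clipBox x jj) + (amp N jj * h) ^ 2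
  have hpt : ∀ x : Fin N → ℝ, ∀ v, v = clipBox x jj - h ∨ v = clipBox x jj ∨ v = clipBox x jj + h →
      v ∈ Icc (0 : ℝ) 3 := fun x v hv => by
    obtain ⟨h1, h2⟩ := clipBox_mem x jj
    rcases hv with rfl | rfl | rfl <;> constructor <;> linarith
  have hgp := fun x : Fin N → ℝ => gg_point (M := M) P π hN0 hn' Λ (clipBox x) jj
    (u := clipBox x jj) (h := h) (D := C * √(N : ℝ))
    (by linarith [(clipBox_mem x jj).1]) hh0 fun v hv => hn0 n (by omega) Λ hΛ _
      (update_box (clipBox_mem x) jj (hpt x v hv))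
  have hE0 : ∀ x, 0 ≤ E x := fun x => (hgp x).1
  have hcm : Continuous fun x : Fin N → ℝ => clipBox x := by
    unfold clipBox; fun_prop
  have hGi : ∀ sh : ℝ, |sh| ≤ h →
      Integrable (fun x => G (clipBox x) (clipBox x jj + sh)) (xlaw N) := fun sh hsh => by
    obtain ⟨R, hR⟩ := (isCompact_univ_pi fun _ : Fin N => isCompact_Icc (a := (0 : ℝ)) (b := 3))
      |>.exists_bound_of_continuousOn (continuous_stdc (M := M) Λ).continuousOn
    have hu : Continuous fun x : Fin N → ℝ =>
        Function.update (clipBox x) jj (clipBox x jj + sh) :=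
      hcm.update jj (((continuous_apply jj).comp hcm).add_const sh)
    refine (continuous_mfree_param P π hn' (xlaw N) (c := fun x =>
      (stdc Λ (ext0 (Function.update (clipBox x) jj (clipBox x jj + sh))) : CIdx N M K → ℝ))
      (fun i => ((continuous_apply i).comp ((continuous_stdc Λ).comp hu)).measurable)
      (R := R) fun x i => ((Real.norm_eq_abs _).symm.trans_le (norm_le_pi_norm _ i)).trans
        (hR _ fun i _ => update_box (clipBox_mem x) jj ?_ i)).2
    obtain ⟨h1, h2⟩ := clipBox_mem x jj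
    obtain ⟨h3, h4⟩ := abs_le.1 hsh
    constructor <;> linarith
  have hEi : Integrable E (xlaw N) := by
    have h1 := hGi h (abs_of_pos hh0).le
    have h2 := hGi (-h) (by rw [abs_neg, abs_of_pos hh0])
    have h3 := hGi 0 (by simpa using hh0.le)
    simp only [add_zero, ← sub_eq_add_neg] at h2 h3
    exact ((h1.add h2).sub (h3.const_mul 2)).add (integrable_const _)
  set K0 := 2 / (amp N j * y ^ 2) with hK0
  have hK00 : 0 ≤ K0 := by positivity
  set δ : (Fin N → ℝ) → ℝ := fun x => K0 * (Real.log 2 + E x / 2 + 3 * (C * √(N : ℝ)))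
  refine ⟨δ, (((integrable_const _).add (hEi.div_const 2)).add (integrable_const _)).const_mul _,
    fun x => mul_nonneg hK00 (by have := hE0 x; have := Real.log_nonneg one_le_two; positivity),
    ?_, fun x hx r F hF => ?_⟩
  · have hEle : ∫ x, E x ∂xlaw N ≤ 2 * h * (3 * amp N jj ^ 2 * h) + (amp N jj * h) ^ 2 := by
      obtain ⟨m, rfl⟩ : ∃ m, N = m + 1 := ⟨N - 1, by omega⟩
      have : IsProbabilityMeasure (volume.restrict (Icc (1 : ℝ) 2)) := ⟨by norm_num⟩
      have mp := measurePreserving_piFinSuccAbove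
        (fun _ : Fin (m + 1) => (volume.restrict (Icc (1 : ℝ) 2))) jj
      have hEE : Integrable (fun p => E ((MeasurableEquiv.piFinSuccAbove (fun _ => ℝ) jj).symm p))
          ((volume.restrict (Icc (1 : ℝ) 2)).prod (xlaw m)) :=
        ((mp.symm _).integrable_comp_emb (MeasurableEquiv.measurableEmbedding _)).2 hEi
      have e : ∫ x, E x ∂xlaw (m + 1) =
          ∫ p, E ((MeasurableEquiv.piFinSuccAbove (fun _ => ℝ) jj).symm p)
            ∂(volume.restrict (Icc (1 : ℝ) 2)).prod (xlaw m) :=
        ((mp.symm _).integral_comp (MeasurableEquiv.measurableEmbedding _) E).symm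
      rw [e, integral_prod_symm _ hEE]
      refine (integral_mono_of_nonneg (ae_of_all _ fun w => integral_nonneg fun u => hE0 _)
        (integrable_const _) (ae_xlaw_box.mono fun w hw => ?_)).trans_eq
        (by simp only [integral_const, probReal_univ, one_smul]; rfl)
      show ∫ u in Icc (1 : ℝ) 2, E ((MeasurableEquiv.piFinSuccAbove (fun _ => ℝ) jj).symm (u, w))
        ≤ 2 * h * (3 * amp (m + 1) jj ^ 2 * h) + (amp (m + 1) jj * h) ^ 2
      set g : ℝ → ℝ := fun v => G (jj.insertNth 1 w) v
      have hbox : ∀ v ∈ Icc (1 : ℝ) 2, ∀ i, jj.insertNth (α := fun _ => ℝ) v w i ∈ Icc (1 : ℝ) 2 :=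
        fun v hv i => by
          refine Fin.succAboveCases jj ?_ (fun k => ?_) i
          · rwa [Fin.insertNth_apply_same]
          · rw [Fin.insertNth_apply_succAbove]; exact hw k
      have hins : ∀ u ∈ Icc (1 : ℝ) 2,
          E ((MeasurableEquiv.piFinSuccAbove (fun _ => ℝ) jj).symm (u, w))
            = g (u + h) + g (u - h) - 2 * g u + (amp (m + 1) jj * h) ^ 2 := fun u hu => by
        have hE : E (jj.insertNth (α := fun _ => ℝ) u w)
            = g (u + h) + g (u - h) - 2 * g u + (amp (m + 1) jj * h) ^ 2 := by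
          simp only [E, g, G]
          rw [clipBox_id (hbox u hu)]
          simp only [Fin.insertNth_apply_same, Fin.update_insertNth]
        exact hE
      have hg : ∀ v ∈ Icc (0 : ℝ) 3, ∀ v' ∈ Icc (0 : ℝ) 3,
          |g v - g v'| ≤ 3 * amp (m + 1) jj ^ 2 * |v - v'| := fun v hv v' hv' =>
        mfree_deg_lip P π hN0 hn' hΛ _ jj hv hv'
      have hgc : ContinuousOn g (Icc 0 3) :=
        (LipschitzOnWith.of_dist_le_mul (K := (3 * amp (m + 1) jj ^ 2).toNNReal)
          fun v hv v' hv' => by
            rw [Real.dist_eq, Real.dist_eq, Real.coe_toNNReal _ (by positivity)]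
            exact hg v hv v' hv').continuousOn
      have hint : IntegrableOn (fun u => g (u + h) + g (u - h) - 2 * g u) (Icc 1 2) :=
        (((hgc.comp (continuous_add_const h).continuousOn fun u hu =>
            (⟨by linarith [hu.1], by linarith [hu.2]⟩ : u + h ∈ Icc (0 : ℝ) 3)).add
          (hgc.comp (continuous_sub_right h).continuousOn fun u hu =>
            (⟨by linarith [hu.1], by linarith [hu.2]⟩ : u - h ∈ Icc (0 : ℝ) 3))).sub
          ((hgc.mono fun u hu => ⟨zero_le_one.trans hu.1, hu.2.trans (by norm_num)⟩).const_mul 2)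
          ).integrableOn_compact isCompact_Icc
      rw [setIntegral_congr_fun measurableSet_Icc hins,
        integral_add hint (integrable_const _)]
      refine add_le_add (integral_second_diff ⟨hh0.le, by linarith⟩ hg) (le_of_eq ?_)
      simp
    simp only [δ]
    have hi2 : Integrable (fun x => Real.log 2 + E x / 2) (xlaw N) :=
      (integrable_const _).add (hEi.div_const 2)
    rw [integral_const_mul, integral_add hi2 (integrable_const _),
      integral_add (integrable_const _) (hEi.div_const 2), integral_div]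
    simp only [integral_const, probReal_univ, one_smul]
    have e7 : 2 * h * (3 * amp N jj ^ 2 * h) + (amp N jj * h) ^ 2 = 7 * y ^ 4 := by
      linear_combination 7 * (amp N jj * h + y ^ 2) * hah
    have hl : Real.log 2 ≤ 1 := by linarith [Real.log_le_sub_one_of_pos (two_pos (α := ℝ))]
    have hy1 : 1 ≤ y := (one_le_pow₀ (by norm_num)).trans hy2
    have hy4 : (1 : ℝ) ≤ y ^ 4 := one_le_pow₀ hy1
    rw [e4]
    refine (mul_le_mul_of_nonneg_left
      (show _ ≤ (5 + 3 * C) * y ^ 4 by linarith [hEle.trans_eq e7]) hK00).trans ?_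
    have hyε : A ≤ ε * y := by rw [div_le_iff₀ hε] at hyA; linarith
    have eK : K0 * ((5 + 3 * C) * y ^ 4) = A / y := by
      rw [hK0, hamp]
      simp only [A]
      field_simp
      ring
    rw [eK, div_le_iff₀ hy0]
    exact hyε
  · have hx' := clipBox_id hx
    obtain ⟨-, h2⟩ := hgp x
    rw [hx'] at h2
    have hEx : E x = G x (x jj + h) + G x (x jj - h) - 2 * G x (x jj) + (amp N jj * h) ^ 2 := by
      simp only [E, hx']
    have h3 : |ggDef (envLaw N M K n) (mbw P π (stdc Λ (ext0 (Function.update x jj (x jj)))))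
        (fun s s' => ovS N π s s' ^ (jj.val + 1)) r F|
        ≤ 2 * ((Real.log 2 + E x / 2 + 3 * (C * √(N : ℝ))) / (amp N jj * h)) / (amp N jj * x jj) := by
      rw [hEx]
      exact h2 r F hF
    rw [Function.update_eq_self, hah] at h3
    refine h3.trans ?_
    have hX0 : 0 ≤ Real.log 2 + E x / 2 + 3 * (C * √(N : ℝ)) := by
      exact add_nonneg (add_nonneg (Real.log_nonneg one_le_two) (div_nonneg (hE0 x) zero_le_two))
        (mul_nonneg zero_le_three (mul_nonneg hC (Real.sqrt_nonneg _)))
    simp only [δ]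
    generalize Real.log 2 + E x / 2 + 3 * (C * √(N : ℝ)) = X at hX0 ⊢
    rw [hK0, show 2 / (amp N j * y ^ 2) * X = 2 * (X / y ^ 2) / (amp N j * 1) by field_simp]
    exact div_le_div_of_nonneg_left (by positivity) (by positivity)
      (mul_le_mul_of_nonneg_left (hx jj).1 ha.le)

end Vale.Agent.P157.Casc
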