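import Vale.Agent.P157.Casc.PSync
import Vale.Agent.P157.Casc.ModelGG
import Vale.Agent.P157.Casc.ModelConc

/-!
Smallness of both overlap errors of the standard systems, without hypotheses.
-/

open MeasureTheory ProbabilityTheory Filter Topology Set

namespace Vale.Agent.P157.Casc

/-- The overlap errors of the standard systems are small on average over the perturbation. -/
theorem base_small (P : Pot) (α L : ℝ) {ε : ℝ} (hε : 0 < ε) :
    ∃ K0 : ℕ, ∀ K ≥ K0, ∃ N1 : ℕ, ∀ N ≥ N1, ∀ M : ℕ, (M : ℝ) ≤ α * N →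
      ∃ n0 : ℕ, ∀ n ≥ n0, ∀ Λ : Par K, Adm K L Λ →
        ∫ x, baseErr n M N P Λ (ext0 x) ∂xlaw N ≤ ε :=
  base_small_of P α L (fun K j ε hε => model_gg P α L (model_conc P α L) K j ε hε) hε

end Vale.Agent.P157.Casc
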