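import Vale.Agent.P157.Casc.Glue

/-!
The Ising prior, projection on monotone paths, effective paths, and passing from sequences to
uniform statements on compact parameter sets.
-/

open MeasureTheory ProbabilityTheory Filter Topology

namespace Vale.Agent.P157.Casc

/-- Sign of a Boolean. -/
def sgn (b : Bool) : ℝ := if b then 1 else -1

theorem sgn_sq (b : Bool) : sgn b ^ 2 = 1 := by cases b <;> simp [sgn]

/-- The uniform prior on the Ising cube. -/
noncomputable def isingP (N : ℕ) : Prior N where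
  c := Fintype.card (Fin N → Bool)
  w _ := ((2 : ℝ) ^ N)⁻¹
  spin σ j := sgn ((Fintype.equivFin (Fin N → Bool)).symm σ j)
  w_pos _ := by positivity
  w_sum := by simp
  norm_spin σ := by simp [sgn_sq]

theorem isingP_spin_sq {N : ℕ} (σ : Fin (isingP N).c) (j : Fin N) :
    (isingP N).spin σ j ^ 2 = 1 := sgn_sq _

/-- A sum over the Ising prior is a sum over Boolean configurations. -/
theorem sum_isingP {N : ℕ} (g : (Fin N → ℝ) → ℝ) :
    ∑ σ, (isingP N).w σ * g ((isingP N).spin σ)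
      = ((2 : ℝ) ^ N)⁻¹ * ∑ b : Fin N → Bool, g (fun j => sgn (b j)) := by
  rw [Finset.mul_sum]
  exact Equiv.sum_comp (Fintype.equivFin (Fin N → Bool)).symm
    fun b => ((2 : ℝ) ^ N)⁻¹ * g (fun j => sgn (b j))

/-- Truncation to `[0, L]`. -/
def trunc (L v : ℝ) : ℝ := max 0 (min L v)

/-- Running maximum of the truncations: the projection on monotone paths. -/
noncomputable def monoP {K : ℕ} (L : ℝ) (v : Fin (K + 1) → ℝ) (l : Fin (K + 1)) : ℝ :=
  (Finset.Iic l).sup' ⟨l, Finset.mem_Iic.2 le_rfl⟩ fun i => trunc L (v i)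

theorem monotone_monoP {K : ℕ} (L : ℝ) (v : Fin (K + 1) → ℝ) : Monotone (monoP L v) :=
  fun a b hab => Finset.sup'_le _ _ fun _ hi =>
    Finset.le_sup' (f := fun i => trunc L (v i)) (Finset.mem_Iic.2 ((Finset.mem_Iic.1 hi).trans hab))

theorem monoP_nonneg {K : ℕ} (L : ℝ) (v : Fin (K + 1) → ℝ) (l : Fin (K + 1)) : 0 ≤ monoP L v l :=
  (le_max_left _ _).trans
    (Finset.le_sup' (f := fun i => trunc L (v i)) (Finset.mem_Iic.2 (le_refl l)))

theorem monoP_le {K : ℕ} {L : ℝ} (hL : 0 ≤ L) (v : Fin (K + 1) → ℝ) (l : Fin (K + 1)) :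
    monoP L v l ≤ L :=
  Finset.sup'_le _ _ fun _ _ => max_le hL (min_le_left _ _)

theorem continuous_monoP {K : ℕ} (L : ℝ) : Continuous (monoP (K := K) L) :=
  continuous_pi fun l => Continuous.finset_sup'_apply
    (⟨l, Finset.mem_Iic.2 le_rfl⟩ : (Finset.Iic l).Nonempty) fun i _ => by
      unfold trunc; fun_prop

theorem abs_trunc_sub_le {L v w e : ℝ} (h0 : 0 ≤ w) (h1 : w ≤ L) (h : |v - w| ≤ e) :
    |trunc L v - w| ≤ e := by
  have := abs_le.1 h
  have he : 0 ≤ e := (abs_nonneg _).trans h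
  refine abs_le.2 ⟨?_, ?_⟩
  · rcases min_cases L v with ⟨hm, _⟩ | ⟨hm, _⟩ <;> rw [trunc, hm] <;>
      linarith [le_max_right 0 L, le_max_right 0 v]
  · rw [sub_le_iff_le_add]
    exact max_le (by linarith) ((min_le_right _ _).trans (by linarith))

theorem abs_monoP_sub_le {K : ℕ} {L e : ℝ} {v w : Fin (K + 1) → ℝ} (hw : Monotone w)
    (h0 : ∀ l, 0 ≤ w l) (h1 : ∀ l, w l ≤ L) (h : ∀ l, |v l - w l| ≤ e) (l : Fin (K + 1)) :
    |monoP L v l - w l| ≤ e := by
  have ht := fun i => abs_le.1 (abs_trunc_sub_le (h0 i) (h1 i) (h i))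
  refine abs_le.2 ⟨?_, ?_⟩
  · have := Finset.le_sup' (f := fun i => trunc L (v i)) (Finset.mem_Iic.2 (le_refl l))
    have := (ht l).1
    simp only [monoP]
    linarith
  · rw [sub_le_iff_le_add]
    exact Finset.sup'_le _ _ fun i hi => by
      linarith [(ht i).2, hw (Finset.mem_Iic.1 hi)]

/-- Monotone spin-overlap path of a system. -/
noncomputable def qhat {N M K : ℕ} (n : ℕ) (P : Pot) (π : Prior N) (c : CIdx N M K → ℝ)
    (l : Fin (K + 1)) : ℝ :=
  if l = Fin.last K then 1 else monoP 1 (qX n N P π c) l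

theorem qhat_mem {N M K : ℕ} (n : ℕ) (P : Pot) (π : Prior N) (c : CIdx N M K → ℝ) :
    qhat n P π c ∈ pathsQ K := by
  refine ⟨fun a b hab => ?_, ?_, if_pos rfl⟩
  · unfold qhat
    split_ifs with ha hb hb
    · exact le_rfl
    · exact absurd (le_antisymm (Fin.le_last b) (ha ▸ hab)) hb
    · exact monoP_le zero_le_one _ _
    · exact monotone_monoP _ _ hab
  · unfold qhat
    split_ifs
    · exact zero_le_one
    · exact monoP_nonneg _ _ _

/-- Effective pattern path. -/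
def qeff {K : ℕ} (Λ : Par K) (q : Fin (K + 1) → ℝ) (l : Fin (K + 1)) : ℝ := Λ.1 * q l + Λ.2.1 l

/-- Predicted overlap of derivatives. -/
noncomputable def pvec {K : ℕ} (P : Pot) (r : ℝ) (Λ : Par K) (q : Fin (K + 1) → ℝ)
    (l : Fin (K + 1)) : ℝ :=
  r * vF P (qeff Λ q) l

/-- Effective spin path. -/
def ceff {K : ℕ} (Λ : Par K) (p : Fin (K + 1) → ℝ) (l : Fin (K + 1)) : ℝ := Λ.2.2 l + Λ.1 * p l

theorem qeff_mem {K : ℕ} {L : ℝ} {Λ : Par K} (h : Adm K L Λ) {q : Fin (K + 1) → ℝ}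
    (hq : q ∈ pathsQ K) : qeff Λ q ∈ pathsQ K := by
  refine ⟨fun a b hab => ?_, add_nonneg (mul_nonneg h.1.1 hq.2.1) h.2.2.1, ?_⟩
  · exact add_le_add (mul_le_mul_of_nonneg_left (hq.1 hab) h.1.1) (h.2.1 hab)
  · simp only [qeff, hq.2.2, h.2.2.2.1]; ring

/-- From sequences to uniform statements on a compact set. -/
theorem uniform_of_seq {E : Type*} [TopologicalSpace E] [FirstCountableTopology E] {s : Set E}
    (hs : IsCompact s) {D : ℕ → E → ℝ}
    (h : ∀ (c : ℕ → E) (cl : E) (nn : ℕ → ℕ), (∀ k, c k ∈ s) → cl ∈ s →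
      Tendsto c atTop (𝓝 cl) → Tendsto nn atTop atTop → ∀ ε, 0 < ε →
      ∀ᶠ k in atTop, D (nn k) (c k) ≤ ε)
    {ε : ℝ} (hε : 0 < ε) : ∃ n0, ∀ n ≥ n0, ∀ c ∈ s, D n c ≤ ε := by
  by_contra hne
  push Not at hne
  choose nn hnn c hc hD using hne
  obtain ⟨cl, hcl, φ, hφ, hlim⟩ := hs.tendsto_subseq hc
  have hinf : Tendsto (fun k => nn (φ k)) atTop atTop :=
    tendsto_atTop_mono (fun k => (hφ.id_le k).trans (hnn (φ k))) tendsto_id
  obtain ⟨k, hk⟩ := (h (c ∘ φ) cl (fun k => nn (φ k)) (fun k => hc _) hcl hlim hinf ε hε).exists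
  exact absurd hk (not_le.2 (hD _))

/-- Limits along all converging sequences are continuous. -/
theorem continuousOn_of_seq {E : Type*} [TopologicalSpace E] [FirstCountableTopology E]
    {s : Set E} {F : ℕ → E → ℝ} {G : E → ℝ}
    (h : ∀ (c : ℕ → E) (cl : E) (nn : ℕ → ℕ), (∀ k, c k ∈ s) → cl ∈ s →
      Tendsto c atTop (𝓝 cl) → Tendsto nn atTop atTop →
      Tendsto (fun k => F (nn k) (c k)) atTop (𝓝 (G cl))) : ContinuousOn G s := by
  intro x hx
  refine tendsto_iff_seq_tendsto.2 fun c hc => ?_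
  obtain ⟨hlim, hmem⟩ := tendsto_nhdsWithin_iff.1 hc
  obtain ⟨k0, hk0⟩ := eventually_atTop.1 hmem
  have hc' : ∀ k, c (k + k0) ∈ s := fun k => hk0 _ (Nat.le_add_left k0 k)
  have hsel : ∀ k, ∃ n, k ≤ n ∧ |F n (c (k + k0)) - G (c (k + k0))| ≤ 1 / ((k : ℝ) + 1) := by
    intro k
    have := h (fun _ => c (k + k0)) _ id (fun _ => hc' k) (hc' k) tendsto_const_nhds tendsto_id
    obtain ⟨n, hn⟩ := ((this.eventually (Metric.closedBall_mem_nhds _
      (by positivity : (0 : ℝ) < 1 / ((k : ℝ) + 1)))).and (eventually_ge_atTop k)).exists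
    exact ⟨n, hn.2, by simpa [Metric.mem_closedBall, Real.dist_eq] using hn.1⟩
  choose nn hn hd using hsel
  have h1 := h (fun k => c (k + k0)) x nn hc' hx (hlim.comp (tendsto_add_atTop_nat k0))
    (tendsto_atTop_mono hn tendsto_id)
  rw [← tendsto_add_atTop_iff_nat k0]
  have h2 : Tendsto (fun k => G (c (k + k0)) - F (nn k) (c (k + k0))) atTop (𝓝 0) :=
    squeeze_zero_norm (fun k => by rw [Real.norm_eq_abs, abs_sub_comm]; exact hd k)
      tendsto_one_div_add_atTop_nhds_zero_nat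
  simpa using h2.add h1

end Vale.Agent.P157.Casc
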