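import Vale.Agent.P157.Casc.Limit
import Vale.Agent.P150.Fast.GaussTail

/-!
Concentration of the logarithm on trees with Gaussian roots, from the fluctuation of the tree and
Gaussian concentration of the limiting recursion in the root.
-/

open MeasureTheory ProbabilityTheory Filter Topology Set

namespace Vale.Agent.P157.Casc

/-- The mean deviation of a Lipschitz function of independent standard Gaussians. -/
theorem gauss_dev : ∃ C : ℝ, 0 ≤ C ∧ ∀ (R : Type) (_ : Fintype R) (U : (R → ℝ) → ℝ) (L : ℝ),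
    0 < L → (∀ g h, |U g - U h| ≤ L * √(∑ i, (g i - h i) ^ 2)) →
      Integrable U (gaus R) ∧ ∫ g, |U g - ∫ h, U h ∂gaus R| ∂gaus R ≤ C * L := by
  refine ⟨2 * Real.exp (Real.pi ^ 2 / 8), by positivity, fun R _ U L hL hU => ?_⟩
  obtain ⟨i1, b1⟩ := P150.Fast.gaussMgf R U L hL hU L⁻¹
  obtain ⟨i2, b2⟩ := P150.Fast.gaussMgf R U L hL hU (-L⁻¹)
  simp only [show P150.gp R = gaus R from rfl] at i1 i2 b1 b2
  set m := ∫ h, U h ∂gaus R
  have hUc : Continuous U := by
    refine continuous_iff_continuousAt.2 fun g => tendsto_iff_dist_tendsto_zero.2 ?_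
    refine squeeze_zero (fun h => dist_nonneg) (fun h => (Real.dist_eq _ _).trans_le (hU h g)) ?_
    have : Continuous fun h : R → ℝ => L * √(∑ i, (h i - g i) ^ 2) := by fun_prop
    simpa using this.tendsto g
  have hpt : ∀ g, |U g - m| ≤ L * (Real.exp (L⁻¹ * (U g - m)) + Real.exp (-L⁻¹ * (U g - m))) :=
      fun g => by
    have e : |U g - m| = L * |L⁻¹ * (U g - m)| := by
      rw [abs_mul, abs_of_pos (inv_pos.2 hL), ← mul_assoc, mul_inv_cancel₀ hL.ne', one_mul]
    rw [e, neg_mul]
    refine mul_le_mul_of_nonneg_left ?_ hL.le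
    have a1 := Real.add_one_le_exp (L⁻¹ * (U g - m))
    have a2 := Real.add_one_le_exp (-(L⁻¹ * (U g - m)))
    exact abs_le.2 ⟨by linarith [Real.exp_pos (L⁻¹ * (U g - m))],
      by linarith [Real.exp_pos (-(L⁻¹ * (U g - m)))]⟩
  have hb : Integrable (fun g => L * (Real.exp (L⁻¹ * (U g - m)) + Real.exp (-L⁻¹ * (U g - m))))
      (gaus R) := (i1.add i2).const_mul L
  refine ⟨?_, ?_⟩
  · refine (hb.add (integrable_const |m|)).mono' hUc.aestronglyMeasurable
      (ae_of_all _ fun g => ?_)
    rw [Real.norm_eq_abs, Pi.add_apply]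
    linarith [hpt g, abs_sub_abs_le_abs_sub (U g) m]
  · refine (integral_mono_of_nonneg (ae_of_all _ fun g => abs_nonneg _) hb
      (ae_of_all _ hpt)).trans ?_
    rw [integral_const_mul, integral_add i1 i2]
    have e : Real.pi ^ 2 * L ^ 2 * L⁻¹ ^ 2 / 8 = Real.pi ^ 2 / 8 := by field_simp
    rw [e] at b1
    rw [neg_sq, e] at b2
    linarith [mul_le_mul_of_nonneg_left (add_le_add b1 b2) hL.le]

/-- The recursion moves by at most the shift of its exponent. -/
theorem casc_le_add {X : Type} [MeasurableSpace X] {ν : Measure X} [IsProbabilityMeasure ν] (D : ℝ) :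
    ∀ (K : ℕ) {m : Fin K → ℝ}, Grid m → ∀ {H H' : (Fin K → X) → ℝ}, Measurable H → Measurable H' →
      Integrable (fun y => Real.exp (H y)) (Measure.pi fun _ => ν) →
      Integrable (fun y => Real.exp (H' y)) (Measure.pi fun _ => ν) →
      (∀ y, H y ≤ H' y + D) → casc ν K m H ≤ casc ν K m H' + D
  | 0, _, _, H, H', _, _, _, _, h => h _
  | K + 1, m, hm, H, H', hH, hH', hi, hi', h => by
    obtain ⟨hw, hpos⟩ := weight_integrable hm hH hi
    obtain ⟨hw', hpos'⟩ := weight_integrable hm hH' hi'
    have h0 := hm.pos 0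
    have hle : ∫ c, Real.exp (m 0 * casc ν K (fun l => m l.succ) fun y => H (Fin.cons c y)) ∂ν
        ≤ Real.exp (m 0 * D) * ∫ c, Real.exp (m 0 *
            casc ν K (fun l => m l.succ) fun y => H' (Fin.cons c y)) ∂ν := by
      rw [← integral_const_mul]
      refine integral_mono_ae hw (hw'.const_mul _) ?_
      filter_upwards [(Rec.slice hi).1, (Rec.slice hi').1] with c hc hc'
      rw [← Real.exp_add, Real.exp_le_exp, ← mul_add, add_comm D]
      exact mul_le_mul_of_nonneg_left (casc_le_add D K hm.tail (measurable_consFix hH c)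
        (measurable_consFix hH' c) hc hc' fun y => h _) h0.le
    have hl := Real.log_le_log hpos hle
    rw [Real.log_mul (Real.exp_pos _).ne' hpos'.ne', Real.log_exp] at hl
    simp only [casc]
    have := mul_le_mul_of_nonneg_left hl (inv_nonneg.2 h0.le)
    rw [mul_add, ← mul_assoc, inv_mul_cancel₀ h0.ne', one_mul] at this
    linarith

/-- Concentration on trees: the fluctuation of the tree and that of the root add up. -/
theorem tree_conc {K : ℕ} {m : Fin K → ℝ} (hm : Grid m) : ∃ C : ℝ, 0 ≤ C ∧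
    ∀ (R X : Type) (_ : Fintype R) (_ : MeasurableSpace X) (ν : Measure X),
      IsProbabilityMeasure ν →
      ∀ (Y : ℕ → (R → ℝ) → (Fin K → X) → ℝ) (Yl E : (R → ℝ) → (Fin K → X) → ℝ),
      Conv (gaus R) ν Y Yl E → ∀ L : ℝ, 0 < L →
      (∀ z z' y, Real.log (Yl z y) ≤ Real.log (Yl z' y) + L * √(∑ i, (z i - z' i) ^ 2)) →
      ∀ nn : ℕ → ℕ, Tendsto nn atTop atTop → ∀ᶠ k in atTop,
      ∫ q : (R → ℝ) × (Node K (nn k) → ℝ) × (Node K (nn k) → X),
        |logS m (Y k q.1) q.2.1 q.2.2 -
          ∫ p : (R → ℝ) × (Node K (nn k) → ℝ) × (Node K (nn k) → X),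
            logS m (Y k p.1) p.2.1 p.2.2 ∂(gaus R).prod ((casW m (nn k)).prod (casX K (nn k) ν))|
        ∂(gaus R).prod ((casW m (nn k)).prod (casX K (nn k) ν)) ≤ C + C * L := by
  obtain ⟨C1, hC1⟩ := casc_conc hm
  obtain ⟨C2, hC2, hdev⟩ := gauss_dev
  refine ⟨2 * |C1| + C2, by positivity, fun R X _ _ ν _ Y Yl E h L hL hlip nn hn => ?_⟩
  obtain ⟨-, henv⟩ := h.env_mean
  set r : (R → ℝ) → ℝ := fun z => casc ν K m fun y => Real.log (Yl z y)
  have hrm : Measurable r :=
    measurable_casc_param K m (H := fun z y => Real.log (Yl z y)) h.measl.log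
  have hint : ∀ᵐ z ∂gaus R, Integrable (fun y => Real.exp (Real.log (Yl z y)))
      (Measure.pi fun _ : Fin K => ν) := by
    filter_upwards [henv] with z hz
    simpa only [Real.exp_log (h.posl z _)] using hz.intl
  -- the root part: Lipschitz wherever the exponent is integrable
  have hall : ∀ z, Integrable (fun y => Real.exp (Real.log (Yl z y)))
      (Measure.pi fun _ : Fin K => ν) := fun z => by
    obtain ⟨z', hz'⟩ := hint.exists
    refine (hz'.const_mul (Real.exp (L * √(∑ i, (z i - z' i) ^ 2)))).mono'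
      ((h.measl.comp measurable_prodMk_left).log.exp).aestronglyMeasurable
      (ae_of_all _ fun y => ?_)
    rw [Real.norm_eq_abs, abs_of_pos (Real.exp_pos _), ← Real.exp_add, Real.exp_le_exp]
    linarith [hlip z z' y]
  have hmy : ∀ z, Measurable fun y => Real.log (Yl z y) := fun z =>
    (h.measl.comp measurable_prodMk_left).log
  have hr1 : ∀ z z', r z ≤ r z' + L * √(∑ i, (z i - z' i) ^ 2) := fun z z' =>
    casc_le_add _ K hm (hmy z) (hmy z') (hall z) (hall z') (hlip z z')
  have hrlip : ∀ z z', |r z - r z'| ≤ L * √(∑ i, (z i - z' i) ^ 2) := fun z z' => by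
    have h1 := hr1 z' z
    rw [show ∑ i, (z' i - z i) ^ 2 = ∑ i, (z i - z' i) ^ 2 from
      Finset.sum_congr rfl fun i _ => by ring] at h1
    exact abs_le.2 ⟨by linarith, by linarith [hr1 z z']⟩
  obtain ⟨hri, hrdev⟩ := hdev R _ r L hL hrlip
  set m0 := ∫ z, r z ∂gaus R
  filter_upwards [hC1 (R → ℝ) X _ _ (gaus R) ν inferInstance inferInstance Y Yl E h nn hn,
    hn.eventually (eventually_gt_atTop 0)] with k hk hnpos
  have : IsProbabilityMeasure (casX K (nn k) ν) := by unfold casX; infer_instance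
  set μ := (gaus R).prod ((casW m (nn k)).prod (casX K (nn k) ν))
  set F : (R → ℝ) × (Node K (nn k) → ℝ) × (Node K (nn k) → X) → ℝ :=
    fun q => logS m (Y k q.1) q.2.1 q.2.2
  have hFi : Integrable F μ := integrable_logS hm hnpos (E0 := E)
    ⟨fun _ => h.meas k, h.meas k, h.measE, fun _ z y => h.bound k z y,
      fun _ _ => tendsto_const_nhds, h.expint⟩
  set c := cst m (nn k)
  set D := fun q : (R → ℝ) × (Node K (nn k) → ℝ) × (Node K (nn k) → X) => F q - c - r q.1
  have hri' : Integrable (fun q : (R → ℝ) × (Node K (nn k) → ℝ) × (Node K (nn k) → X) => r q.1) μ :=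
    hri.comp_fst _
  have hDi : Integrable D μ := (hFi.sub (integrable_const c)).sub hri'
  have hD1 : ∫ q, |D q| ∂μ ≤ |C1| := by
    refine le_trans (le_of_eq ?_) (hk.trans (le_abs_self C1))
    rw [integral_prod _ hDi.abs]
    refine integral_congr_ae ?_
    filter_upwards [hDi.abs.prod_right_ae] with z hz
    exact integral_prod _ hz
  have hmean : |∫ p, F p ∂μ - c - m0| ≤ |C1| := by
    have e : ∫ q, D q ∂μ = ∫ p, F p ∂μ - c - m0 := by
      simp only [D]
      have hFc : Integrable (fun q => F q - c) μ := hFi.sub (integrable_const c)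
      rw [integral_sub hFc hri', integral_sub hFi (integrable_const c)]
      congr 1
      · simp
      · rw [integral_fun_fst (f := r)]
        simp [m0]
    rw [← e]
    exact abs_integral_le_integral_abs.trans hD1
  have hpt : ∀ q, |F q - ∫ p, F p ∂μ| ≤ |D q| + (|r q.1 - m0| + |C1|) := fun q => by
    have e : F q - ∫ p, F p ∂μ = D q + ((r q.1 - m0) + -(∫ p, F p ∂μ - c - m0)) := by
      simp only [D]; ring
    rw [e]
    refine (abs_add_le _ _).trans (add_le_add le_rfl ((abs_add_le _ _).trans ?_))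
    rw [abs_neg]
    linarith
  have hrd : Integrable (fun z => |r z - m0|) (gaus R) := (hri.sub (integrable_const m0)).abs
  have hrd' : Integrable (fun q : (R → ℝ) × (Node K (nn k) → ℝ) × (Node K (nn k) → X) =>
      |r q.1 - m0| + |C1|) μ := (hrd.comp_fst _).add (integrable_const _)
  refine (integral_mono_of_nonneg (ae_of_all _ fun q => abs_nonneg _) (hDi.abs.add hrd')
    (ae_of_all _ hpt)).trans ?_
  simp only [Pi.add_apply]
  rw [integral_add hDi.abs hrd', integral_add (hrd.comp_fst _) (integrable_const _),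
    integral_fun_fst (f := fun z => |r z - m0|)]
  simp only [integral_const, probReal_univ, one_smul]
  nlinarith [abs_nonneg C1]

end Vale.Agent.P157.Casc
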