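import Vale.Agent.P157.Casc.Basic

/-!
Covariances of the fields of the model.
-/

open MeasureTheory ProbabilityTheory Filter Topology

namespace Vale.Agent.P157.Casc

variable {N M K n : ℕ}

theorem node_eq_iff (α β : Leaf K n) (l : Fin K) :
    node α l = node β l ↔ ∀ i : Fin K, i ≤ l → α i = β i := by
  simp only [node, Sigma.mk.inj_iff, heq_eq_eq, true_and, funext_iff]
  exact ⟨fun h i hi => h ⟨i.val, Nat.lt_succ_of_le hi⟩,
    fun h i => h _ (Nat.le_of_lt_succ i.isLt)⟩

theorem node_eq_iff_lt (α β : Leaf K n) (l : Fin K) :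
    node α l = node β l ↔ l.val < (com α β : ℕ) := by
  classical
  set S := Finset.univ.filter fun i : Fin K => node α i = node β i with hS
  have hdown : ∀ i j : Fin K, j ≤ i → i ∈ S → j ∈ S := fun i j hji hi => by
    simp only [hS, Finset.mem_filter, Finset.mem_univ, true_and, node_eq_iff] at hi ⊢
    exact fun i' hi' => hi i' (hi'.trans hji)
  have hcom : (com α β : ℕ) = S.card := rfl
  constructor
  · intro h
    have hsub : Finset.Iic l ⊆ S := fun j hj =>
      hdown l j (Finset.mem_Iic.1 hj) (Finset.mem_filter.2 ⟨Finset.mem_univ _, h⟩)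
    have := Finset.card_le_card hsub
    rw [Fin.card_Iic] at this
    omega
  · intro h
    by_contra hne
    have hsub : S ⊆ Finset.Iio l := fun j hj => Finset.mem_Iio.2 <| by
      by_contra hle
      exact hne (Finset.mem_filter.1 (hdown j l (not_lt.1 hle) hj)).2
    have := Finset.card_le_card hsub
    rw [Fin.card_Iio] at this
    omega

theorem com_self (α : Leaf K n) : com α α = Fin.last K :=
  Fin.ext (by simp [com, Fin.val_last])

theorem com_comm (α β : Leaf K n) : com α β = com β α := by
  simp only [com, eq_comm]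

/-- Products of indicators select the common ancestors. -/
theorem sum_below_pair (α β : Leaf K n) (F : Fin (K + 1) → ℝ) :
    ∑ o : Option (Node K n), below α o * below β o * F (lev o)
      = ∑ l ∈ Finset.Iic (com α β), F l := by
  have h1 := sum_below α fun o => below β o * F (lev o)
  simp only [← mul_assoc] at h1
  rw [h1]
  have h2 : ∀ l : Fin K, below β (some (node α l)) * F (lev (some (node α l)))
      = if l.succ ≤ com α β then F l.succ else 0 := fun l => by
    have hiff : node β l = node α l ↔ l.succ ≤ com α β := by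
      rw [eq_comm, node_eq_iff_lt]
      exact ⟨fun h => Fin.le_def.2 (by simpa using h), fun h => by simpa using Fin.le_def.1 h⟩
    change (if node β l = node α l then (1 : ℝ) else 0) * F l.succ = _
    split_ifs with h h'
    · exact one_mul _
    · exact absurd (hiff.1 h) h'
    · exact absurd (hiff.2 (by assumption)) h
    · exact zero_mul _
  rw [Finset.sum_congr rfl fun l (_ : l ∈ Finset.univ) => h2 l]
  simp only [below, lev, one_mul]
  have h3 : ∑ l ∈ Finset.Iic (com α β), F l
      = ∑ l : Fin (K + 1), if l ≤ com α β then F l else 0 := by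
    rw [← Finset.sum_filter]
    congr 1
    ext l
    simp
  rw [h3, Fin.sum_univ_succ, if_pos (Fin.zero_le _)]

theorem sum_incr (v : Fin (K + 1) → ℝ) (u : Fin (K + 1)) : ∑ l ∈ Finset.Iic u, incr v l = v u := by
  induction u using Fin.induction with
  | zero =>
    rw [show Finset.Iic (0 : Fin (K + 1)) = {0} from Finset.ext fun l => by
      simp [Finset.mem_Iic]]
    simp [incr]
  | succ i ih =>
    rw [show Finset.Iic i.succ = insert i.succ (Finset.Iic i.castSucc) from Finset.ext fun l => by
      simp only [Finset.mem_Iic, Finset.mem_insert, Fin.le_def, Fin.ext_iff, Fin.val_succ,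
        Fin.val_castSucc]
      omega]
    rw [Finset.sum_insert (by simp), ih]
    simp [incr]

/-- Covariance of two pattern fields. -/
theorem cov_bpat (π : Prior N) (c : CIdx N M K → ℝ) (a : Fin M) (st st' : State π K n) :
    ∑ i, pull c i * (bpat π a st i * bpat π a st' i)
      = (∑ j, c (Sum.inl (a, j)) * (π.spin st.1 j * π.spin st'.1 j)) / N
        + ∑ l ∈ Finset.Iic (com st.2 st'.2), c (Sum.inr (l, Sum.inl a)) := by
  simp only [pull, bpat, Fintype.sum_sum_type, Fintype.sum_prod_type, ite_mul, mul_ite, mul_zero,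
    zero_mul, Finset.sum_const_zero, add_zero]
  congr 1
  · rw [Finset.sum_comm, Finset.sum_div]
    refine Finset.sum_congr rfl fun j _ => ?_
    simp only [Finset.sum_ite_eq', Finset.mem_univ, if_true]
    rw [show π.spin st.1 j / √(N : ℝ) * (π.spin st'.1 j / √(N : ℝ))
      = π.spin st.1 j * π.spin st'.1 j / (√(N : ℝ) * √(N : ℝ)) by ring,
      Real.mul_self_sqrt (Nat.cast_nonneg N)]
    ring
  · rw [← sum_below_pair st.2 st'.2 fun l => c (Sum.inr (l, Sum.inl a))]
    simp only [Finset.sum_ite_eq', Finset.mem_univ, if_true]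
    exact Finset.sum_congr rfl fun o _ => by ring

/-- Covariance of two linear fields. -/
theorem cov_bspin (π : Prior N) (c : CIdx N M K → ℝ) (st st' : State π K n) :
    ∑ i, pull c i * (bspin π st i * bspin π st' i)
      = (∑ j : Fin N, π.spin st.1 j * π.spin st'.1 j
          * ∑ l ∈ Finset.Iic (com st.2 st'.2), c (Sum.inr (l, Sum.inr (Sum.inl j))))
        + ∑ t : PIdx N, ((∏ r, π.spin st.1 (t.2.2 r)) * ∏ r, π.spin st'.1 (t.2.2 r))
          * ∑ l ∈ Finset.Iic (com st.2 st'.2), c (Sum.inr (l, Sum.inr (Sum.inr t))) := by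
  simp only [pull, bspin, Fintype.sum_sum_type, Fintype.sum_prod_type, mul_zero,
    Finset.sum_const_zero, zero_add, Finset.sum_add_distrib]
  conv_lhs => arg 1; rw [Finset.sum_comm]
  conv_lhs => arg 2; rw [Finset.sum_comm]
  congr 1 <;> refine Finset.sum_congr rfl fun j _ => ?_
  · rw [← sum_below_pair st.2 st'.2 fun l => c (Sum.inr (l, Sum.inr (Sum.inl j))), Finset.mul_sum]
    exact Finset.sum_congr rfl fun o _ => by ring
  · rw [← sum_below_pair st.2 st'.2 fun l => c (Sum.inr (l, Sum.inr (Sum.inr j))), Finset.mul_sum]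
    exact Finset.sum_congr rfl fun o _ => by ring

/-- Variances of the perturbation carried by a set of spins. -/
noncomputable def pertS (S : Finset (Fin N)) (x : ℕ → ℝ) : CIdx N M K → ℝ
  | Sum.inr (l, Sum.inr (Sum.inr ⟨j, i, t⟩)) =>
      if j.val < S.card ∧ ∀ r, t r ∈ S then
        (amp S.card j * x j) ^ 2 * ((j.val + 1).choose i.val * 3 ^ (j.val + 1 - i.val)
          * incr (powPath K (j.val + 1 - i.val)) l)
          / (((3 * K + 1 : ℕ) : ℝ) ^ (j.val + 1) * (S.card : ℝ) ^ i.val)
      else 0
  | _ => 0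

theorem pertc_eq_pertS (x : ℕ → ℝ) :
    (pertc N x : CIdx N M K → ℝ) = pertS Finset.univ x := by
  funext i
  rcases i with p | ⟨l, a | j | ⟨j, i, t⟩⟩ <;>
    simp [pertc, pertS, Finset.card_univ, Fintype.card_fin]

/-- Overlap restricted to a set of spins. -/
noncomputable def ovSet {K n : ℕ} (S : Finset (Fin N)) (π : Prior N) (st st' : State π K n) : ℝ :=
  (∑ j ∈ S, π.spin st.1 j * π.spin st'.1 j) / S.card

/-- Covariance of the perturbation fields: a series in powers of the kernel. -/
theorem cov_pertS (π : Prior N) (S : Finset (Fin N)) (x : ℕ → ℝ) (st st' : State π K n) :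
    (∑ t : PIdx N, ((∏ r, π.spin st.1 (t.2.2 r)) * ∏ r, π.spin st'.1 (t.2.2 r))
          * ∑ l ∈ Finset.Iic (com st.2 st'.2),
              (pertS (M := M) S x (Sum.inr (l, Sum.inr (Sum.inr t)))))
      = ∑ j ∈ Finset.univ.filter (fun j : Fin N => j.val < S.card), (amp S.card j * x j) ^ 2 *
          ((ovSet S π st st' + 3 * ((com st.2 st'.2 : ℕ) : ℝ)) / ((3 * K + 1 : ℕ) : ℝ))
            ^ (j.val + 1) := by
  classical
  set u := com st.2 st'.2
  rw [Fintype.sum_sigma, Finset.sum_filter]
  refine Finset.sum_congr rfl fun j _ => ?_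
  by_cases hj : j.val < S.card
  swap
  · simp [pertS, hj]
  rw [if_pos hj, Fintype.sum_sigma, div_pow, add_pow, Finset.sum_div, Finset.mul_sum,
    ← Fin.sum_univ_eq_sum_range (fun i => (amp S.card j * x j) ^ 2 *
      (ovSet S π st st' ^ i * (3 * ((u : ℕ) : ℝ)) ^ (j.val + 1 - i) * (j.val + 1).choose i
        / ((3 * K + 1 : ℕ) : ℝ) ^ (j.val + 1)))]
  refine Finset.sum_congr rfl fun i _ => ?_
  have hstep : ∀ t : Fin i.val → Fin N,
      (∑ l ∈ Finset.Iic u, pertS (M := M) S x (Sum.inr (l, Sum.inr (Sum.inr ⟨j, i, t⟩))))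
        = if ∀ r, t r ∈ S then (amp S.card j * x j) ^ 2 * ((j.val + 1).choose i.val
            * 3 ^ (j.val + 1 - i.val) * powPath K (j.val + 1 - i.val) u)
            / (((3 * K + 1 : ℕ) : ℝ) ^ (j.val + 1) * (S.card : ℝ) ^ i.val) else 0 := fun t => by
    simp only [pertS, hj, true_and]
    split_ifs with h
    · rw [← sum_incr (powPath K (j.val + 1 - i.val)) u, Finset.mul_sum, Finset.mul_sum,
        Finset.sum_div]
    · exact Finset.sum_const_zero
  simp only [hstep, mul_ite, mul_zero]
  rw [← Finset.sum_filter, ← Finset.sum_mul]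
  have hprod : (∑ t ∈ Finset.univ.filter (fun t : Fin i.val → Fin N => ∀ r, t r ∈ S),
      (∏ r, π.spin st.1 (t r)) * ∏ r, π.spin st'.1 (t r))
        = (∑ k ∈ S, π.spin st.1 k * π.spin st'.1 k) ^ i.val := by
    rw [show Finset.univ.filter (fun t : Fin i.val → Fin N => ∀ r, t r ∈ S)
      = Fintype.piFinset fun _ => S from Finset.ext fun t => by simp [Fintype.mem_piFinset]]
    simp only [← Finset.prod_mul_distrib]
    rw [← Finset.prod_univ_sum (fun _ => S) fun (_ : Fin i.val) k => π.spin st.1 k * π.spin st'.1 k]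
    simp
  rw [hprod, ovSet, div_pow, mul_pow, powPath]
  rcases Nat.eq_zero_or_pos S.card with h0 | h0
  · omega
  field_simp
  ring

end Vale.Agent.P157.Casc
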