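import Mathlib

/-!
Finite Pareto cascades on a regular tree, Gibbs averages of replicas, and finite Gaussian systems
with a potential.
-/

open MeasureTheory ProbabilityTheory Filter Topology

namespace Vale.Agent.P157.Casc

/-- Leaves of the tree of depth `K` with `n` children per vertex. -/
abbrev Leaf (K n : ℕ) : Type := Fin K → Fin n

/-- Non-root vertices: a level and a prefix. -/
abbrev Node (K n : ℕ) : Type := (l : Fin K) × (Fin (l.val + 1) → Fin n)

/-- The ancestor of a leaf at a level. -/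
def node {K n : ℕ} (α : Leaf K n) (l : Fin K) : Node K n :=
  ⟨l, fun i => α ⟨i.val, lt_of_lt_of_le i.isLt (by omega)⟩⟩

/-- Number of common ancestors of two leaves. -/
def com {K n : ℕ} (α β : Leaf K n) : Fin (K + 1) :=
  ⟨(Finset.univ.filter fun l : Fin K => node α l = node β l).card,
    Nat.lt_succ_of_le ((Finset.card_filter_le _ _).trans_eq (by simp))⟩

/-- Parameters of the levels: `m_l = l / (K + 1)`. -/
noncomputable def mlev (K : ℕ) (l : Fin K) : ℝ := ((l : ℕ) + 1) / ((K : ℝ) + 1)

/-- Probability of one class of pairs of leaves. -/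
noncomputable def pi0 (K : ℕ) : ℝ := 1 / ((K : ℝ) + 1)

/-- The Pareto law with tail `x ^ (-m)` on `[1, ∞)`, as the image of a uniform variable. -/
noncomputable def pareto (m : ℝ) : Measure ℝ :=
  (volume.restrict (Set.Ioc (0 : ℝ) 1)).map fun u => u ^ (-(1 / m))

instance unifOne : IsProbabilityMeasure (volume.restrict (Set.Ioc (0 : ℝ) 1)) :=
  ⟨by simp⟩

instance pareto_prob (m : ℝ) : IsProbabilityMeasure (pareto m) :=
  Measure.isProbabilityMeasure_map (by fun_prop)

/-- Law of the random weights of the vertices. -/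
noncomputable def casW {K : ℕ} (m : Fin K → ℝ) (n : ℕ) : Measure (Node K n → ℝ) :=
  Measure.pi fun v => pareto (m v.1)

instance casW_prob {K : ℕ} (m : Fin K → ℝ) (n : ℕ) : IsProbabilityMeasure (casW m n) := by
  unfold casW; infer_instance

/-- Weight of a leaf. -/
noncomputable def wgt {K n : ℕ} (m : Fin K → ℝ) (W : Node K n → ℝ) (α : Leaf K n) : ℝ :=
  ∏ l : Fin K, W (node α l) * (n : ℝ) ^ (-(1 / m l))

/-- Law of independent vertex labels. -/
noncomputable def casX (K n : ℕ) {X : Type*} [MeasurableSpace X] (ν : Measure X) :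
    Measure (Node K n → X) :=
  Measure.pi fun _ => ν

/-- The labels on the path to a leaf. -/
def path {K n : ℕ} {X : Type*} (ξ : Node K n → X) (α : Leaf K n) : Fin K → X :=
  fun l => ξ (node α l)

/-- Logarithm of the total weight of the leaves, with leaf factors `Y`. -/
noncomputable def logS {K n : ℕ} {X : Type*} (m : Fin K → ℝ) (Y : (Fin K → X) → ℝ)
    (W : Node K n → ℝ) (ξ : Node K n → X) : ℝ :=
  Real.log (∑ α : Leaf K n, wgt m W α * Y (path ξ α))

/-- Expected logarithm of the total weight. -/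
noncomputable def cst {K : ℕ} (m : Fin K → ℝ) (n : ℕ) : ℝ :=
  ∫ W, Real.log (∑ α : Leaf K n, wgt m W α) ∂casW m n

/-- The recursion of exponential means. -/
noncomputable def casc {X : Type*} [MeasurableSpace X] (ν : Measure X) :
    (K : ℕ) → (Fin K → ℝ) → ((Fin K → X) → ℝ) → ℝ
  | 0, _, H => H Fin.elim0
  | K + 1, m, H =>
      (m 0)⁻¹ * Real.log (∫ x, Real.exp (m 0 * casc ν K (fun l => m l.succ)
        (fun y => H (Fin.cons x y))) ∂ν)

/-- Mean of `a` under the tilted laws of the recursion. -/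
noncomputable def cmean {X : Type*} [MeasurableSpace X] (ν : Measure X) :
    (K : ℕ) → (Fin K → ℝ) → ((Fin K → X) → ℝ) → ((Fin K → X) → ℝ) → ℝ
  | 0, _, _, a => a Fin.elim0
  | K + 1, m, H, a =>
      (∫ x, Real.exp (m 0 * casc ν K (fun l => m l.succ) (fun y => H (Fin.cons x y)))
          * cmean ν K (fun l => m l.succ) (fun y => H (Fin.cons x y))
              (fun y => a (Fin.cons x y)) ∂ν) /
        ∫ x, Real.exp (m 0 * casc ν K (fun l => m l.succ) (fun y => H (Fin.cons x y))) ∂ν

/-- Tilted mean square of the conditional mean of `a` given the labels down to a level. -/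
noncomputable def csq {X : Type*} [MeasurableSpace X] (ν : Measure X) :
    (K : ℕ) → (Fin K → ℝ) → ((Fin K → X) → ℝ) → ((Fin K → X) → ℝ) → Fin (K + 1) → ℝ
  | 0, _, _, a, _ => a Fin.elim0 ^ 2
  | K + 1, m, H, a, l =>
      Fin.cases (cmean ν (K + 1) m H a ^ 2)
        (fun i => (∫ x, Real.exp (m 0 * casc ν K (fun l => m l.succ) (fun y => H (Fin.cons x y)))
            * csq ν K (fun l => m l.succ) (fun y => H (Fin.cons x y))
                (fun y => a (Fin.cons x y)) i ∂ν) /
          ∫ x, Real.exp (m 0 * casc ν K (fun l => m l.succ) (fun y => H (Fin.cons x y))) ∂ν) l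

/-- Normalised weights. -/
noncomputable def gibbs {T : Type*} [Fintype T] (u : T → ℝ) (x : T) : ℝ := u x / ∑ y, u y

/-- Average over independent replicas. -/
noncomputable def avg {T : Type*} [Fintype T] (u : T → ℝ) (n : ℕ) (F : (Fin n → T) → ℝ) : ℝ :=
  ∑ x : Fin n → T, (∏ i, gibbs u (x i)) * F x

/-- Expected average over replicas under random weights. -/
noncomputable def eavg {T Ω : Type*} [Fintype T] [MeasurableSpace Ω] (μ : Measure Ω)
    (u : Ω → T → ℝ) (n : ℕ) (F : (Fin n → T) → ℝ) : ℝ := ∫ ω, avg (u ω) n F ∂μ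

/-- Defect in the overlap identity for the kernel `S`, `r + 1` replicas and the test `F`. -/
noncomputable def ggDef {T Ω : Type*} [Fintype T] [MeasurableSpace Ω] (μ : Measure Ω)
    (u : Ω → T → ℝ) (S : T → T → ℝ) (r : ℕ) (F : (Fin (r + 1) → T) → ℝ) : ℝ :=
  eavg μ u (r + 2) (fun x => F (fun i => x i.castSucc) * S (x 0) (x (Fin.last (r + 1))))
    - (eavg μ u (r + 1) F * eavg μ u 2 (fun x => S (x 0) (x 1))
        + ∑ l : Fin r, eavg μ u (r + 1) (fun x => F x * S (x 0) (x l.succ))) / (r + 1)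

/-- Average over two replicas. -/
noncomputable def avg2 {T : Type*} [Fintype T] (u : T → ℝ) (O : T → T → ℝ) : ℝ :=
  ∑ x, ∑ y, gibbs u x * gibbs u y * O x y

/-- Standard Gaussian vector indexed by a finite type. -/
noncomputable def gaus (I : Type*) [Fintype I] : Measure (I → ℝ) :=
  Measure.pi fun _ => gaussianReal 0 1

instance gaus_prob (I : Type*) [Fintype I] : IsProbabilityMeasure (gaus I) := by
  unfold gaus; infer_instance

/-- A bounded potential with three bounded derivatives. -/
structure Pot where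
  f : ℝ → ℝ
  f1 : ℝ → ℝ
  f2 : ℝ → ℝ
  f3 : ℝ → ℝ
  bF : ℝ
  b1 : ℝ
  b2 : ℝ
  b3 : ℝ
  d1 : ∀ x, HasDerivAt f (f1 x) x
  d2 : ∀ x, HasDerivAt f1 (f2 x) x
  d3 : ∀ x, HasDerivAt f2 (f3 x) x
  c2 : Continuous f2
  c3 : Continuous f3
  hF : ∀ x, |f x| ≤ bF
  h1 : ∀ x, |f1 x| ≤ b1
  h2 : ∀ x, |f2 x| ≤ b2
  h3 : ∀ x, |f3 x| ≤ b3

section System

variable {T I : Type*} [Fintype T] [Fintype I] {M : ℕ}

/-- A Gaussian linear form with variances `lam` along the directions `b`. -/
noncomputable def lin (b : T → I → ℝ) (lam : I → ℝ) (G : I → ℝ) (x : T) : ℝ :=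
  ∑ i, √(lam i) * b x i * G i

/-- Minus energy: potentials of the fields, plus a compensated linear field. -/
noncomputable def ham (P : Pot) (b : Fin M → T → I → ℝ) (bz : T → I → ℝ) (lam : I → ℝ)
    (G : I → ℝ) (x : T) : ℝ :=
  (∑ a, P.f (lin (b a) lam G x)) + lin bz lam G x - (1 / 2) * ∑ i, lam i * bz x i ^ 2

/-- Unnormalised weights of the system. -/
noncomputable def bw (P : Pot) (w : T → ℝ) (b : Fin M → T → I → ℝ) (bz : T → I → ℝ)
    (lam : I → ℝ) (G : I → ℝ) (x : T) : ℝ :=
  w x * Real.exp (ham P b bz lam G x)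

/-- Expected log partition function. -/
noncomputable def free (P : Pot) (w : T → ℝ) (b : Fin M → T → I → ℝ) (bz : T → I → ℝ)
    (lam : I → ℝ) : ℝ :=
  ∫ G, Real.log (∑ x, bw P w b bz lam G x) ∂gaus I

/-- Expected two-replica average of a bounded observable. -/
noncomputable def pair (P : Pot) (w : T → ℝ) (b : Fin M → T → I → ℝ) (bz : T → I → ℝ)
    (lam : I → ℝ) (O : (I → ℝ) → T → T → ℝ) : ℝ :=
  ∫ G, avg2 (bw P w b bz lam G) (O G) ∂gaus I

/-- The integrand of the derivative of the free energy in the direction `d`. -/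
noncomputable def grad (P : Pot) (b : Fin M → T → I → ℝ) (bz : T → I → ℝ) (lam d : I → ℝ)
    (G : I → ℝ) (x y : T) : ℝ :=
  (∑ a, (∑ i, d i * (b a x i * b a y i)) *
      (P.f1 (lin (b a) lam G x) * P.f1 (lin (b a) lam G y)))
    + ∑ i, d i * (bz x i * bz y i)

end System

end Vale.Agent.P157.Casc
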