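import Vale.Agent.P157.Casc.Coord

/-!
The recursion of a sum of functions of separate coordinates, for functions of linear growth.
-/

open MeasureTheory ProbabilityTheory Filter Topology

namespace Vale.Agent.P157.Casc

variable {K : ℕ} {I : Type} [Fintype I]

theorem casc_fix {X : Type*} [MeasurableSpace X] (ν : Measure X) [IsProbabilityMeasure ν] :
    ∀ (K : ℕ) {m : Fin K → ℝ}, (∀ l, 0 < m l) → ∀ c : ℝ, casc ν K m (fun _ => c) = c
  | 0, _, _, _ => rfl
  | K + 1, m, hm, c => by
    have h0 := (hm 0).ne'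
    simp only [casc, casc_fix ν K (fun l => hm l.succ), integral_const, probReal_univ, one_smul,
      Real.log_exp]
    field_simp

theorem casc_bdd {X : Type} [MeasurableSpace X] (ν : Measure X) [IsProbabilityMeasure ν] :
    ∀ (K : ℕ) {m : Fin K → ℝ}, (∀ l, 0 < m l) → ∀ {H : (Fin K → X) → ℝ}, Measurable H →
      ∀ {B : ℝ}, (∀ y, |H y| ≤ B) → |casc ν K m H| ≤ B
  | 0, _, _, _, _, _, hB => hB _
  | K + 1, m, hm, H, hH, B, hB => by
    have h0 := hm 0
    set F := fun x : X => m 0 * casc ν K (fun l => m l.succ) (fun y => H (Fin.cons x y))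
    have hF : ∀ x, |F x| ≤ m 0 * B := fun x => by
      rw [abs_mul, abs_of_pos h0]
      exact mul_le_mul_of_nonneg_left (casc_bdd ν K (fun l => hm l.succ)
        (measurable_consFix hH x) (fun y => hB _)) h0.le
    have hm' : Measurable F := by
      have hc : Measurable fun p : X × (Fin K → X) => H (Fin.cons p.1 p.2) :=
        hH.comp (measurable_pi_lambda _ (Fin.cases (by simpa using measurable_fst)
          (fun i => by simpa using! (measurable_pi_apply i).comp measurable_snd)))
      have := measurable_casc_param (ν := ν) K (fun l => m l.succ)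
        (H := fun x y => H (Fin.cons x y)) hc
      exact this.const_mul _
    have hi : Integrable (fun x => Real.exp (F x)) ν :=
      Integrable.mono' (integrable_const (Real.exp (m 0 * B))) hm'.exp.aestronglyMeasurable
        (ae_of_all _ fun x => by
          rw [Real.norm_eq_abs, abs_of_pos (Real.exp_pos _)]
          exact Real.exp_le_exp.2 (abs_le.1 (hF x)).2)
    have hu : ∫ x, Real.exp (F x) ∂ν ≤ Real.exp (m 0 * B) := by
      simpa using integral_mono hi (integrable_const (Real.exp (m 0 * B)))
        (fun x => Real.exp_le_exp.2 (abs_le.1 (hF x)).2)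
    have hl : Real.exp (-(m 0 * B)) ≤ ∫ x, Real.exp (F x) ∂ν := by
      simpa using integral_mono (integrable_const (Real.exp (-(m 0 * B)))) hi
        (fun x => Real.exp_le_exp.2 (abs_le.1 (hF x)).1)
    have hpos := lt_of_lt_of_le (Real.exp_pos _) hl
    have l1 := Real.log_le_log (Real.exp_pos _) hl
    have l2 := Real.log_le_log hpos hu
    rw [Real.log_exp] at l1 l2
    show |(m 0)⁻¹ * Real.log (∫ x, Real.exp (F x) ∂ν)| ≤ B
    rw [abs_mul, abs_inv, abs_of_pos h0, inv_mul_le_iff₀ h0]
    exact abs_le.2 ⟨l1, l2⟩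

/-- Linear growth in the labels. -/
def Grow (H : (Fin K → I → ℝ) → ℝ) : Prop :=
  ∃ A : ℝ, 0 ≤ A ∧ ∀ y, |H y| ≤ A * (1 + ∑ l, ∑ i, |y l i|)

/-- Linear growth of a function of one label per level. -/
def Grow1 (h : (Fin K → ℝ) → ℝ) : Prop :=
  ∃ A : ℝ, 0 ≤ A ∧ ∀ u, |h u| ≤ A * (1 + ∑ l, |u l|)

theorem Grow.add {H H' : (Fin K → I → ℝ) → ℝ} (h : Grow H) (h' : Grow H') :
    Grow fun y => H y + H' y := by
  obtain ⟨A, hA, hb⟩ := h
  obtain ⟨B, hB, hb'⟩ := h'
  exact ⟨A + B, add_nonneg hA hB, fun y => by
    rw [add_mul]; exact (abs_add_le _ _).trans (add_le_add (hb y) (hb' y))⟩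

theorem grow_const (c : ℝ) : Grow fun _ : Fin K → I → ℝ => c :=
  ⟨|c|, abs_nonneg c, fun y => le_mul_of_one_le_right (abs_nonneg c)
    (le_add_of_nonneg_right (Finset.sum_nonneg fun l _ => Finset.sum_nonneg fun i _ =>
      abs_nonneg _))⟩

theorem Grow1.coord {h : (Fin K → ℝ) → ℝ} (hh : Grow1 h) (i0 : I) :
    Grow fun y : Fin K → I → ℝ => h fun l => y l i0 := by
  obtain ⟨A, hA, hb⟩ := hh
  refine ⟨A, hA, fun y => (hb _).trans (mul_le_mul_of_nonneg_left (add_le_add le_rfl ?_) hA)⟩
  exact Finset.sum_le_sum fun l _ =>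
    Finset.single_le_sum (f := fun i => |y l i|) (fun i _ => abs_nonneg _) (Finset.mem_univ i0)

theorem Grow.sum {ι : Type*} (S : Finset ι) {H : ι → (Fin K → I → ℝ) → ℝ}
    (h : ∀ j ∈ S, Grow (H j)) : Grow fun y => ∑ j ∈ S, H j y := by
  classical
  induction S using Finset.induction with
  | empty => simpa using grow_const (K := K) (I := I) 0
  | insert a S ha ih =>
    simp only [Finset.sum_insert ha]
    exact (h a (Finset.mem_insert_self a S)).add (ih fun j hj => h j (Finset.mem_insert_of_mem hj))

theorem Grow.integrable_exp {H : (Fin K → I → ℝ) → ℝ} (h : Grow H) (hm : Measurable H) :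
    Integrable (fun y => Real.exp (H y)) (Measure.pi fun _ : Fin K => gaus I) := by
  obtain ⟨A, -, hb⟩ := h
  have hA : Integrable (fun x : ℝ => Real.exp (A * |x|)) (gaussianReal 0 1) := by
    refine ((integrable_exp_mul_gaussianReal A).add (integrable_exp_mul_gaussianReal (-A))).mono'
      (by fun_prop : Measurable fun x : ℝ => Real.exp (A * |x|)).aestronglyMeasurable
      (ae_of_all _ fun x => ?_)
    rw [Real.norm_eq_abs, abs_of_pos (Real.exp_pos _), Pi.add_apply]
    rcases abs_cases x with ⟨h, _⟩ | ⟨h, _⟩ <;> rw [h]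
    · linarith [Real.exp_pos (-A * x)]
    · rw [show A * -x = -A * x by ring]; linarith [Real.exp_pos (A * x)]
  have h1 : Integrable (fun y : Fin K → I → ℝ => ∏ l, ∏ i, Real.exp (A * |y l i|))
      (Measure.pi fun _ : Fin K => gaus I) :=
    Integrable.fintype_prod fun _ => Integrable.fintype_prod fun _ => hA
  refine (h1.const_mul (Real.exp A)).mono' hm.exp.aestronglyMeasurable (ae_of_all _ fun y => ?_)
  rw [Real.norm_eq_abs, abs_of_pos (Real.exp_pos _)]
  simp only [← Real.exp_sum, ← Real.exp_add, ← Finset.mul_sum]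
  refine Real.exp_le_exp.2 (((le_abs_self _).trans (hb y)).trans_eq ?_)
  rw [mul_add, mul_one]

/-- Functions of separate coordinates add up in the recursion. -/
theorem casc_add_coords {m : Fin K → ℝ} (hm : Grid m) {H : (Fin K → I → ℝ) → ℝ}
    (hH : Measurable H) (hg : Grow H) (h : I → (Fin K → ℝ) → ℝ) (hh : ∀ i, Measurable (h i))
    (hhg : ∀ i, Grow1 (h i)) : ∀ S : Finset I,
    (∀ y y', (∀ l, ∀ i ∉ S, y l i = y' l i) → H y = H y') →
    casc (gaus I) K m (fun y => H y + ∑ i ∈ S, h i fun l => y l i)
      = casc (gaus I) K m H + ∑ i ∈ S, casc (gaussianReal 0 1) K m (h i) := by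
  classical
  intro S
  induction S using Finset.induction with
  | empty => intro _; simp
  | insert a S ha ih =>
    intro hdep
    have mc : ∀ i, Measurable fun y : Fin K → I → ℝ => h i fun l => y l i := fun i =>
      (hh i).comp (measurable_pi_lambda _ fun l =>
        (measurable_pi_apply i).comp (measurable_pi_apply l))
    have m2 : Measurable fun y : Fin K → I → ℝ => H y + ∑ i ∈ S, h i fun l => y l i :=
      hH.add (Finset.measurable_sum _ fun i _ => mc i)
    have g2 : Grow fun y : Fin K → I → ℝ => H y + ∑ i ∈ S, h i fun l => y l i :=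
      hg.add (Grow.sum S fun i _ => (hhg i).coord i)
    obtain ⟨hs, -⟩ := casc_sep (I := I) (fun i => i = a) hm
      (H := fun y => h a fun l => y l a) (H' := fun y => H y + ∑ i ∈ S, h i fun l => y l i)
      (a := fun _ => 1) (a' := fun _ => 1) (mc a) m2 measurable_const measurable_const
      (fun y y' hy => ⟨congrArg (h a) (funext fun l => hy l a rfl), rfl⟩)
      (fun y y' hy => ⟨by
        rw [hdep y y' fun l i hi => hy l i fun he => hi (he ▸ Finset.mem_insert_self _ S),
          Finset.sum_congr rfl fun i hi => congrArg (h i) (funext fun l =>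
            hy l i fun he => ha (he ▸ hi))], rfl⟩)
      (((hhg a).coord a).integrable_exp (mc a)) (g2.integrable_exp m2)
    have hsum := ih fun y y' hy => hdep y y' fun l i hi =>
      hy l i fun he => hi (Finset.mem_insert_of_mem he)
    have e : (fun y : Fin K → I → ℝ => H y + ∑ i ∈ insert a S, h i fun l => y l i)
        = fun y => (h a fun l => y l a) + (H y + ∑ i ∈ S, h i fun l => y l i) := funext fun y => by
      rw [Finset.sum_insert ha]; ring
    rw [e, hs, hsum, (casc_one a (hh a) (g := fun _ => 1) measurable_const).1,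
      Finset.sum_insert ha]
    ring

end Vale.Agent.P157.Casc
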