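import Vale.Agent.P157.Casc.LowerPoint

/-!
The lower bound for bounded smooth potentials, from the smallness of the errors and of the defect
of stationarity of the standard systems.
-/

open MeasureTheory ProbabilityTheory Filter Topology Set

namespace Vale.Agent.P157.Casc.Low

variable {N M K n : ℕ}

/-- The averaged free energy of the standard system at the parameters of the perceptron. -/
noncomputable def avgF (n N M K : ℕ) (P : Pot) : ℝ :=
  ∫ x, mfree n P (isingP N) (stdc (par0 K) (ext0 x) : CIdx N M K → ℝ) ∂xlaw N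

/-- Parameters moved to the box. -/
noncomputable def clamp (x : Fin N → ℝ) (i : Fin N) : ℝ := max 1 (min 2 (x i))

theorem clamp_mem (x : Fin N → ℝ) : clamp x ∈ Set.univ.pi fun _ : Fin N => Icc (1 : ℝ) 2 :=
  fun _ _ => ⟨le_max_left _ _, max_le one_le_two (min_le_left _ _)⟩

theorem clamp_eq {x : Fin N → ℝ} (hx : x ∈ Set.univ.pi fun _ : Fin N => Icc (1 : ℝ) 2) :
    clamp x = x := funext fun i => by
  have := hx i (Set.mem_univ _)
  rw [clamp, min_eq_right this.2, max_eq_right this.1]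

theorem integrable_std (P : Pot) (hn : 0 < n) :
    Integrable (fun x : Fin N → ℝ => mfree n P (isingP N)
      (stdc (par0 K) (ext0 x) : CIdx N M K → ℝ)) (xlaw N) := by
  have hs : IsCompact (Set.univ.pi fun _ : Fin N => Icc (1 : ℝ) 2) :=
    isCompact_univ_pi fun _ => isCompact_Icc
  have hcont := continuous_stdc (M := M) (N := N) (par0 K)
  obtain ⟨R, hR⟩ := hs.exists_bound_of_continuousOn hcont.continuousOn
  have hm : Measurable (clamp : (Fin N → ℝ) → Fin N → ℝ) := measurable_pi_lambda _ fun i => by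
    unfold clamp; fun_prop
  have h := (continuous_mfree_param P (isingP N) hn (xlaw N)
    (c := fun x => (stdc (par0 K) (ext0 (clamp x)) : CIdx N M K → ℝ))
    (fun i => (measurable_pi_apply i).comp (hcont.measurable.comp hm))
    (R := R) fun x i => by
      rw [← Real.norm_eq_abs]
      exact (norm_le_pi_norm _ i).trans (hR _ (clamp_mem x))).2
  refine h.congr ?_
  filter_upwards [ae_box N] with x hx
  rw [clamp_eq hx]

theorem abs_avgF_sub (P : Pot) (hn : 0 < n) :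
    |avgF n N M K P - pressP M P.f (isingP N)| ≤ 3 * (N : ℝ) ^ ((3 : ℝ) / 4) := by
  have h : ∀ᵐ x ∂xlaw N, ‖mfree n P (isingP N) (stdc (par0 K) (ext0 x) : CIdx N M K → ℝ)
      - pressP M P.f (isingP N)‖ ≤ 3 * (N : ℝ) ^ ((3 : ℝ) / 4) := by
    filter_upwards [ae_box N] with x hx
    rw [Real.norm_eq_abs, ← mfree_real (K := K) P (isingP N) hn]
    refine mfree_pert P (isingP N) hn (c := fieldc (par0 K)) (fun i => ?_) fun i =>
      (abs_ext0_le hx i).trans (by norm_num)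
    rcases i with e | ⟨l, a | j | t⟩ <;> simp [fieldc, par0, incr_of_zero]
  have h' := norm_integral_le_of_norm_le_const h
  rw [integral_sub (integrable_std P hn) (integrable_const _), integral_const] at h'
  simpa [avgF] using h'

theorem abs_pressP_le (P : Pot) (π : Prior N) (M : ℕ) : |pressP M P.f π| ≤ M * P.bF := by
  rw [pressP, ← Real.norm_eq_abs]
  refine (norm_integral_le_of_norm_le_const (C := (M : ℝ) * P.bF) ?_).trans_eq
    (by rw [probReal_univ, mul_one])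
  refine ae_of_all _ fun G => ?_
  rw [Real.norm_eq_abs]
  set E := fun σ => Real.exp (∑ a : Fin M, P.f ((∑ j, G a j * π.spin σ j) / √(N : ℝ)))
  have hE : ∀ σ, Real.exp (-(M * P.bF)) ≤ E σ ∧ E σ ≤ Real.exp (M * P.bF) := fun σ => by
    have h : |∑ a : Fin M, P.f ((∑ j, G a j * π.spin σ j) / √(N : ℝ))| ≤ M * P.bF :=
      (Finset.abs_sum_le_sum_abs _ _).trans ((Finset.sum_le_sum fun a _ => P.hF _).trans_eq
        (by simp))
    exact ⟨Real.exp_le_exp.2 (abs_le.1 h).1, Real.exp_le_exp.2 (abs_le.1 h).2⟩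
  have h1 : Real.exp (-(M * P.bF)) ≤ ∑ σ, π.w σ * E σ :=
    calc _ = ∑ σ, π.w σ * Real.exp (-(M * P.bF)) := by rw [← Finset.sum_mul, π.w_sum, one_mul]
      _ ≤ _ := Finset.sum_le_sum fun σ _ => mul_le_mul_of_nonneg_left (hE σ).1 (π.w_pos σ).le
  have h2 : ∑ σ, π.w σ * E σ ≤ Real.exp (M * P.bF) :=
    calc _ ≤ ∑ σ, π.w σ * Real.exp (M * P.bF) :=
          Finset.sum_le_sum fun σ _ => mul_le_mul_of_nonneg_left (hE σ).2 (π.w_pos σ).le
      _ = _ := by rw [← Finset.sum_mul, π.w_sum, one_mul]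
  have l1 := Real.log_le_log (Real.exp_pos _) h1
  have l2 := Real.log_le_log ((Real.exp_pos _).trans_le h1) h2
  rw [Real.log_exp] at l1 l2
  exact abs_le.2 ⟨l1, l2⟩

theorem stdc_restrict (B : ℕ) (x : Fin (N + B) → ℝ) :
    (stdc (par0 K) (ext0 x) : CIdx N M K → ℝ)
      = stdc (par0 K) (ext0 fun j : Fin N => x (Fin.castAdd B j)) := by
  funext i
  rcases i with e | ⟨l, a | j | ⟨j, i, t⟩⟩ <;> simp only [stdc, pertc]
  have h : ext0 x j.val = ext0 (fun j : Fin N => x (Fin.castAdd B j)) j.val := by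
    simp [ext0, j.isLt, show j.val < N + B from Nat.lt_add_right B j.isLt]
    rfl
  rw [h]

/-- The segment of the decoupling of the new spins, in its parameters. -/
noncomputable def segSys (N B M k : ℕ)
    (e : ((Fin (N + B) → ℝ) × (Fin (K + 1) → ℝ) × (Fin (K + 1) → ℝ)) × ℝ)
    (i : CIdx (N + B) (M + k) K) : ℝ :=
  stdc (par0 K) (ext0 e.1.1) i
    + e.2 * (decSys N (M + k) e.1.2.1 e.1.2.2 (ext0 e.1.1) i - stdc (par0 K) (ext0 e.1.1) i)

theorem continuous_segSys (N B M k : ℕ) : Continuous (segSys (K := K) N B M k) := by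
  have hstd := continuous_stdc (K := K) (M := M + k) (N := N + B) (par0 K)
  have hdec := continuous_decSys (N := N + B) (M := M + k) (K := K) N (M + k) (N + B)
  refine continuous_pi fun i => ?_
  have h1 := ((continuous_apply i).comp hstd).comp (continuous_fst.comp
    (continuous_fst (X := (Fin (N + B) → ℝ) × (Fin (K + 1) → ℝ) × (Fin (K + 1) → ℝ)) (Y := ℝ)))
  have h2 := ((continuous_apply i).comp hdec).comp (continuous_fst (Y := ℝ))
  exact h1.add (continuous_snd.mul (h2.sub h1))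

/-- The compact set of the parameters of one step. -/
def parSet (J K : ℕ) (L : ℝ) :
    Set ((Fin J → ℝ) × (Fin (K + 1) → ℝ) × (Fin (K + 1) → ℝ)) :=
  (Set.univ.pi fun _ => Icc (1 : ℝ) 2) ×ˢ (pathsQ K ×ˢ pathsP K L)

theorem isCompact_parSet (J K : ℕ) (L : ℝ) : IsCompact (parSet J K L) :=
  (isCompact_univ_pi fun _ => isCompact_Icc).prod (isCompact_pathsQ.prod (isCompact_pathsP L))

theorem std_mem_parSet (P : Pot) {α L : ℝ} (hL : α * P.b1 ^ 2 ≤ L) (n : ℕ) {J M' : ℕ} (hJ : 0 < J)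
    (hM : (M' : ℝ) ≤ α * J) {x : Fin J → ℝ}
    (hx : x ∈ Set.univ.pi fun _ : Fin J => Icc (1 : ℝ) 2) :
    (x, stdQ n M' J P (par0 K) (ext0 x), stdP n M' J P (par0 K) (ext0 x)) ∈ parSet J K L :=
  ⟨hx, stdQ_mem P n _ _ _, (stdP_mem P hL n hJ hM _).1⟩

/-- The law of the levels along the segment, uniformly, for trees of large degree. -/
theorem exists_degree_levels (P : Pot) (L : ℝ) (N B M k : ℕ) {η : ℝ} (hη : 0 < η) :
    ∃ n0, ∀ n ≥ n0, ∀ e ∈ parSet (N + B) K L, ∀ t ∈ Icc (0 : ℝ) 1, ∀ l,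
      |piX n P (isingP (N + B)) (segSys (K := K) N B M k (e, t)) l - pi0 K| ≤ η := by
  obtain ⟨n1, hn1⟩ := piX_uniform P (isingP (N + B))
    (((isCompact_parSet (N + B) K L).prod (isCompact_Icc (a := (0 : ℝ)) (b := 1))).image
      (continuous_segSys (K := K) N B M k)) hη
  exact ⟨n1, fun n hn e he t ht l => hn1 n hn _ (Set.mem_image_of_mem _ (Set.mk_mem_prod he ht)) l⟩

/-- The value of the decoupled system, uniformly, for trees of large degree. -/
theorem exists_degree_value (P : Pot) (L : ℝ) {N : ℕ} (hN : 0 < N) (B M k : ℕ) {η : ℝ}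
    (hη : 0 < η) :
    ∃ n0, ∀ n ≥ n0, ∀ e ∈ parSet (N + B) K L,
      |mfree n P (isingP (N + B))
          (decSys N M e.2.1 e.2.2 (ext0 e.1) : CIdx (N + B) (M + k) K → ℝ)
          - mfree n P (isingP N) (stdc (par0 K) (ext0 e.1) : CIdx N M K → ℝ)
          - (k * psiF P.f e.2.1 + B * psiI e.2.2)| ≤ η := by
  have hC : Continuous fun e : (Fin (N + B) → ℝ) × (Fin (K + 1) → ℝ) × (Fin (K + 1) → ℝ) =>
      (stdc (par0 K) (ext0 e.1) : CIdx N M K → ℝ) := by
    simp only [stdc_restrict]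
    exact (continuous_stdc (M := M) (N := N) (par0 K)).comp (continuous_pi fun j =>
      (continuous_apply (Fin.castAdd B j)).comp continuous_fst)
  exact grown_uniform (B := B) (k := k) (isCompact_parSet (N + B) K L) (Or.inl hN) P
    (C' := fun e => decSys N M e.2.1 e.2.2 (ext0 e.1))
    (C := fun e => stdc (par0 K) (ext0 e.1))
    (Q := fun e => e.2.1) (Pp := fun e => e.2.2)
    (continuous_decSys (N := N + B) (M := M + k) (K := K) N M (N + B)) hC
    (continuous_fst.comp continuous_snd) (continuous_snd.comp continuous_snd)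
    (fun e _ => grown_decSys B k _ _ _) hη

/-- Adding a block of spins raises the averaged free energy by the variational value. -/
theorem avgF_step (P : Pot) {α L : ℝ} (hα : 0 < α) (hL : α * P.b1 ^ 2 ≤ L)
    (hbase : ∀ ε > (0 : ℝ), ∃ K0 : ℕ, ∀ K ≥ K0, ∃ N1 : ℕ, ∀ N ≥ N1, ∀ M : ℕ, (M : ℝ) ≤ α * N →
      ∃ n0 : ℕ, ∀ n ≥ n0, ∀ Λ : Par K, Adm K L Λ →
        ∫ x, baseErr n M N P Λ (ext0 x) ∂xlaw N ≤ ε)
    (hstat : ∀ ε > (0 : ℝ), ∃ K0 : ℕ, ∀ K ≥ K0, ∃ N1 : ℕ, ∀ N ≥ N1, ∀ M : ℕ, (M : ℝ) ≤ α * N →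
      ∃ n0 : ℕ, ∀ n ≥ n0, ∀ Λ : Par K, Adm K L Λ →
        ∫ x, statErr n M N P Λ (ext0 x) ∂xlaw N ≤ ε)
    {ε : ℝ} (hε : 0 < ε) :
    ∃ B : ℕ, 1 ≤ B ∧ ∃ K0 : ℕ, ∀ K ≥ K0, ∃ N1 : ℕ, 1 ≤ N1 ∧ ∀ N ≥ N1, ∃ n0 : ℕ, ∀ n ≥ n0,
      ∀ V : ℝ, (∀ q ∈ pathsQ K, ∃ p ∈ pathsP K L, V ≤ pfun psiI α P.f p q) →
        B * (V - ε) ≤ avgF n (N + B) ⌊α * ((N + B : ℕ) : ℝ)⌋₊ K P
          - avgF n N ⌊α * (N : ℝ)⌋₊ K P := by
  have hL0 : 0 ≤ L := le_trans (by positivity) hL
  obtain ⟨B0, hB0⟩ := exists_nat_ge (6 * P.bF / ε)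
  set B := B0 + 1
  have hB1 : (1 : ℝ) ≤ B := by simp [B]
  set C1 := 1 + α * P.b1 ^ 2 + (α + 1) * P.b1 ^ 2
  have hC1 : 0 < C1 := by positivity
  obtain ⟨A, hA0, hA⟩ := lower_point P hα hL (B := B) (Nat.le_add_left 1 B0)
    (δ := ε / (12 * C1)) (by positivity)
  set e := ε / (6 * (A + 1))
  have he : 0 < e := by positivity
  obtain ⟨K1, hK1⟩ := hbase e he
  obtain ⟨K2, hK2⟩ := hstat e he
  refine ⟨B, Nat.le_add_left 1 B0, max K1 K2, fun K hK => ?_⟩
  obtain ⟨Nb, hNb⟩ := hK1 K (le_of_max_le_left hK)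
  obtain ⟨Ns, hNs⟩ := hK2 K (le_of_max_le_right hK)
  obtain ⟨Nr, hNr⟩ := eventually_atTop.1 (((tendsto_rpow_atTop (by norm_num : (0 : ℝ) < 1 / 4)).comp
    tendsto_natCast_atTop_atTop).inv_tendsto_atTop.eventually (eventually_le_nhds he))
  refine ⟨B + Nb + Ns + Nr, by omega, fun N hN => ?_⟩
  have hN0 : 0 < N := by omega
  set M := ⌊α * (N : ℝ)⌋₊
  obtain ⟨k, hk⟩ : ∃ k, ⌊α * ((N + B : ℕ) : ℝ)⌋₊ = M + k := Nat.exists_eq_add_of_le
    (Nat.floor_le_floor (mul_le_mul_of_nonneg_left (Nat.cast_le.2 (Nat.le_add_right N B)) hα.le))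
  have hM : ((M + k : ℕ) : ℝ) ≤ α * ((N + B : ℕ) : ℝ) := hk ▸ Nat.floor_le (by positivity)
  have hkB : |(k : ℝ) - α * B| ≤ 1 := by
    have h1 := Nat.lt_floor_add_one (α * (N : ℝ))
    have h2 := Nat.floor_le (show 0 ≤ α * (N : ℝ) by positivity)
    have h3 := Nat.lt_floor_add_one (α * ((N + B : ℕ) : ℝ))
    rw [hk] at h3
    push_cast at h3 hM
    exact abs_le.2 ⟨by linarith, by linarith⟩
  set η := e / ((K : ℝ) + 1)
  obtain ⟨na, hna⟩ := exists_degree_levels (K := K) P L N B M k (show 0 < η by positivity)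
  obtain ⟨nb, hnb⟩ := exists_degree_value (K := K) P L hN0 B M k (show 0 < η by positivity)
  obtain ⟨n2, hn2⟩ := hNb (N + B) (by omega) (M + k) hM
  obtain ⟨n3, hn3⟩ := hNs (N + B) (by omega) (M + k) hM
  refine ⟨na + nb + n2 + n3 + 1, fun n hn V hV => ?_⟩
  rw [hk]
  have hn0 : 0 < n := by omega
  obtain ⟨ib, is⟩ := integrable_errs (K := K) P hL n (show 0 < N + B by omega) hM
  have hb := hn2 n (by omega) (par0 K) (adm_par0 hL0)
  have hs := hn3 n (by omega) (par0 K) (adm_par0 hL0)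
  have hr : ((N : ℝ) ^ ((1 : ℝ) / 4))⁻¹ ≤ e := hNr N (by omega)
  set r := ((N : ℝ) ^ ((1 : ℝ) / 4))⁻¹
  set g : (Fin N → ℝ) → ℝ := fun x =>
    mfree n P (isingP N) (stdc (par0 K) (ext0 x) : CIdx N M K → ℝ)
  have : IsProbabilityMeasure (volume.restrict (Icc (1 : ℝ) 2)) := ⟨by norm_num⟩
  have hmp : MeasurePreserving (fun (x : Fin (N + B) → ℝ) (j : Fin N) => x (Fin.castAdd B j))
      (xlaw (N + B)) (xlaw N) :=
    P157.mp_comp (volume.restrict (Icc (1 : ℝ) 2)) (Fin.castAdd_injective N B)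
  have ig : Integrable g (xlaw N) := integrable_std P hn0
  have ig' : Integrable (fun x : Fin (N + B) → ℝ => g fun j => x (Fin.castAdd B j))
      (xlaw (N + B)) := hmp.integrable_comp_of_integrable ig
  have eg : ∫ x : Fin (N + B) → ℝ, g (fun j => x (Fin.castAdd B j)) ∂xlaw (N + B)
      = avgF n N M K P := by
    have := integral_map (μ := xlaw (N + B)) hmp.measurable.aemeasurable (f := g)
      (by rw [hmp.map_eq]; exact ig.aestronglyMeasurable)
    rw [hmp.map_eq] at this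
    exact this.symm
  set C0 := P.bF + 2 * C1 * B * (ε / (12 * C1)) + A * (((K : ℝ) + 1) * η + r)
  have hle : ∀ᵐ x ∂xlaw (N + B), B * V - C0
      - (A * baseErr n (M + k) (N + B) P (par0 K) (ext0 x)
        + A * statErr n (M + k) (N + B) P (par0 K) (ext0 x))
      ≤ mfree n P (isingP (N + B)) (stdc (par0 K) (ext0 x) : CIdx (N + B) (M + k) K → ℝ)
        - g fun j => x (Fin.castAdd B j) := by
    filter_upwards [ae_box (N + B)] with x hx
    have he := std_mem_parSet (K := K) P hL n (show 0 < N + B by omega) hM hx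
    have h1 : ∀ t ∈ Icc (0 : ℝ) 1, ∀ l, |piX n P (isingP (N + B))
        (fun i : CIdx (N + B) (M + k) K => stdc (par0 K) (ext0 x) i
          + t * (sysS n N B M k P (ext0 x) i - stdc (par0 K) (ext0 x) i)) l - pi0 K| ≤ η :=
      fun t ht l => hna n (by omega) _ he t ht l
    have h2 := hnb n (by omega) _ he
    have h := hA K N M k n (by omega) hM hkB hn0 η (by positivity) (ext0 x) (abs_ext0_le hx)
      h1 h2 V hV
    simp only [g, ← stdc_restrict, C0, C1] at h ⊢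
    linarith
  have iL := (integrable_const (μ := xlaw (N + B)) ((B : ℝ) * V - C0)).sub
    ((ib.const_mul A).add (is.const_mul A))
  have hint := integral_mono_ae iL ((integrable_std P hn0).sub ig') hle
  have iA := (ib.const_mul A).add (is.const_mul A)
  simp only [Pi.add_def] at iA
  simp only [Pi.sub_apply, Pi.add_apply] at hint
  rw [integral_sub (integrable_const _) iA,
    integral_add (ib.const_mul A) (is.const_mul A), integral_sub (integrable_std P hn0) ig', eg,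
    integral_const, integral_const_mul, integral_const_mul] at hint
  simp only [probReal_univ, one_smul] at hint
  change _ ≤ avgF n (N + B) (M + k) K P - avgF n N M K P at hint
  refine le_trans ?_ hint
  have hAe : A * e ≤ ε / 6 :=
    calc A * e ≤ (A + 1) * e := by linarith
      _ = ε / 6 := by simp only [e]; field_simp
  have h1 := mul_le_mul_of_nonneg_left hb hA0
  have h2 := mul_le_mul_of_nonneg_left hs hA0
  have h3 := mul_le_mul_of_nonneg_left hr hA0
  have h4 : A * (((K : ℝ) + 1) * η) = A * e := by simp only [η]; field_simp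
  have h5 : 2 * C1 * B * (ε / (12 * C1)) = B * (ε / 6) := by field_simp; ring
  have h6 : P.bF ≤ B * (ε / 6) := by
    rw [div_le_iff₀ hε] at hB0
    push_cast [B]
    linarith
  have h7 : ε / 6 ≤ B * (ε / 6) := le_mul_of_one_le_left (by positivity) hB1
  simp only [C0]
  rw [mul_add A, h4]
  linarith

/-- The lower bound from the two averaged estimates for standard systems. -/
theorem lower_of (P : Pot) {α L : ℝ} (hα : 0 < α) (hL : α * P.b1 ^ 2 ≤ L)
    (hbase : ∀ ε > (0 : ℝ), ∃ K0 : ℕ, ∀ K ≥ K0, ∃ N1 : ℕ, ∀ N ≥ N1, ∀ M : ℕ, (M : ℝ) ≤ α * N →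
      ∃ n0 : ℕ, ∀ n ≥ n0, ∀ Λ : Par K, Adm K L Λ →
        ∫ x, baseErr n M N P Λ (ext0 x) ∂xlaw N ≤ ε)
    (hstat : ∀ ε > (0 : ℝ), ∃ K0 : ℕ, ∀ K ≥ K0, ∃ N1 : ℕ, ∀ N ≥ N1, ∀ M : ℕ, (M : ℝ) ≤ α * N →
      ∃ n0 : ℕ, ∀ n ≥ n0, ∀ Λ : Par K, Adm K L Λ →
        ∫ x, statErr n M N P Λ (ext0 x) ∂xlaw N ≤ ε)
    {ε : ℝ} (hε : 0 < ε) :
    ∃ K0 : ℕ, ∀ K ≥ K0, ∃ N1 : ℕ, ∀ N ≥ N1, ∀ V : ℝ,
      (∀ q ∈ pathsQ K, ∃ p ∈ pathsP K L, V ≤ pfun psiI α P.f p q) →
        V - ε ≤ pressP ⌊α * N⌋₊ P.f (isingP N) / N := by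
  obtain ⟨B, hB, K0, hK0⟩ := avgF_step P hα hL hbase hstat (show (0 : ℝ) < ε / 3 by positivity)
  refine ⟨K0, fun K hK => ?_⟩
  obtain ⟨N1, hN1, hstep⟩ := hK0 K hK
  choose! n0 hn0 using hstep
  have hL0 : 0 ≤ L := le_trans (by positivity) hL
  set C := L / 2 + 2 * α * P.bF + 3
  have hC : 0 ≤ C := by
    have := (abs_nonneg _).trans (P.hF 0)
    positivity
  obtain ⟨N2, hN2⟩ := exists_nat_ge (3 * ((N1 + B : ℕ) : ℝ) * C / ε)
  obtain ⟨N3, hN3⟩ := eventually_atTop.1 (((tendsto_rpow_atTop (by norm_num : (0 : ℝ) < 1 / 4)).comp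
    tendsto_natCast_atTop_atTop).inv_tendsto_atTop.eventually
      (eventually_le_nhds (show (0 : ℝ) < ε / 9 by positivity)))
  refine ⟨N1 + N2 + N3 + 1, fun N hN V hV => ?_⟩
  set m := (N - N1) / B
  set r := N1 + (N - N1) % B
  have hNr : N = r + m * B := by
    have := Nat.div_add_mod (N - N1) B
    simp only [r, m]
    rw [Nat.mul_comm] at this
    omega
  have hrB : r ≤ N1 + B := Nat.add_le_add_left (Nat.mod_lt _ (by omega)).le N1
  have hrN1 : N1 ≤ r := Nat.le_add_right _ _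
  set n := 1 + ∑ i ∈ Finset.range m, n0 (r + i * B)
  have hn : 0 < n := by omega
  set Φ := fun J : ℕ => avgF n J ⌊α * (J : ℝ)⌋₊ K P
  have htel : ∀ j ≤ m, (j : ℝ) * (B * (V - ε / 3)) ≤ Φ (r + j * B) - Φ r := by
    intro j
    induction j with
    | zero => intro _; simp
    | succ j ih =>
      intro hj
      have hs := hn0 (r + j * B) (by omega) n (le_trans
        (Finset.single_le_sum (f := fun i => n0 (r + i * B)) (fun _ _ => Nat.zero_le _)
          (Finset.mem_range.2 (by omega : j < m))) (Nat.le_add_left _ _)) V hV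
      rw [show r + j * B + B = r + (j + 1) * B by ring] at hs
      push_cast
      rw [add_mul, one_mul]
      have := ih (by omega)
      change _ ≤ Φ (r + (j + 1) * B) - Φ (r + j * B) at hs
      linarith
  have h1 := htel m le_rfl
  rw [← hNr] at h1
  have hNR : (N : ℝ) = (r : ℝ) + m * B := by exact_mod_cast hNr
  have a1 := (abs_le.1 (abs_avgF_sub (N := N) (M := ⌊α * (N : ℝ)⌋₊) (K := K) P hn)).2
  have a2 := (abs_le.1 (abs_avgF_sub (N := r) (M := ⌊α * (r : ℝ)⌋₊) (K := K) P hn)).1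
  have a3 := (abs_le.1 (abs_pressP_le P (isingP r) ⌊α * (r : ℝ)⌋₊)).1
  change _ - _ ≤ _ at a1
  have hN0 : (0 : ℝ) < N := Nat.cast_pos.2 (by omega)
  have hbF : 0 ≤ P.bF := (abs_nonneg _).trans (P.hF 0)
  have hfl : ((⌊α * (r : ℝ)⌋₊ : ℕ) : ℝ) * P.bF ≤ α * r * P.bF :=
    mul_le_mul_of_nonneg_right (Nat.floor_le (by positivity)) hbF
  have hr34 : (r : ℝ) ^ ((3 : ℝ) / 4) ≤ r := by
    rcases Nat.eq_zero_or_pos r with h0 | h0
    · simp [h0]
    · exact (Real.rpow_le_rpow_of_exponent_le (Nat.one_le_cast.2 h0)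
        (by norm_num : (3 : ℝ) / 4 ≤ 1)).trans_eq (Real.rpow_one _)
  have hrV : (r : ℝ) * V ≤ r * (α * P.bF + L / 2) :=
    mul_le_mul_of_nonneg_left (le_of_hyp P hα.le hV) (Nat.cast_nonneg r)
  have hrC : (r : ℝ) * C ≤ N * (ε / 3) := by
    have h2 : ((N2 : ℕ) : ℝ) ≤ N := Nat.cast_le.2 (by omega)
    rw [div_le_iff₀ hε] at hN2
    have h3 : (r : ℝ) * C ≤ ((N1 + B : ℕ) : ℝ) * C :=
      mul_le_mul_of_nonneg_right (Nat.cast_le.2 hrB) hC
    have h4 := mul_le_mul_of_nonneg_right h2 hε.le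
    linarith
  have h34 : (N : ℝ) ^ ((3 : ℝ) / 4) ≤ N * (ε / 9) := by
    have h5 : ((N : ℝ) ^ ((1 : ℝ) / 4))⁻¹ ≤ ε / 9 := hN3 N (by omega)
    have e : (N : ℝ) ^ ((3 : ℝ) / 4) = N * ((N : ℝ) ^ ((1 : ℝ) / 4))⁻¹ := by
      rw [← div_eq_mul_inv, eq_div_iff (Real.rpow_pos_of_pos hN0 _).ne', ← Real.rpow_add hN0]
      norm_num
    rw [e]
    exact mul_le_mul_of_nonneg_left h5 hN0.le
  have hr0 : 0 ≤ (r : ℝ) * ε := by positivity
  have e : (V - ε) * (N : ℝ)
      = m * (B * (V - ε / 3)) + r * V - 2 * ε / 3 * N - r * (ε / 3) := by rw [hNR]; ring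
  rw [le_div_iff₀ hN0, e]
  simp only [C] at hrC
  simp only [Φ] at h1
  linarith

end Vale.Agent.P157.Casc.Low
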