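import Vale.Agent.P157.Casc.Assembly
import Vale.Agent.P157.Casc.BaseSmall
import Vale.Agent.P157.Casc.Lower

/-!
The limit formula of the Ising perceptron from the stationarity of the standard systems.
-/

open MeasureTheory ProbabilityTheory Filter Topology Set

namespace Vale.Agent.P157.Casc

/-- The limit formula, given that the defect of stationarity is small. -/
theorem limit_formula_of_stat {α : ℝ} (hα : 0 < α)
    (hstat : ∀ (P : Pot) (L : ℝ), ∀ ε > (0 : ℝ), ∃ K0 : ℕ, ∀ K ≥ K0, ∃ N1 : ℕ, ∀ N ≥ N1,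
      ∀ M : ℕ, (M : ℝ) ≤ α * N → ∃ n0 : ℕ, ∀ n ≥ n0, ∀ Λ : Par K, Adm K L Λ →
        ∫ x, statErr n M N P Λ (ext0 x) ∂xlaw N ≤ ε)
    {f : ℝ → ℝ} (hf : Measurable f) {B : ℝ} (hB : ∀ x, |f x| ≤ B) :
    ∃ ℓ : ℝ, Tendsto (fun N : ℕ => press f N ⌊α * N⌋₊ / N) atTop (𝓝 ℓ) ∧
      Tendsto (fun K => val K α f) atTop (𝓝 (ℓ : EReal)) :=
  limit_formula_single_of hα.le
    (fun P L hL _ hε => upper_of P hα hL (fun _ h => base_small P α L h) (hstat P L) hε)
    (fun P L hL _ hε => Low.lower_of P hα hL (fun _ h => base_small P α L h) (hstat P L) hε) hf hB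

end Vale.Agent.P157.Casc
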