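import Vale.Agent.P157.Casc.LimitTree

/-!
Finite Pareto trees: the expected logarithm of the partition sum and its fluctuation.
-/

open MeasureTheory Set Filter Topology Real

namespace Vale.Agent.P157.Casc.Rec

variable {ζ : Type} [MeasurableSpace ζ] {γ : Measure ζ} [IsProbabilityMeasure γ]

theorem integrable_rsqrt {α : Type*} [MeasurableSpace α] {μ : Measure α} [IsProbabilityMeasure μ]
    {Z : α → ℝ} (hZ : Measurable Z) (h0 : ∀ ω, 0 < Z ω) (hi : Integrable (fun ω => (Z ω)⁻¹) μ) :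
    Integrable (fun ω => (√(Z ω))⁻¹) μ := by
  refine ((integrable_const (1 : ℝ)).add hi).mono'
    hZ.sqrt.inv.aestronglyMeasurable (.of_forall fun ω => ?_)
  have hs := Real.sqrt_pos.2 (h0 ω)
  rw [Real.norm_of_nonneg (inv_pos.2 hs).le, Pi.add_apply]
  nlinarith [sq_nonneg ((√(Z ω))⁻¹ - 1), inv_pos.2 hs,
    show ((√(Z ω))⁻¹) ^ 2 = (Z ω)⁻¹ by rw [inv_pow, sq_sqrt (h0 ω).le]]

/-- The logarithm is integrable, with an explicit bound by the mean of an envelope. -/
theorem log_bound (K : ℕ) {m : Fin K → ℝ} (hm : Expo m) : ∃ C : ℝ, 0 ≤ C ∧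
    ∀ {X V : (Fin K → ζ) → ℝ}, (∀ z, 0 < X z) → Measurable X → (∀ z, X z ≤ V z) →
      (∀ z, (X z)⁻¹ ≤ V z) → Integrable V (Measure.pi fun _ => γ) → ∀ n,
      Integrable (fun ω => log (treeZ n K m X ω)) (treeLaw γ n K) ∧
        ∫ ω, |log (treeZ n K m X ω)| ∂treeLaw γ n K
          ≤ C * (1 + ∫ z, V z ∂(Measure.pi fun _ => γ)) := by
  obtain ⟨q, hq0, hq1, hq⟩ : ∃ q : ℝ, 0 < q ∧ q ≤ 1 ∧ ∀ i, q < m i := by
    cases K with
    | zero => exact ⟨1, one_pos, le_rfl, fun i => i.elim0⟩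
    | succ K =>
      obtain ⟨h0, h1⟩ := hm.2 0
      exact ⟨m 0 / 2, half_pos h0, by linarith, fun i =>
        (half_lt_self h0).trans_le (hm.1.monotone (Fin.zero_le i))⟩
  obtain ⟨C, hC0, hC⟩ := tree_inv (γ := γ) K hm
  have hB := momB_nonneg K hm hq0 hq1 hq
  refine ⟨momB K m q / q + C, by positivity, fun {X V} hX0 hXm hle hinv hV n => ?_⟩
  have hX : Integrable X (Measure.pi fun _ => γ) := hV.mono' hXm.aestronglyMeasurable
    (.of_forall fun z => by rw [Real.norm_of_nonneg (hX0 z).le]; exact hle z)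
  have hXi : Integrable (fun z => (X z)⁻¹) (Measure.pi fun _ => γ) :=
    hV.mono' hXm.inv.aestronglyMeasurable
      (.of_forall fun z => by rw [Real.norm_of_nonneg (inv_pos.2 (hX0 z)).le]; exact hinv z)
  obtain ⟨h1, h2⟩ := tree_bound K hm hX0 hXm hX hq0 hq1 hq n
  obtain ⟨h3, h4⟩ := hC hX0 hXm hXi n
  have hZ := measurable_treeZ n K m hXm
  have hZ0 := treeZ_pos n K m hX0
  have hg : Integrable (fun ω => treeZ n K m X ω ^ q / q + (treeZ n K m X ω)⁻¹) (treeLaw γ n K) :=
    (h1.div_const q).add h3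
  have hbd : ∀ ω, ‖log (treeZ n K m X ω)‖ ≤ treeZ n K m X ω ^ q / q + (treeZ n K m X ω)⁻¹ :=
    fun ω => abs_log_le (hZ0 ω) hq0
  refine ⟨hg.mono' (measurable_log.comp hZ).aestronglyMeasurable (.of_forall hbd), ?_⟩
  refine (integral_mono ((hg.mono' (measurable_log.comp hZ).aestronglyMeasurable
    (.of_forall hbd)).abs) hg hbd).trans ?_
  rw [integral_add (h1.div_const q) h3, integral_div]
  obtain ⟨hR0, hR1⟩ := rec_bounds (γ := γ) K hm hX0 hXm hX
  have hVX := integral_mono hX hV hle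
  have hVXi := integral_mono hXi hV hinv
  have hV0 : 0 ≤ ∫ z, V z ∂(Measure.pi fun _ => γ) := (hR0.le.trans hR1).trans hVX
  have h5 := rpow_le_tangent hR0.le one_pos hq0.le hq1
  rw [one_rpow, one_mul, div_one] at h5
  have h7 : q * rec' γ K m X ≤ rec' γ K m X := mul_le_of_le_one_left hR0.le hq1
  have h6 : rec' γ K m X ^ q ≤ 1 + ∫ z, V z ∂(Measure.pi fun _ => γ) := by linarith
  rw [add_mul, div_mul_eq_mul_div]
  refine add_le_add (div_le_div_of_nonneg_right
    (h2.trans (mul_le_mul_of_nonneg_left h6 hB)) hq0.le) (h4.trans ?_)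
  exact mul_le_mul_of_nonneg_left (by linarith) hC0

/-- The endpoint formula. -/
theorem seq_log (K : ℕ) {m : Fin K → ℝ} (hm : Expo m) {X : ℕ → (Fin K → ζ) → ℝ}
    {Xl V : (Fin K → ζ) → ℝ} (h : Env γ X Xl V) {nn : ℕ → ℕ} (hn : Tendsto nn atTop atTop) :
    Tendsto (fun k => ∫ ω, log (treeZ (nn k) K m (X k) ω) ∂treeLaw γ (nn k) K) atTop
      (𝓝 (cen K m + log (rec' γ K m Xl))) := by
  cases K with
  | zero => simpa [treeZ, rec', cen] using (h.conv ![]).log (h.posl ![]).ne'
  | succ K =>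
    obtain ⟨h0, h1⟩ := hm.2 0
    obtain ⟨C, hC0, hC⟩ := tree_inv (γ := γ) (K + 1) hm
    obtain ⟨D, A, hD, hA, hAe, hbd, hl⟩ := seq_lap hm h hn
    have hi := fun k => hC (h.pos k) (h.meas k) (h.inti k) (nn k)
    have := tendsto_log (μ := fun k => treeLaw γ (nn k) (K + 1))
      (Z := fun k => treeZ (nn k) (K + 1) m (X k))
      (fun k => measurable_treeZ (nn k) (K + 1) m (h.meas k))
      (fun k => treeZ_pos (nn k) (K + 1) m (h.pos k)) h0 h1.le hA hD hbd (fun k => (hi k).1)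
      (fun k => (hi k).2.trans (mul_le_mul_of_nonneg_left
        (integral_mono (h.inti k) h.intV (h.inv_le k)) hC0)) hl
    have hR := (rec_bounds (γ := γ) (K + 1) hm h.posl h.measl h.intl).1
    convert this using 2
    rw [hAe, cen, log_mul (mul_pos (jc_pos h0 h1)
      (mom_pos K hm.tail h0 h1.le hm.lt_tail)).ne' (rpow_pos_of_pos hR _).ne', log_rpow hR]
    field_simp
    ring

/-- The fluctuation constant of the logarithm. -/
noncomputable def fluc : (K : ℕ) → (Fin K → ℝ) → ℝ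
  | 0, _ => 1
  | K + 1, m => 4 / (m 0 / 2) ^ 2 * mom (K + 1) m (m 0 / 2) + 16 *
      ((∫ v in Ioi (0 : ℝ), exp (-(jc (m 0) * mom K (Fin.tail m) (m 0) * (v ^ 2) ^ m 0))) /
        (√π / 2)) + 1

theorem log_sq_bound {z R p : ℝ} (hz : 0 < z) (hR : 0 < R) (hp : 0 < p) :
    (log z - log R) ^ 2 ≤ 4 / p ^ 2 * R ^ (-p) * z ^ p + 16 * √R * (√z)⁻¹ := by
  have := sq_log_le (x := z / R) (div_pos hz hR) hp
  rw [log_div hz.ne' hR.ne', div_rpow hz.le hR.le, sqrt_div hz.le, inv_div] at this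
  rw [rpow_neg hR.le]
  convert this using 1
  ring

/-- Squared fluctuations are integrable with a bound by the envelope. -/
theorem log_sq_integrable (K : ℕ) {m : Fin K → ℝ} (hm : Expo m) {X : (Fin K → ζ) → ℝ}
    (hX0 : ∀ z, 0 < X z) (hXm : Measurable X) (hX : Integrable X (Measure.pi fun _ => γ))
    (hXi : Integrable (fun z => (X z)⁻¹) (Measure.pi fun _ => γ)) (n : ℕ) (c : ℝ) :
    Integrable (fun ω => (log (treeZ n K m X ω) - c) ^ 2) (treeLaw γ n K) := by
  cases K with
  | zero => exact integrable_const ((log (X ![]) - c) ^ 2)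
  | succ K =>
    obtain ⟨h0, h1⟩ := hm.2 0
    obtain ⟨C, -, hC⟩ := tree_inv (γ := γ) (K + 1) hm
    have hp : ∀ i, m 0 / 2 < m i := fun i =>
      (half_lt_self h0).trans_le (hm.1.monotone (Fin.zero_le i))
    have hb := (tree_bound (γ := γ) (K + 1) hm hX0 hXm hX (half_pos h0) (by linarith) hp n).1
    have hi := integrable_rsqrt (measurable_treeZ n _ m hXm) (treeZ_pos n _ m hX0)
      (hC hX0 hXm hXi n).1
    have := (hb.const_mul (4 / (m 0 / 2) ^ 2 * exp c ^ (-(m 0 / 2)))).add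
      (hi.const_mul (16 * √(exp c)))
    refine this.mono' (((measurable_log.comp (measurable_treeZ n _ m hXm)).sub_const _).pow_const
      2).aestronglyMeasurable (.of_forall fun ω => ?_)
    rw [Real.norm_of_nonneg (sq_nonneg _)]
    have := log_sq_bound (treeZ_pos n _ m hX0 ω) (exp_pos c) (half_pos h0)
    rwa [log_exp] at this

theorem fluc_nonneg : ∀ (K : ℕ) {m : Fin K → ℝ}, Expo m → 0 ≤ fluc K m
  | 0, _, _ => zero_le_one
  | K + 1, m, hm => by
    obtain ⟨h0, h1⟩ := hm.2 0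
    have := (mom_pos (K + 1) hm (half_pos h0) (by linarith) fun i =>
      (half_lt_self h0).trans_le (hm.1.monotone (Fin.zero_le i))).le
    have hG : 0 ≤ ∫ v in Ioi (0 : ℝ), exp (-(jc (m 0) * mom K (Fin.tail m) (m 0) *
        (v ^ 2) ^ m 0)) := setIntegral_nonneg measurableSet_Ioi fun v _ => (exp_pos _).le
    unfold fluc
    positivity

/-- The fluctuation of the logarithm is bounded by a constant that does not depend on `X`. -/
theorem seq_log_var (K : ℕ) {m : Fin K → ℝ} (hm : Expo m) {X : ℕ → (Fin K → ζ) → ℝ}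
    {Xl V : (Fin K → ζ) → ℝ} (h : Env γ X Xl V) {nn : ℕ → ℕ} (hn : Tendsto nn atTop atTop) :
    ∀ᶠ k in atTop, ∫ ω, (log (treeZ (nn k) K m (X k) ω) - log (rec' γ K m Xl)) ^ 2
      ∂treeLaw γ (nn k) K ≤ fluc K m := by
  cases K with
  | zero =>
    have h0 : Tendsto (fun k => (log (X k ![]) - log (Xl ![])) ^ 2) atTop (𝓝 0) := by
      simpa using (((h.conv ![]).log (h.posl ![]).ne').sub_const (log (Xl ![]))).pow 2
    filter_upwards [h0.eventually (eventually_le_nhds one_pos)] with k hk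
    simpa [treeZ, rec', fluc] using hk
  | succ K =>
    obtain ⟨h0, h1⟩ := hm.2 0
    set p := m 0 / 2
    have hp0 : 0 < p := half_pos h0
    have hp1 : p ≤ 1 := by simp only [p]; linarith
    have hp : ∀ i, p < m i := fun i => (half_lt_self h0).trans_le (hm.1.monotone (Fin.zero_le i))
    set a := jc (m 0) * mom K (Fin.tail m) (m 0)
    set G := (∫ v in Ioi (0 : ℝ), exp (-(a * (v ^ 2) ^ m 0))) / (√π / 2)
    obtain ⟨C, hC0, hC⟩ := tree_inv (γ := γ) (K + 1) hm
    obtain ⟨D, A, hD, hA, hAe, hbd, hl⟩ := seq_lap hm h hn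
    have hi := fun k => hC (h.pos k) (h.meas k) (h.inti k) (nn k)
    have hZ := fun k => measurable_treeZ (nn k) (K + 1) m (h.meas k)
    have hZ0 := fun k => treeZ_pos (nn k) (K + 1) m (h.pos k)
    have hmom := fun k => tree_bound (γ := γ) (K + 1) hm (h.pos k) (h.meas k) (h.int k)
      hp0 hp1 hp (nn k)
    set R := rec' γ (K + 1) m Xl
    have hR : 0 < R := (rec_bounds (γ := γ) (K + 1) hm h.posl h.measl h.intl).1
    have hlim : Tendsto (fun k => 4 / p ^ 2 * R ^ (-p) *
          ∫ ω, treeZ (nn k) (K + 1) m (X k) ω ^ p ∂treeLaw γ (nn k) (K + 1)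
          + 16 * √R * ∫ ω, (√(treeZ (nn k) (K + 1) m (X k) ω))⁻¹ ∂treeLaw γ (nn k) (K + 1)) atTop
        (𝓝 (4 / p ^ 2 * mom (K + 1) m p + 16 * G)) := by
      have h2 := tendsto_rsqrt (μ := fun k => treeLaw γ (nn k) (K + 1)) hZ hZ0
        (fun k => (hi k).1) (fun k => (hi k).2.trans (mul_le_mul_of_nonneg_left
          (integral_mono (h.inti k) h.intV (h.inv_le k)) hC0)) hl
      have := ((seq_moments (K + 1) hm h hn hp0 hp1 hp).const_mul
        (4 / p ^ 2 * R ^ (-p))).add (h2.const_mul (16 * √R))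
      convert this using 2
      congr 1
      · rw [rpow_neg hR.le]
        have := (rpow_pos_of_pos hR p).ne'
        field_simp
        rfl
      · have hscale : ∫ v in Ioi (0 : ℝ), exp (-(A * (v ^ 2) ^ m 0))
            = (√R)⁻¹ * ∫ v in Ioi (0 : ℝ), exp (-(a * (v ^ 2) ^ m 0)) := by
          have h := integral_comp_mul_left_Ioi (fun v => exp (-(a * (v ^ 2) ^ m 0))) 0
            (Real.sqrt_pos.2 hR)
          rw [mul_zero, smul_eq_mul] at h
          rw [← h]
          refine setIntegral_congr_fun measurableSet_Ioi fun v _ => ?_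
          show _ = exp (-(a * ((√R * v) ^ 2) ^ m 0))
          rw [mul_pow, sq_sqrt hR.le, mul_rpow hR.le (sq_nonneg v), hAe]
          congr 1
          ring
        rw [hscale]
        have := (Real.sqrt_pos.2 hR).ne'
        simp only [G]
        field_simp
    have hfl : fluc (K + 1) m = 4 / p ^ 2 * mom (K + 1) m p + 16 * G + 1 := rfl
    rw [hfl]
    filter_upwards [hlim.eventually (eventually_le_nhds (lt_add_one _))] with k hk
    refine le_trans ?_ hk
    rw [← integral_const_mul, ← integral_const_mul]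
    have hir := integrable_rsqrt (hZ k) (hZ0 k) (hi k).1
    rw [← integral_add ((hmom k).1.const_mul _) (hir.const_mul _)]
    exact integral_mono (log_sq_integrable _ hm (h.pos k) (h.meas k) (h.int k) (h.inti k) _ _)
      (((hmom k).1.const_mul _).add (hir.const_mul _)) fun ω => log_sq_bound (hZ0 k ω) hR hp0

end Vale.Agent.P157.Casc.Rec
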