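import Vale.Agent.P157.Casc.LimitBridge
import Vale.Agent.P157.Casc.LimitLog
import Vale.Agent.P157.Casc.LimitRec

/-!
Finite Pareto cascades: limit, fluctuation and branching levels as the degree of the tree grows.
-/

open MeasureTheory ProbabilityTheory Set Filter Topology Real

namespace Vale.Agent.P157.Casc

/-- A statement about trees with `n + 1` children gives it for trees with any growing degree. -/
theorem tendsto_degree {F : ℕ → ℕ → ℝ} {L : ℝ} {nn : ℕ → ℕ} (hn : Tendsto nn atTop atTop)
    (h : ∀ d : ℕ → ℕ, Tendsto d atTop atTop → Tendsto (fun k => F k (d k + 1)) atTop (𝓝 L)) :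
    Tendsto (fun k => F k (nn k)) atTop (𝓝 L) := by
  refine (h (fun k => nn k - 1) ((tendsto_sub_atTop_nat 1).comp hn)).congr' ?_
  filter_upwards [hn.eventually (eventually_ge_atTop 1)] with k hk
  rw [Nat.sub_add_cancel hk]

theorem measurable_wgt_leaf {K n : ℕ} (m : Fin K → ℝ) (α : Leaf K n) :
    Measurable fun W : Node K n → ℝ => wgt m W α :=
  Finset.measurable_prod _ fun l _ => (measurable_pi_apply (node α l)).mul_const _

theorem measurable_path {K n : ℕ} {X : Type} [MeasurableSpace X] (α : Leaf K n) :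
    Measurable fun ξ : Node K n → X => path ξ α :=
  measurable_pi_lambda _ fun l => measurable_pi_apply (node α l)

variable {K : ℕ} {m : Fin K → ℝ} {Z X : Type} [MeasurableSpace Z] [MeasurableSpace X]
  {ρ : Measure Z} [IsProbabilityMeasure ρ] {ν : Measure X} [IsProbabilityMeasure ν]
  {Y : ℕ → Z → (Fin K → X) → ℝ} {Yl E : Z → (Fin K → X) → ℝ} {nn : ℕ → ℕ}

theorem measurable_logS {n : ℕ} {Y0 : Z → (Fin K → X) → ℝ}
    (hY : Measurable (Function.uncurry Y0)) :
    Measurable fun p : Z × (Node K n → ℝ) × (Node K n → X) => logS m (Y0 p.1) p.2.1 p.2.2 :=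
  measurable_log.comp (Finset.measurable_sum _ fun α _ =>
    ((measurable_wgt_leaf m α).comp (measurable_fst.comp measurable_snd)).mul
      (hY.comp (measurable_fst.prodMk
        ((measurable_path α).comp (measurable_snd.comp measurable_snd)))))

omit [MeasurableSpace X] in
theorem logS_unfold (n : ℕ) (Y0 : (Fin K → X) → ℝ) (ω : Rec.TreeSpace X n K) :
    logS m Y0 (unfold2 n K m ω).1 (unfold2 n K m ω).2 = Real.log (Rec.treeZ n K m Y0 ω) := by
  rw [logS, leaf_sum]

omit [IsProbabilityMeasure ρ] [IsProbabilityMeasure ν] in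
theorem Conv.pos (h : Conv ρ ν Y Yl E) (k : ℕ) (z : Z) (y : Fin K → X) : 0 < Y k z y :=
  (exp_pos _).trans_le (h.bound k z y).1

omit [IsProbabilityMeasure ρ] [IsProbabilityMeasure ν] in
theorem Conv.posl (h : Conv ρ ν Y Yl E) (z : Z) (y : Fin K → X) : 0 < Yl z y :=
  (exp_pos _).trans_le (ge_of_tendsto' (h.conv z y) fun k => (h.bound k z y).1)

/-- The mean of the envelope. -/
theorem Conv.env_mean (h : Conv ρ ν Y Yl E) :
    Integrable (fun z => ∫ y, Real.exp (E z y) ∂(Measure.pi fun _ : Fin K => ν)) ρ ∧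
      ∀ᵐ z ∂ρ, Rec.Env ν (fun k => Y k z) (Yl z) (fun y => Real.exp (E z y)) := by
  have hi : Integrable (fun p : Z × (Fin K → X) => Real.exp (E p.1 p.2))
      (ρ.prod (Measure.pi fun _ => ν)) := by simpa using h.expint 1
  refine ⟨hi.integral_prod_left, ?_⟩
  filter_upwards [hi.prod_right_ae] with z hz
  exact ⟨fun k => (h.meas k).comp measurable_prodMk_left, h.measl.comp measurable_prodMk_left,
    measurable_exp.comp (h.measE.comp measurable_prodMk_left), fun k y => h.pos k z y,
    fun k y => (h.bound k z y).2, fun k y => by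
      rw [inv_le_comm₀ (h.pos k z y) (exp_pos _), ← Real.exp_neg]
      exact (h.bound k z y).1,
    hz, h.conv z⟩

theorem casc_log_eq (hm : Grid m) {V : (Fin K → X) → ℝ} {X0 : ℕ → (Fin K → X) → ℝ}
    {Xl : (Fin K → X) → ℝ} (h : Rec.Env ν X0 Xl V) :
    casc ν K m (fun y => Real.log (Xl y)) = Real.log (Rec.rec' ν K m Xl) := by
  have he : (fun y => Real.exp (Real.log (Xl y))) = Xl := funext fun y => exp_log (h.posl y)
  rw [casc_eq_log_rec K hm (H := fun y => Real.log (Xl y)) (measurable_log.comp h.measl)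
    (by rw [he]; exact h.intl), he]

/-- Bound of the logarithm for fixed data. -/
theorem log_env (hm : Grid m) : ∃ C : ℝ, 0 ≤ C ∧ ∀ {X0 : ℕ → (Fin K → X) → ℝ}
    {Xl V : (Fin K → X) → ℝ}, Rec.Env ν X0 Xl V →
    (∀ k n, Integrable (fun ω => Real.log (Rec.treeZ n K m (X0 k) ω)) (Rec.treeLaw ν n K) ∧
      ∫ ω, |Real.log (Rec.treeZ n K m (X0 k) ω)| ∂(Rec.treeLaw ν n K)
        ≤ C * (1 + ∫ y, V y ∂(Measure.pi fun _ : Fin K => ν))) ∧
    |casc ν K m (fun y => Real.log (Xl y))|
      ≤ C * (1 + ∫ y, V y ∂(Measure.pi fun _ : Fin K => ν)) + |Rec.cen K m| := by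
  obtain ⟨C, hC0, hC⟩ := Rec.log_bound (γ := ν) K hm.expo
  refine ⟨C, hC0, fun {X0 Xl V} h => ?_⟩
  have hb := fun k n => hC (h.pos k) (h.meas k) (h.le k) (h.inv_le k) h.intV n
  refine ⟨hb, ?_⟩
  rw [casc_log_eq hm h]
  have hlim := (Rec.seq_log K hm.expo h (tendsto_id (α := ℕ))).abs
  have := le_of_tendsto' hlim fun k =>
    (abs_integral_le_integral_abs).trans (hb k (id k)).2
  have h2 := abs_sub_abs_le_abs_sub (Real.log (Rec.rec' ν K m Xl)) (-Rec.cen K m)
  rw [sub_neg_eq_add, abs_neg, add_comm (Real.log _)] at h2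
  linarith

theorem integrable_casc (hm : Grid m) (h : Conv ρ ν Y Yl E) :
    Integrable (fun z => casc ν K m (fun y => Real.log (Yl z y))) ρ := by
  obtain ⟨hg, henv⟩ := h.env_mean
  obtain ⟨C, -, hC⟩ := log_env (ν := ν) hm
  have hm1 : Measurable fun z => casc ν K m fun y => Real.log (Yl z y) :=
    measurable_casc_param K m (H := fun z y => Real.log (Yl z y)) (measurable_log.comp h.measl)
  have hb : Integrable (fun z => C * (1 + ∫ y, Real.exp (E z y) ∂(Measure.pi fun _ : Fin K => ν))
      + |Rec.cen K m|) ρ :=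
    (((integrable_const (1 : ℝ)).add hg).const_mul C).add (integrable_const _)
  refine Integrable.mono' hb hm1.aestronglyMeasurable ?_
  filter_upwards [henv] with z hz
  exact (hC hz).2

/-- The averaged logarithm as an average over recursive trees. -/
theorem logS_tree (hm : Grid m) (n : ℕ) {X0 : ℕ → (Fin K → X) → ℝ} {Xl V : (Fin K → X) → ℝ}
    (h : Rec.Env ν X0 Xl V) (k : ℕ) (c : ℝ) :
    Integrable (fun p : (Node K (n + 1) → ℝ) × (Node K (n + 1) → X) => logS m (X0 k) p.1 p.2)
        ((casW m (n + 1)).prod (casX K (n + 1) ν)) ∧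
      ∫ W, ∫ ξ, logS m (X0 k) W ξ ∂casX K (n + 1) ν ∂casW m (n + 1)
        = ∫ ω, Real.log (Rec.treeZ n K m (X0 k) ω) ∂(Rec.treeLaw ν n K) ∧
      ∫ W, ∫ ξ, |logS m (X0 k) W ξ - c| ∂casX K (n + 1) ν ∂casW m (n + 1)
        = ∫ ω, |Real.log (Rec.treeZ n K m (X0 k) ω) - c| ∂(Rec.treeLaw ν n K) := by
  obtain ⟨C, -, hC⟩ := log_env (ν := ν) hm
  have hi := ((hC h).1 k n).1
  have hmeas : Measurable fun p : (Node K (n + 1) → ℝ) × (Node K (n + 1) → X) =>
      logS m (X0 k) p.1 p.2 :=
    measurable_log.comp (Finset.measurable_sum _ fun α _ =>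
      ((measurable_wgt_leaf m α).comp measurable_fst).mul
        ((h.meas k).comp ((measurable_path α).comp measurable_snd)))
  obtain ⟨h1, h2⟩ := integral_cascade (ν := ν) n K m (G := fun W ξ => logS m (X0 k) W ξ) hmeas
    (by simpa only [logS_unfold] using hi)
  obtain ⟨-, h3⟩ := integral_cascade (ν := ν) n K m (G := fun W ξ => |logS m (X0 k) W ξ - c|)
    ((hmeas.sub_const c).norm)
    (by simpa only [logS_unfold, Pi.sub_apply] using (hi.sub (integrable_const c)).abs)
  refine ⟨?_, ?_, ?_⟩
  · simpa only [Function.uncurry_def] using h1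
  · simpa only [logS_unfold] using h2
  · simpa only [logS_unfold] using h3

theorem cst_eq (hm : Grid m) (n : ℕ) :
    cst m (n + 1)
      = ∫ ω, Real.log (Rec.treeZ n K m (fun _ : Fin K → X => (1 : ℝ)) ω) ∂(Rec.treeLaw ν n K) := by
  have h : Rec.Env ν (fun _ _ => (1 : ℝ)) (fun _ : Fin K → X => (1 : ℝ)) (fun _ => 1) :=
    ⟨fun _ => measurable_const, measurable_const, measurable_const, fun _ _ => one_pos,
      fun _ _ => le_rfl, fun _ _ => by norm_num, integrable_const _, fun _ => tendsto_const_nhds⟩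
  rw [← (logS_tree hm n h 0 0).2.1]
  have : IsProbabilityMeasure (casX K (n + 1) ν) := by unfold casX; infer_instance
  simp [cst, logS]

theorem cst_tendsto (ν : Measure X) [IsProbabilityMeasure ν] (hm : Grid m) {d : ℕ → ℕ}
    (hd : Tendsto d atTop atTop) :
    Tendsto (fun k => cst m (d k + 1)) atTop (𝓝 (Rec.cen K m)) := by
  have h : Rec.Env ν (fun _ _ => (1 : ℝ)) (fun _ : Fin K → X => (1 : ℝ)) (fun _ => 1) :=
    ⟨fun _ => measurable_const, measurable_const, measurable_const, fun _ _ => one_pos,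
      fun _ _ => le_rfl, fun _ _ => by norm_num, integrable_const _, fun _ => tendsto_const_nhds⟩
  have hone : ∀ (K' : ℕ) (m' : Fin K' → ℝ), Rec.rec' ν K' m' (fun _ => (1 : ℝ)) = 1 := by
    intro K'
    induction K' with
    | zero => intro m'; rfl
    | succ K' ih => intro m'; simp [Rec.rec', ih]
  have := Rec.seq_log K hm.expo h hd
  rw [hone, Real.log_one, add_zero] at this
  exact this.congr fun k => (cst_eq hm (d k)).symm

theorem integrable_logS (hm : Grid m) {n : ℕ} (hn : 0 < n) {Y0 E0 : Z → (Fin K → X) → ℝ}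
    (h : Conv ρ ν (fun _ => Y0) Y0 E0) :
    Integrable (fun p : Z × (Node K n → ℝ) × (Node K n → X) => logS m (Y0 p.1) p.2.1 p.2.2)
      (ρ.prod ((casW m n).prod (casX K n ν))) := by
  obtain ⟨n, rfl⟩ := Nat.exists_eq_add_of_le hn
  rw [Nat.succ_eq_add_one, zero_add, add_comm]
  have : IsProbabilityMeasure (casX K (n + 1) ν) := by unfold casX; infer_instance
  obtain ⟨hg, henv⟩ := h.env_mean
  obtain ⟨C, -, hC⟩ := log_env (ν := ν) hm
  have hmeas := measurable_logS (m := m) (n := n + 1) (h.meas 0)
  rw [integrable_prod_iff hmeas.aestronglyMeasurable]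
  refine ⟨henv.mono fun z hz => (logS_tree hm n hz 0 0).1, ?_⟩
  refine (((integrable_const (1 : ℝ)).add hg).const_mul C).mono'
    (StronglyMeasurable.integral_prod_right'
      hmeas.norm.stronglyMeasurable).aestronglyMeasurable ?_
  filter_upwards [henv] with z hz
  obtain ⟨h1, -, h3⟩ := logS_tree hm n hz 0 0
  rw [Real.norm_of_nonneg (integral_nonneg fun _ => norm_nonneg _)]
  simp only [Real.norm_eq_abs]
  rw [← integral_integral (f := fun W ξ => |logS m (Y0 z) W ξ|) h1.abs]
  simp only [sub_zero] at h3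
  rw [h3]
  exact ((hC hz).1 0 n).2

theorem casc_limit (hm : Grid m) (h : Conv ρ ν Y Yl E) (hn : Tendsto nn atTop atTop) :
    Tendsto (fun k => (∫ z, ∫ W, ∫ ξ, logS m (Y k z) W ξ ∂casX K (nn k) ν ∂casW m (nn k) ∂ρ)
      - cst m (nn k)) atTop
      (𝓝 (∫ z, casc ν K m (fun y => Real.log (Yl z y)) ∂ρ)) := by
  refine tendsto_degree (F := fun k n =>
    (∫ z, ∫ W, ∫ ξ, logS m (Y k z) W ξ ∂casX K n ν ∂casW m n ∂ρ) - cst m n) hn fun d hd => ?_
  obtain ⟨hg, henv⟩ := h.env_mean
  obtain ⟨C, -, hC⟩ := log_env (ν := ν) hm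
  have hlim : Tendsto (fun k => ∫ z, ∫ W, ∫ ξ, logS m (Y k z) W ξ
      ∂casX K (d k + 1) ν ∂casW m (d k + 1) ∂ρ) atTop
      (𝓝 (∫ z, (Rec.cen K m + casc ν K m (fun y => Real.log (Yl z y))) ∂ρ)) := by
    refine tendsto_integral_of_dominated_convergence
      (fun z => C * (1 + ∫ y, Real.exp (E z y) ∂(Measure.pi fun _ : Fin K => ν))) (fun k => ?_)
      (((integrable_const (1 : ℝ)).add hg).const_mul C) (fun k => ?_) ?_
    · refine (StronglyMeasurable.integral_prod_right' (ν := Rec.treeLaw ν (d k) K)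
        (measurable_log.comp (Rec.measurable_treeZ_param (d k) K m (h.meas k))).stronglyMeasurable
        ).aestronglyMeasurable.congr ?_
      filter_upwards [henv] with z hz
      exact (logS_tree hm (d k) hz k 0).2.1.symm
    · filter_upwards [henv] with z hz
      rw [(logS_tree hm (d k) hz k 0).2.1]
      exact abs_integral_le_integral_abs.trans ((hC hz).1 k (d k)).2
    · filter_upwards [henv] with z hz
      rw [casc_log_eq hm hz]
      exact (Rec.seq_log K hm.expo hz hd).congr fun k => (logS_tree hm (d k) hz k 0).2.1.symm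
  rw [integral_add (integrable_const _) (integrable_casc hm h)] at hlim
  simpa using hlim.sub (cst_tendsto ν hm hd)

/-- The fluctuation constant depends on the grid only. -/
theorem casc_conc (hm : Grid m) : ∃ C : ℝ, ∀ (Z X : Type) (_ : MeasurableSpace Z)
    (_ : MeasurableSpace X) (ρ : Measure Z) (ν : Measure X), IsProbabilityMeasure ρ →
    IsProbabilityMeasure ν → ∀ (Y : ℕ → Z → (Fin K → X) → ℝ) (Yl E : Z → (Fin K → X) → ℝ),
    Conv ρ ν Y Yl E → ∀ nn : ℕ → ℕ, Tendsto nn atTop atTop → ∀ᶠ k in atTop,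
    ∫ z, ∫ W, ∫ ξ, |logS m (Y k z) W ξ - cst m (nn k) - casc ν K m (fun y => Real.log (Yl z y))|
      ∂casX K (nn k) ν ∂casW m (nn k) ∂ρ ≤ C := by
  set c0 := (Rec.fluc K m + 1) / 2
  refine ⟨c0 + |Rec.cen K m| + 2, fun Z X _ _ ρ ν _ _ Y Yl E h nn hn => ?_⟩
  obtain ⟨hg, henv⟩ := h.env_mean
  obtain ⟨C, -, hC⟩ := log_env (ν := ν) hm
  have key : ∀ d : ℕ → ℕ, Tendsto d atTop atTop → ∀ᶠ k in atTop,
      ∫ z, ∫ W, ∫ ξ, |logS m (Y k z) W ξ - cst m (d k + 1)
          - casc ν K m (fun y => Real.log (Yl z y))|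
        ∂casX K (d k + 1) ν ∂casW m (d k + 1) ∂ρ ≤ c0 + |Rec.cen K m| + 2 := by
    intro d hd
    set r := fun z => casc ν K m (fun y => Real.log (Yl z y))
    set f : ℕ → Z → ℝ := fun k z =>
      ∫ ω, |Real.log (Rec.treeZ (d k) K m (Y k z) ω) - r z| ∂(Rec.treeLaw ν (d k) K)
    set b : Z → ℝ := fun z =>
      C * (1 + ∫ y, Real.exp (E z y) ∂(Measure.pi fun _ : Fin K => ν)) + |r z|
    have hb : Integrable b ρ :=
      (((integrable_const (1 : ℝ)).add hg).const_mul C).add (integrable_casc hm h).abs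
    have hfm : ∀ k, Measurable (f k) := fun k => (StronglyMeasurable.integral_prod_right'
      (((measurable_log.comp (Rec.measurable_treeZ_param (d k) K m (h.meas k))).sub
        ((measurable_casc_param K m (H := fun z y => Real.log (Yl z y))
          (measurable_log.comp h.measl)).comp
          measurable_fst)).norm.stronglyMeasurable)).measurable
    have hfb : ∀ k, ∀ᵐ z ∂ρ, f k z ≤ b z := fun k => by
      filter_upwards [henv] with z hz
      obtain ⟨hi, hi'⟩ := (hC hz).1 k (d k)
      refine (integral_mono (hi.sub (integrable_const _)).abs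
        (hi.abs.add (integrable_const |r z|)) fun ω => abs_sub _ _).trans ?_
      simp only [Pi.add_apply]
      rw [integral_add hi.abs (integrable_const _)]
      simpa [b] using hi'
    have hf0 : ∀ k z, 0 ≤ f k z := fun k z => integral_nonneg fun ω => abs_nonneg _
    have hfi : ∀ k, Integrable (f k) ρ := fun k => hb.mono' (hfm k).aestronglyMeasurable
      ((hfb k).mono fun z hz => by rwa [Real.norm_of_nonneg (hf0 k z)])
    have hc0 : 0 ≤ c0 := by have := Rec.fluc_nonneg K hm.expo; positivity
    have hex : Tendsto (fun k => ∫ z, max (f k z - c0) 0 ∂ρ) atTop (𝓝 (∫ _z, (0 : ℝ) ∂ρ)) := by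
      refine tendsto_integral_of_dominated_convergence b
        (fun k => (((hfm k).sub_const c0).max measurable_const).aestronglyMeasurable) hb
        (fun k => (hfb k).mono fun z hz => ?_) ?_
      · rw [Real.norm_of_nonneg (le_max_right _ _)]
        exact max_le (by linarith) ((hf0 k z).trans hz)
      · filter_upwards [henv] with z hz
        refine tendsto_const_nhds.congr' ?_
        filter_upwards [Rec.seq_log_var K hm.expo hz hd] with k hk
        refine (max_eq_right ?_).symm
        have hr : r z = Real.log (Rec.rec' ν K m (Yl z)) := casc_log_eq hm hz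
        have hsq := Rec.log_sq_integrable K hm.expo (hz.pos k) (hz.meas k) (hz.int k) (hz.inti k)
          (d k) (r z)
        have h2 : f k z ≤ ∫ ω, ((Real.log (Rec.treeZ (d k) K m (Y k z) ω) - r z) ^ 2 + 1) / 2
            ∂(Rec.treeLaw ν (d k) K) := by
          refine integral_mono (((hC hz).1 k (d k)).1.sub (integrable_const _)).abs
            ((hsq.add (integrable_const 1)).div_const 2) fun ω => ?_
          nlinarith [sq_nonneg (|Real.log (Rec.treeZ (d k) K m (Y k z) ω) - r z| - 1),
            sq_abs (Real.log (Rec.treeZ (d k) K m (Y k z) ω) - r z)]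
        rw [integral_div, integral_add hsq (integrable_const _), hr] at h2
        simp only [integral_const, probReal_univ, one_smul, c0] at h2 ⊢
        linarith
    simp only [integral_zero] at hex
    filter_upwards [hex.eventually (eventually_le_nhds zero_lt_one),
      (cst_tendsto ν hm hd).abs.eventually (eventually_le_nhds (lt_add_one _))] with k hk hk'
    have hle : ∀ᵐ z ∂ρ, ∫ W, ∫ ξ, |logS m (Y k z) W ξ - cst m (d k + 1) - r z|
        ∂casX K (d k + 1) ν ∂casW m (d k + 1) ≤ f k z + |cst m (d k + 1)| := by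
      filter_upwards [henv] with z hz
      simp_rw [sub_sub]
      rw [(logS_tree hm (d k) hz k (cst m (d k + 1) + r z)).2.2]
      obtain ⟨hi, -⟩ := (hC hz).1 k (d k)
      refine (integral_mono (hi.sub (integrable_const _)).abs
        ((hi.sub (integrable_const (r z))).abs.add (integrable_const |cst m (d k + 1)|))
        fun ω => ?_).trans_eq ?_
      · simp only [Pi.add_apply, Pi.sub_apply]
        rw [add_comm (cst _ _), ← sub_sub]
        exact abs_sub _ _
      · simp only [Pi.add_apply, Pi.sub_apply, f]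
        rw [integral_add (f := fun ω => |Real.log (Rec.treeZ (d k) K m (Y k z) ω) - r z|)
          (hi.sub (integrable_const (r z))).abs (integrable_const _)]
        simp
    refine (integral_mono_of_nonneg (.of_forall fun z => integral_nonneg fun W =>
      integral_nonneg fun ξ => abs_nonneg _) ((hfi k).add (integrable_const _)) hle).trans ?_
    simp only [Pi.add_apply]
    rw [integral_add (hfi k) (integrable_const _)]
    have hpp : Integrable (fun z => max (f k z - c0) 0) ρ :=
      ((hfi k).sub (integrable_const c0)).pos_part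
    have h3 : ∫ z, f k z ∂ρ ≤ ∫ z, (max (f k z - c0) 0 + c0) ∂ρ := by
      refine integral_mono (hfi k) (hpp.add (integrable_const c0)) fun z => ?_
      have := le_max_left (f k z - c0) 0
      linarith
    rw [integral_add hpp (integrable_const _)] at h3
    simp only [integral_const, probReal_univ, one_smul] at h3 hk ⊢
    linarith
  filter_upwards [key (fun k => nn k - 1) ((tendsto_sub_atTop_nat 1).comp hn),
    hn.eventually (eventually_ge_atTop 1)] with k hk hk1
  rwa [Nat.sub_add_cancel hk1] at hk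

omit [MeasurableSpace X] in
/-- Pair averages as recursive sums. -/
theorem avg2_unfold (n : ℕ) {d : ℕ} (Y0 : (Fin K → X) → ℝ) (a : (Fin K → X) → Fin d → ℝ)
    (l : Fin (K + 1)) (ω : Rec.TreeSpace X n K) :
    avg2 (fun α => wgt m (unfold2 n K m ω).1 α * Y0 (path (unfold2 n K m ω).2 α))
        (fun α β => if com α β = l then
          ∑ i, a (path (unfold2 n K m ω).2 α) i * a (path (unfold2 n K m ω).2 β) i else 0)
      = ∑ i, Rec.treeP n K m (fun y => Y0 y * a y i) ω l * Rec.treeZ n K m Y0 ω ^ ((0 : ℝ) - 2) := by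
  set W := (unfold2 n K m ω).1
  set ξ := (unfold2 n K m ω).2
  set u := fun α => wgt m W α * Y0 (path ξ α)
  have hS : ∑ α, u α = Rec.treeZ n K m Y0 ω := leaf_sum n K m Y0 ω
  set S := Rec.treeZ n K m Y0 ω
  have hexp : S ^ ((0 : ℝ) - 2) = (S⁻¹) ^ 2 := by
    rw [zero_sub, show (-2 : ℝ) = ((-2 : ℤ) : ℝ) by norm_num, rpow_intCast, zpow_neg, inv_pow]
    norm_cast
  simp only [avg2, gibbs, hS, hexp]
  simp_rw [← leaf_pairs n K m, Finset.sum_mul]
  rw [Finset.sum_comm (s := (Finset.univ : Finset (Fin d)))]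
  refine Finset.sum_congr rfl fun α _ => ?_
  rw [Finset.sum_comm]
  refine Finset.sum_congr rfl fun β _ => ?_
  by_cases hl : com α β = l
  · simp only [if_pos hl, Finset.mul_sum]
    refine Finset.sum_congr rfl fun i _ => ?_
    simp only [u, W, ξ, div_eq_mul_inv]
    ring
  · simp [hl]

/-- Conditional means of bounded leaf vectors. -/
theorem casc_mono (hm : Grid m) (h : Conv ρ ν Y Yl E) (hn : Tendsto nn atTop atTop) {d : ℕ}
    {a : ℕ → Z → (Fin K → X) → Fin d → ℝ} {al : Z → (Fin K → X) → Fin d → ℝ} {B : ℝ}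
    (ham : ∀ k, Measurable (Function.uncurry (a k))) (_hal : Measurable (Function.uncurry al))
    (haB : ∀ k z y i, |a k z y i| ≤ B)
    (hac : ∀ z y, Tendsto (fun k => a k z y) atTop (𝓝 (al z y))) :
    ∀ l, Tendsto (fun k => ∫ z, ∫ W, ∫ ξ, avg2 (fun α => wgt m W α * Y k z (path ξ α))
        (fun α β => if com α β = l then ∑ i, a k z (path ξ α) i * a k z (path ξ β) i else 0)
        ∂casX K (nn k) ν ∂casW m (nn k) ∂ρ) atTop
      (𝓝 (gap m l * ∑ i, ∫ z, csq ν K m (fun y => Real.log (Yl z y)) (fun y => al z y i) l ∂ρ)) := by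
  intro l
  refine tendsto_degree (F := fun k n => ∫ z, ∫ W, ∫ ξ,
    avg2 (fun α => wgt m W α * Y k z (path ξ α))
      (fun α β => if com α β = l then ∑ i, a k z (path ξ α) i * a k z (path ξ β) i else 0)
      ∂casX K n ν ∂casW m n ∂ρ) hn fun D hD => ?_
  obtain ⟨-, henv⟩ := h.env_mean
  have hai : ∀ k i, Measurable fun p : Z × (Fin K → X) => Y k p.1 p.2 * a k p.1 p.2 i :=
    fun k i => (h.meas k).mul ((measurable_pi_apply i).comp (ham k))
  set F : Fin d → ℕ → Z → ℝ := fun i k z => ∫ ω, Rec.treeP (D k) K m (fun y => Y k z y * a k z y i) ω l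
      * Rec.treeZ (D k) K m (Y k z) ω ^ ((0 : ℝ) - 2) ∂(Rec.treeLaw ν (D k) K)
  have hbd : ∀ i k z, ∀ ω, ‖Rec.treeP (D k) K m (fun y => Y k z y * a k z y i) ω l
      * Rec.treeZ (D k) K m (Y k z) ω ^ ((0 : ℝ) - 2)‖ ≤ 2 * B ^ 2 := fun i k z ω => by
    have hZ := Rec.treeZ_pos (D k) K m (h.pos k z) ω
    rw [Real.norm_eq_abs, abs_mul, abs_of_pos (rpow_pos_of_pos hZ _)]
    refine (mul_le_mul_of_nonneg_right (Rec.abs_treeP_le (B := B) (D k) K m (h.pos k z)
      (fun y => ?_) ω l) (rpow_nonneg hZ.le _)).trans_eq ?_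
    · rw [abs_mul, abs_of_pos (h.pos k z y), mul_comm B]
      exact mul_le_mul_of_nonneg_left (haB k z y i) (h.pos k z y).le
    · rw [mul_assoc, ← rpow_add hZ]
      norm_num
  have hmω : ∀ i k, Measurable fun p : Z × Rec.TreeSpace X (D k) K =>
      Rec.treeP (D k) K m (fun y => Y k p.1 y * a k p.1 y i) p.2 l
        * Rec.treeZ (D k) K m (Y k p.1) p.2 ^ ((0 : ℝ) - 2) := fun i k =>
    (Rec.measurable_treeP_param (D k) K m (Y := fun z y => Y k z y * a k z y i) (hai k i) l).mul
      ((Rec.measurable_treeZ_param (D k) K m (h.meas k)).pow_const _)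
  have hFm : ∀ i k, Measurable (F i k) := fun i k =>
    (StronglyMeasurable.integral_prod_right' (hmω i k).stronglyMeasurable).measurable
  have hFb : ∀ i k z, ‖F i k z‖ ≤ 2 * B ^ 2 := fun i k z => by
    refine (norm_integral_le_of_norm_le_const (.of_forall (hbd i k z))).trans_eq ?_
    simp
  have hlim : ∀ i, Tendsto (fun k => ∫ z, F i k z ∂ρ) atTop
      (𝓝 (∫ z, gap m l * csq ν K m (fun y => Real.log (Yl z y)) (fun y => al z y i) l ∂ρ)) :=
    fun i => by
      refine tendsto_integral_of_dominated_convergence (fun _ => 2 * B ^ 2)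
        (fun k => (hFm i k).aestronglyMeasurable) (integrable_const _)
        (fun k => .of_forall (hFb i k)) ?_
      filter_upwards [henv] with z hz
      have he : (fun y => Real.exp (Real.log (Yl z y))) = Yl z :=
        funext fun y => exp_log (h.posl z y)
      have h1 := (Rec.seq_pairs K hm.expo hz hD (a := fun k y => a k z y i)
        (al := fun y => al z y i)
        (fun k => (measurable_pi_apply i).comp ((ham k).comp measurable_prodMk_left))
        (fun k y => haB k z y i) (fun y => (tendsto_pi_nhds.1 (hac z y)) i)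
        le_rfl zero_lt_one hm.pos).2 l
      rw [Rec.momq_zero, rpow_zero, one_mul, one_mul] at h1
      rw [csq_eq_tsq K hm (H := fun y => Real.log (Yl z y)) (measurable_log.comp hz.measl)
        (by rw [he]; exact hz.intl) l, he]
      have hg : Rec.gapq K m 0 l = gap m l := by
        have := Rec.gapq_eq K hm.expo zero_lt_one l
        rwa [sub_zero, mul_one] at this
      rw [← hg]
      exact h1
  have := tendsto_finsetSum Finset.univ fun i _ => hlim i
  simp only [integral_const_mul, ← Finset.mul_sum] at this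
  refine this.congr fun k => ?_
  rw [← integral_finsetSum _ fun i _ => (Integrable.of_bound (hFm i k).aestronglyMeasurable
    (2 * B ^ 2) (.of_forall (hFb i k)))]
  refine integral_congr_ae (.of_forall fun z => Eq.symm ?_)
  have hi : ∀ i, Integrable (fun ω => Rec.treeP (D k) K m (fun y => Y k z y * a k z y i) ω l
      * Rec.treeZ (D k) K m (Y k z) ω ^ ((0 : ℝ) - 2)) (Rec.treeLaw ν (D k) K) := fun i =>
    Integrable.of_bound ((hmω i k).comp measurable_prodMk_left).aestronglyMeasurable _
      (.of_forall (hbd i k z))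
  have hG : Measurable fun p : (Node K (D k + 1) → ℝ) × (Node K (D k + 1) → X) =>
      avg2 (fun α => wgt m p.1 α * Y k z (path p.2 α))
        (fun α β => if com α β = l then ∑ i, a k z (path p.2 α) i * a k z (path p.2 β) i else 0) := by
    have hu : ∀ α : Leaf K (D k + 1), Measurable fun p : (Node K (D k + 1) → ℝ) ×
        (Node K (D k + 1) → X) => wgt m p.1 α * Y k z (path p.2 α) := fun α =>
      ((measurable_wgt_leaf m α).comp measurable_fst).mul
        (((h.meas k).comp measurable_prodMk_left).comp ((measurable_path α).comp measurable_snd))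
    have ha : ∀ α i, Measurable fun p : (Node K (D k + 1) → ℝ) × (Node K (D k + 1) → X) =>
        a k z (path p.2 α) i := fun α i => (measurable_pi_apply i).comp
      (((ham k).comp measurable_prodMk_left).comp ((measurable_path α).comp measurable_snd))
    unfold avg2 gibbs
    refine Finset.measurable_sum _ fun α _ => Finset.measurable_sum _ fun β _ =>
      (((hu α).div (Finset.measurable_sum _ fun γ _ => hu γ)).mul
        ((hu β).div (Finset.measurable_sum _ fun γ _ => hu γ))).mul ?_
    by_cases hc : com α β = l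
    · simp only [if_pos hc]
      exact Finset.measurable_sum _ fun i _ => (ha α i).mul (ha β i)
    · simp only [if_neg hc]
      exact measurable_const
  refine ((integral_cascade (ν := ν) (D k) K m (G := fun W ξ =>
    avg2 (fun α => wgt m W α * Y k z (path ξ α))
      (fun α β => if com α β = l then ∑ i, a k z (path ξ α) i * a k z (path ξ β) i else 0))
    hG ?_).2).trans ?_
  · simp only [avg2_unfold (m := m) (D k) (Y k z) (a k z) l]
    exact integrable_finsetSum _ fun i _ => hi i
  · simp only [avg2_unfold (m := m) (D k) (Y k z) (a k z) l, F]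
    exact integral_finsetSum _ fun i _ => hi i

/-- Probabilities of the branching levels. -/
theorem casc_level (hm : Grid m) (h : Conv ρ ν Y Yl E) (hn : Tendsto nn atTop atTop)
    (l : Fin (K + 1)) :
    Tendsto (fun k => ∫ z, ∫ W, ∫ ξ, avg2 (fun α => wgt m W α * Y k z (path ξ α))
        (fun α β => if com α β = l then (1 : ℝ) else 0) ∂casX K (nn k) ν ∂casW m (nn k) ∂ρ)
      atTop (𝓝 (gap m l)) := by
  have := casc_mono hm h hn (d := 1) (a := fun _ _ _ _ => 1) (al := fun _ _ _ => 1) (B := 1)
    (fun _ => measurable_const) measurable_const (fun _ _ _ _ => by simp)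
    (fun _ _ => tendsto_const_nhds) l
  obtain ⟨-, henv⟩ := h.env_mean
  have hone : ∫ z, csq ν K m (fun y => Real.log (Yl z y)) (fun _ => (1 : ℝ)) l ∂ρ = 1 := by
    rw [integral_congr_ae (g := fun _ => (1 : ℝ)) ?_]
    · simp
    filter_upwards [henv] with z hz
    have he : (fun y => Real.exp (Real.log (Yl z y))) = Yl z :=
      funext fun y => exp_log (h.posl z y)
    rw [(csq_const (ν := ν) 1 K hm (H := fun y => Real.log (Yl z y)) (measurable_log.comp hz.measl)
      (by rw [he]; exact hz.intl)).2 l]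
    norm_num
  simpa [hone] using this

end Vale.Agent.P157.Casc
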