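import Vale.Agent.P157.Casc.Basic
import Vale.Agent.P157.Casc.Limit

/-!
The model along converging variances: converging leaf factors and the limit of the free energy.
-/

open MeasureTheory ProbabilityTheory Filter Topology

namespace Vale.Agent.P157.Casc

variable {N M K : ℕ}

theorem measurable_leafY (P : Pot) (π : Prior N) (c : CIdx N M K → ℝ) :
    Measurable (Function.uncurry fun (z : RIdx N M → ℝ) (y : Fin K → LIdx N M → ℝ) =>
      leafY P π c z y) :=
  ((continuous_leafY (M := M) (K := K) P π).comp
    (f := fun p : (RIdx N M → ℝ) × (Fin K → LIdx N M → ℝ) => (c, p.1, p.2))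
    (continuous_const.prodMk continuous_id)).measurable

theorem measurable_absSum :
    Measurable (Function.uncurry fun (z : RIdx N M → ℝ) (y : Fin K → LIdx N M → ℝ) =>
      absSum z y) := by
  simp only [Function.uncurry_def, absSum]
  fun_prop

/-- The leaf factors along a converging sequence of variances. -/
theorem conv_leafY (P : Pot) (π : Prior N) {c : ℕ → CIdx N M K → ℝ} {cl : CIdx N M K → ℝ}
    (hc : Tendsto c atTop (𝓝 cl)) : ∃ A : ℝ,
      Conv (gaus (RIdx N M)) (gaus (LIdx N M)) (fun k => leafY P π (c k)) (leafY P π cl)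
        (fun z y => A * absSum z y) := by
  obtain ⟨R, hR⟩ := hc.norm.bddAbove_range
  have hR' : ∀ k i, |c k i| ≤ R := fun k i =>
    ((Real.norm_eq_abs _).symm.trans_le (norm_le_pi_norm (c k) i)).trans (hR ⟨k, rfl⟩)
  obtain ⟨A, -, hA⟩ := leafY_bound (M := M) (K := K) P π R
  refine ⟨A, fun k => measurable_leafY P π (c k), measurable_leafY P π cl,
    measurable_absSum.const_mul A, fun k z y => hA (c k) (hR' k) z y, fun z y => ?_, fun t => ?_⟩
  · exact (((continuous_leafY (M := M) (K := K) P π).comp (f := fun c => (c, z, y))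
      (continuous_id.prodMk continuous_const)).tendsto cl).comp hc
  · simp only [← mul_assoc]
    exact integrable_exp_absSum (t * A)

theorem integrable_casc_leafY (P : Pot) (π : Prior N) (c : CIdx N M K → ℝ) :
    Integrable (fun z => casc (gaus (LIdx N M)) K (mlev K) fun y => Real.log (leafY P π c z y))
      (gaus (RIdx N M)) := by
  obtain ⟨A, hA⟩ := conv_leafY P π (tendsto_const_nhds (x := c) (f := atTop (α := ℕ)))
  exact integrable_casc (grid_mlev K) hA

/-- The free energy in root and label coordinates. -/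
theorem mfree_logS (P : Pot) (π : Prior N) {n : ℕ} (hn : 0 < n) (c : CIdx N M K → ℝ) :
    mfree n P π c = (∫ z, ∫ W, ∫ ξ, logS (mlev K) (leafY P π c z) W ξ
      ∂casX K n (gaus (LIdx N M)) ∂casW (mlev K) n ∂gaus (RIdx N M)) - cst (mlev K) n := by
  obtain ⟨A, hA⟩ := conv_leafY P π (tendsto_const_nhds (x := c) (f := atTop (α := ℕ)))
  have hi := integrable_logS (grid_mlev K) hn hA
  rw [mfree, integral_env]
  · simp only [log_sum_mbw_join]
  · exact (Finset.measurable_sum _ fun st _ =>
      (continuous_mbw P π c st).measurable).log.aestronglyMeasurable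
  · simpa only [log_sum_mbw_join] using hi

theorem tendsto_mfree (P : Pot) (π : Prior N) {c : ℕ → CIdx N M K → ℝ} {cl : CIdx N M K → ℝ}
    (hc : Tendsto c atTop (𝓝 cl)) {nn : ℕ → ℕ} (hn : Tendsto nn atTop atTop) :
    Tendsto (fun k => mfree (nn k) P π (c k)) atTop (𝓝 (∫ z,
      casc (gaus (LIdx N M)) K (mlev K) (fun y => Real.log (leafY P π cl z y))
        ∂gaus (RIdx N M))) := by
  obtain ⟨A, hA⟩ := conv_leafY P π hc
  refine (casc_limit (grid_mlev K) hA hn).congr' ?_
  filter_upwards [hn.eventually (eventually_gt_atTop 0)] with k hk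
  exact (mfree_logS P π hk (c k)).symm

end Vale.Agent.P157.Casc
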