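import Vale.Agent.P157.Casc.FreeEnd
import Vale.Agent.P157.Casc.Interp
import Vale.Agent.P157.Casc.MLimit

/-!
Level averages of derivatives of free patterns.
-/

open MeasureTheory ProbabilityTheory Filter Topology Set

namespace Vale.Agent.P157.Casc

variable {N M K : ℕ}

/-- Patterns without couplings to the spins, with fields of path `v`. -/
structure FreePats (c : CIdx N M K → ℝ) (A : Finset (Fin M)) (v : Fin (K + 1) → ℝ) : Prop where
  pat : ∀ a ∈ A, ∀ j, c (Sum.inl (a, j)) = 0
  lab : ∀ a ∈ A, ∀ l, c (Sum.inr (l, Sum.inl a)) = incr v l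

/-- Squared conditional means of the derivative of one free pattern. -/
noncomputable def patF (P : Pot) (v : Fin (K + 1) → ℝ) (w : ℝ) (l : Fin (K + 1)) : ℝ :=
  csq (gaussianReal 0 1) K (mlev K) (fun u => P.f (pathField v w u))
    (fun u => P.f1 (pathField v w u)) l

theorem integral_patF (P : Pot) (v : Fin (K + 1) → ℝ) (l : Fin (K + 1)) :
    ∫ w, patF P v w l ∂gaussianReal 0 1 = vF P v l := rfl

theorem integrable_exp_pot (P : Pot) {H : (Fin K → ℝ) → ℝ} (hH : Measurable H)
    (hb : ∀ u, |H u| ≤ P.bF) :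
    Integrable (fun u => Real.exp (H u)) (Measure.pi fun _ : Fin K => gaussianReal 0 1) :=
  Integrable.of_bound hH.exp.aestronglyMeasurable (Real.exp P.bF) (ae_of_all _ fun u => by
    rw [Real.norm_eq_abs, abs_of_pos (Real.exp_pos _)]
    exact Real.exp_le_exp.2 (abs_le.1 (hb u)).2)

theorem abs_vF_le (P : Pot) (v : Fin (K + 1) → ℝ) (l : Fin (K + 1)) :
    |vF P v l| ≤ P.b1 ^ 2 := by
  have hp : ∀ w : ℝ, Continuous fun u : Fin K → ℝ => pathField v w u := fun w => by
    unfold pathField; fun_prop
  have h : ∀ w, |patF P v w l| ≤ P.b1 ^ 2 := fun w =>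
    (csq_bound_mono K (grid_mlev K) ((pot_continuous P).comp (hp w)).measurable
      ((pot_continuous1 P).comp (hp w)).measurable
      (integrable_exp_pot P ((pot_continuous P).comp (hp w)).measurable fun u => P.hF _)
      (B := P.b1) fun u => P.h1 _).1 l
  rw [← integral_patF, ← Real.norm_eq_abs]
  refine (norm_integral_le_of_norm_le_const (C := P.b1 ^ 2)
    (ae_of_all _ fun w => (Real.norm_eq_abs _).trans_le (h w))).trans_eq ?_
  simp

open Classical in
/-- The squared conditional means of products of free patterns factorise. -/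
theorem csq_free_pats (P : Pot) (π : Prior N) {c : CIdx N M K → ℝ} {A : Finset (Fin M)}
    {v : Fin (K + 1) → ℝ} (hc : FreePats c A v) {S : Finset (Fin M)} (hS : S ⊆ A)
    (z : RIdx N M → ℝ) (l : Fin (K + 1)) :
    csq (gaus (LIdx N M)) K (mlev K) (fun y => Real.log (leafY P π c z y))
        (fun y => ∏ a ∈ S, P.f1 (labField v z y (Sum.inl a))) l
      = ∏ a ∈ S, patF P v (z (Sum.inr (Sum.inl a))) l := by
  set Hr := fun y : Fin K → LIdx N M → ℝ => Real.log (restY P π c A z y)
  set fa := fun (a : Fin M) (y : Fin K → LIdx N M → ℝ) => P.f (labField v z y (Sum.inl a))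
  have cfa : ∀ a, Continuous (fa a) := fun a =>
    (pot_continuous P).comp (continuous_labField v z _)
  have cga : ∀ a, Continuous fun y : Fin K → LIdx N M → ℝ =>
      P.f1 (labField v z y (Sum.inl a)) := fun a =>
    (pot_continuous1 P).comp (continuous_labField v z _)
  have hsplit : ∀ y, Real.log (leafY P π c z y) = (∑ a ∈ A, fa a y) + Hr y :=
    log_leafY_split P π c A v hc.pat hc.lab z
  have mY : Measurable fun y => Real.log (leafY P π c z y) :=
    (continuous_leafY_y P π c z).measurable.log
  have mHr : Measurable Hr := by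
    have e : Hr = fun y => Real.log (leafY P π c z y) - ∑ a ∈ A, fa a y :=
      funext fun y => by rw [hsplit]; ring
    rw [e]
    exact mY.sub (continuous_finsetSum _ fun a _ => cfa a).measurable
  have hi : ∀ A' ⊆ A, Integrable (fun y => Real.exp ((∑ a ∈ A', fa a y) + Hr y))
      (Measure.pi fun _ : Fin K => gaus (LIdx N M)) := fun A' hA' => by
    refine ((integrable_exp_logY P π c z).const_mul (Real.exp ((A.card : ℝ) * P.bF))).mono'
      (((continuous_finsetSum _ fun a _ => cfa a).measurable.add mHr).exp).aestronglyMeasurable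
      (ae_of_all _ fun y => ?_)
    rw [Real.norm_eq_abs, abs_of_pos (Real.exp_pos _), ← Real.exp_add, Real.exp_le_exp, hsplit,
      ← Finset.sum_sdiff hA']
    have h1 : -((A.card : ℝ) * P.bF) ≤ ∑ a ∈ A \ A', fa a y := by
      have h0 : (((A \ A').card : ℕ) : ℝ) * P.bF ≤ (A.card : ℝ) * P.bF :=
        mul_le_mul_of_nonneg_right
          (by exact_mod_cast Finset.card_le_card Finset.sdiff_subset) (Itp.bF_nonneg P)
      have h2 := Finset.sum_le_sum (f := fun _ => -P.bF) (g := fun a => fa a y)
        (s := A \ A') fun a _ => (abs_le.1 (P.hF _)).1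
      simp only [Finset.sum_const, nsmul_eq_mul, mul_neg] at h2
      linarith
    linarith
  have key : ∀ A' ⊆ A, ∀ S ⊆ A',
      csq (gaus (LIdx N M)) K (mlev K) (fun y => (∑ a ∈ A', fa a y) + Hr y)
          (fun y => ∏ a ∈ S, P.f1 (labField v z y (Sum.inl a))) l
        = ∏ a ∈ S, patF P v (z (Sum.inr (Sum.inl a))) l := by
    intro A'
    induction A' using Finset.induction with
    | empty =>
      intro _ S hS
      rw [Finset.subset_empty] at hS
      subst hS
      simp only [Finset.prod_empty]
      rw [(csq_const 1 K (grid_mlev K) (by simpa using mHr)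
        (hi ∅ (Finset.empty_subset _))).2 l, one_pow]
    | insert a A' ha ih =>
      intro hA S hS
      have hA' : A' ⊆ A := (Finset.subset_insert a A').trans hA
      have haA : a ∈ A := hA (Finset.mem_insert_self a A')
      set i0 : LIdx N M := Sum.inl a
      set h := fun u : Fin K → ℝ => P.f (pathField v (z (Sum.inr i0)) u)
      set g := fun u : Fin K → ℝ => P.f1 (pathField v (z (Sum.inr i0)) u)
      set g' : (Fin K → ℝ) → ℝ := fun u => if a ∈ S then g u else 1
      have hp : Continuous fun u : Fin K → ℝ => pathField v (z (Sum.inr i0)) u := by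
        unfold pathField; fun_prop
      have mh : Measurable h := ((pot_continuous P).comp hp).measurable
      have mg' : Measurable g' := by
        simp only [g']
        split_ifs
        · exact ((pot_continuous1 P).comp hp).measurable
        · exact measurable_const
      have mev : Measurable fun y : Fin K → LIdx N M → ℝ => fun l => y l i0 :=
        measurable_pi_lambda _ fun l => (measurable_pi_apply i0).comp (measurable_pi_apply l)
      have hlab : ∀ a' ∈ A', ∀ y y' : Fin K → LIdx N M → ℝ,
          (∀ l i, ¬i = i0 → y l i = y' l i) →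
          labField v z y (Sum.inl a') = labField v z y' (Sum.inl a') := by
        intro a' ha' y y' hy
        simp only [labField]
        congr 1
        funext l
        refine hy l _ fun h' => ?_
        obtain rfl : a' = a := Sum.inl.inj h'
        exact ha ha'
      obtain ⟨-, hs⟩ := casc_sep (fun i : LIdx N M => i = i0) (grid_mlev K)
        (H := fun y => h fun l => y l i0) (H' := fun y => (∑ a' ∈ A', fa a' y) + Hr y)
        (a := fun y => g' fun l => y l i0)
        (a' := fun y => ∏ a' ∈ S.erase a, P.f1 (labField v z y (Sum.inl a')))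
        (mh.comp mev) ((continuous_finsetSum _ fun a' _ => cfa a').measurable.add mHr)
        (mg'.comp mev) (continuous_finsetProd _ fun a' _ => cga a').measurable
        (fun y y' hy => by
          have : (fun l => y l i0) = fun l => y' l i0 := funext fun l => hy l i0 rfl
          simp [this])
        (fun y y' hy => by
          refine ⟨congrArg₂ (· + ·) (Finset.sum_congr rfl fun a' ha' => ?_) ?_,
            Finset.prod_congr rfl fun a' ha' => ?_⟩
          · simp only [fa, hlab a' ha' y y' hy]
          · exact congrArg Real.log (restY_congr P π c A (fun _ _ _ => rfl) (fun _ _ => rfl)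
              fun l i hi' => hy l i fun h' => hi' a haA h')
          · have : a' ∈ A' := (Finset.mem_insert.1 (hS (Finset.mem_of_mem_erase ha'))).resolve_left
              (Finset.ne_of_mem_erase ha')
            rw [hlab a' this y y' hy])
        (Integrable.of_bound ((mh.comp mev).exp.aestronglyMeasurable) (Real.exp P.bF)
          (ae_of_all _ fun y => by
            rw [Real.norm_eq_abs, abs_of_pos (Real.exp_pos _)]
            exact Real.exp_le_exp.2 (abs_le.1 (P.hF _)).2))
        (hi A' hA')
      have e1 : (fun y => (∑ a' ∈ insert a A', fa a' y) + Hr y)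
          = fun y => (h fun l => y l i0) + ((∑ a' ∈ A', fa a' y) + Hr y) := funext fun y => by
        rw [Finset.sum_insert ha]; simp only [fa, h, labField, i0]; ring
      have e2 : (fun y => ∏ a' ∈ S, P.f1 (labField v z y (Sum.inl a')))
          = fun y => (g' fun l => y l i0)
              * ∏ a' ∈ S.erase a, P.f1 (labField v z y (Sum.inl a')) := funext fun y => by
        by_cases haS : a ∈ S
        · rw [← Finset.mul_prod_erase S _ haS]; simp [g', g, haS, labField, i0]
        · rw [Finset.erase_eq_of_notMem haS]; simp [g', haS]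
      rw [e1, e2, hs l, ih hA' (S.erase a) (fun x hx =>
        (Finset.mem_insert.1 (hS (Finset.mem_of_mem_erase hx))).resolve_left
          (Finset.ne_of_mem_erase hx)), (casc_one i0 mh mg').2 l]
      by_cases haS : a ∈ S
      · rw [← Finset.mul_prod_erase S (fun a' => patF P v (z (Sum.inr (Sum.inl a'))) l) haS]
        congr 1
        simp [g', g, h, patF, haS, i0]
      · rw [Finset.erase_eq_of_notMem haS]
        simp only [g', if_neg haS]
        rw [(csq_const 1 K (grid_mlev K) mh (integrable_exp_pot P mh fun u => P.hF _)).2 l,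
          one_pow, one_mul]
  simpa [← hsplit] using key A (Finset.Subset.refl A) S hS

/-- Averaged over the roots, free patterns give powers of the scalar value. -/
theorem integral_csq_free_pats (P : Pot) (π : Prior N) {c : CIdx N M K → ℝ} {A : Finset (Fin M)}
    {v : Fin (K + 1) → ℝ} (hc : FreePats c A v) {S : Finset (Fin M)} (hS : S ⊆ A)
    (l : Fin (K + 1)) :
    ∫ z, csq (gaus (LIdx N M)) K (mlev K) (fun y => Real.log (leafY P π c z y))
        (fun y => ∏ a ∈ S, P.f1 (labField v z y (Sum.inl a))) l ∂gaus (RIdx N M)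
      = vF P v l ^ S.card := by
  classical
  simp only [csq_free_pats P π hc hS]
  set e : Fin M → RIdx N M := fun a => Sum.inr (Sum.inl a)
  have hinj : Function.Injective e := fun a b h => Sum.inl.inj (Sum.inr.inj h)
  set G : RIdx N M → ℝ → ℝ := fun i => if i ∈ S.image e then fun w => patF P v w l else fun _ => 1
  have hG : ∀ z : RIdx N M → ℝ, ∏ a ∈ S, patF P v (z (e a)) l = ∏ i, G i (z i) := fun z => by
    rw [← Finset.prod_subset (Finset.subset_univ (S.image e))
      (fun i _ hi => by simp only [G, if_neg hi]), Finset.prod_image fun a _ b _ h => hinj h]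
    exact Finset.prod_congr rfl fun a ha => by simp only [G, if_pos (Finset.mem_image_of_mem e ha)]
  rw [show (fun z : RIdx N M → ℝ => ∏ a ∈ S, patF P v (z (Sum.inr (Sum.inl a))) l)
    = fun z => ∏ i, G i (z i) from funext hG, gaus, integral_fintype_prod_eq_prod]
  have hI : ∀ i, ∫ w, G i w ∂gaussianReal 0 1 = if i ∈ S.image e then vF P v l else 1 := fun i => by
    simp only [G]; split_ifs <;> simp [integral_patF]
  simp only [hI, Finset.prod_ite_mem, Finset.univ_inter, Finset.prod_const,
    Finset.card_image_of_injective _ hinj]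

theorem lin_bpat_join {n : ℕ} (π : Prior N) (c : CIdx N M K → ℝ) (z : RIdx N M → ℝ)
    (ξ : Node K n → LIdx N M → ℝ) (a : Fin M) (st : State π K n) :
    lin (bpat π a) (pull c) (join z ξ) st
      = lin (bpat (n := 1) π a) (pull c) (branch z (path ξ st.2)) (st.1, fun _ => 0) := by
  simp only [lin_bpat]
  rfl

/-- Level average of the product of the derivatives of the patterns of `S`. -/
noncomputable def patLev (n : ℕ) (P : Pot) (π : Prior N) (c : CIdx N M K → ℝ) (S : Finset (Fin M))
    (l : Fin (K + 1)) : ℝ :=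
  mpair n P π c fun G st st' => onLev l (ovU π st st')
    ((∏ a ∈ S, P.f1 (lin (bpat π a) (pull c) G st))
      * ∏ a ∈ S, P.f1 (lin (bpat π a) (pull c) G st'))

/-- Limit of the level averages at systems with free patterns, along sequences. -/
theorem tendsto_patLev (P : Pot) (π : Prior N) (A : Finset (Fin M)) {S : Finset (Fin M)}
    (hS : S ⊆ A) {c : ℕ → CIdx N M K → ℝ} {cl : CIdx N M K → ℝ} {v : ℕ → Fin (K + 1) → ℝ}
    {vl : Fin (K + 1) → ℝ} (hlim : Tendsto c atTop (𝓝 cl))
    (hvlim : Tendsto v atTop (𝓝 vl)) (hc : ∀ k, FreePats (c k) A (v k))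
    (hcl : FreePats cl A vl) {nn : ℕ → ℕ} (hn : Tendsto nn atTop atTop) (l : Fin (K + 1)) :
    Tendsto (fun k => patLev (nn k) P π (c k) S l) atTop (𝓝 (pi0 K * vF P vl l ^ S.card)) := by
  obtain ⟨_, hconv⟩ := conv_leafY P π hlim
  set Bf : ℝ := P.b1 ^ S.card
  have hBf : ∀ h : Fin M → ℝ, |∏ a ∈ S, P.f1 (h a)| ≤ Bf := fun h => by
    rw [Finset.abs_prod]
    exact (Finset.prod_le_prod (fun a _ => abs_nonneg _) fun a _ => P.h1 _).trans_eq
      (Finset.prod_const _)
  set al : (Fin (K + 1) → ℝ) → (RIdx N M → ℝ) → (Fin K → LIdx N M → ℝ) → Fin 1 → ℝ :=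
    fun w z y _ => ∏ a ∈ S, P.f1 (labField w z y (Sum.inl a))
  have hlabc : ∀ a : Fin M, Continuous fun p : (Fin (K + 1) → ℝ) × (RIdx N M → ℝ)
      × (Fin K → LIdx N M → ℝ) => labField p.1 p.2.1 p.2.2 (Sum.inl a) := fun a => by
    unfold labField pathField; fun_prop
  have halc : Continuous fun p : (Fin (K + 1) → ℝ) × (RIdx N M → ℝ)
      × (Fin K → LIdx N M → ℝ) => al p.1 p.2.1 p.2.2 := continuous_pi fun _ =>
    continuous_finsetProd _ fun a _ => (pot_continuous1 P).comp (hlabc a)
  have hm := casc_mono (grid_mlev K) hconv hn (d := 1) (a := fun k => al (v k)) (al := al vl)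
    (B := Bf)
    (fun k => (halc.comp (f := fun p : (RIdx N M → ℝ) × (Fin K → LIdx N M → ℝ) => (v k, p.1, p.2))
      (continuous_const.prodMk continuous_id)).measurable)
    (halc.comp (f := fun p : (RIdx N M → ℝ) × (Fin K → LIdx N M → ℝ) => (vl, p.1, p.2))
      (continuous_const.prodMk continuous_id)).measurable
    (fun k z y i => hBf _)
    (fun z y => (halc.comp (f := fun w : Fin (K + 1) → ℝ => (w, z, y))
      (continuous_id.prodMk continuous_const)).continuousAt.tendsto.comp hvlim) l
  simp only [Fin.sum_univ_one, gap_mlev, al, integral_csq_free_pats P π hcl hS] at hm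
  refine hm.congr fun k => ?_
  symm
  set φ : Fin 1 → Fin π.c → (GIdx N M K 1 → ℝ) → ℝ := fun _ σ g =>
    ∏ a ∈ S, P.f1 (lin (bpat (n := 1) π a) (pull (c k)) g (σ, fun _ => 0))
  have hφ : ∀ i σ, Continuous (φ i σ) := fun i σ => continuous_finsetProd _ fun a _ =>
    (pot_continuous1 P).comp (Itp.cont_lin _ _ _)
  rw [patLev, mpair_level P π (c k) φ hφ (B := Bf) (fun i σ g => hBf _) l]
  · refine integral_congr_ae (ae_of_all _ fun z => integral_congr_ae (ae_of_all _ fun W =>
      integral_congr_ae (ae_of_all _ fun ξ => congrArg (avg2 _) (funext fun α => funext fun β => ?_))))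
    have he : ∀ y, leafAvg P π (c k) (φ 0) z y = ∏ a ∈ S, P.f1 (labField (v k) z y (Sum.inl a)) :=
      fun y => by
      have h0 : ∀ σ, φ 0 σ (branch z y) = ∏ a ∈ S, P.f1 (labField (v k) z y (Sum.inl a)) := fun σ =>
        Finset.prod_congr rfl fun a ha => by
          rw [lin_bpat_label π (c k) a (v k) ((hc k).pat a (hS ha)) ((hc k).lab a (hS ha)) z y σ]
      simp only [leafAvg, h0, ← Finset.sum_mul]
      rw [← leafY, mul_div_assoc, mul_comm, div_mul_cancel₀ _ (leafY_pos P π (c k) z y).ne']
    simp only [Fin.sum_univ_one, he]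
  · intro z ξ st st'
    simp only [Fin.sum_univ_one, lin_bpat_join, φ]
  · intro x y
    unfold onLev
    split_ifs
    · exact (continuous_finsetProd _ fun a _ => (pot_continuous1 P).comp (Itp.cont_lin _ _ _)).mul
        (continuous_finsetProd _ fun a _ => (pot_continuous1 P).comp (Itp.cont_lin _ _ _))
    · exact continuous_const
  · intro G x y
    unfold onLev
    split_ifs
    · rw [abs_mul, sq, Nat.cast_one, one_mul]
      exact mul_le_mul (hBf _) (hBf _) (abs_nonneg _) ((abs_nonneg _).trans (hBf fun _ => 0))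
    · simpa using sq_nonneg Bf

/-- The same, uniformly on bounded systems with paths in the unit box. -/
theorem patLev_uniform (P : Pot) (π : Prior N) (A : Finset (Fin M)) {S : Finset (Fin M)}
    (hS : S ⊆ A) (R : ℝ) (l : Fin (K + 1)) {ε : ℝ} (hε : 0 < ε) :
    ∃ n0, ∀ n ≥ n0, ∀ (c : CIdx N M K → ℝ) (v : Fin (K + 1) → ℝ), (∀ i, c i ∈ Icc 0 R) →
      (∀ i, v i ∈ Icc (0 : ℝ) 1) → FreePats c A v →
      |patLev n P π c S l - pi0 K * vF P v l ^ S.card| ≤ ε := by
  set s : Set ((CIdx N M K → ℝ) × (Fin (K + 1) → ℝ)) :=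
    ((Set.univ.pi fun _ => Icc (0 : ℝ) R) ×ˢ (Set.univ.pi fun _ => Icc (0 : ℝ) 1))
      ∩ {p | FreePats p.1 A p.2}
  have hclosed : IsClosed {p : (CIdx N M K → ℝ) × (Fin (K + 1) → ℝ) | FreePats p.1 A p.2} := by
    have hi : ∀ l, Continuous fun v : Fin (K + 1) → ℝ => incr v l := fun l => by
      refine Fin.cases ?_ (fun i => ?_) l <;> simp only [incr, Fin.cases_zero, Fin.cases_succ] <;>
        fun_prop
    have e : {p : (CIdx N M K → ℝ) × (Fin (K + 1) → ℝ) | FreePats p.1 A p.2}
        = (⋂ a ∈ A, ⋂ j, {p | p.1 (Sum.inl (a, j)) = 0})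
          ∩ ⋂ a ∈ A, ⋂ l, {p | p.1 (Sum.inr (l, Sum.inl a)) = incr p.2 l} := by
      ext p
      simp only [Set.mem_inter_iff, Set.mem_iInter, Set.mem_ofPred_eq]
      exact ⟨fun h => ⟨h.pat, h.lab⟩, fun h => ⟨h.1, h.2⟩⟩
    rw [e]
    exact (isClosed_biInter fun a _ => isClosed_iInter fun j => isClosed_eq (by fun_prop) (by fun_prop)).inter
      (isClosed_biInter fun a _ => isClosed_iInter fun l => isClosed_eq (by fun_prop)
        ((hi l).comp continuous_snd))
  have hs : IsCompact s := ((isCompact_univ_pi fun _ => isCompact_Icc).prod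
    (isCompact_univ_pi fun _ => isCompact_Icc)).inter_right hclosed
  have hmem : ∀ {p : (CIdx N M K → ℝ) × (Fin (K + 1) → ℝ)}, p ∈ s → FreePats p.1 A p.2 :=
    fun {p} hp => hp.2
  have hseq : ∀ (c : ℕ → (CIdx N M K → ℝ) × (Fin (K + 1) → ℝ)) cl (nn : ℕ → ℕ),
      (∀ k, c k ∈ s) → cl ∈ s → Tendsto c atTop (𝓝 cl) → Tendsto nn atTop atTop →
      Tendsto (fun k => patLev (nn k) P π (c k).1 S l) atTop
        (𝓝 (pi0 K * vF P cl.2 l ^ S.card)) := fun c cl nn hc hcl hlim hnn =>
    tendsto_patLev P π A hS ((continuous_fst.tendsto _).comp hlim)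
      ((continuous_snd.tendsto _).comp hlim) (fun k => hmem (hc k)) (hmem hcl) hnn l
  have hcont : ContinuousOn
      (fun p : (CIdx N M K → ℝ) × (Fin (K + 1) → ℝ) => pi0 K * vF P p.2 l ^ S.card) s :=
    continuousOn_of_seq (E := (CIdx N M K → ℝ) × (Fin (K + 1) → ℝ)) (s := s)
      (F := fun (n : ℕ) (p : (CIdx N M K → ℝ) × (Fin (K + 1) → ℝ)) => patLev n P π p.1 S l)
      (G := fun p => pi0 K * vF P p.2 l ^ S.card) hseq
  obtain ⟨n0, hn0⟩ := uniform_of_seq hs
    (D := fun n p => |patLev n P π p.1 S l - pi0 K * vF P p.2 l ^ S.card|)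
    (fun c cl nn hc hcl hlim hnn η hη => by
      have h2 : Tendsto (fun k => pi0 K * vF P (c k).2 l ^ S.card) atTop
          (𝓝 (pi0 K * vF P cl.2 l ^ S.card)) :=
        (hcont cl hcl).tendsto.comp (tendsto_nhdsWithin_iff.2 ⟨hlim, Eventually.of_forall hc⟩)
      have h3 := ((hseq c cl nn hc hcl hlim hnn).sub h2).abs
      rw [sub_self, abs_zero] at h3
      exact h3.eventually (eventually_le_nhds hη)) hε
  exact ⟨n0, fun n hn c v hc hv hf => hn0 n hn (c, v)
    ⟨⟨fun i _ => hc i, fun i _ => hv i⟩, hf⟩⟩

end Vale.Agent.P157.Casc
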