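import Vale.Agent.P166.Casc.VGG

/-!
The fluctuation of a compensated perturbing field from the convexity and the concentration of the
logarithm of the total weight.
-/

open MeasureTheory ProbabilityTheory Filter Topology Set
open Vale.Agent.P166.Casc

namespace Vale.Agent.P157.Casc

variable {T I Ω : Type*} [Fintype T] [Fintype I] [MeasurableSpace Ω]

/-- Mean logarithm of the total weight along the tilt. -/
noncomputable def rlogz (μ : Measure Ω) (w : Ω → (I → ℝ) → T → ℝ) (b : T → I → ℝ) (t : ℝ) : ℝ :=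
  ∫ p, Real.log (∑ x, rtilt w b t p x) ∂μ.prod (gaus I)

/-- Jensen bound for the mean absolute deviation of a field. -/
theorem abs_field_le {u ξ : T → ℝ} [Nonempty T] (hu : ∀ x, 0 < u x) (t δ m0 : ℝ) :
    δ * ∑ x, gibbs (fun x => u x * Real.exp (t * ξ x)) x * |ξ x - m0| ≤
      Real.log (Real.exp (Real.log (∑ x, u x * Real.exp ((t + δ) * ξ x))
            - Real.log (∑ x, u x * Real.exp (t * ξ x)) - δ * m0)
        + Real.exp (Real.log (∑ x, u x * Real.exp ((t - δ) * ξ x))
            - Real.log (∑ x, u x * Real.exp (t * ξ x)) + δ * m0)) := by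
  set S := fun s => ∑ x, u x * Real.exp (s * ξ x)
  have hS : ∀ s, 0 < S s := fun s =>
    Finset.sum_pos (fun x _ => mul_pos (hu x) (Real.exp_pos _)) Finset.univ_nonempty
  set g := gibbs (fun x => u x * Real.exp (t * ξ x))
  have hg0 : ∀ x, 0 ≤ g x := fun x => div_nonneg (mul_pos (hu x) (Real.exp_pos _)).le (hS t).le
  have hg1 : ∑ x, g x = 1 := by
    simp only [g, gibbs, ← Finset.sum_div]
    exact div_self (hS t).ne'
  set e : T → ℝ := fun x => Real.exp (δ * (ξ x - m0)) + Real.exp (-(δ * (ξ x - m0)))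
  have he : ∀ x, 0 < e x := fun x => by positivity
  have hZ : ∑ x, g x * e x = Real.exp (Real.log (S (t + δ)) - Real.log (S t) - δ * m0)
      + Real.exp (Real.log (S (t - δ)) - Real.log (S t) + δ * m0) := by
    have key : ∀ d : ℝ, ∑ x, g x * Real.exp (d * (ξ x - m0))
        = Real.exp (Real.log (S (t + d)) - Real.log (S t) - d * m0) := fun d => by
      rw [Real.exp_sub, Real.exp_sub, Real.exp_log (hS _), Real.exp_log (hS _)]
      simp only [g, gibbs, S, Finset.sum_div]
      refine Finset.sum_congr rfl fun x _ => ?_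
      rw [mul_sub, Real.exp_sub, add_mul, Real.exp_add]
      field_simp
    simp only [e, mul_add, Finset.sum_add_distrib]
    rw [key δ]
    have := key (-δ)
    simp only [neg_mul, ← sub_eq_add_neg, sub_neg_eq_add] at this
    rw [this]
  rw [← hZ]
  have hZ0 : 0 < ∑ x, g x * e x := by rw [hZ]; positivity
  calc δ * ∑ x, g x * |ξ x - m0| = ∑ x, g x * (δ * |ξ x - m0|) := by
        rw [Finset.mul_sum]; exact Finset.sum_congr rfl fun x _ => by ring
    _ ≤ ∑ x, g x * (Real.log (∑ y, g y * e y) + (e x / (∑ y, g y * e y) - 1)) := by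
        refine Finset.sum_le_sum fun x _ => mul_le_mul_of_nonneg_left ?_ (hg0 x)
        have h1 : δ * |ξ x - m0| ≤ Real.log (e x) := by
          rw [Real.le_log_iff_exp_le (he x)]
          rcases le_total 0 (ξ x - m0) with h | h
          · rw [abs_of_nonneg h]; exact le_add_of_nonneg_right (Real.exp_pos _).le
          · rw [abs_of_nonpos h, mul_neg]; exact le_add_of_nonneg_left (Real.exp_pos _).le
        have h2 := Real.log_le_sub_one_of_pos (div_pos (he x) hZ0)
        rw [Real.log_div (he x).ne' hZ0.ne'] at h2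
        linarith
    _ = Real.log (∑ y, g y * e y) := by
        simp only [mul_add, Finset.sum_add_distrib, ← Finset.sum_mul, hg1, one_mul, mul_sub,
          mul_one, Finset.sum_sub_distrib, ← mul_div_assoc, ← Finset.sum_div, div_self hZ0.ne',
          sub_self, add_zero]

/-- The logarithm of the total weight is midpoint convex in the tilt. -/
theorem log_sum_convex {u ξ : T → ℝ} [Nonempty T] (hu : ∀ x, 0 < u x) (t δ : ℝ) :
    2 * Real.log (∑ x, u x * Real.exp (t * ξ x)) ≤
      Real.log (∑ x, u x * Real.exp ((t + δ) * ξ x))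
        + Real.log (∑ x, u x * Real.exp ((t - δ) * ξ x)) := by
  have hS : ∀ s, 0 < ∑ x, u x * Real.exp (s * ξ x) := fun s =>
    Finset.sum_pos (fun x _ => mul_pos (hu x) (Real.exp_pos _)) Finset.univ_nonempty
  rw [← Real.log_mul (hS _).ne' (hS _).ne', show ∀ a : ℝ, 2 * Real.log a = Real.log (a ^ 2) from
    fun a => by rw [Real.log_pow]; norm_num]
  refine Real.log_le_log (pow_pos (hS t) 2) ?_
  refine Finset.sum_sq_le_sum_mul_sum_of_sq_eq_mul _
    (fun x _ => (mul_pos (hu x) (Real.exp_pos _)).le)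
    (fun x _ => (mul_pos (hu x) (Real.exp_pos _)).le) fun x _ => ?_
  rw [mul_pow, mul_mul_mul_comm, ← sq, ← Real.exp_add, ← Real.exp_nat_mul]
  ring_nf

variable {μ : Measure Ω} [IsProbabilityMeasure μ] {w : Ω → (I → ℝ) → T → ℝ} {b : T → I → ℝ}
  [Nonempty T] {S : Finset I}

/-- The mean logarithm is midpoint convex. -/
theorem rlogz_convex (h : RGGHyp μ w b S) {t δ : ℝ}
    (hint : ∀ s, s = t - δ ∨ s = t ∨ s = t + δ →
      Integrable (fun p => Real.log (∑ x, rtilt w b s p x)) (μ.prod (gaus I))) :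
    0 ≤ rlogz μ w b (t + δ) + rlogz μ w b (t - δ) - 2 * rlogz μ w b t := by
  have ip := hint _ (Or.inr (Or.inr rfl))
  have im := hint _ (Or.inl rfl)
  have i0 := hint _ (Or.inr (Or.inl rfl))
  have := integral_mono (i0.const_mul 2) (ip.add im) fun p =>
    log_sum_convex (u := w p.1 p.2) (ξ := fun x => ∑ i, b x i * p.2 i) (h.pos _ _) t δ
  simp only [Pi.add_apply] at this
  rw [integral_add ip im, integral_const_mul] at this
  simp only [rlogz]
  linarith

/-- Fluctuation of the field from the second difference and the concentration. -/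
theorem rfluct_le (h : RGGHyp μ w b S) {t δ D : ℝ} (hδ : 0 < δ)
    (hint : ∀ s, s = t - δ ∨ s = t ∨ s = t + δ →
      Integrable (fun p => Real.log (∑ x, rtilt w b s p x)) (μ.prod (gaus I)))
    (hD : ∀ s, s = t - δ ∨ s = t ∨ s = t + δ →
      ∫ p, |Real.log (∑ x, rtilt w b s p x) - rlogz μ w b s| ∂μ.prod (gaus I) ≤ D) :
    rfluct μ w b t ((rlogz μ w b (t + δ) - rlogz μ w b (t - δ)) / (2 * δ)) ≤
      (Real.log 2 + (rlogz μ w b (t + δ) + rlogz μ w b (t - δ) - 2 * rlogz μ w b t) / 2
        + 3 * D) / δ := by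
  set Φ := rlogz μ w b
  set φ := fun (s : ℝ) p => Real.log (∑ x, rtilt w b s p x)
  set m0 := (Φ (t + δ) - Φ (t - δ)) / (2 * δ) with hm0
  set H := (Φ (t + δ) + Φ (t - δ) - 2 * Φ t) / 2
  have ip := hint _ (Or.inr (Or.inr rfl))
  have im := hint _ (Or.inl rfl)
  have i0 := hint _ (Or.inr (Or.inl rfl))
  have dp := (ip.sub (integrable_const (Φ (t + δ)))).abs
  have dm := (im.sub (integrable_const (Φ (t - δ)))).abs
  have d0 := (i0.sub (integrable_const (Φ t))).abs
  simp only [Pi.sub_apply] at dp dm d0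
  have hb : ∀ p, avg (rtilt w b t p) 1 (fun x => |∑ i, b (x 0) i * p.2 i - m0|) ≤
      (Real.log 2 + H + |φ (t + δ) p - Φ (t + δ)| + |φ (t - δ) p - Φ (t - δ)| + |φ t p - Φ t|)
        / δ := fun p => by
    rw [le_div_iff₀ hδ, mul_comm, Itp.avg_one (rtilt_pos h t p) 0
      (fun y => |∑ i, b y i * p.2 i - m0|)]
    refine (le_of_eq ?_).trans ((abs_field_le (u := w p.1 p.2) (ξ := fun x => ∑ i, b x i * p.2 i)
      (h.pos _ _) t δ m0).trans ?_)
    · rfl
    set A := φ (t + δ) p - φ t p - δ * m0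
    set A' := φ (t - δ) p - φ t p + δ * m0
    show Real.log (Real.exp A + Real.exp A') ≤ _
    have hH : δ * m0 = (Φ (t + δ) - Φ (t - δ)) / 2 := by rw [hm0]; field_simp
    set X := |φ (t + δ) p - Φ (t + δ)| + |φ (t - δ) p - Φ (t - δ)| + |φ t p - Φ t|
    have hA : A ≤ H + X := by
      simp only [A, H, X, hH]
      linarith [le_abs_self (φ (t + δ) p - Φ (t + δ)), abs_nonneg (φ (t - δ) p - Φ (t - δ)),
        neg_abs_le (φ t p - Φ t)]
    have hA' : A' ≤ H + X := by
      simp only [A', H, X, hH]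
      linarith [le_abs_self (φ (t - δ) p - Φ (t - δ)), abs_nonneg (φ (t + δ) p - Φ (t + δ)),
        neg_abs_le (φ t p - Φ t)]
    refine (Real.log_le_log (by positivity)
      (add_le_add (Real.exp_le_exp.2 hA) (Real.exp_le_exp.2 hA'))).trans (le_of_eq ?_)
    rw [← two_mul, Real.log_mul two_ne_zero (Real.exp_pos _).ne', Real.log_exp]
    simp only [X]; ring
  have hi : Integrable (fun p => (Real.log 2 + H + |φ (t + δ) p - Φ (t + δ)|
      + |φ (t - δ) p - Φ (t - δ)| + |φ t p - Φ t|) / δ) (μ.prod (gaus I)) :=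
    ((((integrable_const _).add dp).add dm).add d0).div_const δ
  refine (integral_mono_of_nonneg (ae_of_all _ fun p => ?_) hi (ae_of_all _ hb)).trans ?_
  · exact Finset.sum_nonneg fun x _ => mul_nonneg
      (Finset.prod_nonneg fun i _ => gibbs_nonneg' (rtilt_pos h t p) _) (abs_nonneg _)
  rw [integral_div]
  refine div_le_div_of_nonneg_right ?_ hδ.le
  have i1 : Integrable (fun p => Real.log 2 + H + |φ (t + δ) p - Φ (t + δ)|) (μ.prod (gaus I)) :=
    (integrable_const _).add dp
  have i2 : Integrable (fun p => Real.log 2 + H + |φ (t + δ) p - Φ (t + δ)|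
      + |φ (t - δ) p - Φ (t - δ)|) (μ.prod (gaus I)) := i1.add dm
  rw [integral_add i2 d0, integral_add i1 dm, integral_add (integrable_const _) dp]
  simp only [integral_const, probReal_univ, one_smul]
  linarith [hD _ (Or.inr (Or.inr rfl)), hD _ (Or.inl rfl), hD _ (Or.inr (Or.inl rfl))]

end Vale.Agent.P157.Casc
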