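import Vale.Agent.P157.Casc.Model

/-!
The model as a cascade: root coordinates, labels of the vertices, factors of the leaves.
-/

open MeasureTheory ProbabilityTheory Filter Topology

namespace Vale.Agent.P157.Casc

variable {N M K n : ℕ}

instance casX_prob {X : Type*} [MeasurableSpace X] (ν : Measure X) [IsProbabilityMeasure ν] :
    IsProbabilityMeasure (casX K n ν) := by
  unfold casX; infer_instance

/-- All coordinates from those of the root and the labels of the vertices. -/
def join (z : RIdx N M → ℝ) (ξ : Node K n → LIdx N M → ℝ) : GIdx N M K n → ℝ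
  | Sum.inl p => z (Sum.inl p)
  | Sum.inr (none, i) => z (Sum.inr i)
  | Sum.inr (some u, i) => ξ u i

theorem branch_eq_join (z : RIdx N M → ℝ) (y : Fin K → LIdx N M → ℝ) :
    branch z y = join z (fun u : Node K 1 => y u.1) := by
  funext i
  rcases i with p | ⟨_ | u, i⟩ <;> rfl

theorem measurable_join :
    Measurable fun p : (RIdx N M → ℝ) × (Node K n → LIdx N M → ℝ) => join p.1 p.2 := by
  refine measurable_pi_lambda _ fun i => ?_
  rcases i with q | ⟨_ | u, i⟩
  · exact (measurable_pi_apply (Sum.inl q : RIdx N M)).comp measurable_fst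
  · exact (measurable_pi_apply (Sum.inr i : RIdx N M)).comp measurable_fst
  · exact (measurable_pi_apply i).comp ((measurable_pi_apply u).comp measurable_snd)

/-- The Gaussian coordinates are those of the root and independent labels. -/
theorem mp_join : MeasurePreserving
    (fun p : (RIdx N M → ℝ) × (Node K n → LIdx N M → ℝ) => join p.1 p.2)
    ((gaus (RIdx N M)).prod (casX K n (gaus (LIdx N M)))) (gaus (GIdx N M K n)) := by
  refine ⟨measurable_join, (Measure.pi_eq fun s hs => ?_).symm⟩
  rw [Measure.map_apply measurable_join (MeasurableSet.univ_pi hs)]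
  have e : (fun p : (RIdx N M → ℝ) × (Node K n → LIdx N M → ℝ) => join p.1 p.2) ⁻¹'
        Set.univ.pi s
      = (Set.univ.pi fun i : RIdx N M =>
          s (Sum.elim Sum.inl (fun l => Sum.inr (none, l)) i)) ×ˢ
        Set.univ.pi fun u : Node K n => Set.univ.pi fun l => s (Sum.inr (some u, l)) := by
    ext ⟨z, ξ⟩
    simp only [Set.mem_preimage, Set.mem_univ_pi, Set.mem_prod]
    constructor
    · intro h
      refine ⟨fun i => ?_, fun u l => h (Sum.inr (some u, l))⟩
      rcases i with p | l
      · exact h (Sum.inl p)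
      · exact h (Sum.inr (none, l))
    · rintro ⟨h1, h2⟩ (p | ⟨_ | u, l⟩)
      · exact h1 (Sum.inl p)
      · exact h1 (Sum.inr l)
      · exact h2 u l
  rw [e, Measure.prod_prod, gaus, Measure.pi_pi, casX, Measure.pi_pi]
  simp only [gaus, Measure.pi_pi, Fintype.prod_sum_type, Sum.elim_inl, Sum.elim_inr,
    Fintype.prod_prod_type, Fintype.prod_option]
  ring

theorem node_fst (α : Leaf K n) (l : Fin K) : (node α l).1 = l := rfl

/-- A sum over the root and the vertices above a leaf. -/
theorem sum_below (α : Leaf K n) (F : Option (Node K n) → ℝ) :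
    ∑ o, below α o * F o = F none + ∑ l, F (some (node α l)) := by
  rw [Fintype.sum_option, Fintype.sum_sigma]
  simp only [below, one_mul, ite_mul, zero_mul]
  congr 1
  refine Finset.sum_congr rfl fun l _ => ?_
  refine (Finset.sum_eq_single (node α l).2 (fun b _ hb => ?_)
    (fun h => (h (Finset.mem_univ _)).elim)).trans (if_pos rfl)
  refine if_neg fun h => hb ?_
  exact (eq_of_heq (Sigma.mk.inj_iff.1 h).2).symm

theorem below_sq (α : Leaf K n) (o : Option (Node K n)) : below α o ^ 2 = below α o := by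
  cases o <;> simp only [below]
  · norm_num
  · split_ifs <;> norm_num

/-- Expansion of the pattern field of a state. -/
theorem lin_bpat (π : Prior N) (c : CIdx N M K → ℝ) (G : GIdx N M K n → ℝ) (a : Fin M)
    (st : State π K n) :
    lin (bpat π a) (pull c) G st
      = (∑ j, √(c (Sum.inl (a, j))) * (π.spin st.1 j / √(N : ℝ)) * G (Sum.inl (a, j)))
        + (√(c (Sum.inr (0, Sum.inl a))) * G (Sum.inr (none, Sum.inl a))
          + ∑ l, √(c (Sum.inr (l.succ, Sum.inl a))) * G (Sum.inr (some (node st.2 l), Sum.inl a))) := by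
  simp only [lin, pull, bpat, Fintype.sum_sum_type, Fintype.sum_prod_type, ite_mul, mul_ite,
    mul_zero, zero_mul, Finset.sum_const_zero, add_zero]
  congr 1
  · rw [Finset.sum_comm]
    simp [Finset.sum_ite_eq']
  · have h := sum_below st.2 fun o => √(c (Sum.inr (lev o, Sum.inl a))) * G (Sum.inr (o, Sum.inl a))
    simp only [show lev (none : Option (Node K n)) = 0 from rfl,
      show ∀ l, lev (some (node st.2 l)) = l.succ from fun l => rfl] at h
    rw [← h]
    simp only [Finset.sum_ite_eq', Finset.mem_univ, if_true]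
    exact Finset.sum_congr rfl fun o _ => by ring

/-- Expansion of the linear field of a state. -/
theorem lin_bspin (π : Prior N) (c : CIdx N M K → ℝ) (G : GIdx N M K n → ℝ) (st : State π K n) :
    lin (bspin π) (pull c) G st
      = (∑ j : Fin N, π.spin st.1 j * (√(c (Sum.inr (0, Sum.inr (Sum.inl j))))
            * G (Sum.inr (none, Sum.inr (Sum.inl j)))
          + ∑ l, √(c (Sum.inr (l.succ, Sum.inr (Sum.inl j))))
            * G (Sum.inr (some (node st.2 l), Sum.inr (Sum.inl j)))))
        + ∑ t : PIdx N, (∏ r, π.spin st.1 (t.2.2 r)) * (√(c (Sum.inr (0, Sum.inr (Sum.inr t))))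
            * G (Sum.inr (none, Sum.inr (Sum.inr t)))
          + ∑ l, √(c (Sum.inr (l.succ, Sum.inr (Sum.inr t))))
            * G (Sum.inr (some (node st.2 l), Sum.inr (Sum.inr t)))) := by
  simp only [lin, pull, bspin, Fintype.sum_sum_type, Fintype.sum_prod_type, mul_zero, zero_mul,
    Finset.sum_const_zero, zero_add, Finset.sum_add_distrib]
  conv_lhs => arg 1; rw [Finset.sum_comm]
  conv_lhs => arg 2; rw [Finset.sum_comm]
  congr 1 <;> refine Finset.sum_congr rfl fun j _ => ?_
  · have h := sum_below st.2 fun o => √(c (Sum.inr (lev o, Sum.inr (Sum.inl j))))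
      * G (Sum.inr (o, Sum.inr (Sum.inl j)))
    simp only [show lev (none : Option (Node K n)) = 0 from rfl,
      show ∀ l, lev (some (node st.2 l)) = l.succ from fun l => rfl] at h
    rw [← h, Finset.mul_sum]
    exact Finset.sum_congr rfl fun o _ => by ring
  · have h := sum_below st.2 fun o => √(c (Sum.inr (lev o, Sum.inr (Sum.inr j))))
      * G (Sum.inr (o, Sum.inr (Sum.inr j)))
    simp only [show lev (none : Option (Node K n)) = 0 from rfl,
      show ∀ l, lev (some (node st.2 l)) = l.succ from fun l => rfl] at h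
    rw [← h, Finset.mul_sum]
    exact Finset.sum_congr rfl fun o _ => by ring

/-- Expansion of the compensation of a state. -/
theorem comp_bspin (π : Prior N) (c : CIdx N M K → ℝ) (st : State π K n) :
    ∑ i, pull c i * bspin π st i ^ 2
      = (∑ j : Fin N, π.spin st.1 j ^ 2 * ∑ l, c (Sum.inr (l, Sum.inr (Sum.inl j))))
        + ∑ t : PIdx N, (∏ r, π.spin st.1 (t.2.2 r)) ^ 2
            * ∑ l, c (Sum.inr (l, Sum.inr (Sum.inr t))) := by
  simp only [pull, bspin, Fintype.sum_sum_type, Fintype.sum_prod_type, ne_eq,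
    OfNat.ofNat_ne_zero, not_false_eq_true, zero_pow, mul_zero, Finset.sum_const_zero, zero_add,
    Finset.sum_add_distrib, mul_pow, below_sq]
  conv_lhs => arg 1; rw [Finset.sum_comm]
  conv_lhs => arg 2; rw [Finset.sum_comm]
  congr 1 <;> refine Finset.sum_congr rfl fun j _ => ?_
  · have h := sum_below st.2 fun o => π.spin st.1 j ^ 2 * c (Sum.inr (lev o, Sum.inr (Sum.inl j)))
    simp only [show lev (none : Option (Node K n)) = 0 from rfl,
      show ∀ l, lev (some (node st.2 l)) = l.succ from fun l => rfl] at h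
    rw [Fin.sum_univ_succ, mul_add, Finset.mul_sum, ← h]
    exact Finset.sum_congr rfl fun o _ => by ring
  · have h := sum_below st.2 fun o =>
      (∏ r, π.spin st.1 (j.2.2 r)) ^ 2 * c (Sum.inr (lev o, Sum.inr (Sum.inr j)))
    simp only [show lev (none : Option (Node K n)) = 0 from rfl,
      show ∀ l, lev (some (node st.2 l)) = l.succ from fun l => rfl] at h
    rw [Fin.sum_univ_succ, mul_add, Finset.mul_sum, ← h]
    exact Finset.sum_congr rfl fun o _ => by ring

/-- The energy of a state only involves the root and the labels on its branch. -/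
theorem ham_branch (P : Pot) (π : Prior N) (c : CIdx N M K → ℝ) (z : RIdx N M → ℝ)
    (ξ : Node K n → LIdx N M → ℝ) (σ : Fin π.c) (α : Leaf K n) :
    ham P (bpat π) (bspin π) (pull c) (join z ξ) (σ, α)
      = ham P (bpat (n := 1) π) (bspin π) (pull c) (branch z (path ξ α)) (σ, fun _ => 0) := by
  simp only [ham, lin_bpat, lin_bspin, comp_bspin]
  rfl

/-- Leaf average of `φ` over the configurations. -/
noncomputable def leafAvg (P : Pot) (π : Prior N) (c : CIdx N M K → ℝ)
    (φ : Fin π.c → (GIdx N M K 1 → ℝ) → ℝ) (z : RIdx N M → ℝ) (y : Fin K → LIdx N M → ℝ) : ℝ :=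
  (∑ σ, π.w σ *
    Real.exp (ham P (bpat (n := 1) π) (bspin π) (pull c) (branch z y) (σ, fun _ => 0))
      * φ σ (branch z y)) / leafY P π c z y

theorem leafY_pos (P : Pot) (π : Prior N) (c : CIdx N M K → ℝ) (z : RIdx N M → ℝ)
    (y : Fin K → LIdx N M → ℝ) : 0 < leafY P π c z y := by
  refine Finset.sum_pos (fun σ _ => mul_pos (π.w_pos σ) (Real.exp_pos _)) ?_
  rw [Finset.univ_nonempty_iff]
  by_contra h
  have := π.w_sum
  rw [not_nonempty_iff] at h
  simp at this

/-- Weight of a state in root and branch coordinates. -/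
theorem mbw_join (P : Pot) (π : Prior N) (c : CIdx N M K → ℝ) (W : Node K n → ℝ)
    (z : RIdx N M → ℝ) (ξ : Node K n → LIdx N M → ℝ) (σ : Fin π.c) (α : Leaf K n) :
    mbw P π c (W, join z ξ) (σ, α) = wgt (mlev K) W α * (π.w σ *
      Real.exp (ham P (bpat (n := 1) π) (bspin π) (pull c) (branch z (path ξ α))
        (σ, fun _ => 0))) := by
  simp only [mbw, bw, stw, ham_branch]
  ring

theorem sum_mbw_join (P : Pot) (π : Prior N) (c : CIdx N M K → ℝ) (W : Node K n → ℝ)
    (z : RIdx N M → ℝ) (ξ : Node K n → LIdx N M → ℝ) :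
    ∑ st, mbw P π c (W, join z ξ) st
      = ∑ α, wgt (mlev K) W α * leafY P π c z (path ξ α) := by
  rw [Fintype.sum_prod_type, Finset.sum_comm]
  refine Finset.sum_congr rfl fun α _ => ?_
  simp only [mbw_join, leafY, ← Finset.mul_sum]

theorem log_sum_mbw_join (P : Pot) (π : Prior N) (c : CIdx N M K → ℝ) (W : Node K n → ℝ)
    (z : RIdx N M → ℝ) (ξ : Node K n → LIdx N M → ℝ) :
    Real.log (∑ st, mbw P π c (W, join z ξ) st) = logS (mlev K) (leafY P π c z) W ξ :=
  congrArg Real.log (sum_mbw_join P π c W z ξ)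

/-- Pair averages of a product of functions of each state reduce to leaf averages. -/
theorem avg2_mbw_join (P : Pot) (π : Prior N) (c : CIdx N M K → ℝ) (W : Node K n → ℝ)
    (z : RIdx N M → ℝ) (ξ : Node K n → LIdx N M → ℝ) {d : ℕ}
    (φ : Fin d → Fin π.c → (GIdx N M K 1 → ℝ) → ℝ) (l : Fin (K + 1)) :
    avg2 (mbw P π c (W, join z ξ)) (fun st st' => onLev l (ovU π st st')
        (∑ i, φ i st.1 (branch z (path ξ st.2)) * φ i st'.1 (branch z (path ξ st'.2))))
      = avg2 (fun α => wgt (mlev K) W α * leafY P π c z (path ξ α))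
          (fun α β => if com α β = l then
            ∑ i, leafAvg P π c (φ i) z (path ξ α) * leafAvg P π c (φ i) z (path ξ β) else 0) := by
  simp only [avg2, gibbs, sum_mbw_join, ovU, onLev]
  set S := ∑ y, wgt (mlev K) W y * leafY P π c z (path ξ y)
  simp only [Fintype.sum_prod_type, mbw_join]
  rw [Finset.sum_comm]
  refine Finset.sum_congr rfl fun α _ => ?_
  rw [Finset.sum_congr rfl fun σ (_ : σ ∈ (Finset.univ : Finset (Fin π.c))) => Finset.sum_comm]
  rw [Finset.sum_comm]
  refine Finset.sum_congr rfl fun β _ => ?_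
  split_ifs
  · simp only [leafAvg, Finset.mul_sum, Finset.sum_div, Finset.sum_mul]
    conv_rhs => rw [Finset.sum_congr rfl fun i (_ : i ∈ (Finset.univ : Finset (Fin d))) =>
      Finset.sum_comm, Finset.sum_comm]
    refine Finset.sum_congr rfl fun σ _ => ?_
    rw [Finset.sum_comm]
    refine Finset.sum_congr rfl fun i _ => ?_
    refine Finset.sum_congr rfl fun τ _ => ?_
    have := (leafY_pos P π c z (path ξ α)).ne'
    have := (leafY_pos P π c z (path ξ β)).ne'
    field_simp
  · simp

/-- Size of the Gaussian coordinates of one branch. -/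
noncomputable def absSum (z : RIdx N M → ℝ) (y : Fin K → LIdx N M → ℝ) : ℝ :=
  1 + ((∑ i, |z i|) + ∑ l, ∑ i, |y l i|)

theorem one_le_absSum (z : RIdx N M → ℝ) (y : Fin K → LIdx N M → ℝ) : 1 ≤ absSum z y :=
  le_add_of_nonneg_right (add_nonneg (Finset.sum_nonneg fun i _ => abs_nonneg _)
    (Finset.sum_nonneg fun l _ => Finset.sum_nonneg fun i _ => abs_nonneg _))

theorem sum_abs_branch (z : RIdx N M → ℝ) (y : Fin K → LIdx N M → ℝ) :
    ∑ i : GIdx N M K 1, |branch z y i| = absSum z y - 1 := by
  simp only [absSum, add_sub_cancel_left, Fintype.sum_sum_type, Fintype.sum_prod_type,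
    Fintype.sum_option, Fintype.sum_sigma, Fintype.sum_unique]
  simp only [branch]
  ring

theorem integrable_exp_abs (t : ℝ) :
    Integrable (fun x : ℝ => Real.exp (t * |x|)) (gaussianReal 0 1) := by
  refine ((integrable_exp_mul_gaussianReal t).add (integrable_exp_mul_gaussianReal (-t))).mono'
    (by fun_prop : Measurable fun x : ℝ => Real.exp (t * |x|)).aestronglyMeasurable
    (ae_of_all _ fun x => ?_)
  rw [Real.norm_eq_abs, abs_of_pos (Real.exp_pos _), Pi.add_apply]
  rcases abs_cases x with ⟨h, _⟩ | ⟨h, _⟩ <;> rw [h]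
  · linarith [Real.exp_pos (-t * x)]
  · rw [show t * -x = -t * x by ring]; linarith [Real.exp_pos (t * x)]

theorem integrable_exp_absSum (t : ℝ) :
    Integrable (fun p : (RIdx N M → ℝ) × (Fin K → LIdx N M → ℝ) => Real.exp (t * absSum p.1 p.2))
      ((gaus (RIdx N M)).prod (Measure.pi fun _ => gaus (LIdx N M))) := by
  have h0 : ∀ (I : Type) [Fintype I],
      Integrable (fun z : I → ℝ => ∏ i, Real.exp (t * |z i|)) (gaus I) := fun I _ =>
    Integrable.fintype_prod fun _ => integrable_exp_abs t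
  have h1 := ((h0 (RIdx N M)).mul_prod (Integrable.fintype_prod
    (μ := fun _ : Fin K => gaus (LIdx N M)) fun _ => h0 (LIdx N M))).const_mul (Real.exp t)
  refine h1.congr (ae_of_all _ fun p => ?_)
  simp only [absSum, ← Real.exp_sum, ← Real.exp_add]
  congr 1
  simp only [mul_add, Finset.mul_sum]
  ring

theorem continuous_branch :
    Continuous fun p : (RIdx N M → ℝ) × (Fin K → LIdx N M → ℝ) => branch p.1 p.2 := by
  refine continuous_pi fun i => ?_
  rcases i with q | ⟨_ | u, i⟩ <;> simp only [branch] <;> fun_prop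

theorem pot_continuous (P : Pot) : Continuous P.f :=
  continuous_iff_continuousAt.2 fun x => (P.d1 x).continuousAt

theorem pot_continuous1 (P : Pot) : Continuous P.f1 :=
  continuous_iff_continuousAt.2 fun x => (P.d2 x).continuousAt

theorem continuous_ham_branch (P : Pot) (π : Prior N) (σ : Fin π.c) :
    Continuous fun p : (CIdx N M K → ℝ) × (RIdx N M → ℝ) × (Fin K → LIdx N M → ℝ) =>
      ham P (bpat (n := 1) π) (bspin π) (pull p.1) (branch p.2.1 p.2.2) (σ, fun _ => 0) := by
  have hp : Continuous fun p : (CIdx N M K → ℝ) × (RIdx N M → ℝ) × (Fin K → LIdx N M → ℝ) =>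
      (pull p.1 : GIdx N M K 1 → ℝ) := by
    refine continuous_pi fun i => ?_
    rcases i with q | ⟨o, i⟩ <;> simp only [pull] <;> fun_prop
  have hb : Continuous fun p : (CIdx N M K → ℝ) × (RIdx N M → ℝ) × (Fin K → LIdx N M → ℝ) =>
      branch p.2.1 p.2.2 := continuous_branch.comp continuous_snd
  have := pot_continuous P
  unfold ham lin
  fun_prop

theorem continuous_leafY (P : Pot) (π : Prior N) :
    Continuous fun p : (CIdx N M K → ℝ) × (RIdx N M → ℝ) × (Fin K → LIdx N M → ℝ) =>
      leafY P π p.1 p.2.1 p.2.2 := by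
  unfold leafY
  exact continuous_finsetSum _ fun σ _ =>
    (Real.continuous_exp.comp (continuous_ham_branch P π σ)).const_mul _

/-- A bound on the energy of a branch for bounded variances. -/
theorem abs_ham_branch_le (P : Pot) (π : Prior N) (R : ℝ) : ∃ A : ℝ, 0 ≤ A ∧
    ∀ c : CIdx N M K → ℝ, (∀ i, |c i| ≤ R) → ∀ z y σ,
      |ham P (bpat (n := 1) π) (bspin π) (pull c) (branch z y) (σ, fun _ => 0)|
        ≤ A * absSum z y := by
  set B : ℝ := ∑ σ : Fin π.c, ∑ i : GIdx N M K 1,
    (|bspin π (σ, fun _ => 0) i| + bspin π (σ, fun _ => 0) i ^ 2)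
  have hB : 0 ≤ B := Finset.sum_nonneg fun σ _ => Finset.sum_nonneg fun i _ => by positivity
  refine ⟨(M : ℝ) * |P.bF| + √|R| * B + |R| * B, by positivity, fun c hc z y σ => ?_⟩
  have hR : ∀ i : GIdx N M K 1, |pull c i| ≤ |R| := fun i => by
    rcases i with q | ⟨o, i⟩ <;> exact (hc _).trans (le_abs_self R)
  have hb : ∀ i, |bspin π (σ, fun _ => 0) i| + bspin π (σ, fun _ => 0) i ^ 2 ≤ B := fun i =>
    (Finset.single_le_sum (f := fun i : GIdx N M K 1 =>
      |bspin π (σ, fun _ => 0) i| + bspin π (σ, fun _ => 0) i ^ 2) (fun i _ => by positivity)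
      (Finset.mem_univ i)).trans (Finset.single_le_sum (f := fun σ : Fin π.c => ∑ i : GIdx N M K 1,
        (|bspin π (σ, fun _ => 0) i| + bspin π (σ, fun _ => 0) i ^ 2))
        (fun σ _ => Finset.sum_nonneg fun i _ => by positivity) (Finset.mem_univ σ))
  have h1 : |∑ a, P.f (lin (bpat π a) (pull c) (branch z y) (σ, fun _ => 0))| ≤ M * |P.bF| := by
    refine (Finset.abs_sum_le_sum_abs _ _).trans ?_
    refine (Finset.sum_le_sum fun a _ => (P.hF _).trans (le_abs_self _)).trans (le_of_eq ?_)
    simp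
  have h2 : |lin (bspin π) (pull c) (branch z y) (σ, fun _ => 0)|
      ≤ √|R| * B * (absSum z y - 1) := by
    rw [← sum_abs_branch, Finset.mul_sum]
    refine (Finset.abs_sum_le_sum_abs _ _).trans (Finset.sum_le_sum fun i _ => ?_)
    rw [abs_mul, abs_mul, abs_of_nonneg (Real.sqrt_nonneg _)]
    refine mul_le_mul_of_nonneg_right (mul_le_mul (Real.sqrt_le_sqrt ?_) ?_ (abs_nonneg _)
      (Real.sqrt_nonneg _)) (abs_nonneg _)
    · exact (le_abs_self _).trans (hR i)
    · linarith [hb i, sq_nonneg (bspin π (σ, fun _ => 0) i)]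
  have h3 : |∑ i : GIdx N M K 1, pull c i * bspin (n := 1) π (σ, fun _ => 0) i ^ 2| ≤ |R| * B := by
    refine (Finset.abs_sum_le_sum_abs _ _).trans ?_
    refine le_trans (Finset.sum_le_sum fun i _ => ?_) (mul_le_mul_of_nonneg_left
      (Finset.single_le_sum (f := fun σ : Fin π.c => ∑ i : GIdx N M K 1,
        (|bspin π (σ, fun _ => 0) i| + bspin π (σ, fun _ => 0) i ^ 2))
        (fun σ _ => Finset.sum_nonneg fun i _ => by positivity) (Finset.mem_univ σ))
      (abs_nonneg R) |>.trans' (le_of_eq (Finset.mul_sum _ _ _).symm))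
    rw [abs_mul, abs_of_nonneg (sq_nonneg (bspin π (σ, fun _ => 0) i))]
    exact mul_le_mul (hR i) (le_add_of_nonneg_left (abs_nonneg _)) (sq_nonneg _) (abs_nonneg R)
  have hA := one_le_absSum z y
  have hM : (0 : ℝ) ≤ M * |P.bF| := by positivity
  have hRB : 0 ≤ |R| * B := by positivity
  have hsB : 0 ≤ √|R| * B := by positivity
  rw [ham]
  rw [abs_le] at h1 h2 h3 ⊢
  constructor <;> nlinarith

/-- Common envelope of the factors of the leaves for bounded variances. -/
theorem leafY_bound (P : Pot) (π : Prior N) (R : ℝ) : ∃ A : ℝ, 0 ≤ A ∧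
    ∀ c : CIdx N M K → ℝ, (∀ i, |c i| ≤ R) → ∀ z y,
      Real.exp (-(A * absSum z y)) ≤ leafY P π c z y ∧
        leafY P π c z y ≤ Real.exp (A * absSum z y) := by
  obtain ⟨A, hA, h⟩ := abs_ham_branch_le (M := M) (K := K) P π R
  refine ⟨A, hA, fun c hc z y => ⟨?_, ?_⟩⟩
  · calc Real.exp (-(A * absSum z y)) = ∑ σ, π.w σ * Real.exp (-(A * absSum z y)) := by
          rw [← Finset.sum_mul, π.w_sum, one_mul]
      _ ≤ _ := Finset.sum_le_sum fun σ _ => mul_le_mul_of_nonneg_left
          (Real.exp_le_exp.2 (abs_le.1 (h c hc z y σ)).1) (π.w_pos σ).le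
  · calc leafY P π c z y ≤ ∑ σ, π.w σ * Real.exp (A * absSum z y) :=
          Finset.sum_le_sum fun σ _ => mul_le_mul_of_nonneg_left
            (Real.exp_le_exp.2 (abs_le.1 (h c hc z y σ)).2) (π.w_pos σ).le
      _ = _ := by rw [← Finset.sum_mul, π.w_sum, one_mul]

/-- The random environment from root, weights and labels. -/
theorem mp_env : MeasurePreserving
    (fun q : (RIdx N M → ℝ) × (Node K n → ℝ) × (Node K n → LIdx N M → ℝ) =>
      (q.2.1, join q.1 q.2.2))
    ((gaus (RIdx N M)).prod ((casW (mlev K) n).prod (casX K n (gaus (LIdx N M)))))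
    (envLaw N M K n) := by
  set μz := gaus (RIdx N M)
  set μW := casW (mlev K) n
  set μξ := casX K n (gaus (LIdx N M))
  have h1 : MeasurePreserving
      (fun q : (RIdx N M → ℝ) × (Node K n → ℝ) × (Node K n → LIdx N M → ℝ) =>
        (q.2.1, (q.1, q.2.2)))
      (μz.prod (μW.prod μξ)) (μW.prod (μz.prod μξ)) :=
    ((measurePreserving_prodAssoc μW μz μξ).comp
      ((Measure.measurePreserving_swap (μ := μz) (ν := μW)).prod (MeasurePreserving.id μξ))).comp
      (MeasurePreserving.symm MeasurableEquiv.prodAssoc (measurePreserving_prodAssoc μz μW μξ))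
  exact ((MeasurePreserving.id μW).prod mp_join).comp h1

theorem integral_env {f : (Node K n → ℝ) × (GIdx N M K n → ℝ) → ℝ}
    (hm : AEStronglyMeasurable f (envLaw N M K n))
    (hf : Integrable (fun q : (RIdx N M → ℝ) × (Node K n → ℝ) × (Node K n → LIdx N M → ℝ) =>
      f (q.2.1, join q.1 q.2.2))
      ((gaus (RIdx N M)).prod ((casW (mlev K) n).prod (casX K n (gaus (LIdx N M)))))) :
    ∫ p, f p ∂envLaw N M K n = ∫ z, ∫ W, ∫ ξ, f (W, join z ξ) ∂casX K n (gaus (LIdx N M))
      ∂casW (mlev K) n ∂gaus (RIdx N M) := by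
  have h := mp_env (N := N) (M := M) (K := K) (n := n)
  rw [← h.map_eq] at hm ⊢
  rw [integral_map h.measurable.aemeasurable hm, integral_prod _ hf]
  refine integral_congr_ae ?_
  filter_upwards [hf.prod_right_ae] with z hz
  exact integral_prod _ hz

theorem continuous_mbw (P : Pot) (π : Prior N) (c : CIdx N M K → ℝ) (st : State π K n) :
    Continuous fun p : (Node K n → ℝ) × (GIdx N M K n → ℝ) => mbw P π c p st := by
  have := pot_continuous P
  unfold mbw bw stw wgt ham lin
  fun_prop

theorem integrable_of_bdd {Ω : Type*} [MeasurableSpace Ω] {μ : Measure Ω} [IsFiniteMeasure μ]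
    {f : Ω → ℝ} (hm : AEStronglyMeasurable f μ) {C : ℝ} (hC : ∀ x, |f x| ≤ C) : Integrable f μ :=
  Integrable.mono' (integrable_const C) hm (ae_of_all _ fun x => (Real.norm_eq_abs _).trans_le (hC x))

theorem sum_gibbs_le {T : Type*} [Fintype T] (u : T → ℝ) (hu : ∀ x, 0 ≤ u x) :
    ∑ x, gibbs u x ≤ 1 := by
  simp only [gibbs, ← Finset.sum_div]
  exact div_le_one_of_le₀ le_rfl (Finset.sum_nonneg fun x _ => hu x)

theorem abs_avg2_le {T : Type*} [Fintype T] (u : T → ℝ) (hu : ∀ x, 0 ≤ u x) {O : T → T → ℝ}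
    {C : ℝ} (hC : 0 ≤ C) (hO : ∀ x y, |O x y| ≤ C) : |avg2 u O| ≤ C := by
  have hg : ∀ x, 0 ≤ gibbs u x := fun x => div_nonneg (hu x) (Finset.sum_nonneg fun y _ => hu y)
  have h1 := sum_gibbs_le u hu
  have h0 : 0 ≤ ∑ x, gibbs u x := Finset.sum_nonneg fun x _ => hg x
  calc |avg2 u O| ≤ ∑ x, ∑ y, gibbs u x * gibbs u y * C := by
        refine (Finset.abs_sum_le_sum_abs _ _).trans (Finset.sum_le_sum fun x _ => ?_)
        refine (Finset.abs_sum_le_sum_abs _ _).trans (Finset.sum_le_sum fun y _ => ?_)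
        rw [abs_mul, abs_of_nonneg (mul_nonneg (hg x) (hg y))]
        exact mul_le_mul_of_nonneg_left (hO x y) (mul_nonneg (hg x) (hg y))
    _ = (∑ x, gibbs u x) * (∑ y, gibbs u y) * C := by
        simp only [← Finset.sum_mul, ← Finset.mul_sum]
    _ ≤ 1 * 1 * C := by gcongr
    _ = C := by ring

theorem ae_pareto_pos (m : ℝ) : ∀ᵐ w ∂pareto m, 0 < w := by
  rw [pareto, ae_map_iff (by fun_prop) (measurableSet_Ioi (a := (0 : ℝ)))]
  filter_upwards [ae_restrict_mem measurableSet_Ioc] with u hu
  exact Real.rpow_pos_of_pos hu.1 _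

theorem ae_casW_pos (m : Fin K → ℝ) (n : ℕ) : ∀ᵐ W ∂casW m n, ∀ v : Node K n, 0 < W v :=
  ae_all_iff.2 fun v =>
    (measurePreserving_eval (μ := fun u : Node K n => pareto (m u.1)) v).quasiMeasurePreserving.ae
      (ae_pareto_pos (m v.1))

theorem wgt_pos (m : Fin K → ℝ) {W : Node K n → ℝ} (hW : ∀ v, 0 < W v) (α : Leaf K n) :
    0 < wgt m W α :=
  Finset.prod_pos fun l _ => mul_pos (hW _)
    (Real.rpow_pos_of_pos (by exact_mod_cast Fin.pos (α l)) _)

theorem ae_mbw_pos (P : Pot) (π : Prior N) (c : CIdx N M K → ℝ) :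
    ∀ᵐ p ∂envLaw N M K n, ∀ st, 0 < mbw P π c p st := by
  filter_upwards [Measure.quasiMeasurePreserving_fst.ae (ae_casW_pos (mlev K) n)] with p hp st
  exact mul_pos (mul_pos (π.w_pos _) (wgt_pos _ hp _)) (Real.exp_pos _)

theorem aestronglyMeasurable_avg2 (P : Pot) (π : Prior N) (c : CIdx N M K → ℝ)
    {O : (GIdx N M K n → ℝ) → State π K n → State π K n → ℝ}
    (hO : ∀ x y, Continuous fun G => O G x y) :
    Measurable fun p => avg2 (mbw P π c p) (O p.2) := by
  have h1 : ∀ st, Measurable fun p : (Node K n → ℝ) × (GIdx N M K n → ℝ) => mbw P π c p st :=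
    fun st => (continuous_mbw P π c st).measurable
  unfold avg2 gibbs
  refine Finset.measurable_sum _ fun x _ => Finset.measurable_sum _ fun y _ => ?_
  exact (((h1 x).div (Finset.measurable_sum _ fun z _ => h1 z)).mul
    ((h1 y).div (Finset.measurable_sum _ fun z _ => h1 z))).mul
    ((hO x y).measurable.comp measurable_snd)

/-- Level averages of products of one-state functions as cascade pair averages. -/
theorem mpair_level (P : Pot) (π : Prior N) (c : CIdx N M K → ℝ) {d : ℕ}
    (φ : Fin d → Fin π.c → (GIdx N M K 1 → ℝ) → ℝ) (hφ : ∀ i σ, Continuous (φ i σ)) {B : ℝ}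
    (hB : ∀ i σ g, |φ i σ g| ≤ B) (l : Fin (K + 1))
    (O : (GIdx N M K n → ℝ) → State π K n → State π K n → ℝ)
    (hO : ∀ z ξ st st', O (join z ξ) st st' = onLev l (ovU π st st')
      (∑ i, φ i st.1 (branch z (path ξ st.2)) * φ i st'.1 (branch z (path ξ st'.2))))
    (hOc : ∀ x y, Continuous fun G => O G x y) (hOb : ∀ G x y, |O G x y| ≤ d * B ^ 2) :
    mpair n P π c O = ∫ z, ∫ W, ∫ ξ, avg2 (fun α => wgt (mlev K) W α * leafY P π c z (path ξ α))
        (fun α β => if com α β = l then
          ∑ i, leafAvg P π c (φ i) z (path ξ α) * leafAvg P π c (φ i) z (path ξ β) else 0)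
      ∂casX K n (gaus (LIdx N M)) ∂casW (mlev K) n ∂gaus (RIdx N M) := by
  have hm := aestronglyMeasurable_avg2 P π c hOc
  have hb : ∀ᵐ p ∂envLaw N M K n, ‖avg2 (mbw P π c p) (O p.2)‖ ≤ d * B ^ 2 := by
    filter_upwards [ae_mbw_pos P π c] with p hp
    exact abs_avg2_le _ (fun x => (hp x).le) (by positivity) (hOb p.2)
  rw [mpair, integral_env hm.aestronglyMeasurable]
  · refine integral_congr_ae (ae_of_all _ fun z => integral_congr_ae (ae_of_all _ fun W => ?_))
    refine integral_congr_ae (ae_of_all _ fun ξ => ?_)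
    simp only
    rw [show O (join z ξ) = _ from funext fun st => funext fun st' => hO z ξ st st']
    exact avg2_mbw_join P π c W z ξ φ l
  · refine Integrable.mono' (integrable_const ((d : ℝ) * B ^ 2))
      (hm.comp mp_env.measurable).aestronglyMeasurable ?_
    exact mp_env.quasiMeasurePreserving.ae hb

end Vale.Agent.P157.Casc
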