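import Vale.Agent.P157.Casc.Split

/-!
Systems enlarged by free spins and free patterns: the leaf factor splits.
-/

open MeasureTheory ProbabilityTheory Filter Topology

namespace Vale.Agent.P157.Casc

variable {N M K : ℕ}

/-- Field of a label on one branch. -/
noncomputable def labTot (c : CIdx N M K → ℝ) (z : RIdx N M → ℝ) (y : Fin K → LIdx N M → ℝ)
    (i : LIdx N M) : ℝ :=
  √(c (Sum.inr (0, i))) * z (Sum.inr i) + ∑ l : Fin K, √(c (Sum.inr (l.succ, i))) * y l i

/-- The energy of a branch as a function of the spins. -/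
noncomputable def hamS (P : Pot) (c : CIdx N M K → ℝ) (z : RIdx N M → ℝ)
    (y : Fin K → LIdx N M → ℝ) (s : Fin N → ℝ) : ℝ :=
  (∑ a, P.f ((∑ j, √(c (Sum.inl (a, j))) * (s j / √(N : ℝ)) * z (Sum.inl (a, j)))
      + labTot c z y (Sum.inl a)))
    + ((∑ j, s j * labTot c z y (Sum.inr (Sum.inl j)))
      + ∑ t : PIdx N, (∏ r, s (t.2.2 r)) * labTot c z y (Sum.inr (Sum.inr t)))
    - 1 / 2 * ((∑ j, s j ^ 2 * ∑ l, c (Sum.inr (l, Sum.inr (Sum.inl j))))
      + ∑ t : PIdx N, (∏ r, s (t.2.2 r)) ^ 2 * ∑ l, c (Sum.inr (l, Sum.inr (Sum.inr t))))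

theorem ham_eq_hamS (P : Pot) (π : Prior N) (c : CIdx N M K → ℝ) (z : RIdx N M → ℝ)
    (y : Fin K → LIdx N M → ℝ) (σ : Fin π.c) :
    ham P (bpat (n := 1) π) (bspin π) (pull c) (branch z y) (σ, fun _ => 0)
      = hamS P c z y (π.spin σ) := by
  simp only [ham, lin_bpat, lin_bspin, comp_bspin, hamS, labTot, branch]
  rfl

/-- Embedding of the labels of the smaller system. -/
def embL (N M B k : ℕ) : LIdx N M → LIdx (N + B) (M + k)
  | Sum.inl a => Sum.inl (Fin.castAdd k a)
  | Sum.inr (Sum.inl j) => Sum.inr (Sum.inl (Fin.castAdd B j))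
  | Sum.inr (Sum.inr ⟨j, i, t⟩) =>
      Sum.inr (Sum.inr ⟨Fin.castAdd B j, i, fun r => Fin.castAdd B (t r)⟩)

/-- Embedding of the root coordinates of the smaller system. -/
def embR (N M B k : ℕ) : RIdx N M → RIdx (N + B) (M + k)
  | Sum.inl (a, j) => Sum.inl (Fin.castAdd k a, Fin.castAdd B j)
  | Sum.inr i => Sum.inr (embL N M B k i)

theorem embL_inj (N M B k : ℕ) : Function.Injective (embL N M B k) := by
  rintro (a | j | ⟨j, i, t⟩) (a' | j' | ⟨j', i', t'⟩) h <;> simp only [embL] at h <;>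
    simp only [Sum.inl.injEq, Sum.inr.injEq, reduceCtorEq] at h
  · rw [Fin.castAdd_injective _ _ h]
  · rw [Fin.castAdd_injective _ _ h]
  · have hj : j = j' := Fin.castAdd_injective _ _ (congrArg Sigma.fst h)
    subst hj
    simp only [Sigma.mk.injEq, heq_eq_eq, true_and] at h
    obtain ⟨hi, ht⟩ := h
    subst hi
    have ht' := eq_of_heq ht
    have : t = t' := funext fun r => Fin.castAdd_injective _ _ (congrFun ht' r)
    rw [this]

theorem embR_inj (N M B k : ℕ) : Function.Injective (embR N M B k) := by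
  rintro (⟨a, j⟩ | i) (⟨a', j'⟩ | i') h <;> simp only [embR] at h <;>
    simp only [Sum.inl.injEq, Sum.inr.injEq, reduceCtorEq, Prod.mk.injEq] at h
  · rw [Fin.castAdd_injective _ _ h.1, Fin.castAdd_injective _ _ h.2]
  · rw [embL_inj _ _ _ _ h]

/-- The larger system is the smaller one with free patterns and free spins. -/
structure Grown {B k : ℕ} (c' : CIdx (N + B) (M + k) K → ℝ) (c : CIdx N M K → ℝ)
    (q p : Fin (K + 1) → ℝ) : Prop where
  pat : ∀ a j, c' (Sum.inl (Fin.castAdd k a, Fin.castAdd B j))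
    = c (Sum.inl (a, j)) * ((N + B : ℕ) : ℝ) / N
  patT : ∀ a j, c' (Sum.inl (Fin.castAdd k a, Fin.natAdd N j)) = 0
  patA : ∀ a j, c' (Sum.inl (Fin.natAdd M a, j)) = 0
  lab : ∀ l i, c' (Sum.inr (l, embL N M B k i)) = c (Sum.inr (l, i))
  labA : ∀ l a, c' (Sum.inr (l, Sum.inl (Fin.natAdd M a))) = incr q l
  spinT : ∀ l j, c' (Sum.inr (l, Sum.inr (Sum.inl (Fin.natAdd N j)))) = incr p l
  pert : ∀ l t, (Sum.inr (Sum.inr t) : LIdx (N + B) (M + k)) ∉ Set.range (embL N M B k) →
    c' (Sum.inr (l, Sum.inr (Sum.inr t))) = 0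

theorem sum_incr_all (v : Fin (K + 1) → ℝ) : ∑ l, incr v l = v (Fin.last K) := by
  rw [← sum_incr v (Fin.last K)]
  exact Finset.sum_congr (Finset.ext fun l => by simp [Fin.le_last]) fun _ _ => rfl

/-- A sum over the Ising prior of the larger cube. -/
theorem sum_ising_append {B : ℕ} (Φ : (Fin N → ℝ) → ℝ) (F : Fin B → ℝ) :
    (∑ σ, (isingP (N + B)).w σ *
        (Φ (fun j => (isingP (N + B)).spin σ (Fin.castAdd B j)) *
          Real.exp (∑ j, (isingP (N + B)).spin σ (Fin.natAdd N j) * F j)))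
      = (∏ j, Real.cosh (F j)) * ∑ σ, (isingP N).w σ * Φ ((isingP N).spin σ) := by
  rw [sum_isingP fun s => Φ (fun j => s (Fin.castAdd B j)) *
      Real.exp (∑ j, s (Fin.natAdd N j) * F j), sum_isingP Φ,
    ← (Fin.appendEquiv N B).sum_comp, Fintype.sum_prod_type]
  simp only [Fin.appendEquiv, Equiv.coe_fn_mk, Fin.append_left, Fin.append_right, Real.exp_sum]
  have e : ∀ b1 : Fin N → Bool, ∑ b2 : Fin B → Bool,
      Φ (fun j => sgn (b1 j)) * ∏ j, Real.exp (sgn (b2 j) * F j)
        = Φ (fun j => sgn (b1 j)) * ((2 : ℝ) ^ B * ∏ j, Real.cosh (F j)) := fun b1 => by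
    rw [← Finset.mul_sum]
    congr 1
    rw [← Fintype.prod_sum fun (j : Fin B) (t : Bool) => Real.exp (sgn t * F j)]
    rw [show (2 : ℝ) ^ B = ∏ _j : Fin B, (2 : ℝ) by simp, ← Finset.prod_mul_distrib]
    refine Finset.prod_congr rfl fun j _ => ?_
    simp [sgn, Real.cosh_eq]
    ring
  simp only [e, ← Finset.sum_mul]
  rw [pow_add]
  field_simp

variable {B k : ℕ} {c' : CIdx (N + B) (M + k) K → ℝ} {c : CIdx N M K → ℝ}
  {q p : Fin (K + 1) → ℝ}

theorem hamS_grown (h : Grown c' c q p) (hN : 0 < N ∨ M = 0) (P : Pot) (z : RIdx (N + B) (M + k) → ℝ)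
    (y : Fin K → LIdx (N + B) (M + k) → ℝ) (s : Fin (N + B) → ℝ) (hs : ∀ j, s j ^ 2 = 1) :
    hamS P c' z y s
      = hamS P c (fun i => z (embR N M B k i)) (fun l i => y l (embL N M B k i))
          (fun j => s (Fin.castAdd B j))
        + (∑ a : Fin k, P.f (labField q z y (Sum.inl (Fin.natAdd M a))))
        + (∑ j : Fin B, s (Fin.natAdd N j) * labField p z y (Sum.inr (Sum.inl (Fin.natAdd N j))))
        - B * (p (Fin.last K) / 2) := by
  classical
  have hlab : ∀ i, labTot c' z y (embL N M B k i)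
      = labTot c (fun i => z (embR N M B k i)) (fun l i => y l (embL N M B k i)) i := fun i => by
    simp only [labTot, h.lab, embR]
  have hA : ∀ a, labTot c' z y (Sum.inl (Fin.natAdd M a))
      = labField q z y (Sum.inl (Fin.natAdd M a)) := fun a => by
    simp only [labTot, h.labA]
    exact labField_eq q z y _
  have hT : ∀ j, labTot c' z y (Sum.inr (Sum.inl (Fin.natAdd N j)))
      = labField p z y (Sum.inr (Sum.inl (Fin.natAdd N j))) := fun j => by
    simp only [labTot, h.spinT]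
    exact labField_eq p z y _
  set e : PIdx N → PIdx (N + B) :=
    fun t => ⟨Fin.castAdd B t.1, t.2.1, fun r => Fin.castAdd B (t.2.2 r)⟩
  have he : ∀ t, (Sum.inr (Sum.inr (e t)) : LIdx (N + B) (M + k))
      = embL N M B k (Sum.inr (Sum.inr t)) := fun _ => rfl
  have hei : Function.Injective e := fun t t' ht => by
    have := embL_inj N M B k ((he t).symm.trans ((congrArg (fun u =>
      (Sum.inr (Sum.inr u) : LIdx (N + B) (M + k))) ht).trans (he t')))
    simpa using this
  have hoff : ∀ t ∉ Set.range e, ∀ l, c' (Sum.inr (l, Sum.inr (Sum.inr t))) = 0 := fun t ht l => by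
    refine h.pert l t ?_
    rintro ⟨(a | j | t'), hr⟩
    · simp [embL] at hr
    · simp [embL] at hr
    · refine ht ⟨t', ?_⟩
      have := (he t').trans hr
      simpa using this
  have hsum : ∀ (F : PIdx N → ℝ) (F' : PIdx (N + B) → ℝ), (∀ t, F' (e t) = F t) →
      (∀ t ∉ Set.range e, F' t = 0) → ∑ t, F' t = ∑ t, F t := fun F F' h1 h2 =>
    (Fintype.sum_of_injective e hei F F' h2 fun t => (h1 t).symm).symm
  have ep := hsum (fun t => (∏ r, s (Fin.castAdd B (t.2.2 r))) *
      labTot c (fun i => z (embR N M B k i)) (fun l i => y l (embL N M B k i))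
        (Sum.inr (Sum.inr t)))
    (fun t => (∏ r, s (t.2.2 r)) * labTot c' z y (Sum.inr (Sum.inr t)))
    (fun t => by rw [← hlab, ← he]) fun t ht => by simp [labTot, hoff t ht]
  have ec := hsum (fun t => (∏ r, s (Fin.castAdd B (t.2.2 r))) ^ 2 *
      ∑ l, c (Sum.inr (l, Sum.inr (Sum.inr t))))
    (fun t => (∏ r, s (t.2.2 r)) ^ 2 * ∑ l, c' (Sum.inr (l, Sum.inr (Sum.inr t))))
    (fun t => by
      have e1 : ∀ l, c' (Sum.inr (l, Sum.inr (Sum.inr (e t))))
          = c (Sum.inr (l, Sum.inr (Sum.inr t))) := fun l => h.lab l (Sum.inr (Sum.inr t))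
      simp only [e1]
      rfl) fun t ht => by simp [hoff t ht]
  have epat : ∀ a : Fin M, (∑ j, √(c' (Sum.inl (Fin.castAdd k a, j))) *
      (s j / √((N + B : ℕ) : ℝ)) * z (Sum.inl (Fin.castAdd k a, j)))
      = ∑ j, √(c (Sum.inl (a, j))) * (s (Fin.castAdd B j) / √(N : ℝ)) *
          z (embR N M B k (Sum.inl (a, j))) := fun a => by
    rcases hN with hN | hM
    swap
    · subst hM; exact a.elim0
    have h1 : (0 : ℝ) < N := by exact_mod_cast hN
    have h2 : (0 : ℝ) < ((N + B : ℕ) : ℝ) := by exact_mod_cast (by omega : 0 < N + B)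
    rw [Fin.sum_univ_add]
    simp only [h.patT, Real.sqrt_zero, zero_mul, Finset.sum_const_zero, add_zero]
    refine Finset.sum_congr rfl fun j _ => ?_
    rw [h.pat, mul_div_assoc, Real.sqrt_mul' _ (by positivity), Real.sqrt_div h2.le]
    simp only [embR]
    have := (Real.sqrt_pos.2 h1).ne'
    have := (Real.sqrt_pos.2 h2).ne'
    field_simp
  have l1 : ∀ a : Fin M, labTot c' z y (Sum.inl (Fin.castAdd k a))
      = labTot c (fun i => z (embR N M B k i)) (fun l i => y l (embL N M B k i)) (Sum.inl a) :=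
    fun a => hlab (Sum.inl a)
  have l2 : ∀ j : Fin N, labTot c' z y (Sum.inr (Sum.inl (Fin.castAdd B j)))
      = labTot c (fun i => z (embR N M B k i)) (fun l i => y l (embL N M B k i))
          (Sum.inr (Sum.inl j)) := fun j => hlab (Sum.inr (Sum.inl j))
  have l3 : ∀ (l : Fin (K + 1)) (j : Fin N), c' (Sum.inr (l, Sum.inr (Sum.inl (Fin.castAdd B j))))
      = c (Sum.inr (l, Sum.inr (Sum.inl j))) := fun l j => h.lab l (Sum.inr (Sum.inl j))
  unfold hamS
  rw [ep, ec, Fin.sum_univ_add, Fin.sum_univ_add, Fin.sum_univ_add]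
  simp only [epat, l1, l2, l3, hA, hT, h.patA, h.spinT, hs, one_mul, Real.sqrt_zero, zero_mul,
    Finset.sum_const_zero, zero_add, sum_incr_all, Finset.sum_const, Finset.card_univ,
    Fintype.card_fin, nsmul_eq_mul, mul_one]
  ring

/-- The leaf factor of the larger system. -/
theorem log_leafY_grown (h : Grown c' c q p) (hN : 0 < N ∨ M = 0) (P : Pot)
    (z : RIdx (N + B) (M + k) → ℝ) (y : Fin K → LIdx (N + B) (M + k) → ℝ) :
    Real.log (leafY P (isingP (N + B)) c' z y)
      = Real.log (leafY P (isingP N) c (fun i => z (embR N M B k i))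
          (fun l i => y l (embL N M B k i)))
        + (∑ a : Fin k, P.f (labField q z y (Sum.inl (Fin.natAdd M a))))
        + (∑ j : Fin B, Real.log (Real.cosh
            (labField p z y (Sum.inr (Sum.inl (Fin.natAdd N j))))))
        - B * (p (Fin.last K) / 2) := by
  set F := fun j : Fin B => labField p z y (Sum.inr (Sum.inl (Fin.natAdd N j)))
  set E := (∑ a : Fin k, P.f (labField q z y (Sum.inl (Fin.natAdd M a)))) - B * (p (Fin.last K) / 2)
  set Φ := fun s : Fin N → ℝ => Real.exp (hamS P c (fun i => z (embR N M B k i))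
    (fun l i => y l (embL N M B k i)) s)
  have e : leafY P (isingP (N + B)) c' z y
      = Real.exp E * ((∏ j, Real.cosh (F j)) * leafY P (isingP N) c (fun i => z (embR N M B k i))
          (fun l i => y l (embL N M B k i))) := by
    have e2 : leafY P (isingP N) c (fun i => z (embR N M B k i))
        (fun l i => y l (embL N M B k i)) = ∑ σ, (isingP N).w σ * Φ ((isingP N).spin σ) := by
      simp only [leafY, ham_eq_hamS, Φ]
    rw [e2, ← sum_ising_append Φ F, leafY, Finset.mul_sum]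
    refine Finset.sum_congr rfl fun σ _ => ?_
    rw [ham_eq_hamS, hamS_grown h hN P z y _ (fun j => isingP_spin_sq σ j)]
    simp only [Φ, mul_left_comm (Real.exp E), ← Real.exp_add]
    congr 2
    simp only [E, F]
    ring
  have hc : 0 < ∏ j, Real.cosh (F j) := Finset.prod_pos fun j _ => Real.cosh_pos _
  rw [e, Real.log_mul (Real.exp_pos _).ne' (mul_pos hc (leafY_pos _ _ _ _ _)).ne', Real.log_exp,
    Real.log_mul hc.ne' (leafY_pos _ _ _ _ _).ne', Real.log_prod fun j _ => (Real.cosh_pos _).ne']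
  simp only [E, F]
  ring

end Vale.Agent.P157.Casc
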