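import Vale.Agent.P157.Casc.EndBase
import Vale.Agent.P157.Casc.FreeEnd
import Vale.Agent.P157.Casc.Grown
import Vale.Agent.P157.Casc.MLimit
import Vale.Agent.P157.Formula.Energy
import Vale.Agent.P157.Hybrid

/-!
The limit of the free energy of an enlarged system.
-/

open MeasureTheory ProbabilityTheory Filter Topology

namespace Vale.Agent.P157.Casc

variable {N M K : ℕ}

theorem casc_shift {I : Type} [Fintype I] {m : Fin K → ℝ} (hm : Grid m)
    {H : (Fin K → I → ℝ) → ℝ} (hH : Measurable H) (hg : Grow H) (c : ℝ) :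
    casc (gaus I) K m (fun y => H y + c) = casc (gaus I) K m H + c := by
  classical
  obtain ⟨hs, -⟩ := casc_sep (I := I) (fun _ => True) hm (H := H) (H' := fun _ => c)
    (a := fun _ => 1) (a' := fun _ => 1) hH measurable_const measurable_const measurable_const
    (fun y y' hy => ⟨congrArg H (funext fun l => funext fun i => hy l i trivial), rfl⟩)
    (fun y y' _ => ⟨rfl, rfl⟩) (hg.integrable_exp hH) (integrable_const _)
  rw [hs, casc_fix (gaus I) K hm.pos c]

theorem casc_zero_var (P : Pot) (c : CIdx 0 0 K → ℝ) (z : RIdx 0 0 → ℝ) :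
    casc (gaus (LIdx 0 0)) K (mlev K) (fun y => Real.log (leafY P (isingP 0) c z y)) = 0 := by
  have h : (fun y => Real.log (leafY P (isingP 0) c z y))
      = fun _ : Fin K → LIdx 0 0 → ℝ => (0 : ℝ) := funext fun y => by
    have : ∀ σ, hamS P c z y ((isingP 0).spin σ) = 0 := fun σ => by simp [hamS]
    simp [leafY, ham_eq_hamS, this, (isingP 0).w_sum]
  rw [h, casc_fix (gaus _) K (grid_mlev K).pos]

theorem continuous_pathField (v : Fin (K + 1) → ℝ) (z : ℝ) :
    Continuous fun u : Fin K → ℝ => pathField v z u := by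
  unfold pathField; fun_prop

theorem continuous_pathField2 (v : Fin (K + 1) → ℝ) :
    Continuous fun p : ℝ × (Fin K → ℝ) => pathField v p.1 p.2 := by
  unfold pathField; fun_prop

theorem abs_lcosh_le (x : ℝ) : |Real.log (Real.cosh x)| ≤ |x| := by
  rw [abs_of_nonneg (Real.log_nonneg (Real.one_le_cosh x)),
    Real.log_le_iff_le_exp (Real.cosh_pos x), Real.cosh_eq]
  linarith [Real.exp_le_exp.2 (le_abs_self x), Real.exp_le_exp.2 (neg_le_abs x)]

theorem grow1_lcosh (v : Fin (K + 1) → ℝ) (z : ℝ) :
    Grow1 fun u : Fin K → ℝ => Real.log (Real.cosh (pathField v z u)) := by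
  refine ⟨|√(v 0) * z| + ∑ l : Fin K, |√(v l.succ - v l.castSucc)|,
    add_nonneg (abs_nonneg _) (Finset.sum_nonneg fun l _ => abs_nonneg _), fun u => ?_⟩
  have h : ∀ l, |u l| ≤ 1 + ∑ l, |u l| := fun l => by
    linarith [Finset.single_le_sum (f := fun l => |u l|) (fun l _ => abs_nonneg _)
      (Finset.mem_univ l)]
  refine (abs_lcosh_le _).trans ((abs_add_le _ _).trans ?_)
  rw [add_mul, Finset.sum_mul]
  refine add_le_add (le_mul_of_one_le_right (abs_nonneg _)
    (le_add_of_nonneg_right (Finset.sum_nonneg fun l _ => abs_nonneg _)))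
    ((Finset.abs_sum_le_sum_abs _ _).trans (Finset.sum_le_sum fun l _ => ?_))
  rw [abs_mul]
  exact mul_le_mul_of_nonneg_left (h l) (abs_nonneg _)

theorem grow1_pot (P : Pot) (v : Fin (K + 1) → ℝ) (z : ℝ) :
    Grow1 fun u : Fin K → ℝ => P.f (pathField v z u) :=
  ⟨P.bF, (abs_nonneg _).trans (P.hF 0), fun u => (P.hF _).trans (le_mul_of_one_le_right
    ((abs_nonneg _).trans (P.hF 0))
    (le_add_of_nonneg_right (Finset.sum_nonneg fun l _ => abs_nonneg _)))⟩

theorem grow_logY (P : Pot) (π : Prior N) (c : CIdx N M K → ℝ) (z : RIdx N M → ℝ) :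
    Grow fun y : Fin K → LIdx N M → ℝ => Real.log (leafY P π c z y) := by
  obtain ⟨A, hA, hb⟩ := leafY_bound (M := M) (K := K) P π (∑ i, |c i|)
  have hR : ∀ i, |c i| ≤ ∑ i, |c i| := fun i =>
    Finset.single_le_sum (f := fun i => |c i|) (fun i _ => abs_nonneg _) (Finset.mem_univ i)
  refine ⟨A * (1 + ∑ i, |z i|), mul_nonneg hA
    (add_nonneg zero_le_one (Finset.sum_nonneg fun i _ => abs_nonneg _)), fun y => ?_⟩
  obtain ⟨h1, h2⟩ := hb c hR z y
  have hp := leafY_pos P π c z y
  have l1 := Real.log_le_log (Real.exp_pos _) h1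
  have l2 := Real.log_le_log hp h2
  rw [Real.log_exp] at l1 l2
  refine (abs_le.2 ⟨l1, l2⟩).trans ?_
  rw [mul_assoc]
  refine mul_le_mul_of_nonneg_left ?_ hA
  simp only [absSum]
  nlinarith [Finset.sum_nonneg (s := Finset.univ) fun (i : RIdx N M) _ => abs_nonneg (z i),
    Finset.sum_nonneg (s := Finset.univ) fun (l : Fin K) _ =>
      Finset.sum_nonneg (s := Finset.univ) fun (i : LIdx N M) _ => abs_nonneg (y l i)]

variable {B k : ℕ} {c' : CIdx (N + B) (M + k) K → ℝ} {c : CIdx N M K → ℝ}
  {q p : Fin (K + 1) → ℝ}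

/-- The recursion of an enlarged system. -/
theorem casc_grown (h : Grown c' c q p) (hN : 0 < N ∨ M = 0) (P : Pot)
    (z : RIdx (N + B) (M + k) → ℝ) :
    casc (gaus (LIdx (N + B) (M + k))) K (mlev K)
        (fun y => Real.log (leafY P (isingP (N + B)) c' z y))
      = casc (gaus (LIdx N M)) K (mlev K)
          (fun y => Real.log (leafY P (isingP N) c (fun i => z (embR N M B k i)) y))
        + (∑ a : Fin k, casc (gaussianReal 0 1) K (mlev K)
            (fun u => P.f (pathField q (z (Sum.inr (Sum.inl (Fin.natAdd M a)))) u)))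
        + (∑ j : Fin B, casc (gaussianReal 0 1) K (mlev K)
            (fun u => Real.log (Real.cosh
              (pathField p (z (Sum.inr (Sum.inr (Sum.inl (Fin.natAdd N j))))) u))))
        - B * (p (Fin.last K) / 2) := by
  classical
  set J := LIdx (N + B) (M + k)
  set eA : Fin k → J := fun a => Sum.inl (Fin.natAdd M a)
  set eT : Fin B → J := fun j => Sum.inr (Sum.inl (Fin.natAdd N j))
  have hiA : Function.Injective eA := fun a a' he =>
    Fin.natAdd_injective _ _ (Sum.inl.inj he)
  have hiT : Function.Injective eT := fun a a' he =>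
    Fin.natAdd_injective _ _ (Sum.inl.inj (Sum.inr.inj he))
  set S : Finset J := Finset.univ.image eA ∪ Finset.univ.image eT
  set hh : J → (Fin K → ℝ) → ℝ := fun i u => match i with
    | Sum.inl _ => P.f (pathField q (z (Sum.inr i)) u)
    | Sum.inr _ => Real.log (Real.cosh (pathField p (z (Sum.inr i)) u))
  have hmh : ∀ i, Measurable (hh i) := fun i => by
    rcases i with a | i <;> simp only [hh]
    · exact (pot_continuous P).measurable.comp (continuous_pathField q _).measurable
    · exact (Real.continuous_cosh.comp (continuous_pathField p _)).measurable.log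
  have hgh : ∀ i, Grow1 (hh i) := fun i => by
    rcases i with a | i <;> simp only [hh]
    · exact grow1_pot P q _
    · exact grow1_lcosh p _
  set H0 : (Fin K → J → ℝ) → ℝ := fun y => Real.log (leafY P (isingP N) c
    (fun i => z (embR N M B k i)) (fun l i => y l (embL N M B k i)))
  have mR : Measurable fun (y : Fin K → J → ℝ) l i => y l (embL N M B k i) :=
    measurable_pi_lambda _ fun l => measurable_pi_lambda _ fun i =>
      (measurable_pi_apply _).comp (measurable_pi_apply l)
  have hm0 : Measurable H0 :=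
    ((continuous_leafY_y P (isingP N) c _).measurable.comp mR).log
  have hg0 : Grow H0 := by
    obtain ⟨A, hA, hb⟩ := grow_logY P (isingP N) c fun i => z (embR N M B k i)
    refine ⟨A, hA, fun y => (hb _).trans (mul_le_mul_of_nonneg_left (add_le_add le_rfl ?_) hA)⟩
    refine Finset.sum_le_sum fun l _ => ?_
    rw [← Finset.sum_image (f := fun i => |y l i|) fun a _ b _ he => embL_inj N M B k he]
    exact Finset.sum_le_sum_of_subset_of_nonneg (Finset.subset_univ _)
      fun i _ _ => abs_nonneg _
  have hneA : ∀ i a, embL N M B k i ≠ eA a := fun i a => by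
    rcases i with b | j | t <;> simp [embL, eA, Fin.ext_iff] <;> omega
  have hneT : ∀ i j, embL N M B k i ≠ eT j := fun i j => by
    rcases i with b | j' | t <;> simp [embL, eT, Fin.ext_iff] <;> omega
  have hdep : ∀ y y', (∀ l, ∀ i ∉ S, y l i = y' l i) → H0 y = H0 y' := fun y y' hy => by
    simp only [H0]
    congr 2
    funext l i
    refine hy l _ ?_
    simp only [S, Finset.mem_union, Finset.mem_image, Finset.mem_univ, true_and, not_or,
      not_exists]
    exact ⟨fun a he => hneA i a he.symm, fun j he => hneT i j he.symm⟩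
  have hdisj : Disjoint (Finset.univ.image eA) (Finset.univ.image eT) := by
    simp [Finset.disjoint_left, eA, eT]
  have hsum : ∀ F : J → ℝ, ∑ i ∈ S, F i = (∑ a, F (eA a)) + ∑ j, F (eT j) := fun F => by
    rw [Finset.sum_union hdisj, Finset.sum_image fun a _ b _ he => hiA he,
      Finset.sum_image fun a _ b _ he => hiT he]
  set C := -((B : ℝ) * (p (Fin.last K) / 2))
  have e : (fun y => Real.log (leafY P (isingP (N + B)) c' z y))
      = fun y => (H0 y + C) + ∑ i ∈ S, hh i fun l => y l i := funext fun y => by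
    rw [log_leafY_grown h hN P z y, hsum]
    simp only [hh, eA, eT, labField, H0, C]
    ring
  rw [e, casc_add_coords (grid_mlev K) (H := fun y => H0 y + C) (hm0.add_const C)
    (hg0.add (grow_const C)) hh hmh hgh S (fun y y' hy => by simp only [hdep y y' hy]),
    casc_shift (grid_mlev K) hm0 hg0 C, hsum fun i => casc (gaussianReal 0 1) K (mlev K) (hh i)]
  have hmp : MeasurePreserving (fun (g : J → ℝ) i => g (embL N M B k i)) (gaus J)
      (gaus (LIdx N M)) := P157.mp_comp (gaussianReal 0 1) (embL_inj N M B k)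
  obtain ⟨hc, -, -⟩ := casc_map hmp K (mlev K)
    (H := fun u => Real.log (leafY P (isingP N) c (fun i => z (embR N M B k i)) u))
    (a := fun _ => 1) (continuous_leafY_y P (isingP N) c _).measurable.log measurable_const
  rw [hc]
  simp only [hh, eA, eT, C]
  ring

theorem integrable_casc_pot (P : Pot) (v : Fin (K + 1) → ℝ) :
    Integrable (fun z => casc (gaussianReal 0 1) K (mlev K) fun u => P.f (pathField v z u))
      (gaussianReal 0 1) :=
  integrable_of_bdd (measurable_casc_param K (mlev K) (H := fun z u => P.f (pathField v z u))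
    ((pot_continuous P).comp (continuous_pathField2 v)).measurable).aestronglyMeasurable
    (C := P.bF) fun z => casc_bdd (gaussianReal 0 1) K (grid_mlev K).pos
      ((pot_continuous P).comp (continuous_pathField v z)).measurable fun u => P.hF _

open Formula in
theorem integrable_casc_lcosh (v : Fin (K + 1) → ℝ) :
    Integrable (fun z => casc (gaussianReal 0 1) K (mlev K)
      fun u => Real.log (Real.cosh (pathField v z u))) (gaussianReal 0 1) := by
  set X := lvl (K + 1) (bk (Formula.top v) v) 1
  have hX : Nice X := nice_lvl _ _ _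
  set s := √(bk (Formula.top v) v 1)
  have hb : ∀ z : ℝ, casc (gaussianReal 0 1) K (mlev K)
      (fun u => Real.log (Real.cosh (pathField v z u))) = X (s * z) := fun z => by
    simp only [pathField_eq, mlev_eq]
    exact (casc_eq_lvl (K + 1) (bk (Formula.top v) v) (bk_top_last v) K 1 (by omega) le_rfl _).1
  simp only [hb]
  refine Integrable.mono' ((integrable_const |X 0|).add
    ((memLp_one_iff_integrable.1 (memLp_id_gaussianReal 1)).abs.const_mul |s|))
    (hX.continuous.comp (by fun_prop)).aestronglyMeasurable (ae_of_all _ fun z => ?_)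
  have h1 := hX.abs_sub_le (s * z)
  have h2 := abs_sub_abs_le_abs_sub (X (s * z)) (X 0)
  rw [abs_mul] at h1
  simp only [Real.norm_eq_abs, Pi.add_apply, id_eq]
  linarith

theorem mp_eval_root (i : LIdx N M) : MeasurePreserving (fun z : RIdx N M → ℝ => z (Sum.inr i))
    (gaus (RIdx N M)) (gaussianReal 0 1) :=
  measurePreserving_eval (μ := fun _ : RIdx N M => gaussianReal 0 1) (Sum.inr i)

theorem integral_eval_root (i : LIdx N M) {F : ℝ → ℝ} (hF : Integrable F (gaussianReal 0 1)) :
    Integrable (fun z : RIdx N M → ℝ => F (z (Sum.inr i))) (gaus (RIdx N M)) ∧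
      ∫ z, F (z (Sum.inr i)) ∂gaus (RIdx N M) = ∫ x, F x ∂gaussianReal 0 1 := by
  have h := mp_eval_root (N := N) (M := M) i
  refine ⟨h.integrable_comp_of_integrable hF, ?_⟩
  have := integral_map (μ := gaus (RIdx N M)) h.measurable.aemeasurable (f := F)
    (by rw [h.map_eq]; exact hF.aestronglyMeasurable)
  rw [h.map_eq] at this
  exact this.symm

/-- The limit value of an enlarged system. -/
theorem integral_casc_grown (h : Grown c' c q p) (hN : 0 < N ∨ M = 0) (P : Pot) :
    ∫ z, casc (gaus (LIdx (N + B) (M + k))) K (mlev K)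
        (fun y => Real.log (leafY P (isingP (N + B)) c' z y)) ∂gaus (RIdx (N + B) (M + k))
      = (∫ z, casc (gaus (LIdx N M)) K (mlev K) (fun y => Real.log (leafY P (isingP N) c z y))
          ∂gaus (RIdx N M)) + (k * psiF P.f q + B * psiI p) := by
  have hmp : MeasurePreserving (fun (g : RIdx (N + B) (M + k) → ℝ) i => g (embR N M B k i))
      (gaus (RIdx (N + B) (M + k))) (gaus (RIdx N M)) :=
    P157.mp_comp (gaussianReal 0 1) (embR_inj N M B k)
  set F := fun z : RIdx N M → ℝ =>
    casc (gaus (LIdx N M)) K (mlev K) fun y => Real.log (leafY P (isingP N) c z y)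
  have hF := integrable_casc_leafY P (isingP N) c
  have i0 : Integrable (fun z : RIdx (N + B) (M + k) → ℝ => F fun i => z (embR N M B k i))
      (gaus (RIdx (N + B) (M + k))) := hmp.integrable_comp_of_integrable hF
  have e0 : ∫ z : RIdx (N + B) (M + k) → ℝ, F (fun i => z (embR N M B k i))
      ∂gaus (RIdx (N + B) (M + k)) = ∫ z, F z ∂gaus (RIdx N M) := by
    have := integral_map (μ := gaus (RIdx (N + B) (M + k))) hmp.measurable.aemeasurable (f := F)
      (by rw [hmp.map_eq]; exact hF.aestronglyMeasurable)
    rw [hmp.map_eq] at this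
    exact this.symm
  have hA := fun a : Fin k => integral_eval_root (N := N + B) (M := M + k)
    (Sum.inl (Fin.natAdd M a)) (integrable_casc_pot (K := K) P q)
  have hT := fun j : Fin B => integral_eval_root (N := N + B) (M := M + k)
    (Sum.inr (Sum.inl (Fin.natAdd N j))) (integrable_casc_lcosh (K := K) p)
  simp only [casc_grown h hN P]
  have i1 := integrable_finsetSum (Finset.univ : Finset (Fin k)) fun a _ => (hA a).1
  have i2 := integrable_finsetSum (Finset.univ : Finset (Fin B)) fun j _ => (hT j).1
  rw [integral_sub ?_ (integrable_const _), integral_add ?_ i2, integral_add i0 i1,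
    integral_finsetSum _ fun a _ => (hA a).1, integral_finsetSum _ fun j _ => (hT j).1, e0]
  rotate_left
  · exact i0.add i1
  · exact (i0.add i1).add i2
  simp only [(hA _).2, (hT _).2, Finset.sum_const, Finset.card_univ, Fintype.card_fin, nsmul_eq_mul,
    integral_const, probReal_univ, one_smul]
  simp only [F, psiF, psiI]
  ring

/-- Uniform limit of the difference of an enlarged system and the system. -/
theorem grown_uniform {E : Type*} [TopologicalSpace E] [FirstCountableTopology E] {s : Set E}
    (hs : IsCompact s) (hN : 0 < N ∨ M = 0) (P : Pot) {C' : E → CIdx (N + B) (M + k) K → ℝ}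
    {C : E → CIdx N M K → ℝ} {Q Pp : E → Fin (K + 1) → ℝ} (hC' : Continuous C')
    (hC : Continuous C) (hQ : Continuous Q) (hP : Continuous Pp)
    (h : ∀ e ∈ s, Grown (C' e) (C e) (Q e) (Pp e)) {ε : ℝ} (hε : 0 < ε) :
    ∃ n0, ∀ n ≥ n0, ∀ e ∈ s,
      |mfree n P (isingP (N + B)) (C' e) - mfree n P (isingP N) (C e)
        - (k * psiF P.f (Q e) + B * psiI (Pp e))| ≤ ε := by
  refine uniform_of_seq hs (fun e el nn _ hel hlim hn ε hε => ?_) hε
  have h1 := tendsto_mfree P (isingP (N + B)) ((hC'.tendsto el).comp hlim) hn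
  have h2 := tendsto_mfree P (isingP N) ((hC.tendsto el).comp hlim) hn
  have hval : Continuous fun e => (k : ℝ) * psiF P.f (Q e) + B * psiI (Pp e) :=
    (continuous_const.mul ((Formula.continuous_casc_psiF (pot_continuous P) P.hF).comp hQ)).add
      (continuous_const.mul (continuous_psiI.comp hP))
  have h3 := ((h1.sub h2).sub ((hval.tendsto el).comp hlim)).abs
  rw [integral_casc_grown (h el hel) hN P, add_sub_cancel_left, sub_self, abs_zero] at h3
  exact h3.eventually (eventually_le_nhds hε)

end Vale.Agent.P157.Casc
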