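import Vale.Agent.P157.Casc.Defs
import Vale.Agent.P166.Tame

/-!
Tools for the interpolation: Gibbs averages, their derivatives, and the standard Gaussian vector.
-/

open MeasureTheory ProbabilityTheory Filter Topology Set

namespace Vale.Agent.P157.Casc.Itp

section Gibbs

variable {T : Type*} [Fintype T] {u : T → ℝ}

theorem sum_u_pos [Nonempty T] (hu : ∀ x, 0 < u x) : 0 < ∑ x, u x :=
  Finset.sum_pos (fun x _ => hu x) Finset.univ_nonempty

theorem gibbs_nonneg (hu : ∀ x, 0 < u x) (x : T) : 0 ≤ gibbs u x :=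
  div_nonneg (hu x).le (Finset.sum_nonneg fun y _ => (hu y).le)

theorem sum_gibbs [Nonempty T] (hu : ∀ x, 0 < u x) : ∑ x, gibbs u x = 1 := by
  simp only [gibbs, ← Finset.sum_div]
  exact div_self (sum_u_pos hu).ne'

theorem abs_mean_le [Nonempty T] (hu : ∀ x, 0 < u x) {F : T → ℝ} {C : ℝ} (hF : ∀ x, |F x| ≤ C) :
    |∑ x, gibbs u x * F x| ≤ C := by
  refine (Finset.abs_sum_le_sum_abs _ _).trans ?_
  refine (Finset.sum_le_sum (g := fun x => gibbs u x * C) fun x _ => ?_).trans_eq ?_
  · rw [abs_mul, abs_of_nonneg (gibbs_nonneg hu x)]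
    exact mul_le_mul_of_nonneg_left (hF x) (gibbs_nonneg hu x)
  · rw [← Finset.sum_mul, sum_gibbs hu, one_mul]

theorem avg2_eq (u : T → ℝ) (O : T → T → ℝ) :
    avg2 u O = ∑ x, gibbs u x * ∑ y, gibbs u y * O x y := by
  simp only [avg2, Finset.mul_sum, mul_assoc]

theorem abs_avg2_le [Nonempty T] (hu : ∀ x, 0 < u x) {O : T → T → ℝ} {C : ℝ}
    (hO : ∀ x y, |O x y| ≤ C) : |avg2 u O| ≤ C := by
  rw [avg2_eq]; exact abs_mean_le hu fun x => abs_mean_le hu (hO x)

theorem avg_add (r : ℕ) (F F' : (Fin r → T) → ℝ) :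
    avg u r (fun x => F x + F' x) = avg u r F + avg u r F' := by
  simp only [avg, mul_add, Finset.sum_add_distrib]

theorem avg_const_mul (r : ℕ) (c : ℝ) (F : (Fin r → T) → ℝ) :
    avg u r (fun x => c * F x) = c * avg u r F := by
  simp only [avg, Finset.mul_sum, mul_left_comm]

theorem avg_sum (r : ℕ) {ι : Type*} (s : Finset ι) (F : ι → (Fin r → T) → ℝ) :
    avg u r (fun x => ∑ j ∈ s, F j x) = ∑ j ∈ s, avg u r (F j) := by
  simp only [avg, Finset.mul_sum]; exact Finset.sum_comm

theorem avg_const [Nonempty T] (hu : ∀ x, 0 < u x) (r : ℕ) (c : ℝ) :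
    avg u r (fun _ => c) = c := by
  have h : ∑ x : Fin r → T, ∏ i, gibbs u (x i) = 1 := by
    rw [← Fintype.prod_sum fun _ : Fin r => gibbs u]; simp [sum_gibbs hu]
  simp only [avg, ← Finset.sum_mul, h, one_mul]

theorem abs_avg_le {r : ℕ} (hu : ∀ x, 0 < u x) {F F' : (Fin r → T) → ℝ}
    (h : ∀ x, |F x| ≤ F' x) : |avg u r F| ≤ avg u r F' := by
  refine (Finset.abs_sum_le_sum_abs _ _).trans (Finset.sum_le_sum fun x _ => ?_)
  have hp : 0 ≤ ∏ i, gibbs u (x i) := Finset.prod_nonneg fun i _ => gibbs_nonneg hu _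
  rw [abs_mul, abs_of_nonneg hp]
  exact mul_le_mul_of_nonneg_left (h x) hp

theorem avg_one [Nonempty T] (hu : ∀ x, 0 < u x) {r : ℕ} (l : Fin r) (F : T → ℝ) :
    avg u r (fun x => F (x l)) = ∑ y, gibbs u y * F y := by
  have e : ∀ x : Fin r → T, (∏ i, gibbs u (x i)) * F (x l)
      = ∏ i, gibbs u (x i) * (if i = l then F (x i) else 1) := fun x => by
    rw [Finset.prod_mul_distrib]; simp
  simp only [avg, e]
  rw [← Fintype.prod_sum fun (i : Fin r) y => gibbs u y * (if i = l then F y else 1),
    Finset.prod_eq_single l]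
  · simp
  · intro i _ hi; simp [hi, sum_gibbs hu]
  · simp

theorem avg_two [Nonempty T] (hu : ∀ x, 0 < u x) {r : ℕ} {l k : Fin r} (hlk : l ≠ k)
    (O : T → T → ℝ) : avg u r (fun x => O (x l) (x k)) = avg2 u O := by
  classical
  have e : ∀ x : Fin r → T, (∏ i, gibbs u (x i)) * O (x l) (x k)
      = ∑ y, ∏ i, gibbs u (x i) *
          ((if i = l then O (x i) y else 1) * (if i = k then (if x i = y then 1 else 0) else 1)) := by
    intro x
    have p : ∀ y, (∏ i, gibbs u (x i) *
        ((if i = l then O (x i) y else 1) * (if i = k then (if x i = y then 1 else 0) else 1)))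
        = (∏ i, gibbs u (x i)) * (O (x l) y * if x k = y then 1 else 0) := fun y => by
      rw [Finset.prod_mul_distrib, Finset.prod_mul_distrib, Finset.prod_ite_eq',
        Finset.prod_ite_eq', if_pos (Finset.mem_univ _), if_pos (Finset.mem_univ _)]
    rw [Finset.sum_congr rfl fun y _ => p y]
    simp
  simp only [avg, e]
  rw [Finset.sum_comm, avg2]
  conv_rhs => rw [Finset.sum_comm]
  refine Finset.sum_congr rfl fun y _ => ?_
  rw [← Fintype.prod_sum fun (i : Fin r) v => gibbs u v *
    ((if i = l then O v y else 1) * (if i = k then (if v = y then 1 else 0) else 1))]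
  rw [← Finset.mul_prod_erase _ _ (Finset.mem_univ l),
    ← Finset.mul_prod_erase _ _ (Finset.mem_erase.2 ⟨Ne.symm hlk, Finset.mem_univ k⟩),
    Finset.prod_eq_one (s := (Finset.univ.erase l).erase k) fun i hi => ?_]
  · simp [hlk, Ne.symm hlk, Finset.sum_mul, mul_right_comm]
  · simp only [Finset.mem_erase] at hi
    simp [hi.1, hi.2.1, sum_gibbs hu]

variable [Nonempty T] {v : ℝ → T → ℝ} {dv : T → ℝ} {s : ℝ}

theorem deriv_logsum (hv : ∀ x, 0 < v s x)
    (hd : ∀ x, HasDerivAt (fun q => v q x) (v s x * dv x) s) :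
    HasDerivAt (fun q => Real.log (∑ x, v q x)) (∑ x, gibbs (v s) x * dv x) s := by
  have h := (HasDerivAt.fun_sum (u := Finset.univ) fun x _ => hd x).log (sum_u_pos hv).ne'
  refine h.congr_deriv ?_
  simp only [gibbs, Finset.sum_div]
  exact Finset.sum_congr rfl fun x _ => by ring

theorem deriv_gibbs (hv : ∀ x, 0 < v s x)
    (hd : ∀ x, HasDerivAt (fun q => v q x) (v s x * dv x) s) (x : T) :
    HasDerivAt (fun q => gibbs (v q) x)
      (gibbs (v s) x * (dv x - ∑ y, gibbs (v s) y * dv y)) s := by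
  have hz := (sum_u_pos hv).ne'
  have h := (hd x).div (HasDerivAt.fun_sum (u := Finset.univ) fun y _ => hd y) hz
  refine h.congr_deriv ?_
  have e : ∑ y, gibbs (v s) y * dv y = (∑ y, v s y * dv y) / ∑ y, v s y := by
    simp only [gibbs, Finset.sum_div]; exact Finset.sum_congr rfl fun y _ => by ring
  rw [e, gibbs]
  field_simp

theorem deriv_mean (hv : ∀ x, 0 < v s x)
    (hd : ∀ x, HasDerivAt (fun q => v q x) (v s x * dv x) s) {F : ℝ → T → ℝ} {dF : T → ℝ}
    (hF : ∀ x, HasDerivAt (fun q => F q x) (dF x) s) :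
    HasDerivAt (fun q => ∑ x, gibbs (v q) x * F q x)
      (∑ x, gibbs (v s) x * (dF x + F s x * (dv x - ∑ y, gibbs (v s) y * dv y))) s := by
  refine (HasDerivAt.fun_sum (u := Finset.univ) fun x _ =>
    (deriv_gibbs hv hd x).mul (hF x)).congr_deriv ?_
  exact Finset.sum_congr rfl fun x _ => by ring

theorem deriv_avg (hv : ∀ x, 0 < v s x)
    (hd : ∀ x, HasDerivAt (fun q => v q x) (v s x * dv x) s) {r : ℕ}
    {F : ℝ → (Fin r → T) → ℝ} {dF : (Fin r → T) → ℝ}
    (hF : ∀ x, HasDerivAt (fun q => F q x) (dF x) s) :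
    HasDerivAt (fun q => avg (v q) r (F q))
      (avg (v s) r fun x =>
        dF x + F s x * ∑ l, (dv (x l) - ∑ y, gibbs (v s) y * dv y)) s := by
  refine (HasDerivAt.fun_sum (u := Finset.univ) fun x _ =>
    (HasDerivAt.fun_finsetProd (u := Finset.univ) fun l _ =>
      deriv_gibbs hv hd (x l)).mul (hF x)).congr_deriv ?_
  refine Finset.sum_congr rfl fun x _ => ?_
  simp only [smul_eq_mul, Finset.mul_sum, Finset.sum_mul, mul_add]
  rw [add_comm]
  congr 1
  refine Finset.sum_congr rfl fun l _ => ?_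
  rw [← Finset.mul_prod_erase _ (fun i => gibbs (v s) (x i)) (Finset.mem_univ l)]
  ring

end Gibbs

section Gauss

variable {I : Type*} [Fintype I]

theorem integrable_coord (i : I) : Integrable (fun G : I → ℝ => G i) (gaus I) :=
  (measurePreserving_eval (fun _ : I => gaussianReal 0 1) i).integrable_comp_of_integrable
    (memLp_one_iff_integrable.1 (memLp_id_gaussianReal 1))

theorem integrable_of_le {F : (I → ℝ) → ℝ} (hF : Continuous F) {C D : ℝ}
    (hb : ∀ G, |F G| ≤ C + D * ∑ i, |G i|) : Integrable F (gaus I) :=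
  Integrable.mono'
    ((integrable_const C).add ((integrable_finsetSum _ fun i _ => (integrable_coord i).abs).const_mul D))
    hF.aestronglyMeasurable (ae_of_all _ fun G => by simpa [Real.norm_eq_abs] using hb G)

theorem integrable_bdd {F : (I → ℝ) → ℝ} (hF : Continuous F) {C : ℝ} (hb : ∀ G, |F G| ≤ C) :
    Integrable F (gaus I) :=
  integrable_of_le (D := 0) hF fun G => by simpa using hb G

theorem integrable_coord_mul {F : (I → ℝ) → ℝ} (hF : Continuous F) {C : ℝ}
    (hb : ∀ G, |F G| ≤ C) (i : I) : Integrable (fun G => G i * F G) (gaus I) :=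
  (integrable_coord i).mul_bdd hF.aestronglyMeasurable
    (ae_of_all _ fun G => by simpa [Real.norm_eq_abs] using hb G)

/-- Gaussian integration by parts in one coordinate, for bounded functions. -/
theorem ibp_gaus [DecidableEq I] {F F' : (I → ℝ) → ℝ} (i : I) (hF : Continuous F)
    (hF' : Continuous F') {C C' : ℝ} (hb : ∀ G, |F G| ≤ C) (hb' : ∀ G, |F' G| ≤ C')
    (hd : ∀ G, HasDerivAt (fun x => F (Function.update G i x)) (F' G) (G i)) :
    ∫ G, G i * F G ∂gaus I = ∫ G, F' G ∂gaus I := by
  let e := Fintype.equivFin I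
  let Ψ := MeasurableEquiv.piCongrLeft (fun _ : I => ℝ) e.symm
  have hΨ : MeasurePreserving Ψ (Vale.Agent.P166.gs (Fintype.card I)) (gaus I) :=
    measurePreserving_piCongrLeft (fun _ : I => gaussianReal 0 1) e.symm
  have ev : ∀ g j, Ψ g j = g (e j) := fun g j => by
    conv_lhs => rw [← e.symm_apply_apply j]
    exact MeasurableEquiv.piCongrLeft_apply_apply (β := fun _ : I => ℝ) _ _ _
  have tr : ∀ f : (I → ℝ) → ℝ, Integrable f (gaus I) →
      Integrable (fun g => f (Ψ g)) (Vale.Agent.P166.gs (Fintype.card I)) ∧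
      ∫ g, f (Ψ g) ∂Vale.Agent.P166.gs (Fintype.card I) = ∫ G, f G ∂gaus I := fun f hf =>
    ⟨(hΨ.integrable_comp_emb Ψ.measurableEmbedding).2 hf, hΨ.integral_comp Ψ.measurableEmbedding f⟩
  obtain ⟨a1, -⟩ := tr F (integrable_bdd hF hb)
  obtain ⟨a2, e2⟩ := tr F' (integrable_bdd hF' hb')
  obtain ⟨a3, e3⟩ := tr _ (integrable_coord_mul hF hb i)
  simp only [ev] at a3 e3
  rw [← e2, ← e3]
  refine Vale.Agent.P166.ibp (F := fun g => F (Ψ g)) (F' := fun g => F' (Ψ g)) (e i) a1 a2 a3
    fun g => ?_
  have h := hd (Ψ g)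
  rw [ev] at h
  refine h.congr_of_eventuallyEq (Eventually.of_forall fun x => ?_)
  refine congrArg F (funext fun j => ?_)
  rw [ev, Function.update_apply, Function.update_apply, ev]
  simp [e.injective.eq_iff]

/-- Chain rule from continuous coordinate derivatives. -/
theorem deriv_chain {J : Type*} [Fintype J] [DecidableEq J] {F : (J → ℝ) → ℝ}
    {F' : J → (J → ℝ) → ℝ} (hc : ∀ j, Continuous (F' j))
    (hd : ∀ j h, HasDerivAt (fun z => F (Function.update h j z)) (F' j h) (h j))
    {h : ℝ → J → ℝ} {dh : J → ℝ} {s : ℝ} (hh : ∀ j, HasDerivAt (fun q => h q j) (dh j) s) :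
    HasDerivAt (fun q => F (h q)) (∑ j, F' j (h s) * dh j) s := by
  suffices H : ∀ A : Finset J, HasDerivAt (fun q => F fun j => if j ∈ A then h q j else h s j)
      (∑ j ∈ A, F' j (h s) * dh j) s by simpa using H Finset.univ
  intro A
  induction A using Finset.induction with
  | empty => simpa using hasDerivAt_const s (F (h s))
  | insert a A ha ih =>
    set k : ℝ → J → ℝ := fun q j => if j ∈ A then h q j else h s j with hk
    have hd' : ∀ q z, HasDerivAt (fun z' => F (Function.update (k q) a z'))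
        (F' a (Function.update (k q) a z)) z := fun q z => by
      simpa using hd a (Function.update (k q) a z)
    have mv : ∀ q, ∃ c, |c - h s a| ≤ |h q a - h s a| ∧
        F (Function.update (k q) a (h q a)) - F (Function.update (k q) a (h s a))
          = F' a (Function.update (k q) a c) * (h q a - h s a) := fun q => by
      have hcont : Continuous fun z => F (Function.update (k q) a z) :=
        continuous_iff_continuousAt.2 fun z => (hd' q z).continuousAt
      rcases lt_trichotomy (h s a) (h q a) with hlt | heq | hgt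
      · obtain ⟨c, hc', he⟩ := exists_hasDerivAt_eq_slope _ _ hlt hcont.continuousOn
          fun z _ => hd' q z
        refine ⟨c, ?_, ?_⟩
        · rw [abs_of_pos (sub_pos.2 hc'.1), abs_of_pos (sub_pos.2 hlt)]; linarith [hc'.2]
        · rw [he, div_mul_cancel₀ _ (sub_ne_zero.2 hlt.ne')]
      · exact ⟨h s a, by simp, by simp [← heq]⟩
      · obtain ⟨c, hc', he⟩ := exists_hasDerivAt_eq_slope _ _ hgt hcont.continuousOn
          fun z _ => hd' q z
        refine ⟨c, ?_, ?_⟩
        · rw [abs_of_neg (sub_neg.2 hc'.2), abs_of_neg (sub_neg.2 hgt)]; linarith [hc'.1]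
        · rw [he, div_mul_eq_mul_div, eq_div_iff (sub_ne_zero.2 hgt.ne')]; ring
    choose c hc1 hc2 using mv
    have hk0 : k s = h s := funext fun j => by simp [hk]
    have hkc : Tendsto k (𝓝 s) (𝓝 (h s)) := by
      refine tendsto_pi_nhds.2 fun j => ?_
      by_cases hj : j ∈ A
      · simpa [hk, hj] using (hh j).continuousAt.tendsto
      · simp [hk, hj]
    have hcc : Tendsto c (𝓝 s) (𝓝 (h s a)) := by
      refine tendsto_iff_norm_sub_tendsto_zero.2 (squeeze_zero (fun q => norm_nonneg _)
        (fun q => (Real.norm_eq_abs _).trans_le (hc1 q)) ?_)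
      simpa using ((hh a).continuousAt.tendsto.sub_const (h s a)).abs
    have hlim : Tendsto (fun q => F' a (Function.update (k q) a (c q))) (𝓝 s) (𝓝 (F' a (h s))) := by
      have := ((hc a).tendsto _).comp (hkc.update a hcc)
      simpa [Function.update_eq_self, Function.comp_def] using this
    have e1 : (fun q => F fun j => if j ∈ insert a A then h q j else h s j)
        = fun q => F (k q) + F' a (Function.update (k q) a (c q)) * (h q a - h s a) := funext fun q => by
      have u1 : (fun j => if j ∈ insert a A then h q j else h s j)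
          = Function.update (k q) a (h q a) := funext fun j => by
        by_cases hj : j = a <;> simp [hk, hj]
      have u2 : Function.update (k q) a (h s a) = k q := by
        simp [Function.update_eq_self_iff, hk, ha]
      have := hc2 q
      rw [u2] at this
      rw [u1]; linarith
    rw [e1, Finset.sum_insert ha, add_comm (F' a (h s) * dh a)]
    refine ih.add ?_
    rw [hasDerivAt_iff_tendsto_slope]
    refine ((hlim.mono_left nhdsWithin_le_nhds).mul (hasDerivAt_iff_tendsto_slope.1 (hh a))).congr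
      fun q => ?_
    simp only [slope, vsub_eq_sub, smul_eq_mul, sub_self, mul_zero, sub_zero]
    ring

end Gauss

end Vale.Agent.P157.Casc.Itp
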