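import Vale.Agent.P157.Casc.LimitDefs
import Vale.Agent.P157.Casc.LimitPairTree

/-!
Leaves of the regular tree with weights and labels at the vertices, as recursive trees.
-/

open MeasureTheory ProbabilityTheory Set Filter Topology Real

namespace Vale.Agent.P157.Casc

/-- A vertex of the first level. -/
def top {K n : ℕ} (i : Fin n) : Node (K + 1) n := ⟨0, fun _ => i⟩

/-- A vertex below the vertex `i` of the first level. -/
def shift {K n : ℕ} (i : Fin n) (v : Node K n) : Node (K + 1) n := ⟨v.1.succ, Fin.cons i v.2⟩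

theorem node_cons_zero {K n : ℕ} (i : Fin n) (α : Leaf K n) :
    node (Fin.cons (α := fun _ => Fin n) i α) 0 = top i := by
  refine Sigma.ext rfl (heq_of_eq (funext fun j => ?_))
  have hj : j.val = 0 := by have := j.isLt; simp only [node, Fin.val_zero] at this; omega
  simp only [node, top]
  exact (congrArg (Fin.cons (α := fun _ => Fin n) i α) (Fin.ext (by simpa using hj))).trans
    (Fin.cons_zero _ _)

theorem node_cons_succ {K n : ℕ} (i : Fin n) (α : Leaf K n) (l : Fin K) :
    node (Fin.cons (α := fun _ => Fin n) i α) l.succ = shift i (node α l) := by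
  refine Sigma.ext rfl (heq_of_eq (funext fun j => ?_))
  refine Fin.cases ?_ (fun j' => ?_) j
  · exact (Fin.cons_zero (α := fun _ => Fin n) i α)
  · exact (Fin.cons_succ (α := fun _ => Fin n) i α ⟨j'.val, lt_of_lt_of_le j'.isLt l.isLt⟩)

theorem top_injective {K n : ℕ} : Function.Injective (top : Fin n → Node (K + 1) n) :=
  fun i j h => by
    have := eq_of_heq (Sigma.mk.inj_iff.1 h).2
    exact congrFun this 0

theorem shift_inj {K n : ℕ} {i j : Fin n} {v w : Node K n} :
    shift i v = shift j w ↔ i = j ∧ v = w := by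
  refine ⟨fun h => ?_, fun h => by rw [h.1, h.2]⟩
  obtain ⟨l, a⟩ := v
  obtain ⟨l', b⟩ := w
  obtain ⟨h1, h2⟩ := Sigma.mk.inj_iff.1 h
  obtain rfl : l = l' := Fin.succ_injective _ h1
  have h3 := eq_of_heq h2
  refine ⟨by simpa using congrFun h3 0, ?_⟩
  simp only [Sigma.mk.inj_iff, heq_eq_eq, true_and]
  funext k
  simpa using congrFun h3 k.succ

theorem top_ne_shift {K n : ℕ} (i j : Fin n) (v : Node K n) : top i ≠ shift j v :=
  fun h => Fin.succ_ne_zero _ (Sigma.mk.inj_iff.1 h).1.symm

theorem com_val {K n : ℕ} (α β : Leaf K n) :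
    (com α β).val = ∑ l : Fin K, if node α l = node β l then 1 else 0 := by
  rw [com]
  simp only
  rw [Finset.card_filter]

theorem com_cons {K n : ℕ} (i j : Fin n) (α β : Leaf K n) :
    com (Fin.cons (α := fun _ => Fin n) i α) (Fin.cons (α := fun _ => Fin n) j β)
      = if i = j then (com α β).succ else 0 := by
  apply Fin.ext
  rw [com_val, Fin.sum_univ_succ]
  simp only [node_cons_zero, node_cons_succ, shift_inj, top_injective.eq_iff]
  by_cases h : i = j
  · simp only [h, true_and, if_true, Fin.val_succ, com_val]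
    ring
  · simp [h]

theorem prod_node {K n : ℕ} {M : Type*} [CommMonoid M] (f : Node (K + 1) n → M) :
    ∏ v, f v = ∏ i, (f (top i) * ∏ v, f (shift i v)) := by
  rw [Fintype.prod_sigma, Fin.prod_univ_succ, Finset.prod_mul_distrib]
  congr 1
  · refine (Fintype.prod_equiv (Equiv.funUnique (Fin 1) (Fin n)).symm _ _ fun i => ?_).symm
    exact congrArg f (Sigma.ext rfl (heq_of_eq (funext fun j => rfl)))
  · simp only [Fintype.prod_sigma]
    rw [Finset.prod_comm]
    refine Finset.prod_congr rfl fun l _ => ?_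
    rw [← Fintype.prod_prod_type']
    exact (Fintype.prod_equiv (Fin.consEquiv fun _ : Fin (l.val + 1 + 1) => Fin n) _ _
      fun p => rfl).symm

/-- A weight with the Pareto law, before scaling. -/
noncomputable def rootW (n : ℕ) (m u : ℝ) : ℝ := Rec.wgt n m u * ((n + 1 : ℕ) : ℝ) ^ (1 / m)

theorem rootW_scale (n : ℕ) (m u : ℝ) :
    rootW n m u * ((n + 1 : ℕ) : ℝ) ^ (-(1 / m)) = Rec.wgt n m u := by
  rw [rootW, mul_assoc, ← rpow_add (by positivity), add_neg_cancel, rpow_zero, mul_one]

theorem map_rootW (n : ℕ) (m : ℝ) : Rec.uni.map (rootW n m) = pareto m := by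
  refine Measure.map_congr ?_
  filter_upwards [Rec.wgt_uni n m, ae_restrict_mem measurableSet_Ioc] with u hu hu'
  have hN : (0 : ℝ) < n + 1 := by positivity
  rw [rootW, hu, mul_rpow hN.le hu'.1.le, Nat.cast_add, Nat.cast_one, one_div,
    mul_comm ((n + 1 : ℝ) ^ (-m⁻¹)), mul_assoc, ← rpow_add hN, neg_add_cancel, rpow_zero, mul_one]

section
variable {X : Type}

/-- The vertex data of a recursive tree: weight and label. -/
noncomputable def flat (n : ℕ) : (K : ℕ) → (Fin K → ℝ) → Rec.TreeSpace X n K →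
    Node K (n + 1) → ℝ × X
  | 0, _, _, v => v.1.elim0
  | K + 1, m, ω, ⟨l, s⟩ =>
    Fin.cases (motive := fun l => (Fin (l.val + 1) → Fin (n + 1)) → ℝ × X)
      (fun s => (rootW n (m 0) (ω (s 0)).1, (ω (s 0)).2.1))
      (fun l' s => flat n K (Fin.tail m) (ω (s 0)).2.2 ⟨l', Fin.tail s⟩) l s

theorem flat_top (n : ℕ) {K : ℕ} (m : Fin (K + 1) → ℝ) (ω : Rec.TreeSpace X n (K + 1))
    (i : Fin (n + 1)) : flat n (K + 1) m ω (top i) = (rootW n (m 0) (ω i).1, (ω i).2.1) := rfl

theorem flat_shift (n : ℕ) {K : ℕ} (m : Fin (K + 1) → ℝ) (ω : Rec.TreeSpace X n (K + 1))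
    (i : Fin (n + 1)) (v : Node K (n + 1)) :
    flat n (K + 1) m ω (shift i v) = flat n K (Fin.tail m) (ω i).2.2 v := by
  obtain ⟨l, s⟩ := v
  show flat n K (Fin.tail m) (ω (Fin.cons (α := fun _ => Fin (n + 1)) i s 0)).2.2
    ⟨l, Fin.tail (Fin.cons (α := fun _ => Fin (n + 1)) i s)⟩ = _
  simp [Fin.tail_cons]

variable [MeasurableSpace X]

theorem node_cases {K n : ℕ} {P : Node (K + 1) n → Prop} (h0 : ∀ i, P (top i))
    (h1 : ∀ i v, P (shift i v)) (v : Node (K + 1) n) : P v := by
  obtain ⟨l, s⟩ := v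
  revert s
  refine Fin.cases (fun s => ?_) (fun l' s => ?_) l
  · have : (⟨0, s⟩ : Node (K + 1) n) = top (s 0) :=
      Sigma.ext rfl (heq_of_eq (funext fun j => congrArg s (Fin.ext (by
        have := j.isLt; simp only [Fin.val_zero] at *; omega))))
    rw [this]
    exact h0 _
  · have : (⟨l'.succ, s⟩ : Node (K + 1) n) = shift (s 0) ⟨l', Fin.tail s⟩ :=
      Sigma.ext rfl (heq_of_eq (Fin.cons_self_tail s).symm)
    rw [this]
    exact h1 _ _

theorem measurable_flat (n : ℕ) : ∀ (K : ℕ) (m : Fin K → ℝ),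
    Measurable (flat (X := X) n K m)
  | 0, _ => measurable_pi_lambda _ fun v => v.1.elim0
  | K + 1, m => measurable_pi_lambda _ fun v => by
    have hi : ∀ i : Fin (n + 1),
        Measurable fun ω : Fin (n + 1) → ℝ × (X × Rec.TreeSpace X n K) => ω i :=
      fun i => measurable_pi_apply i
    refine node_cases (P := fun v => Measurable fun c => flat (X := X) n (K + 1) m c v)
      (fun i => ?_) (fun i w => ?_) v
    · simp only [flat_top]
      exact (((Rec.measurable_wgt n (m 0)).mul_const _).comp (measurable_fst.comp (hi i))).prodMk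
        (measurable_fst.comp (measurable_snd.comp (hi i)))
    · simp only [flat_shift]
      exact ((measurable_pi_apply w).comp (measurable_flat n K (Fin.tail m))).comp
        (measurable_snd.comp (measurable_snd.comp (hi i)))

variable {ν : Measure X} [IsProbabilityMeasure ν]

theorem mp_flat_pi (n : ℕ) : ∀ (K : ℕ) (m : Fin K → ℝ),
    MeasurePreserving (flat n K m) (Rec.treeLaw ν n K)
      (Measure.pi fun v : Node K (n + 1) => (pareto (m v.1)).prod ν)
  | 0, m => by
    refine ⟨measurable_flat n 0 m, (Measure.pi_eq fun s _ => ?_).symm⟩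
    have : IsEmpty (Node 0 (n + 1)) := ⟨fun v => v.1.elim0⟩
    have : IsProbabilityMeasure ((Rec.treeLaw ν n 0).map (flat n 0 m)) :=
      Measure.isProbabilityMeasure_map (measurable_flat n 0 m).aemeasurable
    rw [show univ.pi s = univ from eq_univ_of_forall fun x => fun v => isEmptyElim v]
    simp
  | K + 1, m => by
    refine ⟨measurable_flat n (K + 1) m, (Measure.pi_eq fun s hs => ?_).symm⟩
    rw [Measure.map_apply (measurable_flat n (K + 1) m) (MeasurableSet.univ_pi hs)]
    have ih := mp_flat_pi n K (Fin.tail m)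
    have hroot : MeasurePreserving (rootW n (m 0)) Rec.uni (pareto (m 0)) :=
      ⟨(Rec.measurable_wgt n (m 0)).mul_const _, map_rootW n (m 0)⟩
    have hψ := ((hroot.prod (MeasurePreserving.id ν)).prod ih).comp
      ((measurePreserving_prodAssoc Rec.uni ν (Rec.treeLaw ν n K)).symm MeasurableEquiv.prodAssoc)
    have e : flat n (K + 1) m ⁻¹' univ.pi s = univ.pi fun i : Fin (n + 1) =>
        (fun c : ℝ × (X × Rec.TreeSpace X n K) =>
          ((rootW n (m 0) c.1, c.2.1), flat n K (Fin.tail m) c.2.2)) ⁻¹'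
            (s (top i) ×ˢ univ.pi fun v => s (shift i v)) := by
      ext ω
      simp only [mem_preimage, Set.mem_pi, mem_univ, forall_true_left]
      constructor
      · intro h i _
        refine ⟨?_, fun v _ => ?_⟩
        · have hv := h (top i)
          rw [flat_top] at hv
          exact hv
        · have hv := h (shift i v)
          rw [flat_shift] at hv
          exact hv
      · intro h v
        refine node_cases (P := fun v => flat n (K + 1) m ω v ∈ s v)
          (fun i => ?_) (fun i w => ?_) v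
        · rw [flat_top]; exact (h i (mem_univ _)).1
        · rw [flat_shift]; exact (h i (mem_univ _)).2 w (mem_univ _)
    rw [e]
    simp only [Rec.treeLaw, Rec.kids]
    refine (Measure.pi_pi _ _).trans ?_
    rw [prod_node]
    refine Finset.prod_congr rfl fun i _ => ?_
    refine (hψ.measure_preimage ((hs _).prod
      (MeasurableSet.univ_pi fun v => hs _)).nullMeasurableSet).trans ?_
    rw [Measure.prod_prod, Measure.pi_pi]
    rfl

/-- Weights and labels of the vertices as the image of the recursive tree. -/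
noncomputable def unfold2 (n K : ℕ) (m : Fin K → ℝ) (ω : Rec.TreeSpace X n K) :
    (Node K (n + 1) → ℝ) × (Node K (n + 1) → X) :=
  (fun v => (flat n K m ω v).1, fun v => (flat n K m ω v).2)

theorem mp_unfold2 (n K : ℕ) (m : Fin K → ℝ) :
    MeasurePreserving (unfold2 n K m) (Rec.treeLaw ν n K)
      ((casW m (n + 1)).prod (casX K (n + 1) ν)) :=
  (measurePreserving_arrowProdEquivProdArrow ℝ X (Node K (n + 1)) (fun v => pareto (m v.1))
    (fun _ => ν)).comp (mp_flat_pi n K m)

/-- Averages over weights and labels are averages over the recursive tree. -/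
theorem integral_cascade (n K : ℕ) (m : Fin K → ℝ)
    {G : (Node K (n + 1) → ℝ) → (Node K (n + 1) → X) → ℝ} (hG : Measurable (Function.uncurry G))
    (hi : Integrable (fun ω => G (unfold2 n K m ω).1 (unfold2 n K m ω).2) (Rec.treeLaw ν n K)) :
    Integrable (Function.uncurry G) ((casW m (n + 1)).prod (casX K (n + 1) ν)) ∧
      ∫ W, ∫ ξ, G W ξ ∂casX K (n + 1) ν ∂casW m (n + 1)
        = ∫ ω, G (unfold2 n K m ω).1 (unfold2 n K m ω).2 ∂(Rec.treeLaw ν n K) := by
  have : IsProbabilityMeasure (casX K (n + 1) ν) := by unfold casX; infer_instance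
  have hmp := mp_unfold2 (ν := ν) n K m
  have hI : Integrable (Function.uncurry G) ((casW m (n + 1)).prod (casX K (n + 1) ν)) :=
    (hmp.integrable_comp hG.aestronglyMeasurable).1 hi
  refine ⟨hI, ?_⟩
  refine (integral_integral hI).trans ?_
  rw [← hmp.map_eq]
  exact integral_map hmp.measurable.aemeasurable hG.aestronglyMeasurable

end

/-! ### Leaf sums -/

theorem sum_leaf {K n : ℕ} (f : Leaf (K + 1) n → ℝ) :
    ∑ α, f α = ∑ i, ∑ α, f (Fin.cons (α := fun _ => Fin n) i α) := by
  rw [← Fintype.sum_prod_type']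
  exact (Fintype.sum_equiv (Fin.consEquiv fun _ : Fin (K + 1) => Fin n) _ _ fun p => rfl).symm

section
variable {X : Type}

theorem wgt_cons (n : ℕ) {K : ℕ} (m : Fin (K + 1) → ℝ) (ω : Rec.TreeSpace X n (K + 1))
    (i : Fin (n + 1)) (α : Leaf K (n + 1)) :
    wgt m (unfold2 n (K + 1) m ω).1 (Fin.cons (α := fun _ => Fin (n + 1)) i α)
      = Rec.wgt n (m 0) (ω i).1 *
        wgt (Fin.tail m) (unfold2 n K (Fin.tail m) (ω i).2.2).1 α := by
  simp only [wgt, unfold2]
  rw [Fin.prod_univ_succ]
  simp only [node_cons_zero, node_cons_succ, flat_top, flat_shift, Fin.tail, rootW_scale]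

theorem path_cons (n : ℕ) {K : ℕ} (m : Fin (K + 1) → ℝ) (ω : Rec.TreeSpace X n (K + 1))
    (i : Fin (n + 1)) (α : Leaf K (n + 1)) :
    path (unfold2 n (K + 1) m ω).2 (Fin.cons (α := fun _ => Fin (n + 1)) i α)
      = Fin.cons (ω i).2.1 (path (unfold2 n K (Fin.tail m) (ω i).2.2).2 α) := by
  funext l
  refine Fin.cases ?_ (fun l' => ?_) l
  · simp only [path, unfold2, node_cons_zero, flat_top, Fin.cons_zero]
  · simp only [path, unfold2, node_cons_succ, flat_shift, Fin.cons_succ]

theorem leaf_sum (n : ℕ) : ∀ (K : ℕ) (m : Fin K → ℝ) (F : (Fin K → X) → ℝ)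
    (ω : Rec.TreeSpace X n K),
    ∑ α, wgt m (unfold2 n K m ω).1 α * F (path (unfold2 n K m ω).2 α) = Rec.treeZ n K m F ω
  | 0, m, F, ω => by
    rw [Fintype.sum_unique]
    simp only [wgt, Rec.treeZ, Finset.univ_eq_empty, Finset.prod_empty, one_mul]
    exact congrArg F (Subsingleton.elim _ _)
  | K + 1, m, F, ω => by
    rw [sum_leaf]
    simp only [Rec.treeZ, Rec.zsum]
    refine Finset.sum_congr rfl fun i _ => ?_
    rw [← leaf_sum n K (Fin.tail m) (fun z => F (Fin.cons (ω i).2.1 z)) (ω i).2.2, Finset.mul_sum]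
    refine Finset.sum_congr rfl fun α _ => ?_
    rw [wgt_cons, path_cons, mul_assoc]

theorem leaf_pairs (n : ℕ) : ∀ (K : ℕ) (m : Fin K → ℝ) (F : (Fin K → X) → ℝ)
    (ω : Rec.TreeSpace X n K) (l : Fin (K + 1)),
    ∑ α, ∑ β, (if com α β = l then
        (wgt m (unfold2 n K m ω).1 α * F (path (unfold2 n K m ω).2 α)) *
          (wgt m (unfold2 n K m ω).1 β * F (path (unfold2 n K m ω).2 β)) else 0)
      = Rec.treeP n K m F ω l
  | 0, m, F, ω, l => by
    rw [Fintype.sum_unique, Fintype.sum_unique, if_pos (Fin.ext (by omega))]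
    simp only [wgt, Rec.treeP, Finset.univ_eq_empty, Finset.prod_empty, one_mul, sq]
    congr 1 <;> exact congrArg F (Subsingleton.elim _ _)
  | K + 1, m, F, ω, l => by
    simp only [sum_leaf]
    have hz : ∀ i, ∑ α, wgt m (unfold2 n (K + 1) m ω).1 (Fin.cons (α := fun _ => Fin (n + 1)) i α) *
        F (path (unfold2 n (K + 1) m ω).2 (Fin.cons (α := fun _ => Fin (n + 1)) i α))
        = Rec.wgt n (m 0) (ω i).1 *
          Rec.treeZ n K (Fin.tail m) (fun z => F (Fin.cons (ω i).2.1 z)) (ω i).2.2 := fun i => by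
      rw [← leaf_sum n K (Fin.tail m) (fun z => F (Fin.cons (ω i).2.1 z)) (ω i).2.2, Finset.mul_sum]
      refine Finset.sum_congr rfl fun α _ => ?_
      rw [wgt_cons, path_cons, mul_assoc]
    refine Fin.cases ?_ (fun l' => ?_) l
    · simp only [Rec.treeP, Fin.cases_zero, Rec.offsum, Rec.osum, rpow_one, rpow_two]
      rw [sq, Finset.sum_mul_sum, ← Finset.sum_sub_distrib]
      refine Finset.sum_congr rfl fun i _ => ?_
      rw [Finset.sum_comm, ← Finset.sum_erase_add _ _ (Finset.mem_univ i),
        ← Finset.sum_erase_add (Finset.univ : Finset (Fin (n + 1))) _ (Finset.mem_univ i)]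
      rw [Finset.sum_eq_zero (s := (Finset.univ : Finset (Leaf K (n + 1)))) fun β _ =>
        Finset.sum_eq_zero fun α _ => if_neg (by rw [com_cons, if_pos rfl]; exact Fin.succ_ne_zero _)]
      rw [add_zero, ← mul_pow, ← sq, add_sub_cancel_right]
      refine Finset.sum_congr rfl fun j hj => ?_
      have hne : i ≠ j := (Finset.ne_of_mem_erase hj).symm
      rw [← hz i, ← hz j, Finset.sum_mul_sum]
      refine Finset.sum_congr rfl fun α _ => Finset.sum_congr rfl fun β _ => ?_
      rw [com_cons, if_neg hne, if_pos rfl]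
    · simp only [Rec.treeP, Fin.cases_succ, Rec.osum, rpow_two]
      refine Finset.sum_congr rfl fun i _ => ?_
      rw [Finset.sum_comm, Finset.sum_eq_single i (fun j _ hj => Finset.sum_eq_zero fun β _ =>
        Finset.sum_eq_zero fun α _ => if_neg (by
          rw [com_cons, if_neg (Ne.symm hj)]; exact (Fin.succ_ne_zero _).symm))
        (fun h => (h (Finset.mem_univ i)).elim)]
      rw [← leaf_pairs n K (Fin.tail m) (fun z => F (Fin.cons (ω i).2.1 z)) (ω i).2.2 l',
        Finset.mul_sum]
      refine Finset.sum_congr rfl fun α _ => ?_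
      rw [Finset.mul_sum]
      refine Finset.sum_congr rfl fun β _ => ?_
      simp only [com_cons, if_true, Fin.succ_inj, wgt_cons, path_cons]
      split_ifs <;> ring

end

end Vale.Agent.P157.Casc
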