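import Vale.Agent.P157.Casc.Defs

/-!
Grids of exponents and converging leaf factors for the cascade limits.
-/

open MeasureTheory ProbabilityTheory Filter Topology

namespace Vale.Agent.P157.Casc

/-- Gap of the grid at a level. -/
noncomputable def gap {K : ℕ} (m : Fin K → ℝ) (l : Fin (K + 1)) : ℝ :=
  (if h : l.val < K then m ⟨l.val, h⟩ else 1) -
    (if h : 0 < l.val then
      m ⟨l.val - 1, lt_of_lt_of_le (Nat.sub_lt h one_pos) (Nat.lt_succ_iff.1 l.isLt)⟩ else 0)

/-- Grid hypothesis. -/
structure Grid {K : ℕ} (m : Fin K → ℝ) : Prop where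
  mono : StrictMono m
  pos : ∀ l, 0 < m l
  lt_one : ∀ l, m l < 1

theorem Grid.tail {K : ℕ} {m : Fin (K + 1) → ℝ} (h : Grid m) : Grid fun l => m l.succ :=
  ⟨fun _ _ hij => h.mono (Fin.succ_lt_succ_iff.2 hij), fun l => h.pos _, fun l => h.lt_one _⟩

theorem grid_mlev (K : ℕ) : Grid (mlev K) := by
  refine ⟨fun i j h => ?_, fun l => by unfold mlev; positivity, fun l => ?_⟩
  · unfold mlev
    gcongr
    exact_mod_cast h
  · unfold mlev
    rw [div_lt_one (by positivity)]
    exact_mod_cast Nat.add_lt_add_right l.isLt 1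

theorem gap_mlev (K : ℕ) (l : Fin (K + 1)) : gap (mlev K) l = pi0 K := by
  have hK : (K : ℝ) + 1 ≠ 0 := by positivity
  unfold gap mlev pi0
  by_cases h : l.val < K <;> by_cases h' : 0 < l.val <;> simp only [h, h', dite_true, dite_false]
  · rw [Nat.cast_sub (show 1 ≤ l.val by omega)]
    push_cast
    field_simp
    ring
  · have : (l : ℕ) = 0 := by omega
    simp [this]
  · have : (l : ℕ) = K := by omega
    rw [Nat.cast_sub (show 1 ≤ l.val by omega), this]
    push_cast
    field_simp
    ring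
  · have : K = 0 := by omega
    subst this
    simp

/-- Converging leaf factors with a common envelope. -/
structure Conv {K : ℕ} {Z X : Type} [MeasurableSpace Z] [MeasurableSpace X] (ρ : Measure Z)
    (ν : Measure X) (Y : ℕ → Z → (Fin K → X) → ℝ) (Yl : Z → (Fin K → X) → ℝ)
    (E : Z → (Fin K → X) → ℝ) : Prop where
  meas : ∀ k, Measurable (Function.uncurry (Y k))
  measl : Measurable (Function.uncurry Yl)
  measE : Measurable (Function.uncurry E)
  bound : ∀ k z y, Real.exp (-(E z y)) ≤ Y k z y ∧ Y k z y ≤ Real.exp (E z y)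
  conv : ∀ z y, Tendsto (fun k => Y k z y) atTop (𝓝 (Yl z y))
  expint : ∀ t : ℝ, Integrable (fun p : Z × (Fin K → X) => Real.exp (t * E p.1 p.2))
    (ρ.prod (Measure.pi fun _ => ν))

end Vale.Agent.P157.Casc
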