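import Mathlib

/-!
Moments and expected logarithms from the Laplace transform of a positive random variable.
-/

open MeasureTheory Set Filter Topology Real

namespace Vale.Agent.P157.Casc.Rec

/-- The constant `∫ (1 - exp (-v^(-1/p)))` over `v > 0`. -/
noncomputable def jc (p : ℝ) : ℝ := ∫ v in Ioi (0 : ℝ), (1 - exp (-(v ^ (-p⁻¹))))

/-- A moment bound constant. -/
noncomputable def kc (m p : ℝ) : ℝ :=
  (∫ v in Ioi (0 : ℝ), min 1 (v ^ (-(m / p)))) / jc p

/-- The centring constant of the logarithm. -/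
noncomputable def kap (m : ℝ) : ℝ := ∫ t in Ioi (0 : ℝ), (exp (-t) - exp (-(t ^ m))) / t

theorem one_sub_exp_nonneg {a : ℝ} (ha : 0 ≤ a) : 0 ≤ 1 - exp (-a) := by
  have : exp (-a) ≤ 1 := exp_le_one_iff.2 (by linarith)
  linarith

theorem one_sub_exp_le (a : ℝ) : 1 - exp (-a) ≤ a := by
  have := add_one_le_exp (-a); linarith

theorem integrableOn_min {q : ℝ} (hq : 1 < q) {C : ℝ} (hC : 0 ≤ C) :
    IntegrableOn (fun v : ℝ => min 1 (C * v ^ (-q))) (Ioi 0) := by
  have hm : ∀ s : Set ℝ, AEStronglyMeasurable (fun v : ℝ => min 1 (C * v ^ (-q)))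
      (volume.restrict s) := fun s => (by fun_prop : Measurable _).aestronglyMeasurable
  rw [← Ioc_union_Ioi_eq_Ioi zero_le_one]
  refine IntegrableOn.union ?_ ?_
  · refine Integrable.mono' (integrable_const (1 : ℝ)) (hm _)
      ((ae_restrict_iff' measurableSet_Ioc).2 (.of_forall fun v hv => ?_))
    have hp : 0 ≤ C * v ^ (-q) := mul_nonneg hC (rpow_nonneg hv.1.le _)
    rw [Real.norm_of_nonneg (le_min zero_le_one hp)]
    exact min_le_left _ _
  · refine Integrable.mono' ((integrableOn_Ioi_rpow_of_lt (a := -q) (by linarith) one_pos).const_mul C) (hm _)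
      ((ae_restrict_iff' measurableSet_Ioi).2 (.of_forall fun v (hv : 1 < v) => ?_))
    have hp : 0 ≤ C * v ^ (-q) := mul_nonneg hC (rpow_nonneg (by linarith) _)
    rw [Real.norm_of_nonneg (le_min zero_le_one hp)]
    exact min_le_right _ _

theorem integrableOn_one_sub_exp {p : ℝ} (hp0 : 0 < p) (hp1 : p < 1) {a : ℝ} (ha : 0 ≤ a) :
    IntegrableOn (fun v : ℝ => 1 - exp (-(a * v ^ (-p⁻¹)))) (Ioi 0) := by
  refine (integrableOn_min ((one_lt_inv₀ hp0).2 hp1) ha).mono'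
    (by fun_prop : Measurable _).aestronglyMeasurable
    ((ae_restrict_iff' measurableSet_Ioi).2 (.of_forall fun v (hv : 0 < v) => ?_))
  have h := one_sub_exp_nonneg (mul_nonneg ha (rpow_nonneg hv.le (-p⁻¹)))
  rw [Real.norm_of_nonneg h]
  exact le_min (by linarith [exp_pos (-(a * v ^ (-p⁻¹)))]) (one_sub_exp_le _)

/-- Substituting `v = c y` turns `a * v ^ (-p⁻¹)` into `y ^ (-p⁻¹)` when `c = a ^ p`. -/
theorem scale_rpow {p a y : ℝ} (hp0 : 0 < p) (ha : 0 < a) (hy : 0 < y) :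
    a * (a ^ p * y) ^ (-p⁻¹) = y ^ (-p⁻¹) := by
  rw [mul_rpow (rpow_nonneg ha.le p) hy.le, ← rpow_mul ha.le, mul_neg, mul_inv_cancel₀ hp0.ne',
    rpow_neg_one, ← mul_assoc, mul_inv_cancel₀ ha.ne', one_mul]

theorem integral_scale (φ : ℝ → ℝ) {p a : ℝ} (hp0 : 0 < p) (ha : 0 < a) :
    ∫ v in Ioi (0 : ℝ), φ (a * v ^ (-p⁻¹)) = a ^ p * ∫ v in Ioi (0 : ℝ), φ (v ^ (-p⁻¹)) := by
  have hc : 0 < a ^ p := rpow_pos_of_pos ha p
  have h := integral_comp_mul_left_Ioi' (fun v => φ (a * v ^ (-p⁻¹))) 0 hc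
  rw [mul_zero, smul_eq_mul] at h
  rw [← h]
  congr 1
  refine setIntegral_congr_fun measurableSet_Ioi fun y (hy : 0 < y) => ?_
  simp only [scale_rpow hp0 ha hy]

theorem integral_one_sub_exp {p : ℝ} (hp0 : 0 < p) {a : ℝ} (ha : 0 ≤ a) :
    ∫ v in Ioi (0 : ℝ), (1 - exp (-(a * v ^ (-p⁻¹)))) = a ^ p * jc p := by
  rcases ha.lt_or_eq with ha | rfl
  · exact integral_scale (fun x => 1 - exp (-x)) hp0 ha
  · simp [zero_rpow hp0.ne']

theorem jc_pos {p : ℝ} (hp0 : 0 < p) (hp1 : p < 1) : 0 < jc p := by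
  have hint : IntegrableOn (fun v : ℝ => 1 - exp (-(v ^ (-p⁻¹)))) (Ioi 0) := by
    simpa using integrableOn_one_sub_exp hp0 hp1 zero_le_one
  have h1 : (∫ v in Ioc (0 : ℝ) 1, (1 - exp (-(1 : ℝ)))) ≤ ∫ v in Ioc (0 : ℝ) 1,
      (1 - exp (-(v ^ (-p⁻¹)))) := by
    refine setIntegral_mono_on (integrableOn_const (by simp)) (hint.mono_set Ioc_subset_Ioi_self)
      measurableSet_Ioc fun v hv => ?_
    have : (1 : ℝ) ≤ v ^ (-p⁻¹) :=
      one_le_rpow_of_pos_of_le_one_of_nonpos hv.1 hv.2 (neg_nonpos.2 (inv_nonneg.2 hp0.le))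
    gcongr
  have h2 : (∫ v in Ioc (0 : ℝ) 1, (1 - exp (-(v ^ (-p⁻¹))))) ≤ jc p := by
    refine setIntegral_mono_set hint ((ae_restrict_iff' measurableSet_Ioi).2
      (.of_forall fun v (hv : 0 < v) => one_sub_exp_nonneg (rpow_nonneg hv.le _))) ?_
    exact Ioc_subset_Ioi_self.eventuallyLE
  have h3 : 0 < (1 - exp (-(1 : ℝ))) := by
    have : exp (-(1 : ℝ)) < 1 := exp_lt_one_iff.2 (by norm_num)
    linarith
  simp at h1
  linarith

section
variable {Ω : Type*} [MeasurableSpace Ω] {μ : Measure Ω} [IsProbabilityMeasure μ] {Z : Ω → ℝ}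

/-- Laplace transform. -/
noncomputable def lap (μ : Measure Ω) (Z : Ω → ℝ) (t : ℝ) : ℝ := ∫ ω, exp (-(t * Z ω)) ∂μ

theorem integrable_lap (hZ : Measurable Z) (h0 : ∀ ω, 0 < Z ω) {t : ℝ} (ht : 0 ≤ t) :
    Integrable (fun ω => exp (-(t * Z ω))) μ :=
  Integrable.of_bound (by fun_prop : Measurable _).aestronglyMeasurable 1 (.of_forall fun ω => by
    rw [Real.norm_eq_abs, abs_exp, exp_le_one_iff]
    nlinarith [h0 ω])

theorem measurable_lap (hZ : Measurable Z) : Measurable (lap μ Z) :=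
  (StronglyMeasurable.integral_prod_right'
    (f := fun x : ℝ × Ω => exp (-(x.1 * Z x.2))) (by fun_prop : Measurable _).stronglyMeasurable).measurable

theorem lap_mem (hZ : Measurable Z) (h0 : ∀ ω, 0 < Z ω) {t : ℝ} (ht : 0 ≤ t) :
    lap μ Z t ∈ Icc (0 : ℝ) 1 := by
  refine ⟨integral_nonneg fun ω => (exp_pos _).le, ?_⟩
  calc lap μ Z t ≤ ∫ _ω, (1 : ℝ) ∂μ :=
        integral_mono (integrable_lap hZ h0 ht) (integrable_const _) fun ω =>
          exp_le_one_iff.2 (by nlinarith [h0 ω])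
    _ = 1 := by simp

theorem lintegral_rpow_eq (hZ : Measurable Z) (h0 : ∀ ω, 0 < Z ω) {p : ℝ} (hp0 : 0 < p)
    (hp1 : p < 1) :
    (∫⁻ ω, ENNReal.ofReal (Z ω ^ p) ∂μ) * ENNReal.ofReal (jc p)
      = ∫⁻ v in Ioi (0 : ℝ), ENNReal.ofReal (1 - lap μ Z (v ^ (-p⁻¹))) := by
  rw [← lintegral_mul_const _ (by fun_prop)]
  have h1 : ∀ ω, ENNReal.ofReal (Z ω ^ p) * ENNReal.ofReal (jc p)
      = ∫⁻ v in Ioi (0 : ℝ), ENNReal.ofReal (1 - exp (-(Z ω * v ^ (-p⁻¹)))) := fun ω => by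
    rw [← ENNReal.ofReal_mul (rpow_nonneg (h0 ω).le p), ← integral_one_sub_exp hp0 (h0 ω).le,
      ofReal_integral_eq_lintegral_ofReal (integrableOn_one_sub_exp hp0 hp1 (h0 ω).le)
        ((ae_restrict_iff' measurableSet_Ioi).2 (.of_forall fun v (hv : 0 < v) =>
          one_sub_exp_nonneg (mul_nonneg (h0 ω).le (rpow_nonneg hv.le _))))]
  simp_rw [h1]
  rw [lintegral_lintegral_swap (by fun_prop)]
  refine setLIntegral_congr_fun measurableSet_Ioi fun v (hv : 0 < v) => ?_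
  have ht : 0 ≤ v ^ (-p⁻¹) := rpow_nonneg hv.le _
  have hi : Integrable (fun ω => 1 - exp (-(v ^ (-p⁻¹) * Z ω))) μ :=
    (integrable_const 1).sub (integrable_lap hZ h0 ht)
  rw [lap, show (1 : ℝ) - ∫ ω, exp (-(v ^ (-p⁻¹) * Z ω)) ∂μ
      = ∫ ω, (1 - exp (-(v ^ (-p⁻¹) * Z ω))) ∂μ by
    rw [integral_sub (integrable_const 1) (integrable_lap hZ h0 ht)]; simp,
    ofReal_integral_eq_lintegral_ofReal hi
      (.of_forall fun ω => one_sub_exp_nonneg (mul_nonneg ht (h0 ω).le))]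
  simp only [mul_comm (Z _)]

theorem moment_bound (hZ : Measurable Z) (h0 : ∀ ω, 0 < Z ω) {m p D : ℝ} (hp0 : 0 < p)
    (hpm : p < m) (hm1 : m ≤ 1) (hD : 0 < D) (hb : ∀ t : ℝ, 0 < t → 1 - lap μ Z t ≤ D * t ^ m) :
    Integrable (fun ω => Z ω ^ p) μ ∧ ∫ ω, Z ω ^ p ∂μ ≤ D ^ (p / m) * kc m p := by
  have hp1 : p < 1 := hpm.trans_le hm1
  have hm0 : 0 < m := hp0.trans hpm
  have hq : 1 < m / p := (one_lt_div hp0).2 hpm
  have hJ := jc_pos hp0 hp1
  set B := ∫ v in Ioi (0 : ℝ), min 1 (D * v ^ (-(m / p))) with hB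
  have hBv : B = D ^ (p / m) * (kc m p * jc p) := by
    rw [kc, div_mul_cancel₀ _ hJ.ne', hB]
    have := integral_scale (fun x => min 1 x) (div_pos hp0 hm0) hD
    simpa only [inv_div] using this
  have hB0 : 0 ≤ B := setIntegral_nonneg measurableSet_Ioi fun v (hv : 0 < v) =>
    le_min zero_le_one (mul_nonneg hD.le (rpow_nonneg hv.le _))
  have hle : (∫⁻ ω, ENNReal.ofReal (Z ω ^ p) ∂μ) * ENNReal.ofReal (jc p) ≤ ENNReal.ofReal B := by
    rw [lintegral_rpow_eq hZ h0 hp0 hp1, hB,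
      ofReal_integral_eq_lintegral_ofReal (integrableOn_min hq hD.le)
        ((ae_restrict_iff' measurableSet_Ioi).2 (.of_forall fun v (hv : 0 < v) =>
          le_min zero_le_one (mul_nonneg hD.le (rpow_nonneg hv.le _))))]
    refine setLIntegral_mono' measurableSet_Ioi fun v (hv : 0 < v) => ENNReal.ofReal_le_ofReal ?_
    have ht : 0 < v ^ (-p⁻¹) := rpow_pos_of_pos hv _
    refine le_min (by linarith [(lap_mem (μ := μ) hZ h0 ht.le).1]) ((hb _ ht).trans_eq ?_)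
    rw [← rpow_mul hv.le]
    ring_nf
  have hle' : (∫⁻ ω, ENNReal.ofReal (Z ω ^ p) ∂μ) ≤ ENNReal.ofReal (B / jc p) := by
    rw [ENNReal.ofReal_div_of_pos hJ]
    exact (ENNReal.le_div_iff_mul_le (.inl (by simp [hJ])) (.inl ENNReal.ofReal_ne_top)).2 hle
  have hnn : 0 ≤ᵐ[μ] fun ω => Z ω ^ p := .of_forall fun ω => rpow_nonneg (h0 ω).le _
  have hi : Integrable (fun ω => Z ω ^ p) μ :=
    (lintegral_ofReal_ne_top_iff_integrable (by fun_prop : Measurable _).aestronglyMeasurable hnn).1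
      (ne_top_of_le_ne_top ENNReal.ofReal_ne_top hle')
  refine ⟨hi, ?_⟩
  rw [show D ^ (p / m) * kc m p = B / jc p by rw [hBv]; field_simp]
  rw [← ofReal_integral_eq_lintegral_ofReal hi hnn] at hle'
  exact (ENNReal.ofReal_le_ofReal_iff (div_nonneg hB0 hJ.le)).1 hle'

theorem moment_eq (hZ : Measurable Z) (h0 : ∀ ω, 0 < Z ω) {p : ℝ} (hp0 : 0 < p) (hp1 : p < 1) :
    (∫ ω, Z ω ^ p ∂μ) * jc p = ∫ v in Ioi (0 : ℝ), (1 - lap μ Z (v ^ (-p⁻¹))) := by
  have hJ := jc_pos hp0 hp1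
  have h := congrArg ENNReal.toReal (lintegral_rpow_eq (μ := μ) hZ h0 hp0 hp1)
  rw [ENNReal.toReal_mul, ENNReal.toReal_ofReal hJ.le] at h
  rw [integral_eq_lintegral_of_nonneg_ae (.of_forall fun ω => rpow_nonneg (h0 ω).le _)
    (by fun_prop : Measurable _).aestronglyMeasurable]
  rw [integral_eq_lintegral_of_nonneg_ae
    ((ae_restrict_iff' measurableSet_Ioi).2 (.of_forall fun v (hv : 0 < v) => by
      show (0 : ℝ) ≤ _
      linarith [(lap_mem (μ := μ) hZ h0 (rpow_nonneg hv.le (-p⁻¹))).2]))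
    (f := fun v : ℝ => 1 - lap μ Z (v ^ (-p⁻¹)))
    ((measurable_const.sub ((measurable_lap hZ).comp
      (by fun_prop : Measurable fun v : ℝ => v ^ (-p⁻¹)))).aestronglyMeasurable)]
  exact h

theorem integral_exp_neg_mul {a : ℝ} (ha : 0 < a) :
    ∫ t in Ioi (0 : ℝ), exp (-(t * a)) = a⁻¹ := by
  have h := integral_exp_mul_Ioi (neg_lt_zero.2 ha) 0
  simp only [mul_zero, exp_zero, neg_div_neg_eq, neg_mul] at h
  rw [one_div] at h
  simpa [mul_comm] using h

theorem integral_gauss {a : ℝ} : ∫ v in Ioi (0 : ℝ), exp (-(v ^ 2 * a)) = √(π / a) / 2 := by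
  rw [← integral_gaussian_Ioi a]
  congr 1; ext v; ring_nf

theorem lap_le_inv (hZ : Measurable Z) (h0 : ∀ ω, 0 < Z ω)
    (hi : Integrable (fun ω => (Z ω)⁻¹) μ) {t : ℝ} (ht : 0 < t) :
    lap μ Z t ≤ t⁻¹ * ∫ ω, (Z ω)⁻¹ ∂μ := by
  rw [lap, ← integral_const_mul]
  refine integral_mono (integrable_lap hZ h0 ht.le) (hi.const_mul _) fun ω => ?_
  have hy : 0 < t * Z ω := mul_pos ht (h0 ω)
  have h1 : exp (-(t * Z ω)) ≤ (t * Z ω)⁻¹ := by
    rw [exp_neg]
    exact inv_anti₀ hy (by linarith [add_one_le_exp (t * Z ω)])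
  exact h1.trans_eq (mul_inv _ _)

theorem rsqrt_eq (hZ : Measurable Z) (h0 : ∀ ω, 0 < Z ω)
    (hi : Integrable (fun ω => (√(Z ω))⁻¹) μ) :
    (∫ ω, (√(Z ω))⁻¹ ∂μ) * (√π / 2) = ∫ v in Ioi (0 : ℝ), lap μ Z (v ^ 2) := by
  rw [← integral_mul_const]
  have he : ∀ ω, ∫ v in Ioi (0 : ℝ), exp (-(v ^ 2 * Z ω)) = (√(Z ω))⁻¹ * (√π / 2) := fun ω => by
    rw [integral_gauss, sqrt_div pi_pos.le]; ring
  have hP : Integrable (fun x : Ω × ℝ => exp (-(x.2 ^ 2 * Z x.1)))
      (μ.prod (volume.restrict (Ioi 0))) := by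
    rw [integrable_prod_iff (by fun_prop : Measurable _).aestronglyMeasurable]
    refine ⟨.of_forall fun ω => ?_, ?_⟩
    · refine ((integrable_exp_neg_mul_sq (h0 ω)).integrableOn (s := Ioi 0)).congr ?_
      exact .of_forall fun v => by ring_nf
    · simp_rw [Real.norm_eq_abs, abs_exp, he]
      exact hi.mul_const _
  simp_rw [← he, lap]
  rw [integral_integral_swap hP]

/-- The integrand of the logarithm identity is integrable. -/
theorem integrableOn_frullani {x : ℝ} (hx : 0 < x) :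
    IntegrableOn (fun t : ℝ => (exp (-t) - exp (-(t * x))) / t) (Ioi 0) := by
  have hc : 0 < min 1 x := lt_min one_pos hx
  refine (((integrableOn_exp_mul_Ioi (neg_lt_zero.2 hc) 0).const_mul |x - 1|)).mono'
    (by fun_prop : Measurable _).aestronglyMeasurable
    ((ae_restrict_iff' measurableSet_Ioi).2 (.of_forall fun t (ht : 0 < t) => ?_))
  rw [Real.norm_eq_abs, abs_div, abs_of_pos ht, div_le_iff₀ ht]
  have key : ∀ a b : ℝ, a ≤ b → exp (-a) - exp (-b) ≤ (b - a) * exp (-a) := fun a b hab => by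
    have h1 := one_sub_exp_le (b - a)
    have h2 : exp (-b) = exp (-a) * exp (-(b - a)) := by rw [← exp_add]; ring_nf
    nlinarith [exp_pos (-a)]
  rcases le_total 1 x with h | h
  · have hm : exp (-(t * x)) ≤ exp (-t) := exp_le_exp.2 (by nlinarith)
    rw [min_eq_left h, abs_of_nonneg (sub_nonneg.2 hm), abs_of_nonneg (sub_nonneg.2 h)]
    calc exp (-t) - exp (-(t * x)) ≤ (t * x - t) * exp (-t) := key _ _ (by nlinarith)
      _ = (x - 1) * exp (-1 * t) * t := by ring_nf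
  · have hm : exp (-t) ≤ exp (-(t * x)) := exp_le_exp.2 (by nlinarith)
    rw [min_eq_right h, abs_of_nonpos (sub_nonpos.2 hm), abs_of_nonpos (sub_nonpos.2 h)]
    calc -(exp (-t) - exp (-(t * x))) = exp (-(t * x)) - exp (-t) := by ring
      _ ≤ (t - t * x) * exp (-(t * x)) := key _ _ (by nlinarith)
      _ = -(x - 1) * exp (-x * t) * t := by ring_nf

theorem integral_frullani {x : ℝ} (hx : 0 < x) :
    ∫ t in Ioi (0 : ℝ), (exp (-t) - exp (-(t * x))) / t = log x := by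
  have hc : Continuous fun y : ℝ => exp (-y) := by fun_prop
  have h := Frullani.integral_Ioi_eq (f := fun y : ℝ => exp (-y)) (L := 1) (R := 0)
    (hc.locallyIntegrable.locallyIntegrableOn _) one_pos hx
    ((hc.tendsto' 0 1 (by simp)).mono_left nhdsWithin_le_nhds)
    (tendsto_exp_neg_atTop_nhds_zero) ?_
  · simpa [smul_eq_mul, mul_comm x, div_eq_inv_mul] using h
  · simpa [smul_eq_mul, mul_comm x, div_eq_inv_mul] using integrableOn_frullani hx

theorem abs_log_le {x p : ℝ} (hx : 0 < x) (hp : 0 < p) : |log x| ≤ x ^ p / p + x⁻¹ := by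
  refine abs_le.2 ⟨?_, (log_le_rpow_div hx.le hp).trans (by linarith [inv_pos.2 hx])⟩
  have h1 := one_sub_inv_le_log_of_pos hx
  have : 0 ≤ x ^ p / p := by positivity
  linarith

theorem log_eq (hZ : Measurable Z) (h0 : ∀ ω, 0 < Z ω) (hi : Integrable (fun ω => log (Z ω)) μ) :
    ∫ ω, log (Z ω) ∂μ = ∫ t in Ioi (0 : ℝ), (exp (-t) - lap μ Z t) / t := by
  have hP : Integrable (fun x : Ω × ℝ => (exp (-x.2) - exp (-(x.2 * Z x.1))) / x.2)
      (μ.prod (volume.restrict (Ioi 0))) := by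
    rw [integrable_prod_iff (by fun_prop : Measurable _).aestronglyMeasurable]
    refine ⟨.of_forall fun ω => integrableOn_frullani (h0 ω), hi.abs.congr (.of_forall fun ω => ?_)⟩
    show |log (Z ω)| = _
    rw [← integral_frullani (h0 ω)]
    rcases le_total 1 (Z ω) with h | h
    · have hnn : ∀ t ∈ Ioi (0 : ℝ), 0 ≤ (exp (-t) - exp (-(t * Z ω))) / t := fun t (ht : 0 < t) =>
        div_nonneg (sub_nonneg.2 (exp_le_exp.2 (by nlinarith))) ht.le
      rw [abs_of_nonneg (setIntegral_nonneg measurableSet_Ioi hnn)]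
      exact setIntegral_congr_fun measurableSet_Ioi fun t ht => (Real.norm_of_nonneg (hnn t ht)).symm
    · have hnp : ∀ t ∈ Ioi (0 : ℝ), (exp (-t) - exp (-(t * Z ω))) / t ≤ 0 := fun t (ht : 0 < t) =>
        div_nonpos_of_nonpos_of_nonneg (sub_nonpos.2 (exp_le_exp.2 (by nlinarith))) ht.le
      rw [abs_of_nonpos (setIntegral_nonpos measurableSet_Ioi hnp), ← integral_neg]
      exact setIntegral_congr_fun measurableSet_Ioi fun t ht => (Real.norm_of_nonpos (hnp t ht)).symm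
  simp_rw [← integral_frullani (h0 _)]
  rw [integral_integral_swap hP]
  refine setIntegral_congr_fun measurableSet_Ioi fun t (ht : 0 < t) => ?_
  simp only [integral_div]
  rw [integral_sub (integrable_const _) (integrable_lap hZ h0 ht.le)]
  simp [lap]

end

section
variable {Ω : ℕ → Type*} [∀ n, MeasurableSpace (Ω n)] {μ : ∀ n, Measure (Ω n)}
  [∀ n, IsProbabilityMeasure (μ n)] {Z : ∀ n, Ω n → ℝ} {m D A : ℝ}

theorem integral_limit_rpow {q : ℝ} (hq0 : 0 < q) (hA : 0 ≤ A) :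
    ∫ v in Ioi (0 : ℝ), (1 - exp (-(A * v ^ (-q⁻¹)))) = A ^ q * jc q :=
  integral_one_sub_exp hq0 hA

theorem tendsto_moment (hZ : ∀ n, Measurable (Z n)) (h0 : ∀ n ω, 0 < Z n ω) {p : ℝ} (hp0 : 0 < p)
    (hpm : p < m) (hm1 : m ≤ 1) (hA : 0 ≤ A) (hD : 0 < D)
    (hb : ∀ n, ∀ t : ℝ, 0 < t → 1 - lap (μ n) (Z n) t ≤ D * t ^ m)
    (hl : ∀ t : ℝ, 0 < t → Tendsto (fun n => lap (μ n) (Z n) t) atTop (𝓝 (exp (-(A * t ^ m))))) :
    Tendsto (fun n => ∫ ω, Z n ω ^ p ∂μ n) atTop (𝓝 (A ^ (p / m) * (jc (p / m) / jc p))) := by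
  have hp1 : p < 1 := hpm.trans_le hm1
  have hm0 : 0 < m := hp0.trans hpm
  have hJ := jc_pos hp0 hp1
  have he : ∀ v : ℝ, 0 < v → (v ^ (-p⁻¹)) ^ m = v ^ (-(p / m)⁻¹) := fun v hv => by
    rw [← rpow_mul hv.le, inv_div]; ring_nf
  have hlim : Tendsto (fun n => ∫ v in Ioi (0 : ℝ), (1 - lap (μ n) (Z n) (v ^ (-p⁻¹)))) atTop
      (𝓝 (A ^ (p / m) * jc (p / m))) := by
    rw [← integral_limit_rpow (div_pos hp0 hm0) hA]
    refine tendsto_integral_of_dominated_convergence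
      (fun v => min 1 (D * v ^ (-(m / p)))) (fun n => ?_)
      (integrableOn_min ((one_lt_div hp0).2 hpm) hD.le) (fun n => ?_) ?_
    · exact (measurable_const.sub ((measurable_lap (hZ n)).comp
        (by fun_prop : Measurable fun v : ℝ => v ^ (-p⁻¹)))).aestronglyMeasurable
    · refine (ae_restrict_iff' measurableSet_Ioi).2 (.of_forall fun v (hv : 0 < v) => ?_)
      have ht : 0 < v ^ (-p⁻¹) := rpow_pos_of_pos hv _
      have hL := lap_mem (μ := μ n) (hZ n) (h0 n) ht.le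
      rw [Real.norm_of_nonneg (sub_nonneg.2 hL.2)]
      refine le_min (by linarith [hL.1]) ((hb n _ ht).trans_eq ?_)
      rw [← rpow_mul hv.le]; ring_nf
    · refine (ae_restrict_iff' measurableSet_Ioi).2 (.of_forall fun v (hv : 0 < v) => ?_)
      rw [← he v hv]
      exact (hl _ (rpow_pos_of_pos hv _)).const_sub 1
  have := hlim.div_const (jc p)
  rw [mul_div_assoc] at this
  refine this.congr fun n => ?_
  rw [← moment_eq (hZ n) (h0 n) hp0 hp1, mul_div_cancel_right₀ _ hJ.ne']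

theorem tendsto_rsqrt (hZ : ∀ n, Measurable (Z n)) (h0 : ∀ n ω, 0 < Z n ω) {C : ℝ}
    (hi : ∀ n, Integrable (fun ω => (Z n ω)⁻¹) (μ n)) (hC : ∀ n, ∫ ω, (Z n ω)⁻¹ ∂μ n ≤ C)
    (hl : ∀ t : ℝ, 0 < t → Tendsto (fun n => lap (μ n) (Z n) t) atTop (𝓝 (exp (-(A * t ^ m))))) :
    Tendsto (fun n => ∫ ω, (√(Z n ω))⁻¹ ∂μ n) atTop
      (𝓝 ((∫ v in Ioi (0 : ℝ), exp (-(A * (v ^ 2) ^ m))) / (√π / 2))) := by
  have hC0 : 0 ≤ C := (integral_nonneg fun ω => (inv_pos.2 (h0 0 ω)).le).trans (hC 0)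
  have hir : ∀ n, Integrable (fun ω => (√(Z n ω))⁻¹) (μ n) := fun n => by
    refine ((integrable_const (1 : ℝ)).add (hi n)).mono'
      (by fun_prop : Measurable _).aestronglyMeasurable (.of_forall fun ω => ?_)
    have hs := Real.sqrt_pos.2 (h0 n ω)
    rw [Real.norm_of_nonneg (inv_pos.2 hs).le, Pi.add_apply]
    nlinarith [sq_nonneg ((√(Z n ω))⁻¹ - 1), inv_pos.2 hs,
      show ((√(Z n ω))⁻¹) ^ 2 = (Z n ω)⁻¹ by rw [inv_pow, sq_sqrt (h0 n ω).le]]
  have hlim : Tendsto (fun n => ∫ v in Ioi (0 : ℝ), lap (μ n) (Z n) (v ^ 2)) atTop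
      (𝓝 (∫ v in Ioi (0 : ℝ), exp (-(A * (v ^ 2) ^ m)))) := by
    refine tendsto_integral_of_dominated_convergence (fun v => min 1 (C * v ^ (-(2 : ℝ))))
      (fun n => ((measurable_lap (hZ n)).comp
        (by fun_prop : Measurable fun v : ℝ => v ^ 2)).aestronglyMeasurable)
      (integrableOn_min one_lt_two hC0) (fun n => ?_) ?_
    · refine (ae_restrict_iff' measurableSet_Ioi).2 (.of_forall fun v (hv : 0 < v) => ?_)
      have ht : 0 < v ^ 2 := by positivity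
      have hL := lap_mem (μ := μ n) (hZ n) (h0 n) ht.le
      rw [Real.norm_of_nonneg hL.1]
      refine le_min hL.2 ((lap_le_inv (hZ n) (h0 n) (hi n) ht).trans ?_)
      rw [show v ^ (-(2 : ℝ)) = (v ^ 2)⁻¹ by rw [rpow_neg hv.le]; norm_cast, mul_comm]
      exact mul_le_mul_of_nonneg_right (hC n) (inv_pos.2 ht).le
    · exact (ae_restrict_iff' measurableSet_Ioi).2
        (.of_forall fun v (hv : 0 < v) => hl _ (by positivity))
  refine (hlim.div_const (√π / 2)).congr fun n => ?_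
  rw [← rsqrt_eq (hZ n) (h0 n) (hir n), mul_div_cancel_right₀ _ (by positivity)]

theorem frullani_rpow (hm0 : 0 < m) (hA : 0 < A) :
    ∫ t in Ioi (0 : ℝ), (exp (-(t ^ m)) - exp (-(A * t ^ m))) / t = log A / m := by
  have h := integral_comp_rpow_Ioi_of_pos (g := fun u : ℝ => (exp (-u) - exp (-(u * A))) / u) hm0
  rw [integral_frullani hA] at h
  rw [← h, ← integral_div]
  refine setIntegral_congr_fun measurableSet_Ioi fun t (ht : 0 < t) => ?_
  simp only [smul_eq_mul, rpow_sub_one ht.ne']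
  have := (rpow_pos_of_pos ht m).ne'
  field_simp

theorem tendsto_log (hZ : ∀ n, Measurable (Z n)) (h0 : ∀ n ω, 0 < Z n ω) (hm0 : 0 < m)
    (hm1 : m ≤ 1) (hA : 0 < A) (hD : 0 < D) {C : ℝ}
    (hb : ∀ n, ∀ t : ℝ, 0 < t → 1 - lap (μ n) (Z n) t ≤ D * t ^ m)
    (hi : ∀ n, Integrable (fun ω => (Z n ω)⁻¹) (μ n)) (hC : ∀ n, ∫ ω, (Z n ω)⁻¹ ∂μ n ≤ C)
    (hl : ∀ t : ℝ, 0 < t → Tendsto (fun n => lap (μ n) (Z n) t) atTop (𝓝 (exp (-(A * t ^ m))))) :
    Tendsto (fun n => ∫ ω, log (Z n ω) ∂μ n) atTop (𝓝 (kap m + log A / m)) := by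
  have hC0 : 0 ≤ C := (integral_nonneg fun ω => (inv_pos.2 (h0 0 ω)).le).trans (hC 0)
  have hlog : ∀ n, Integrable (fun ω => log (Z n ω)) (μ n) := fun n => by
    have := (moment_bound (hZ n) (h0 n) (half_pos hm0) (half_lt_self hm0) hm1 hD (hb n)).1
    refine ((this.div_const (m / 2)).add (hi n)).mono'
      (by fun_prop : Measurable _).aestronglyMeasurable (.of_forall fun ω => ?_)
    exact abs_log_le (h0 n ω) (half_pos hm0)
  -- domination
  set g : ℝ → ℝ := fun t => if t ≤ 1 then 1 + D * t ^ (m - 1) else exp (-t) + C * t ^ (-(2 : ℝ))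
  have hgint : IntegrableOn g (Ioi 0) := by
    rw [← Ioc_union_Ioi_eq_Ioi zero_le_one]
    refine IntegrableOn.union ?_ ?_
    · refine ((integrableOn_const (C := (1 : ℝ)) (by simp)).add
        (((intervalIntegral.intervalIntegrable_rpow' (a := 0) (b := 1)
          (show -1 < m - 1 by linarith)).1).const_mul D)).congr
        ((ae_restrict_iff' measurableSet_Ioc).2 (.of_forall fun t ht => ?_))
      simp [g, ht.2]
    · refine ((exp_neg_integrableOn_Ioi 1 one_pos).add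
        ((integrableOn_Ioi_rpow_of_lt (a := -(2 : ℝ)) (by norm_num) one_pos).const_mul C)).congr
        ((ae_restrict_iff' measurableSet_Ioi).2 (.of_forall fun t (ht : 1 < t) => ?_))
      simp [g, not_le.2 ht]
  have hbd : ∀ n, ∀ t : ℝ, 0 < t → |(exp (-t) - lap (μ n) (Z n) t) / t| ≤ g t := fun n t ht => by
    have hL := lap_mem (μ := μ n) (hZ n) (h0 n) ht.le
    rw [abs_div, abs_of_pos ht, div_le_iff₀ ht]
    rcases le_or_gt t 1 with h | h
    · simp only [g, if_pos h, add_mul, one_mul, mul_assoc]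
      rw [show t ^ (m - 1) * t = t ^ m by rw [rpow_sub_one ht.ne', div_mul_cancel₀ _ ht.ne']]
      have h1 := hb n t ht
      have h2 := one_sub_exp_le t
      have h3 : exp (-t) ≤ 1 := exp_le_one_iff.2 (by linarith)
      have h4 : 0 ≤ D * t ^ m := mul_nonneg hD.le (rpow_nonneg ht.le m)
      rw [abs_le]; constructor <;> linarith [hL.2]
    · simp only [g, if_neg (not_le.2 h), add_mul, mul_assoc]
      rw [show t ^ (-(2 : ℝ)) * t = t⁻¹ by
        rw [← rpow_add_one ht.ne', ← rpow_neg_one]; norm_num]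
      have h1 := (lap_le_inv (hZ n) (h0 n) (hi n) ht).trans
        (mul_le_mul_of_nonneg_left (hC n) (inv_pos.2 ht).le)
      have h2 : exp (-t) ≤ exp (-t) * t := le_mul_of_one_le_right (exp_pos _).le h.le
      have h3 : 0 ≤ C * t⁻¹ := by positivity
      rw [abs_le]; constructor <;> linarith [hL.1, exp_pos (-t)]
  have hpt : ∀ t : ℝ, 0 < t → Tendsto (fun n => (exp (-t) - lap (μ n) (Z n) t) / t) atTop
      (𝓝 ((exp (-t) - exp (-(A * t ^ m))) / t)) := fun t ht =>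
    ((hl t ht).const_sub _).div_const t
  have hlim : Tendsto (fun n => ∫ t in Ioi (0 : ℝ), (exp (-t) - lap (μ n) (Z n) t) / t) atTop
      (𝓝 (∫ t in Ioi (0 : ℝ), (exp (-t) - exp (-(A * t ^ m))) / t)) :=
    tendsto_integral_of_dominated_convergence g
      (fun n => (((by fun_prop : Measurable fun t : ℝ => exp (-t)).sub
        (measurable_lap (hZ n))).div measurable_id).aestronglyMeasurable) hgint
      (fun n => (ae_restrict_iff' measurableSet_Ioi).2 (.of_forall fun t ht => hbd n t ht))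
      ((ae_restrict_iff' measurableSet_Ioi).2 (.of_forall fun t ht => hpt t ht))
  have hint1 : IntegrableOn (fun t : ℝ => (exp (-(t ^ m)) - exp (-(A * t ^ m))) / t) (Ioi 0) := by
    refine Classical.byContradiction fun h => ?_
    have h0' := frullani_rpow hm0 hA
    rw [integral_undef h] at h0'
    rcases eq_or_ne A 1 with rfl | hA1
    · exact h (by simp)
    · exact div_ne_zero (log_ne_zero_of_pos_of_ne_one hA hA1) hm0.ne' h0'.symm
  have hintA : IntegrableOn (fun t : ℝ => (exp (-t) - exp (-(A * t ^ m))) / t) (Ioi 0) :=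
    hgint.mono' (by fun_prop : Measurable _).aestronglyMeasurable
      ((ae_restrict_iff' measurableSet_Ioi).2 (.of_forall fun t ht =>
        le_of_tendsto' (hpt t ht).abs fun n => hbd n t ht))
  have hval : ∫ t in Ioi (0 : ℝ), (exp (-t) - exp (-(A * t ^ m))) / t = kap m + log A / m := by
    have hk : IntegrableOn (fun t : ℝ => (exp (-t) - exp (-(t ^ m))) / t) (Ioi 0) := by
      refine (hintA.sub hint1).congr (.of_forall fun t => ?_)
      simp only [Pi.sub_apply]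
      ring
    rw [kap, ← frullani_rpow hm0 hA, ← integral_add hk hint1]
    congr 1; ext t; ring
  rw [← hval]
  exact hlim.congr fun n => (log_eq (hZ n) (h0 n) (hlog n)).symm

theorem sq_log_le {x p : ℝ} (hx : 0 < x) (hp : 0 < p) :
    log x ^ 2 ≤ 4 / p ^ 2 * x ^ p + 16 * (√x)⁻¹ := by
  rcases le_total 1 x with h | h
  · have h1 := log_le_rpow_div hx.le (half_pos hp)
    have h2 : log x ^ 2 ≤ (x ^ (p / 2) / (p / 2)) ^ 2 := pow_le_pow_left₀ (log_nonneg h) h1 2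
    have h3 : (x ^ (p / 2)) ^ 2 = x ^ p := by
      rw [← rpow_natCast, ← rpow_mul hx.le]; norm_num
    rw [div_pow, h3] at h2
    have : 0 ≤ 16 * (√x)⁻¹ := by positivity
    calc log x ^ 2 ≤ x ^ p / (p / 2) ^ 2 := h2
      _ = 4 / p ^ 2 * x ^ p := by field_simp; norm_num
      _ ≤ _ := le_add_of_nonneg_right this
  · have h1 := log_le_rpow_div (inv_pos.2 hx).le (by norm_num : (0 : ℝ) < 1 / 4)
    rw [log_inv] at h1
    have h2 : (-log x) ^ 2 ≤ ((x⁻¹) ^ (1 / 4 : ℝ) / (1 / 4)) ^ 2 :=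
      pow_le_pow_left₀ (neg_nonneg.2 (log_nonpos hx.le h)) h1 2
    have h3 : ((x⁻¹) ^ (1 / 4 : ℝ)) ^ 2 = (√x)⁻¹ := by
      rw [← rpow_natCast, ← rpow_mul (inv_pos.2 hx).le, sqrt_eq_rpow, ← inv_rpow hx.le]; norm_num
    rw [div_pow, h3, neg_sq] at h2
    have : 0 ≤ 4 / p ^ 2 * x ^ p := by positivity
    calc log x ^ 2 ≤ (√x)⁻¹ / (1 / 4) ^ 2 := h2
      _ = 16 * (√x)⁻¹ := by ring
      _ ≤ _ := le_add_of_nonneg_left this

end

end Vale.Agent.P157.Casc.Rec
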