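import Vale.Agent.P157.Casc.LimitTree

/-!
One level of a finite Pareto cascade: Gibbs averages of observables and of pairs.
-/

open MeasureTheory Set Filter Topology Real

namespace Vale.Agent.P157.Casc.Rec

/-- The truncated integral of order `j`. -/
noncomputable def truncP (n : ℕ) (m j a : ℝ) : ℝ :=
  ∫ v in Ioc (0 : ℝ) (n + 1), v ^ (-(j / m)) * exp (-(a * v ^ (-m⁻¹)))

variable {m j : ℝ}

theorem full_integral (hm0 : 0 < m) (hj : m < j) {a : ℝ} (ha : 0 < a) :
    ∫ v in Ioi (0 : ℝ), v ^ (-(j / m)) * exp (-(a * v ^ (-m⁻¹)))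
      = a ^ (m - j) * (m * Gamma (j - m)) := by
  rw [← integral_comp_rpow_Ioi _ (neg_ne_zero.2 hm0.ne')]
  simp only [smul_eq_mul, abs_neg, abs_of_pos hm0]
  have h := Real.integral_rpow_mul_exp_neg_mul_Ioi (a := j - m) (r := a) (by linarith) ha
  rw [one_div, inv_rpow ha.le, ← rpow_neg ha.le, neg_sub] at h
  calc ∫ t in Ioi (0 : ℝ),
        m * t ^ (-m - 1) * ((t ^ (-m)) ^ (-(j / m)) * exp (-(a * (t ^ (-m)) ^ (-m⁻¹))))
      = ∫ t in Ioi (0 : ℝ), m * (t ^ (j - m - 1) * exp (-(a * t))) := by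
        refine setIntegral_congr_fun measurableSet_Ioi fun t (ht : 0 < t) => ?_
        simp only [← rpow_mul ht.le]
        rw [show -m * -(j / m) = j by field_simp, show -m * -m⁻¹ = 1 by field_simp, rpow_one,
          show j - m - 1 = (-m - 1) + j by ring, rpow_add ht]
        ring
    _ = _ := by rw [integral_const_mul, h]; ring

theorem full_integrable (hm0 : 0 < m) (hj : m < j) {a : ℝ} (ha : 0 < a) :
    IntegrableOn (fun v : ℝ => v ^ (-(j / m)) * exp (-(a * v ^ (-m⁻¹)))) (Ioi 0) := by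
  refine Classical.byContradiction fun h => ?_
  have h' := full_integral hm0 hj ha
  rw [integral_undef h] at h'
  have : 0 < a ^ (m - j) * (m * Gamma (j - m)) :=
    mul_pos (rpow_pos_of_pos ha _) (mul_pos hm0 (Gamma_pos_of_pos (by linarith)))
  linarith

theorem truncP_mem (n : ℕ) (hm0 : 0 < m) (hj : m < j) {a : ℝ} (ha : 0 < a) :
    0 ≤ truncP n m j a ∧ truncP n m j a ≤ a ^ (m - j) * (m * Gamma (j - m)) ∧
      a ^ (m - j) * (m * Gamma (j - m)) - truncP n m j a
        ≤ (n + 1 : ℝ) ^ (1 - j / m) / (j / m - 1) := by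
  have hint := full_integrable hm0 hj ha
  have hN : (0 : ℝ) < n + 1 := by positivity
  have hnn : ∀ v : ℝ, 0 < v → 0 ≤ v ^ (-(j / m)) * exp (-(a * v ^ (-m⁻¹))) := fun v hv => by
    positivity
  have hsplit : truncP n m j a + ∫ v in Ioi (n + 1 : ℝ), v ^ (-(j / m)) * exp (-(a * v ^ (-m⁻¹)))
      = a ^ (m - j) * (m * Gamma (j - m)) := by
    rw [← full_integral hm0 hj ha, truncP, ← setIntegral_union Ioc_disjoint_Ioi_same
      measurableSet_Ioi (hint.mono_set Ioc_subset_Ioi_self) (hint.mono_set (Ioi_subset_Ioi hN.le)),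
      Ioc_union_Ioi_eq_Ioi hN.le]
  have ht0 : 0 ≤ ∫ v in Ioi (n + 1 : ℝ), v ^ (-(j / m)) * exp (-(a * v ^ (-m⁻¹))) :=
    setIntegral_nonneg measurableSet_Ioi fun v (hv : (n + 1 : ℝ) < v) => hnn v (hN.trans hv)
  refine ⟨setIntegral_nonneg measurableSet_Ioc fun v hv => hnn v hv.1, by linarith, ?_⟩
  have hlt : -(j / m) < -1 := neg_lt_neg ((one_lt_div hm0).2 hj)
  have h1 : ∫ v in Ioi (n + 1 : ℝ), v ^ (-(j / m)) * exp (-(a * v ^ (-m⁻¹)))
      ≤ ∫ v in Ioi (n + 1 : ℝ), v ^ (-(j / m)) :=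
    setIntegral_mono_on (hint.mono_set (Ioi_subset_Ioi hN.le))
      (integrableOn_Ioi_rpow_of_lt hlt hN) measurableSet_Ioi
      fun v (hv : (n + 1 : ℝ) < v) => mul_le_of_le_one_right (rpow_nonneg (hN.trans hv).le _)
        (exp_le_one_iff.2 (neg_nonpos.2 (mul_nonneg ha.le (rpow_nonneg (hN.trans hv).le _))))
  rw [integral_Ioi_rpow_of_lt hlt hN] at h1
  rw [show (n + 1 : ℝ) ^ (1 - j / m) / (j / m - 1)
      = -(n + 1 : ℝ) ^ (-(j / m) + 1) / (-(j / m) + 1) by
    rw [show -(j / m) + 1 = -(j / m - 1) by ring, neg_div_neg_eq]; ring_nf]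
  linarith

theorem jc_eq {p : ℝ} (hp0 : 0 < p) (hp1 : p < 1) : jc p = Gamma (1 - p) := by
  have hq : 1 < p⁻¹ := (one_lt_inv₀ hp0).2 hp1
  set F : ℝ → ℝ := fun v => if 0 < v then v * (1 - exp (-(v ^ (-p⁻¹)))) else 0
  have hI1 : IntegrableOn (fun v : ℝ => 1 - exp (-(v ^ (-p⁻¹)))) (Ioi 0) := by
    simpa using integrableOn_one_sub_exp hp0 hp1 zero_le_one
  have hI2 : IntegrableOn (fun v : ℝ => v ^ (-(1 / p)) * exp (-(1 * v ^ (-p⁻¹)))) (Ioi 0) :=
    full_integrable hp0 hp1 one_pos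
  have hd : ∀ v ∈ Ioi (0 : ℝ), HasDerivAt F
      ((1 - exp (-(v ^ (-p⁻¹)))) - p⁻¹ * (v ^ (-(1 / p)) * exp (-(1 * v ^ (-p⁻¹))))) v := by
    intro v (hv : 0 < v)
    have h := (hasDerivAt_id v).mul
      (((hasDerivAt_rpow_const (p := -p⁻¹) (.inl hv.ne')).neg).exp.const_sub 1)
    refine (h.congr_of_eventuallyEq ?_).congr_deriv ?_
    · filter_upwards [Ioi_mem_nhds hv] with w (hw : 0 < w)
      simp [F, hw]
    · simp only [Pi.neg_apply]
      rw [id, rpow_sub_one hv.ne', one_div, one_mul]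
      field_simp
      ring
  have hc : ContinuousWithinAt F (Ici 0) 0 := by
    rw [Metric.continuousWithinAt_iff]
    refine fun ε hε => ⟨ε, hε, fun {v} hv hd => ?_⟩
    simp only [Real.dist_eq, sub_zero, F, lt_irrefl, if_false] at hd ⊢
    split_ifs with h
    · have h1 := one_sub_exp_nonneg (rpow_nonneg h.le (-p⁻¹))
      have h2 := exp_pos (-(v ^ (-p⁻¹)))
      rw [abs_of_pos h] at hd
      rw [abs_of_nonneg (mul_nonneg h.le h1)]
      exact (mul_le_of_le_one_right h.le (by linarith)).trans_lt hd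
    · simpa using hε
  have htop : Tendsto F atTop (𝓝 0) := by
    refine squeeze_zero_norm' ?_ (tendsto_rpow_neg_atTop (y := p⁻¹ - 1) (by linarith))
    filter_upwards [eventually_gt_atTop 0] with v hv
    simp only [F, if_pos hv]
    rw [Real.norm_of_nonneg (mul_nonneg hv.le (one_sub_exp_nonneg (rpow_nonneg hv.le _)))]
    calc v * (1 - exp (-(v ^ (-p⁻¹)))) ≤ v * v ^ (-p⁻¹) :=
          mul_le_mul_of_nonneg_left (one_sub_exp_le _) hv.le
      _ = v ^ (-(p⁻¹ - 1)) := by rw [neg_sub, sub_eq_add_neg, rpow_add hv, rpow_one]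
  have h := integral_Ioi_of_hasDerivAt_of_tendsto hc hd (hI1.sub (hI2.const_mul _)) htop
  rw [integral_sub hI1 (hI2.const_mul _), integral_const_mul, full_integral hp0 hp1 one_pos] at h
  have hF0 : F 0 = 0 := by simp [F]
  rw [hF0, one_rpow, one_mul, ← mul_assoc, inv_mul_cancel₀ hp0.ne', one_mul] at h
  show (∫ v in Ioi (0 : ℝ), (1 - exp (-(v ^ (-p⁻¹))))) = _
  linarith

section
variable {Ω : Type*} [MeasurableSpace Ω] {ν : Measure Ω} [IsProbabilityMeasure ν] {S P : Ω → ℝ}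
  {C q : ℝ}

/-- A first or higher order sum over the children. -/
noncomputable def osum {Ω : Type*} (n : ℕ) (m j : ℝ) (P : Ω → ℝ) (ω : Fin (n + 1) → ℝ × Ω) : ℝ :=
  ∑ i, wgt n m (ω i).1 ^ j * P (ω i).2

theorem measurable_osum (n : ℕ) (hP : Measurable P) : Measurable (osum n m j P) :=
  Finset.measurable_sum _ fun i _ =>
    (((measurable_wgt n m).comp (by fun_prop)).pow_const j).mul (hP.comp (by fun_prop))

omit [MeasurableSpace Ω] in
theorem abs_osum_le (n : ℕ) (hj : 1 ≤ j) (h0 : ∀ x, 0 < S x)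
    (hb : ∀ x, |P x| ≤ C * S x ^ j) (ω : Fin (n + 1) → ℝ × Ω) :
    |osum n m j P ω| ≤ C * zsum n m S ω ^ j := by
  have hZ := zsum_pos n m h0 ω
  have hC : 0 ≤ C := by
    have := (abs_nonneg _).trans (hb (ω 0).2)
    have := rpow_pos_of_pos (h0 (ω 0).2) j
    nlinarith
  calc |osum n m j P ω| ≤ ∑ i, |wgt n m (ω i).1 ^ j * P (ω i).2| := Finset.abs_sum_le_sum_abs _ _
    _ ≤ ∑ i, C * ((wgt n m (ω i).1 * S (ω i).2) * zsum n m S ω ^ (j - 1)) := by
        refine Finset.sum_le_sum fun i _ => ?_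
        have hw := wgt_pos n m (ω i).1
        have hws := mul_pos hw (h0 (ω i).2)
        have hle : wgt n m (ω i).1 * S (ω i).2 ≤ zsum n m S ω :=
          Finset.single_le_sum (fun k _ => (mul_pos (wgt_pos n m (ω k).1) (h0 (ω k).2)).le)
            (Finset.mem_univ i)
        have hkey : (wgt n m (ω i).1 * S (ω i).2) ^ j
            ≤ (wgt n m (ω i).1 * S (ω i).2) * zsum n m S ω ^ (j - 1) := by
          conv_lhs => rw [show j = 1 + (j - 1) by ring, rpow_add hws, rpow_one]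
          exact mul_le_mul_of_nonneg_left (rpow_le_rpow hws.le hle (by linarith)) hws.le
        rw [abs_mul, abs_of_pos (rpow_pos_of_pos hw j)]
        calc wgt n m (ω i).1 ^ j * |P (ω i).2| ≤ wgt n m (ω i).1 ^ j * (C * S (ω i).2 ^ j) :=
              mul_le_mul_of_nonneg_left (hb _) (rpow_nonneg hw.le j)
          _ = C * (wgt n m (ω i).1 * S (ω i).2) ^ j := by rw [mul_rpow hw.le (h0 _).le]; ring
          _ ≤ _ := mul_le_mul_of_nonneg_left hkey hC
    _ = C * zsum n m S ω ^ j := by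
        rw [← Finset.mul_sum, ← Finset.sum_mul]
        show C * (zsum n m S ω * zsum n m S ω ^ (j - 1)) = _
        conv_rhs => rw [show j = 1 + (j - 1) by ring, rpow_add hZ, rpow_one]

/-- The inner expectation of one child. -/
noncomputable def oneP (n : ℕ) (m j : ℝ) (ν : Measure Ω) (S P : Ω → ℝ) (t : ℝ) : ℝ :=
  ∫ p, wgt n m p.1 ^ j * P p.2 * exp (-(t * (wgt n m p.1 * S p.2))) ∂(uni.prod ν)

theorem truncP_eq (n : ℕ) (a : ℝ) :
    (n + 1 : ℝ) * ∫ u, wgt n m u ^ j * exp (-(a * wgt n m u)) ∂uni = truncP n m j a := by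
  have hN : (0 : ℝ) < n + 1 := by positivity
  have hae : (fun u => wgt n m u ^ j * exp (-(a * wgt n m u))) =ᵐ[uni]
      fun u => ((n + 1 : ℝ) * u) ^ (-(j / m)) * exp (-(a * ((n + 1 : ℝ) * u) ^ (-m⁻¹))) := by
    filter_upwards [wgt_uni n m, ae_restrict_mem (μ := volume) measurableSet_Ioc] with u hu hmem
    rw [hu, ← rpow_mul (mul_pos hN hmem.1).le]
    ring_nf
  rw [integral_congr_ae hae, uni, truncP, ← intervalIntegral.integral_of_le zero_le_one,
    ← intervalIntegral.integral_of_le hN.le]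
  have := intervalIntegral.mul_integral_comp_mul_left (a := 0) (b := 1)
    (f := fun v : ℝ => v ^ (-(j / m)) * exp (-(a * v ^ (-m⁻¹)))) (n + 1 : ℝ)
  simpa using this

/-- Domination of the integrand of `oneP`. -/
theorem oneP_integrand (n : ℕ) (hj : 0 < j) (hS : Measurable S) (h0 : ∀ x, 0 < S x)
    (hP : Measurable P) (hb : ∀ x, |P x| ≤ C * S x ^ j) {t : ℝ} (ht : 0 < t) :
    Integrable (fun p : ℝ × Ω => wgt n m p.1 ^ j * P p.2 * exp (-(t * (wgt n m p.1 * S p.2))))
      (uni.prod ν) := by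
  refine Integrable.of_bound
    (((((measurable_wgt n m).comp measurable_fst).pow_const j).mul (hP.comp measurable_snd)).mul
      (measurable_exp.comp (((measurable_wgt n m).comp measurable_fst).mul
        (hS.comp measurable_snd) |>.const_mul t |>.neg))).aestronglyMeasurable
    (|C| * ((j / t) ^ j)) (.of_forall fun p => ?_)
  have hw := wgt_pos n m p.1
  have hx := mul_pos hw (h0 p.2)
  rw [Real.norm_eq_abs, abs_mul, abs_mul, abs_exp, abs_of_pos (rpow_pos_of_pos hw j)]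
  have h1 : (t * (wgt n m p.1 * S p.2) / j) ^ j ≤ exp (t * (wgt n m p.1 * S p.2)) := by
    have hy : 0 ≤ t * (wgt n m p.1 * S p.2) / j := by positivity
    calc (t * (wgt n m p.1 * S p.2) / j) ^ j ≤ exp (t * (wgt n m p.1 * S p.2) / j) ^ j :=
          rpow_le_rpow hy (by linarith [add_one_le_exp (t * (wgt n m p.1 * S p.2) / j)]) hj.le
      _ = _ := by rw [← exp_mul, div_mul_cancel₀ _ hj.ne']
  rw [exp_neg, ← div_eq_mul_inv, div_le_iff₀ (exp_pos _)]
  calc wgt n m p.1 ^ j * |P p.2| ≤ wgt n m p.1 ^ j * (|C| * S p.2 ^ j) :=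
        mul_le_mul_of_nonneg_left ((hb _).trans
          (mul_le_mul_of_nonneg_right (le_abs_self C) (rpow_nonneg (h0 _).le _))) (rpow_nonneg hw.le _)
    _ = |C| * (j / t) ^ j * (t * (wgt n m p.1 * S p.2) / j) ^ j := by
        rw [mul_assoc |C|, ← mul_rpow (by positivity) (by positivity),
          show j / t * (t * (wgt n m p.1 * S p.2) / j) = wgt n m p.1 * S p.2 by field_simp,
          mul_rpow hw.le (h0 _).le]
        ring
    _ ≤ _ := mul_le_mul_of_nonneg_left h1 (by positivity)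

theorem oneP_eq (n : ℕ) (hj : 0 < j) (hS : Measurable S) (h0 : ∀ x, 0 < S x) (hP : Measurable P)
    (hb : ∀ x, |P x| ≤ C * S x ^ j) {t : ℝ} (ht : 0 < t) :
    (n + 1 : ℝ) * oneP n m j ν S P t = ∫ x, P x * truncP n m j (t * S x) ∂ν := by
  rw [oneP, integral_prod_symm _ (oneP_integrand n hj hS h0 hP hb ht), ← integral_const_mul]
  refine integral_congr_ae (.of_forall fun x => ?_)
  simp only
  rw [← truncP_eq, ← mul_assoc (P x), mul_comm (P x) (n + 1 : ℝ), mul_assoc]
  congr 1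
  rw [← integral_const_mul]
  refine integral_congr_ae (.of_forall fun u => ?_)
  simp only
  ring_nf

theorem oneP_abs_le (n : ℕ) (hm0 : 0 < m) (hm1 : m < 1) (hj : 1 ≤ j) (hS : Measurable S)
    (h0 : ∀ x, 0 < S x) (hP : Measurable P) (hb : ∀ x, |P x| ≤ C * S x ^ j)
    (hm : Integrable (fun x => S x ^ m) ν) {t : ℝ} (ht : 0 < t) :
    |(n + 1 : ℝ) * oneP n m j ν S P t|
      ≤ C * (m * Gamma (j - m)) * t ^ (m - j) * ∫ x, S x ^ m ∂ν := by
  rw [oneP_eq n (by linarith) hS h0 hP hb ht, ← integral_const_mul, ← Real.norm_eq_abs]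
  refine norm_integral_le_of_norm_le (hm.const_mul _) (.of_forall fun x => ?_)
  have hx := mul_pos ht (h0 x)
  obtain ⟨h1, h2, -⟩ := truncP_mem n hm0 (by linarith : m < j) hx
  rw [Real.norm_eq_abs, abs_mul, abs_of_nonneg h1]
  calc |P x| * truncP n m j (t * S x) ≤ C * S x ^ j * ((t * S x) ^ (m - j) * (m * Gamma (j - m))) :=
        mul_le_mul (hb x) h2 h1 ((abs_nonneg _).trans (hb x))
    _ = C * (m * Gamma (j - m)) * t ^ (m - j) * S x ^ m := by
        rw [mul_rpow ht.le (h0 x).le, rpow_sub (h0 x)]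
        have := (rpow_pos_of_pos (h0 x) j).ne'
        field_simp

theorem osum_lap (n : ℕ) (hj : 0 < j) (hS : Measurable S) (h0 : ∀ x, 0 < S x) (hP : Measurable P)
    (hb : ∀ x, |P x| ≤ C * S x ^ j) {t : ℝ} (ht : 0 < t) :
    ∫ ω, osum n m j P ω * exp (-(t * zsum n m S ω)) ∂kids ν n
      = ((n + 1 : ℝ) * oneP n m j ν S P t) * one n m ν S t ^ n := by
  set g := fun p : ℝ × Ω => wgt n m p.1 ^ j * P p.2 * exp (-(t * (wgt n m p.1 * S p.2)))
  set h := fun p : ℝ × Ω => exp (-(t * (wgt n m p.1 * S p.2)))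
  have hg : Integrable g (uni.prod ν) := oneP_integrand n hj hS h0 hP hb ht
  have hh : Integrable h (uni.prod ν) := integrable_lap
    (Z := fun p : ℝ × Ω => wgt n m p.1 * S p.2)
    (((measurable_wgt n m).comp measurable_fst).mul (hS.comp measurable_snd))
    (fun p => mul_pos (wgt_pos n m _) (h0 _)) ht.le
  have hterm : ∀ ω : Fin (n + 1) → ℝ × Ω, osum n m j P ω * exp (-(t * zsum n m S ω))
      = ∑ i, ∏ k, (if k = i then g else h) (ω k) := fun ω => by
    simp only [osum, zsum, Finset.mul_sum, ← Finset.sum_neg_distrib, exp_sum, Finset.sum_mul]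
    refine Finset.sum_congr rfl fun i _ => ?_
    rw [← Finset.mul_prod_erase _ _ (Finset.mem_univ i),
      ← Finset.mul_prod_erase _ (fun k => (if k = i then g else h) (ω k)) (Finset.mem_univ i),
      if_pos rfl, ← mul_assoc]
    congr 1
    refine Finset.prod_congr rfl fun k hk => ?_
    rw [if_neg (Finset.ne_of_mem_erase hk)]
  simp_rw [hterm]
  rw [integral_finsetSum _ fun i _ => Integrable.fintype_prod fun k => by
    split_ifs
    · exact hg
    · exact hh]
  have hone : ∫ p, g p ∂(uni.prod ν) = oneP n m j ν S P t := rfl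
  have hon : ∫ p, h p ∂(uni.prod ν) = one n m ν S t := rfl
  simp only [kids, integral_fintype_prod_eq_prod]
  calc ∑ i : Fin (n + 1), ∏ k : Fin (n + 1), ∫ x, (if k = i then g else h) x ∂(uni.prod ν)
      = ∑ _i : Fin (n + 1), oneP n m j ν S P t * one n m ν S t ^ n := by
        refine Finset.sum_congr rfl fun i _ => ?_
        rw [← Finset.mul_prod_erase _ _ (Finset.mem_univ i), if_pos rfl, hone,
          Finset.prod_congr rfl fun k hk => by rw [if_neg (Finset.ne_of_mem_erase hk), hon],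
          Finset.prod_const, Finset.card_erase_of_mem (Finset.mem_univ i), Finset.card_univ,
          Fintype.card_fin, Nat.add_sub_cancel]
    _ = _ := by simp; ring

theorem deficitP_close (n : ℕ) (hm0 : 0 < m) (hm1 : m < 1) (hj : 1 ≤ j) (hS : Measurable S)
    (h0 : ∀ x, 0 < S x) (hP : Measurable P) (hb : ∀ x, |P x| ≤ C * S x ^ j)
    (hm : Integrable (fun x => S x ^ m) ν) {θ : ℝ} (hθ0 : 0 ≤ θ) (hθ1 : θ ≤ 1)
    (hp : Integrable (fun x => S x ^ (m + θ * (j - m))) ν) {t : ℝ} (ht : 0 < t) :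
    |(n + 1 : ℝ) * oneP n m j ν S P t
        - t ^ (m - j) * (m * Gamma (j - m)) * ∫ x, S x ^ (m - j) * P x ∂ν|
      ≤ C * (m * Gamma (j - m)) ^ (1 - θ) * ((n + 1 : ℝ) ^ (1 - j / m) / (j / m - 1)) ^ θ
          * t ^ ((m - j) * (1 - θ)) * ∫ x, S x ^ (m + θ * (j - m)) ∂ν := by
  have hmj : m < j := by linarith
  have hG : 0 < m * Gamma (j - m) := mul_pos hm0 (Gamma_pos_of_pos (by linarith))
  have hiA : Integrable (fun x => S x ^ (m - j) * P x) ν :=
    (hm.const_mul C).mono' ((hS.pow_const _).mul hP).aestronglyMeasurable (.of_forall fun x => by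
      rw [Real.norm_eq_abs, abs_mul, abs_of_pos (rpow_pos_of_pos (h0 x) _)]
      calc S x ^ (m - j) * |P x| ≤ S x ^ (m - j) * (C * S x ^ j) :=
            mul_le_mul_of_nonneg_left (hb x) (rpow_nonneg (h0 x).le _)
        _ = C * S x ^ m := by
            rw [rpow_sub (h0 x)]
            have := (rpow_pos_of_pos (h0 x) j).ne'
            field_simp)
  have hiT : Integrable (fun x => P x * truncP n m j (t * S x)) ν := by
    have hmt : Measurable (truncP n m j) :=
      (StronglyMeasurable.integral_prod_right' (ν := volume.restrict (Ioc (0 : ℝ) (n + 1)))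
        (f := fun x : ℝ × ℝ => x.2 ^ (-(j / m)) * exp (-(x.1 * x.2 ^ (-m⁻¹))))
        (by fun_prop : Measurable _).stronglyMeasurable).measurable
    refine (hm.const_mul (C * (m * Gamma (j - m)) * t ^ (m - j))).mono'
      (hP.mul (hmt.comp (hS.const_mul t))).aestronglyMeasurable (.of_forall fun x => ?_)
    have hx := mul_pos ht (h0 x)
    obtain ⟨h1, h2, -⟩ := truncP_mem n hm0 hmj hx
    rw [Real.norm_eq_abs, abs_mul, abs_of_nonneg h1]
    calc |P x| * truncP n m j (t * S x)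
        ≤ C * S x ^ j * ((t * S x) ^ (m - j) * (m * Gamma (j - m))) :=
          mul_le_mul (hb x) h2 h1 ((abs_nonneg _).trans (hb x))
      _ = C * (m * Gamma (j - m)) * t ^ (m - j) * S x ^ m := by
          rw [mul_rpow ht.le (h0 x).le, rpow_sub (h0 x)]
          have := (rpow_pos_of_pos (h0 x) j).ne'
          field_simp
  rw [oneP_eq n (by linarith) hS h0 hP hb ht, ← integral_const_mul,
    ← integral_sub hiT (hiA.const_mul _), ← integral_const_mul, ← Real.norm_eq_abs]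
  refine norm_integral_le_of_norm_le (hp.const_mul _) (.of_forall fun x => ?_)
  have hx := mul_pos ht (h0 x)
  obtain ⟨h1, h2, h3⟩ := truncP_mem n hm0 hmj hx
  set full := (t * S x) ^ (m - j) * (m * Gamma (j - m))
  set err := full - truncP n m j (t * S x)
  have he0 : 0 ≤ err := sub_nonneg.2 h2
  have heq : P x * truncP n m j (t * S x)
      - t ^ (m - j) * (m * Gamma (j - m)) * (S x ^ (m - j) * P x) = -(P x * err) := by
    simp only [err, full, mul_rpow ht.le (h0 x).le]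
    ring
  rw [heq, Real.norm_eq_abs, abs_neg, abs_mul, abs_of_nonneg he0]
  set c := (n + 1 : ℝ) ^ (1 - j / m) / (j / m - 1)
  have hc : 0 ≤ c := div_nonneg (by positivity) (sub_pos.2 ((one_lt_div hm0).2 hmj)).le
  have herr : err ≤ full ^ (1 - θ) * c ^ θ := by
    calc err = err ^ (1 - θ) * err ^ θ := by rw [← rpow_add' he0 (by norm_num)]; norm_num
      _ ≤ _ := mul_le_mul (rpow_le_rpow he0 (sub_le_self _ h1) (by linarith))
          (rpow_le_rpow he0 h3 hθ0) (rpow_nonneg he0 _) (rpow_nonneg (by positivity) _)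
  calc |P x| * err ≤ C * S x ^ j * (full ^ (1 - θ) * c ^ θ) :=
        mul_le_mul (hb x) herr he0 ((abs_nonneg _).trans (hb x))
    _ = _ := by
        simp only [full]
        rw [mul_rpow (rpow_nonneg hx.le _) hG.le, ← rpow_mul hx.le, mul_rpow ht.le (h0 x).le,
          show m + θ * (j - m) = j + (m - j) * (1 - θ) by ring, rpow_add (h0 x)]
        ring

theorem tail_kernel_le (hj : 1 ≤ j) (hq : q < 1) {z T : ℝ} (hz : 0 < z) (hT : 0 < T) :
    ∫ t in Ioi T, t ^ (j - 1 - q) * exp (-(t * z))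
      ≤ Gamma (j + 1 - q) / T * z ^ (q - j - 1) := by
  have hbig : IntegrableOn (fun t : ℝ => t ^ (j - q) * exp (-(z * t))) (Ioi 0) :=
    (integrableOn_rpow_mul_exp_neg_mul_rpow (s := j - q) (p := 1) (b := z) (by linarith) one_pos
      hz).congr_fun (fun t _ => by simp [rpow_one]) measurableSet_Ioi
  have hle : ∀ t ∈ Ioi T, t ^ (j - 1 - q) * exp (-(t * z))
      ≤ T⁻¹ * (t ^ (j - q) * exp (-(z * t))) := fun t (htT : T < t) => by
    have ht0 := hT.trans htT
    rw [show j - 1 - q = j - q - 1 by ring, rpow_sub_one ht0.ne', mul_comm t z, div_eq_inv_mul,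
      mul_assoc]
    exact mul_le_mul_of_nonneg_right (inv_anti₀ hT htT.le) (by positivity)
  calc ∫ t in Ioi T, t ^ (j - 1 - q) * exp (-(t * z))
      ≤ ∫ t in Ioi T, T⁻¹ * (t ^ (j - q) * exp (-(z * t))) := by
        refine setIntegral_mono_on ?_ ((hbig.mono_set (Ioi_subset_Ioi hT.le)).const_mul _)
          measurableSet_Ioi hle
        exact ((hbig.mono_set (Ioi_subset_Ioi hT.le)).const_mul T⁻¹).mono'
          (by fun_prop : Measurable _).aestronglyMeasurable
          ((ae_restrict_iff' measurableSet_Ioi).2 (.of_forall fun t htT => by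
            rw [Real.norm_of_nonneg (mul_nonneg (rpow_nonneg (hT.trans htT).le _) (exp_pos _).le)]
            exact hle t htT))
    _ ≤ ∫ t in Ioi (0 : ℝ), T⁻¹ * (t ^ (j - q) * exp (-(z * t))) :=
        setIntegral_mono_set (hbig.const_mul _)
          ((ae_restrict_iff' measurableSet_Ioi).2 (.of_forall fun t (ht : 0 < t) => by positivity))
          (Ioi_subset_Ioi hT.le).eventuallyLE
    _ = _ := by
        have h := Real.integral_rpow_mul_exp_neg_mul_Ioi (a := j + 1 - q) (r := z) (by linarith) hz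
        rw [show j + 1 - q - 1 = j - q by ring, one_div, inv_rpow hz.le, ← rpow_neg hz.le,
          show -(j + 1 - q) = q - j - 1 by ring] at h
        rw [integral_const_mul, h]
        ring

theorem kernel_eq (hjq : q < j) {z : ℝ} (hz : 0 < z) :
    ∫ t in Ioi (0 : ℝ), t ^ (j - 1 - q) * exp (-(t * z)) = Gamma (j - q) * z ^ (q - j) := by
  have h := Real.integral_rpow_mul_exp_neg_mul_Ioi (a := j - q) (r := z) (by linarith) hz
  rw [one_div, inv_rpow hz.le, ← rpow_neg hz.le, neg_sub] at h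
  rw [mul_comm (Gamma _), ← h]
  refine setIntegral_congr_fun measurableSet_Ioi fun t _ => ?_
  rw [mul_comm t z, show j - 1 - q = j - q - 1 by ring]

/-- The quantity behind a Gibbs average, as an integral over the Laplace variable, with its tail. -/
theorem gibbs_identity {Θ : Type*} [MeasurableSpace Θ] {μ : Measure Θ} [IsFiniteMeasure μ]
    {Z F : Θ → ℝ} (hZ : Measurable Z) (h0 : ∀ ω, 0 < Z ω) (hF : Measurable F) (hj : 1 ≤ j)
    (hq : q < 1) (hb : ∀ ω, |F ω| ≤ C * Z ω ^ j) (hiq : Integrable (fun ω => Z ω ^ q) μ)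
    (hiq1 : Integrable (fun ω => Z ω ^ (q - 1)) μ) :
    Integrable (fun ω => F ω * Z ω ^ (q - j)) μ ∧
    IntegrableOn (fun t => t ^ (j - 1 - q) * ∫ ω, F ω * exp (-(t * Z ω)) ∂μ) (Ioi 0) ∧
    (∫ ω, F ω * Z ω ^ (q - j) ∂μ) * Gamma (j - q)
      = ∫ t in Ioi (0 : ℝ), t ^ (j - 1 - q) * ∫ ω, F ω * exp (-(t * Z ω)) ∂μ ∧
    ∀ T : ℝ, 0 < T → |∫ t in Ioi T, t ^ (j - 1 - q) * ∫ ω, F ω * exp (-(t * Z ω)) ∂μ|
      ≤ C * Gamma (j + 1 - q) / T * ∫ ω, Z ω ^ (q - 1) ∂μ := by
  have hjq : q < j := by linarith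
  have hbd : ∀ ω, |F ω| * Z ω ^ (q - j) ≤ C * Z ω ^ q := fun ω => by
    calc |F ω| * Z ω ^ (q - j) ≤ C * Z ω ^ j * Z ω ^ (q - j) :=
          mul_le_mul_of_nonneg_right (hb ω) (rpow_nonneg (h0 ω).le _)
      _ = C * Z ω ^ q := by rw [mul_assoc, ← rpow_add (h0 ω)]; ring_nf
  have hFi : Integrable (fun ω => F ω * Z ω ^ (q - j)) μ :=
    (hiq.const_mul C).mono' (hF.mul (hZ.pow_const _)).aestronglyMeasurable (.of_forall fun ω => by
      rw [Real.norm_eq_abs, abs_mul, abs_of_pos (rpow_pos_of_pos (h0 ω) _)]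
      exact hbd ω)
  have hker : ∀ ω, IntegrableOn (fun t : ℝ => t ^ (j - 1 - q) * exp (-(t * Z ω))) (Ioi 0) :=
    fun ω => (integrableOn_rpow_mul_exp_neg_mul_rpow (s := j - 1 - q) (p := 1) (b := Z ω)
      (by linarith) one_pos (h0 ω)).congr_fun
        (fun t _ => by simp [rpow_one, mul_comm t]) measurableSet_Ioi
  have hknn : ∀ ω, ∀ t : ℝ, 0 < t → 0 ≤ t ^ (j - 1 - q) * exp (-(t * Z ω)) := fun ω t ht => by
    positivity
  have hP : Integrable (fun x : Θ × ℝ => F x.1 * (x.2 ^ (j - 1 - q) * exp (-(x.2 * Z x.1))))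
      (μ.prod (volume.restrict (Ioi 0))) := by
    rw [integrable_prod_iff (by fun_prop : Measurable _).aestronglyMeasurable]
    refine ⟨.of_forall fun ω => (hker ω).const_mul (F ω), ?_⟩
    have he : ∀ ω, (∫ t in Ioi (0 : ℝ), ‖F ω * (t ^ (j - 1 - q) * exp (-(t * Z ω)))‖)
        = |F ω * Z ω ^ (q - j)| * Gamma (j - q) := fun ω => by
      rw [abs_mul, abs_of_pos (rpow_pos_of_pos (h0 ω) _), mul_assoc, mul_comm (Z ω ^ _),
        ← kernel_eq hjq (h0 ω), ← integral_const_mul]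
      refine setIntegral_congr_fun measurableSet_Ioi fun t ht => ?_
      rw [Real.norm_eq_abs, abs_mul, abs_of_nonneg (hknn ω t ht)]
    simp_rw [he]
    exact hFi.abs.mul_const _
  have hswap : (fun t => t ^ (j - 1 - q) * ∫ ω, F ω * exp (-(t * Z ω)) ∂μ)
      = fun t => ∫ ω, F ω * (t ^ (j - 1 - q) * exp (-(t * Z ω))) ∂μ := by
    funext t
    rw [← integral_const_mul]
    congr 1; funext ω; ring
  refine ⟨hFi, ?_, ?_, fun T hT => ?_⟩
  · rw [hswap]; exact hP.integral_prod_right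
  · rw [hswap, ← integral_integral_swap hP, ← integral_mul_const]
    refine integral_congr_ae (.of_forall fun ω => ?_)
    simp only
    rw [integral_const_mul, kernel_eq hjq (h0 ω)]
    ring
  · have hP' : Integrable (fun x : Θ × ℝ => F x.1 * (x.2 ^ (j - 1 - q) * exp (-(x.2 * Z x.1))))
        (μ.prod (volume.restrict (Ioi T))) :=
      hP.mono_measure (Measure.prod_mono le_rfl (Measure.restrict_mono (Ioi_subset_Ioi hT.le) le_rfl))
    rw [hswap, ← integral_integral_swap hP', ← integral_const_mul, ← Real.norm_eq_abs]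
    refine norm_integral_le_of_norm_le (hiq1.const_mul _) (.of_forall fun ω => ?_)
    rw [integral_const_mul, Real.norm_eq_abs, abs_mul,
      abs_of_nonneg (setIntegral_nonneg measurableSet_Ioi fun t ht => hknn ω t (hT.trans ht))]
    calc |F ω| * ∫ t in Ioi T, t ^ (j - 1 - q) * exp (-(t * Z ω))
        ≤ C * Z ω ^ j * (Gamma (j + 1 - q) / T * Z ω ^ (q - j - 1)) :=
          mul_le_mul (hb ω) (tail_kernel_le hj hq (h0 ω) hT)
            (setIntegral_nonneg measurableSet_Ioi fun t ht => hknn ω t (hT.trans ht))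
            ((abs_nonneg _).trans (hb ω))
      _ = C * Gamma (j + 1 - q) / T * Z ω ^ (q - 1) := by
          rw [show q - 1 = j + (q - j - 1) by ring, rpow_add (h0 ω)]; ring

end

/-- Passing to the limit under an integral over a half line whose tails are uniformly small. -/
theorem tendsto_of_cut {f : ℕ → ℝ → ℝ} {g : ℝ → ℝ} {B : ℝ}
    (hi : ∀ n, IntegrableOn (f n) (Ioi 0)) (hg : IntegrableOn g (Ioi 0))
    (hloc : ∀ T : ℝ, 0 < T → Tendsto (fun n => ∫ t in Ioc (0 : ℝ) T, f n t) atTop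
      (𝓝 (∫ t in Ioc (0 : ℝ) T, g t)))
    (htail : ∀ n, ∀ T : ℝ, 0 < T → |∫ t in Ioi T, f n t| ≤ B / T) :
    Tendsto (fun n => ∫ t in Ioi (0 : ℝ), f n t) atTop (𝓝 (∫ t in Ioi (0 : ℝ), g t)) := by
  rw [Metric.tendsto_atTop]
  intro ε hε
  have h1 : Tendsto (fun T : ℝ => ∫ t in Ioi T, g t) atTop (𝓝 0) := tendsto_integral_Ioi_zero tendsto_id
  have h2 : Tendsto (fun T : ℝ => B / T) atTop (𝓝 0) :=
    Tendsto.div_atTop tendsto_const_nhds tendsto_id
  obtain ⟨T, hT1, hT2, hT⟩ := (((Metric.tendsto_nhds.1 h1) (ε / 3) (by linarith)).and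
    (((Metric.tendsto_nhds.1 h2) (ε / 3) (by linarith)).and (eventually_gt_atTop 0))).exists
  obtain ⟨N, hN⟩ := Metric.tendsto_atTop.1 (hloc T hT) (ε / 3) (by linarith)
  refine ⟨N, fun n hn => ?_⟩
  have hs : ∀ h : ℝ → ℝ, IntegrableOn h (Ioi 0) → ∫ t in Ioi (0 : ℝ), h t
      = (∫ t in Ioc (0 : ℝ) T, h t) + ∫ t in Ioi T, h t := fun h hh => by
    rw [← setIntegral_union Ioc_disjoint_Ioi_same measurableSet_Ioi
      (hh.mono_set Ioc_subset_Ioi_self) (hh.mono_set (Ioi_subset_Ioi hT.le)),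
      Ioc_union_Ioi_eq_Ioi hT.le]
  have hn' := hN n hn
  simp only [Real.dist_eq, sub_zero] at hT1 hT2 hn' ⊢
  rw [hs _ (hi n), hs _ hg]
  have hn1 := abs_lt.1 hn'
  have hn2 := abs_le.1 ((htail n T hT).trans (le_abs_self _))
  have hn3 := abs_lt.1 hT1
  rw [abs_lt]
  constructor <;> linarith

end Vale.Agent.P157.Casc.Rec
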