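import Vale.Agent.P157.Casc.LimitLaplace

/-!
One level of a finite Pareto cascade: sums of `n + 1` independently weighted copies.
-/

open MeasureTheory Set Filter Topology Real

namespace Vale.Agent.P157.Casc.Rec

/-- The uniform law on `(0, 1]`. -/
noncomputable def uni : Measure ℝ := volume.restrict (Ioc 0 1)

instance uni_prob : IsProbabilityMeasure uni := ⟨by simp [uni]⟩

/-- The weight of one of `n + 1` children. -/
noncomputable def wgt (n : ℕ) (m u : ℝ) : ℝ := if 0 < u then ((n + 1 : ℝ) * u) ^ (-m⁻¹) else 1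

theorem wgt_pos (n : ℕ) (m u : ℝ) : 0 < wgt n m u := by
  rw [wgt]; split_ifs with h
  · positivity
  · exact one_pos

@[fun_prop]
theorem measurable_wgt (n : ℕ) (m : ℝ) : Measurable (wgt n m) := by
  unfold wgt
  exact Measurable.ite (measurableSet_lt measurable_const measurable_id) (by fun_prop)
    measurable_const

theorem wgt_uni (n : ℕ) (m : ℝ) :
    ∀ᵐ u ∂uni, wgt n m u = ((n + 1 : ℝ) * u) ^ (-m⁻¹) :=
  (ae_restrict_iff' measurableSet_Ioc).2 (.of_forall fun u hu => by simp [wgt, hu.1])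

/-- The law of the children. -/
noncomputable def kids {Ω : Type*} [MeasurableSpace Ω] (ν : Measure Ω) (n : ℕ) :
    Measure (Fin (n + 1) → ℝ × Ω) :=
  Measure.pi fun _ : Fin (n + 1) => uni.prod ν

instance kids_prob {Ω : Type*} [MeasurableSpace Ω] (ν : Measure Ω) [IsProbabilityMeasure ν]
    (n : ℕ) : IsProbabilityMeasure (kids ν n) := by unfold kids; infer_instance

/-- The weighted sum over children. -/
noncomputable def zsum {Ω : Type*} (n : ℕ) (m : ℝ) (S : Ω → ℝ) (ω : Fin (n + 1) → ℝ × Ω) : ℝ :=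
  ∑ i, wgt n m (ω i).1 * S (ω i).2

theorem zsum_pos {Ω : Type*} (n : ℕ) (m : ℝ) {S : Ω → ℝ} (h0 : ∀ x, 0 < S x)
    (ω : Fin (n + 1) → ℝ × Ω) : 0 < zsum n m S ω :=
  Finset.sum_pos (fun i _ => mul_pos (wgt_pos n m _) (h0 _)) Finset.univ_nonempty

theorem measurable_zsum {Ω : Type*} [MeasurableSpace Ω] (n : ℕ) (m : ℝ) {S : Ω → ℝ}
    (hS : Measurable S) : Measurable (zsum n m S) :=
  Finset.measurable_sum _ fun i _ => ((measurable_wgt n m).comp (by fun_prop)).mul
    (hS.comp (by fun_prop))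

/-- The truncated integral. -/
noncomputable def trunc (n : ℕ) (m a : ℝ) : ℝ :=
  ∫ v in Ioc (0 : ℝ) (n + 1), (1 - exp (-(a * v ^ (-m⁻¹))))

theorem trunc_eq (n : ℕ) (m a : ℝ) :
    (n + 1 : ℝ) * ∫ u, (1 - exp (-(a * wgt n m u))) ∂uni = trunc n m a := by
  have hN : (0 : ℝ) < n + 1 := by positivity
  rw [integral_congr_ae (g := fun u => 1 - exp (-(a * ((n + 1 : ℝ) * u) ^ (-m⁻¹))))
    (by filter_upwards [wgt_uni n m] with u hu; rw [hu]), uni, trunc,
    ← intervalIntegral.integral_of_le zero_le_one, ← intervalIntegral.integral_of_le hN.le]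
  have := intervalIntegral.mul_integral_comp_mul_left (a := 0) (b := 1)
    (f := fun v : ℝ => 1 - exp (-(a * v ^ (-m⁻¹)))) (n + 1 : ℝ)
  simpa using this

variable {m : ℝ}

theorem trunc_mem (n : ℕ) (hm0 : 0 < m) (hm1 : m < 1) {a : ℝ} (ha : 0 ≤ a) :
    0 ≤ trunc n m a ∧ trunc n m a ≤ a ^ m * jc m ∧
      a ^ m * jc m - trunc n m a ≤ a * ((n + 1 : ℝ) ^ (1 - m⁻¹) / (m⁻¹ - 1)) := by
  have hint := integrableOn_one_sub_exp hm0 hm1 ha
  have hN : (0 : ℝ) < n + 1 := by positivity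
  have hnn : ∀ v : ℝ, 0 < v → 0 ≤ 1 - exp (-(a * v ^ (-m⁻¹))) := fun v hv =>
    one_sub_exp_nonneg (mul_nonneg ha (rpow_nonneg hv.le _))
  have hsplit : trunc n m a + ∫ v in Ioi (n + 1 : ℝ), (1 - exp (-(a * v ^ (-m⁻¹)))) = a ^ m * jc m := by
    rw [← integral_one_sub_exp hm0 ha, trunc, ← setIntegral_union Ioc_disjoint_Ioi_same
      measurableSet_Ioi (hint.mono_set Ioc_subset_Ioi_self) (hint.mono_set (Ioi_subset_Ioi hN.le)),
      Ioc_union_Ioi_eq_Ioi hN.le]
  have ht0 : 0 ≤ ∫ v in Ioi (n + 1 : ℝ), (1 - exp (-(a * v ^ (-m⁻¹)))) :=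
    setIntegral_nonneg measurableSet_Ioi fun v (hv : (n + 1 : ℝ) < v) => hnn v (hN.trans hv)
  refine ⟨setIntegral_nonneg measurableSet_Ioc fun v hv => hnn v hv.1, by linarith, ?_⟩
  have hlt : -m⁻¹ < -1 := neg_lt_neg ((one_lt_inv₀ hm0).2 hm1)
  have h1 : ∫ v in Ioi (n + 1 : ℝ), (1 - exp (-(a * v ^ (-m⁻¹))))
      ≤ ∫ v in Ioi (n + 1 : ℝ), a * v ^ (-m⁻¹) :=
    setIntegral_mono_on (hint.mono_set (Ioi_subset_Ioi hN.le))
      ((integrableOn_Ioi_rpow_of_lt hlt hN).const_mul a) measurableSet_Ioi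
      fun v _ => one_sub_exp_le _
  rw [integral_const_mul, integral_Ioi_rpow_of_lt hlt hN] at h1
  rw [show (n + 1 : ℝ) ^ (1 - m⁻¹) / (m⁻¹ - 1) = -(n + 1 : ℝ) ^ (-m⁻¹ + 1) / (-m⁻¹ + 1) by
    rw [show -m⁻¹ + 1 = -(m⁻¹ - 1) by ring, neg_div_neg_eq]; ring_nf]
  linarith

/-- Interpolated truncation error. -/
theorem trunc_err (n : ℕ) (hm0 : 0 < m) (hm1 : m < 1) {θ : ℝ} (hθ0 : 0 ≤ θ) (hθ1 : θ ≤ 1) {a : ℝ}
    (ha : 0 < a) :
    a ^ m * jc m - trunc n m a ≤ jc m ^ (1 - θ) * ((n + 1 : ℝ) ^ (1 - m⁻¹) / (m⁻¹ - 1)) ^ θ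
      * a ^ (m + θ * (1 - m)) := by
  obtain ⟨h0, h1, h2⟩ := trunc_mem n hm0 hm1 ha.le
  set x := a ^ m * jc m - trunc n m a
  set c := (n + 1 : ℝ) ^ (1 - m⁻¹) / (m⁻¹ - 1)
  have hJ := jc_pos hm0 hm1
  have hc : 0 < c := div_pos (by positivity) (sub_pos.2 ((one_lt_inv₀ hm0).2 hm1))
  have hx : 0 ≤ x := sub_nonneg.2 h1
  calc x = x ^ (1 - θ) * x ^ θ := by
        rw [← rpow_add' hx (by norm_num)]; norm_num
    _ ≤ (a ^ m * jc m) ^ (1 - θ) * (a * c) ^ θ :=
        mul_le_mul (rpow_le_rpow hx (by simp only [x]; linarith) (by linarith))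
          (rpow_le_rpow hx h2 hθ0) (rpow_nonneg hx _) (rpow_nonneg (by positivity) _)
    _ = _ := by
        rw [mul_rpow (rpow_nonneg ha.le m) hJ.le, mul_rpow ha.le hc.le, ← rpow_mul ha.le,
          show m + θ * (1 - m) = m * (1 - θ) + θ by ring, rpow_add ha]
        ring

theorem trunc_lower (n : ℕ) (hm0 : 0 < m) (hm1 : m < 1) {t : ℝ} (ht : 0 < t)
    (htn : t ^ m ≤ (n + 1 : ℝ)) : (1 - exp (-1)) * t ^ m ≤ trunc n m t := by
  have hint := (integrableOn_one_sub_exp hm0 hm1 ht.le)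
  have hc : 0 < t ^ m := rpow_pos_of_pos ht m
  calc (1 - exp (-1)) * t ^ m = ∫ _v in Ioc (0 : ℝ) (t ^ m), (1 - exp (-1)) := by
        simp [hc.le, mul_comm]
    _ ≤ ∫ v in Ioc (0 : ℝ) (t ^ m), (1 - exp (-(t * v ^ (-m⁻¹)))) := by
        refine setIntegral_mono_on (integrableOn_const (by simp))
          (hint.mono_set Ioc_subset_Ioi_self) measurableSet_Ioc fun v hv => ?_
        have : (t ^ m) ^ (-m⁻¹) ≤ v ^ (-m⁻¹) :=
          rpow_le_rpow_of_nonpos hv.1 hv.2 (neg_nonpos.2 (inv_nonneg.2 hm0.le))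
        rw [← rpow_mul ht.le, mul_neg, mul_inv_cancel₀ hm0.ne', rpow_neg_one] at this
        have : (1 : ℝ) ≤ t * v ^ (-m⁻¹) := by
          calc (1 : ℝ) = t * t⁻¹ := (mul_inv_cancel₀ ht.ne').symm
            _ ≤ _ := mul_le_mul_of_nonneg_left this ht.le
        gcongr
    _ ≤ trunc n m t := by
        refine setIntegral_mono_set (hint.mono_set Ioc_subset_Ioi_self)
          ((ae_restrict_iff' measurableSet_Ioc).2 (.of_forall fun v hv =>
            one_sub_exp_nonneg (mul_nonneg ht.le (rpow_nonneg hv.1.le _))))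
          (Ioc_subset_Ioc_right htn).eventuallyLE

section
variable {Ω : Type*} [MeasurableSpace Ω] {ν : Measure Ω} [IsProbabilityMeasure ν] {S : Ω → ℝ}

/-- One marked child. -/
noncomputable def one (n : ℕ) (m : ℝ) (ν : Measure Ω) (S : Ω → ℝ) (t : ℝ) : ℝ :=
  lap (uni.prod ν) (fun p => wgt n m p.1 * S p.2) t

theorem lap_zsum (n : ℕ) (t : ℝ) :
    lap (kids ν n) (zsum n m S) t = one n m ν S t ^ (n + 1) := by
  rw [lap, one, lap, kids]
  simp only [zsum, Finset.mul_sum, ← Finset.sum_neg_distrib, exp_sum]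
  rw [integral_fintype_prod_eq_pow (ι := Fin (n + 1))
    (fun p : ℝ × Ω => exp (-(t * (wgt n m p.1 * S p.2)))), Fintype.card_fin]

theorem one_mem (n : ℕ) (hS : Measurable S) (h0 : ∀ x, 0 < S x) {t : ℝ} (ht : 0 ≤ t) :
    one n m ν S t ∈ Icc (0 : ℝ) 1 :=
  lap_mem (((measurable_wgt n m).comp measurable_fst).mul (hS.comp measurable_snd))
    (fun p => mul_pos (wgt_pos n m _) (h0 _)) ht

theorem deficit_eq (n : ℕ) (hS : Measurable S) (h0 : ∀ x, 0 < S x) {t : ℝ} (ht : 0 ≤ t) :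
    (n + 1 : ℝ) * (1 - one n m ν S t) = ∫ x, trunc n m (t * S x) ∂ν := by
  have hi : Integrable (fun p : ℝ × Ω => exp (-(t * (wgt n m p.1 * S p.2)))) (uni.prod ν) :=
    integrable_lap (Z := fun p : ℝ × Ω => wgt n m p.1 * S p.2)
      (((measurable_wgt n m).comp measurable_fst).mul (hS.comp measurable_snd))
      (fun p => mul_pos (wgt_pos n m _) (h0 _)) ht
  have h1 : (1 : ℝ) - one n m ν S t
      = ∫ p, (1 - exp (-(t * (wgt n m p.1 * S p.2)))) ∂uni.prod ν := by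
    rw [integral_sub (integrable_const 1) hi]; simp [one, lap]
  rw [h1, integral_prod_symm (fun p => 1 - exp (-(t * (wgt n m p.1 * S p.2))))
    ((integrable_const 1).sub hi), ← integral_const_mul]
  refine integral_congr_ae (.of_forall fun x => ?_)
  simp only [← trunc_eq, mul_assoc, mul_comm (S x)]

theorem measurable_trunc (n : ℕ) : Measurable (trunc n m) :=
  (StronglyMeasurable.integral_prod_right' (ν := volume.restrict (Ioc (0 : ℝ) (n + 1)))
    (f := fun x : ℝ × ℝ => 1 - exp (-(x.1 * x.2 ^ (-m⁻¹))))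
    (by fun_prop : Measurable _).stronglyMeasurable).measurable

omit [IsProbabilityMeasure ν] in
theorem integrable_trunc (n : ℕ) (hm0 : 0 < m) (hm1 : m < 1) (hS : Measurable S)
    (h0 : ∀ x, 0 < S x) (hm : Integrable (fun x => S x ^ m) ν) {t : ℝ} (ht : 0 ≤ t) :
    Integrable (fun x => trunc n m (t * S x)) ν := by
  refine ((hm.const_mul (t ^ m)).mul_const (jc m)).mono'
    ((measurable_trunc n).comp (hS.const_mul t)).aestronglyMeasurable (.of_forall fun x => ?_)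
  obtain ⟨h1, h2, -⟩ := trunc_mem n hm0 hm1 (mul_nonneg ht (h0 x).le)
  rw [Real.norm_of_nonneg h1, ← mul_rpow ht (h0 x).le]
  exact h2

theorem zsum_lap_bound (n : ℕ) (hm0 : 0 < m) (hm1 : m < 1) (hS : Measurable S) (h0 : ∀ x, 0 < S x)
    (hm : Integrable (fun x => S x ^ m) ν) {t : ℝ} (ht : 0 < t) :
    1 - lap (kids ν n) (zsum n m S) t ≤ (jc m * ∫ x, S x ^ m ∂ν) * t ^ m := by
  rw [lap_zsum]
  have hq := one_mem (m := m) (ν := ν) n hS h0 ht.le
  have hB := one_add_mul_le_pow (a := one n m ν S t - 1) (by linarith [hq.1]) (n + 1)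
  rw [add_sub_cancel] at hB
  push_cast at hB
  have hd := deficit_eq (m := m) (ν := ν) n hS h0 ht.le
  calc 1 - one n m ν S t ^ (n + 1) ≤ (n + 1 : ℝ) * (1 - one n m ν S t) := by linarith
    _ ≤ ∫ x, t ^ m * jc m * S x ^ m ∂ν := by
        rw [hd]
        refine integral_mono (integrable_trunc n hm0 hm1 hS h0 hm ht.le) (hm.const_mul _) fun x => ?_
        rw [mul_right_comm, ← mul_rpow ht.le (h0 x).le]
        exact (trunc_mem n hm0 hm1 (mul_nonneg ht.le (h0 x).le)).2.1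
    _ = _ := by rw [integral_const_mul]; ring

theorem zsum_moment_bound (n : ℕ) (hm0 : 0 < m) (hm1 : m < 1) (hS : Measurable S)
    (h0 : ∀ x, 0 < S x) (hm : Integrable (fun x => S x ^ m) ν) {p : ℝ} (hp0 : 0 < p) (hpm : p < m) :
    Integrable (fun ω => zsum n m S ω ^ p) (kids ν n) ∧
      ∫ ω, zsum n m S ω ^ p ∂kids ν n ≤ (jc m * ∫ x, S x ^ m ∂ν) ^ (p / m) * kc m p := by
  refine moment_bound (measurable_zsum n m hS) (zsum_pos n m h0) hp0 hpm hm1.le
    (mul_pos (jc_pos hm0 hm1) ?_) fun t ht => zsum_lap_bound n hm0 hm1 hS h0 hm ht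
  rw [integral_pos_iff_support_of_nonneg (fun x => rpow_nonneg (h0 x).le m) hm]
  have : Function.support (fun x => S x ^ m) = univ :=
    eq_univ_of_forall fun x => (rpow_pos_of_pos (h0 x) m).ne'
  simp [this]

theorem deficit_close (n : ℕ) (hm0 : 0 < m) (hm1 : m < 1) (hS : Measurable S) (h0 : ∀ x, 0 < S x)
    (hm : Integrable (fun x => S x ^ m) ν) {θ : ℝ} (hθ0 : 0 ≤ θ) (hθ1 : θ ≤ 1)
    (hp : Integrable (fun x => S x ^ (m + θ * (1 - m))) ν) {t : ℝ} (ht : 0 < t) :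
    |(n + 1 : ℝ) * (1 - one n m ν S t) - t ^ m * jc m * ∫ x, S x ^ m ∂ν| ≤
      jc m ^ (1 - θ) * ((n + 1 : ℝ) ^ (1 - m⁻¹) / (m⁻¹ - 1)) ^ θ * t ^ (m + θ * (1 - m))
        * ∫ x, S x ^ (m + θ * (1 - m)) ∂ν := by
  rw [deficit_eq n hS h0 ht.le, ← integral_const_mul, ← integral_const_mul,
    ← integral_sub (integrable_trunc n hm0 hm1 hS h0 hm ht.le) (hm.const_mul _)]
  refine abs_integral_le_integral_abs.trans (integral_mono
    ((integrable_trunc n hm0 hm1 hS h0 hm ht.le).sub (hm.const_mul _)).abs (hp.const_mul _)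
    fun x => ?_)
  have ha : 0 < t * S x := mul_pos ht (h0 x)
  have h1 := (trunc_mem n hm0 hm1 ha.le).2.1
  have h2 := trunc_err n hm0 hm1 hθ0 hθ1 ha
  rw [mul_rpow ht.le (h0 x).le] at h1 h2
  rw [mul_rpow ht.le (h0 x).le] at h2
  rw [abs_le]
  constructor <;>
    nlinarith [h1, h2]

end

section
variable {Ω : ℕ → Type*} [∀ n, MeasurableSpace (Ω n)] {ν : ∀ n, Measure (Ω n)}
  [∀ n, IsProbabilityMeasure (ν n)] {S : ∀ n, Ω n → ℝ}

theorem tendsto_rate {p : ℝ} (hp : 0 < p) {nn : ℕ → ℕ} (hn : Tendsto nn atTop atTop) :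
    Tendsto (fun k => (nn k + 1 : ℝ) ^ (-p)) atTop (𝓝 0) :=
  ((tendsto_rpow_neg_atTop hp).comp
    (tendsto_atTop_add_const_right atTop (1 : ℝ) tendsto_natCast_atTop_atTop)).comp hn

/-- Powers of numbers close to one, along any sequence of exponents going to infinity. -/
theorem tendsto_pow_exp {F : ℕ → ℝ} {nn : ℕ → ℕ} {L : ℝ} (hn : Tendsto nn atTop atTop)
    (hd : Tendsto (fun k => (nn k + 1 : ℝ) * (1 - F k)) atTop (𝓝 L)) :
    Tendsto F atTop (𝓝 1) ∧ Tendsto (fun k => F k ^ (nn k + 1)) atTop (𝓝 (exp (-L))) := by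
  have h0 : Tendsto (fun k => (nn k + 1 : ℝ) ^ (-(1 : ℝ))) atTop (𝓝 0) := tendsto_rate one_pos hn
  have hF : Tendsto F atTop (𝓝 1) := by
    have h2 := (h0.mul hd).const_sub 1
    rw [zero_mul, sub_zero] at h2
    refine h2.congr fun k => ?_
    rw [rpow_neg_one, inv_mul_cancel_left₀ (by positivity)]
    ring
  refine ⟨hF, ?_⟩
  have hpos : ∀ᶠ k in atTop, 0 < F k := hF.eventually (eventually_gt_nhds one_pos)
  have hlog : Tendsto (fun k => (nn k + 1 : ℝ) * log (F k)) atTop (𝓝 (-L)) := by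
    have hlow : Tendsto (fun k => -((nn k + 1 : ℝ) * (1 - F k)) / F k) atTop (𝓝 (-L / 1)) :=
      hd.neg.div hF one_ne_zero
    rw [div_one] at hlow
    refine tendsto_of_tendsto_of_tendsto_of_le_of_le' hlow hd.neg ?_ ?_
    · filter_upwards [hpos] with k hk
      have h := mul_le_mul_of_nonneg_left (one_sub_inv_le_log_of_pos hk)
        (by positivity : (0 : ℝ) ≤ nn k + 1)
      refine le_trans (le_of_eq ?_) h
      field_simp
      ring
    · filter_upwards [hpos] with k hk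
      have h := mul_le_mul_of_nonneg_left (log_le_sub_one_of_pos hk)
        (by positivity : (0 : ℝ) ≤ nn k + 1)
      linarith
  refine ((continuous_exp.tendsto _).comp hlog).congr' ?_
  filter_upwards [hpos] with k hk
  show exp _ = _
  rw [← exp_log (pow_pos hk _), Real.log_pow]
  push_cast
  ring_nf

theorem tendsto_deficit {nn : ℕ → ℕ} (hn : Tendsto nn atTop atTop) (hm0 : 0 < m) (hm1 : m < 1)
    (hS : ∀ k, Measurable (S k)) (h0 : ∀ k x, 0 < S k x)
    (hm : ∀ k, Integrable (fun x => S k x ^ m) (ν k)) {p : ℝ}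
    (hmp : m < p) (hp1 : p ≤ 1) (hp : ∀ k, Integrable (fun x => S k x ^ p) (ν k)) {C M : ℝ}
    (hC : ∀ k, ∫ x, S k x ^ p ∂ν k ≤ C)
    (hM : Tendsto (fun k => ∫ x, S k x ^ m ∂ν k) atTop (𝓝 M)) {t : ℝ} (ht : 0 < t) :
    Tendsto (fun k => (nn k + 1 : ℝ) * (1 - one (nn k) m (ν k) (S k) t)) atTop
      (𝓝 (jc m * M * t ^ m)) := by
  have h1m : 0 < 1 - m := by linarith
  set θ := (p - m) / (1 - m)
  have hθp : m + θ * (1 - m) = p := by simp only [θ]; field_simp; ring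
  have hθ0 : 0 < θ := div_pos (by linarith) h1m
  have hθ1 : θ ≤ 1 := (div_le_one h1m).2 (by linarith)
  have hb : 0 < m⁻¹ - 1 := sub_pos.2 ((one_lt_inv₀ hm0).2 hm1)
  set r : ℕ → ℝ := fun k =>
    jc m ^ (1 - θ) * ((nn k + 1 : ℝ) ^ (1 - m⁻¹) / (m⁻¹ - 1)) ^ θ * t ^ p * C
  have hr : Tendsto r atTop (𝓝 0) := by
    have h2 := ((tendsto_rate hb hn).div_const (m⁻¹ - 1)).rpow_const (p := θ) (.inr hθ0.le)
    simp only [zero_div, zero_rpow hθ0.ne', neg_sub] at h2
    simpa [r] using ((h2.const_mul (jc m ^ (1 - θ))).mul_const (t ^ p)).mul_const C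
  rw [show jc m * M * t ^ m = t ^ m * jc m * M by ring]
  refine Tendsto.congr_dist (hM.const_mul _) (squeeze_zero (fun k => dist_nonneg) (fun k => ?_) hr)
  have := deficit_close (nn k) hm0 hm1 (hS k) (h0 k) (hm k) hθ0.le hθ1 (by rw [hθp]; exact hp k) ht
  rw [hθp] at this
  rw [Real.dist_eq, abs_sub_comm]
  have hK : 0 ≤ jc m ^ (1 - θ) * ((nn k + 1 : ℝ) ^ (1 - m⁻¹) / (m⁻¹ - 1)) ^ θ * t ^ p :=
    mul_nonneg (mul_nonneg (rpow_nonneg (jc_pos hm0 hm1).le _)
      (rpow_nonneg (div_nonneg (by positivity) hb.le) _)) (rpow_nonneg ht.le _)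
  exact this.trans (mul_le_mul_of_nonneg_left (hC k) hK)

theorem tendsto_lap_zsum {nn : ℕ → ℕ} (hn : Tendsto nn atTop atTop) (hm0 : 0 < m) (hm1 : m < 1)
    (hS : ∀ k, Measurable (S k)) (h0 : ∀ k x, 0 < S k x)
    (hm : ∀ k, Integrable (fun x => S k x ^ m) (ν k)) {p : ℝ}
    (hmp : m < p) (hp1 : p ≤ 1) (hp : ∀ k, Integrable (fun x => S k x ^ p) (ν k)) {C M : ℝ}
    (hC : ∀ k, ∫ x, S k x ^ p ∂ν k ≤ C)
    (hM : Tendsto (fun k => ∫ x, S k x ^ m ∂ν k) atTop (𝓝 M)) {t : ℝ} (ht : 0 < t) :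
    Tendsto (fun k => lap (kids (ν k) (nn k)) (zsum (nn k) m (S k)) t) atTop
      (𝓝 (exp (-(jc m * M * t ^ m)))) := by
  simp_rw [lap_zsum]
  exact (tendsto_pow_exp hn (tendsto_deficit hn hm0 hm1 hS h0 hm hmp hp1 hp hC hM ht)).2

end

/-- The pure cascade weights have bounded inverse moments. -/
theorem exists_inv_wgt_bound (hm0 : 0 < m) (hm1 : m < 1) : ∃ C : ℝ, 0 ≤ C ∧ ∀ n,
    Integrable (fun u : Fin (n + 1) → ℝ => (∑ i, wgt n m (u i))⁻¹) (Measure.pi fun _ => uni) ∧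
      ∫ u, (∑ i, wgt n m (u i))⁻¹ ∂(Measure.pi fun _ : Fin (n + 1) => uni) ≤ C := by
  have hq : ∀ n, Measurable fun u : Fin (n + 1) → ℝ => ∑ i, wgt n m (u i) := fun n =>
    Finset.measurable_sum _ fun i _ => (measurable_wgt n m).comp (measurable_pi_apply i)
  have hlow : ∀ n : ℕ, ∀ᵐ u ∂uni, (n + 1 : ℝ) ^ (-m⁻¹) ≤ wgt n m u := fun n => by
    filter_upwards [wgt_uni n m, ae_restrict_mem (μ := volume) measurableSet_Ioc] with u hu hmem
    rw [hu]
    exact rpow_le_rpow_of_nonpos (mul_pos (by positivity) hmem.1)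
      (mul_le_of_le_one_right (by positivity) hmem.2) (neg_nonpos.2 (inv_nonneg.2 hm0.le))
  set c := 1 - exp (-(1 : ℝ))
  have hc : 0 < c := by
    have : exp (-(1 : ℝ)) < 1 := exp_lt_one_iff.2 (by norm_num)
    simp only [c]; linarith
  set J : ℝ := ∫ t in Ioi (0 : ℝ), exp (-c * t ^ m)
  set e : ℕ → ℝ := fun n => exp (-(n : ℝ)) * (n + 1 : ℝ) ^ m⁻¹
  have he : Tendsto e atTop (𝓝 0) := by
    have h1 := ((tendsto_rpow_mul_exp_neg_mul_atTop_nhds_zero m⁻¹ 1 one_pos).comp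
      (tendsto_atTop_add_const_right atTop (1 : ℝ) tendsto_natCast_atTop_atTop)).const_mul (exp 1)
    rw [mul_zero] at h1
    refine h1.congr fun n => ?_
    simp only [e, Function.comp, neg_mul, one_mul, neg_add, exp_add]
    have : exp (1 : ℝ) * exp (-1) = 1 := by rw [← exp_add]; simp
    linear_combination (exp (-(n : ℝ)) * (n + 1 : ℝ) ^ m⁻¹) * this
  obtain ⟨B, hB⟩ := he.bddAbove_range
  refine ⟨J + B, ?_, fun n => ?_⟩
  · exact add_nonneg (setIntegral_nonneg measurableSet_Ioi fun t _ => (exp_pos _).le)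
      ((show 0 ≤ e 0 by positivity).trans (hB ⟨0, rfl⟩))
  have hpos : ∀ u : Fin (n + 1) → ℝ, 0 < ∑ i, wgt n m (u i) := fun u =>
    Finset.sum_pos (fun i _ => wgt_pos n m _) Finset.univ_nonempty
  -- integrability from an a.e. bound
  have hint : Integrable (fun u : Fin (n + 1) → ℝ => (∑ i, wgt n m (u i))⁻¹)
      (Measure.pi fun _ => uni) := by
    refine Integrable.of_bound (hq n).inv.aestronglyMeasurable ((n + 1 : ℝ) ^ m⁻¹) ?_
    filter_upwards [(measurePreserving_eval (fun _ : Fin (n + 1) => uni) 0).quasiMeasurePreserving.ae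
      (hlow n)] with u hu
    rw [Real.norm_of_nonneg (inv_pos.2 (hpos u)).le, ← inv_inv ((n + 1 : ℝ) ^ m⁻¹),
      ← rpow_neg (by positivity)]
    exact inv_anti₀ (by positivity) (hu.trans
      (Finset.single_le_sum (fun i _ => (wgt_pos n m (u i)).le) (Finset.mem_univ 0)))
  refine ⟨hint, ?_⟩
  have hone : ∀ t : ℝ, 0 < t → lap uni (wgt n m) t = 1 - trunc n m t / (n + 1) := fun t ht => by
    rw [← trunc_eq, mul_div_cancel_left₀ _ (by positivity : (n + 1 : ℝ) ≠ 0), lap,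
      integral_sub (integrable_const 1) (integrable_lap (measurable_wgt n m) (wgt_pos n m) ht.le)]
    simp
  have hprod : ∀ t, lap (Measure.pi fun _ : Fin (n + 1) => uni) (fun u => ∑ i, wgt n m (u i)) t
      = lap uni (wgt n m) t ^ (n + 1) := fun t => by
    rw [lap, lap]
    simp only [Finset.mul_sum, ← Finset.sum_neg_distrib, exp_sum]
    rw [integral_fintype_prod_eq_pow (ι := Fin (n + 1)) (fun u : ℝ => exp (-(t * wgt n m u))),
      Fintype.card_fin]
  have hdom : ∀ t : ℝ, 0 < t → lap uni (wgt n m) t ^ (n + 1)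
      ≤ exp (-c * t ^ m) + exp (-(n : ℝ)) * lap uni (wgt n m) t := fun t ht => by
    have hL := lap_mem (μ := uni) (measurable_wgt n m) (wgt_pos n m) ht.le
    by_cases htn : t ^ m ≤ (n + 1 : ℝ)
    · have h1 := trunc_lower n hm0 hm1 ht htn
      have h2 : lap uni (wgt n m) t ≤ exp (-(c * t ^ m / (n + 1))) := by
        refine le_trans ?_ (one_sub_le_exp_neg _)
        rw [hone t ht]
        gcongr
      calc lap uni (wgt n m) t ^ (n + 1) ≤ exp (-(c * t ^ m / (n + 1))) ^ (n + 1) :=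
            pow_le_pow_left₀ hL.1 h2 _
        _ = exp (-c * t ^ m) := by
            rw [← exp_nat_mul]; congr 1; push_cast; field_simp
        _ ≤ _ := le_add_of_nonneg_right (mul_nonneg (exp_pos _).le hL.1)
    · have h1 : lap uni (wgt n m) t ≤ exp (-1) := by
        calc lap uni (wgt n m) t ≤ ∫ _u, exp (-1) ∂uni := by
              refine integral_mono_ae (integrable_lap (measurable_wgt n m) (wgt_pos n m) ht.le)
                (integrable_const _) ?_
              filter_upwards [hlow n] with u hu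
              refine exp_le_exp.2 (neg_le_neg ?_)
              calc (1 : ℝ) = (n + 1 : ℝ) ^ m⁻¹ * (n + 1 : ℝ) ^ (-m⁻¹) := by
                    rw [← rpow_add (by positivity)]; simp
                _ ≤ t * wgt n m u := by
                    refine mul_le_mul ?_ hu (by positivity) ht.le
                    rw [← rpow_rpow_inv ht.le hm0.ne']
                    exact rpow_le_rpow (by positivity) (not_le.1 htn).le (inv_nonneg.2 hm0.le)
          _ = _ := by simp
      calc lap uni (wgt n m) t ^ (n + 1) = lap uni (wgt n m) t ^ n * lap uni (wgt n m) t :=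
            pow_succ _ _
        _ ≤ exp (-1) ^ n * lap uni (wgt n m) t :=
            mul_le_mul_of_nonneg_right (pow_le_pow_left₀ hL.1 h1 _) hL.1
        _ = exp (-(n : ℝ)) * lap uni (wgt n m) t := by rw [← exp_nat_mul]; ring_nf
        _ ≤ _ := le_add_of_nonneg_left (exp_pos _).le
  -- inverse moment as an integral of the Laplace transform
  have swap : ∀ {β : Type} [MeasurableSpace β] (μ : Measure β) [IsProbabilityMeasure μ] (W : β → ℝ),
      Measurable W → (∀ b, 0 < W b) → Integrable (fun b => (W b)⁻¹) μ →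
      IntegrableOn (lap μ W) (Ioi 0) ∧ ∫ t in Ioi (0 : ℝ), lap μ W t = ∫ b, (W b)⁻¹ ∂μ := by
    intro β _ μ _ W hW hW0 hWi
    have hP : Integrable (fun x : β × ℝ => exp (-(x.2 * W x.1)))
        (μ.prod (volume.restrict (Ioi 0))) := by
      rw [integrable_prod_iff (by fun_prop : Measurable _).aestronglyMeasurable]
      refine ⟨.of_forall fun b => ((integrableOn_exp_mul_Ioi (neg_lt_zero.2 (hW0 b)) 0).congr
        (.of_forall fun t => by ring_nf)), ?_⟩
      simp_rw [Real.norm_eq_abs, abs_exp, integral_exp_neg_mul (hW0 _)]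
      exact hWi
    refine ⟨hP.integral_prod_right, ?_⟩
    simp only [lap]
    rw [← integral_integral_swap hP]
    simp_rw [integral_exp_neg_mul (hW0 _)]
  have hw : Integrable (fun u => (wgt n m u)⁻¹) uni := by
    refine Integrable.of_bound (measurable_wgt n m).inv.aestronglyMeasurable ((n + 1 : ℝ) ^ m⁻¹) ?_
    filter_upwards [hlow n] with u hu
    rw [Real.norm_of_nonneg (inv_pos.2 (wgt_pos n m u)).le, ← inv_inv ((n + 1 : ℝ) ^ m⁻¹),
      ← rpow_neg (by positivity)]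
    exact inv_anti₀ (by positivity) hu
  obtain ⟨h1i, h1⟩ := swap uni (wgt n m) (measurable_wgt n m) (wgt_pos n m) hw
  obtain ⟨h2i, h2⟩ := swap (Measure.pi fun _ : Fin (n + 1) => uni)
    (fun u => ∑ i, wgt n m (u i)) (hq n) hpos hint
  have hci : IntegrableOn (fun t => exp (-c * t ^ m)) (Ioi 0) := by
    simpa using integrableOn_rpow_mul_exp_neg_mul_rpow (s := 0) (by norm_num) hm0 hc
  rw [← h2]
  calc ∫ t in Ioi (0 : ℝ), lap (Measure.pi fun _ : Fin (n + 1) => uni)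
          (fun u => ∑ i, wgt n m (u i)) t
      ≤ ∫ t in Ioi (0 : ℝ), (exp (-c * t ^ m) + exp (-(n : ℝ)) * lap uni (wgt n m) t) :=
        setIntegral_mono_on h2i (hci.add (h1i.const_mul _)) measurableSet_Ioi
          fun t ht => (hprod t).trans_le (hdom t ht)
    _ = J + exp (-(n : ℝ)) * ∫ u, (wgt n m u)⁻¹ ∂uni := by
        rw [integral_add hci (h1i.const_mul _), integral_const_mul, h1]
    _ ≤ J + B := by
        refine add_le_add le_rfl ?_
        calc exp (-(n : ℝ)) * ∫ u, (wgt n m u)⁻¹ ∂uni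
            ≤ exp (-(n : ℝ)) * ∫ _u, (n + 1 : ℝ) ^ m⁻¹ ∂uni := by
              refine mul_le_mul_of_nonneg_left (integral_mono_ae hw (integrable_const _) ?_) (exp_pos _).le
              filter_upwards [hlow n] with u hu
              rw [← inv_inv ((n + 1 : ℝ) ^ m⁻¹), ← rpow_neg (by positivity)]
              exact inv_anti₀ (by positivity) hu
          _ = e n := by simp [e]
          _ ≤ B := hB ⟨n, rfl⟩

theorem zsum_inv_bound {Ω : Type*} [MeasurableSpace Ω] {ν : Measure Ω} [IsProbabilityMeasure ν]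
    {S : Ω → ℝ} (n : ℕ) (hS : Measurable S) (h0 : ∀ x, 0 < S x)
    (hi : Integrable (fun x => (S x)⁻¹) ν)
    (hw : Integrable (fun u : Fin (n + 1) → ℝ => (∑ i, wgt n m (u i))⁻¹) (Measure.pi fun _ => uni)) :
    Integrable (fun ω => (zsum n m S ω)⁻¹) (kids ν n) ∧
      ∫ ω, (zsum n m S ω)⁻¹ ∂kids ν n ≤
        (∫ u, (∑ i, wgt n m (u i))⁻¹ ∂(Measure.pi fun _ : Fin (n + 1) => uni)) *
          ∫ x, (S x)⁻¹ ∂ν := by
  set ρ := Measure.pi fun _ : Fin (n + 1) => uni
  set η := Measure.pi fun _ : Fin (n + 1) => ν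
  set e := MeasurableEquiv.arrowProdEquivProdArrow ℝ Ω (Fin (n + 1))
  have he : MeasurePreserving e (kids ν n) (ρ.prod η) :=
    measurePreserving_arrowProdEquivProdArrow ℝ Ω (Fin (n + 1)) (fun _ => uni) (fun _ => ν)
  set q : (Fin (n + 1) → ℝ) → Fin (n + 1) → ℝ := fun u i =>
    wgt n m (u i) * ((∑ j, wgt n m (u j))⁻¹) ^ 2
  set F : (Fin (n + 1) → ℝ) × (Fin (n + 1) → Ω) → ℝ := fun x => ∑ i, q x.1 i * (S (x.2 i))⁻¹
  have hpos : ∀ u : Fin (n + 1) → ℝ, 0 < ∑ i, wgt n m (u i) := fun u =>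
    Finset.sum_pos (fun i _ => wgt_pos n m _) Finset.univ_nonempty
  have hqm : ∀ i, Measurable fun u => q u i := fun i =>
    ((measurable_wgt n m).comp (measurable_pi_apply i)).mul
      ((Finset.measurable_sum _ fun j _ =>
        (measurable_wgt n m).comp (measurable_pi_apply j)).inv.pow_const 2)
  have hq0 : ∀ u i, 0 ≤ q u i := fun u i => mul_nonneg (wgt_pos n m _).le (sq_nonneg _)
  have hqsum : ∀ u, ∑ i, q u i = (∑ i, wgt n m (u i))⁻¹ := fun u => by
    simp only [q, ← Finset.sum_mul]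
    have := (hpos u).ne'
    field_simp
  have hqi : ∀ i, Integrable (fun u => q u i) ρ := fun i =>
    hw.mono' (hqm i).aestronglyMeasurable (.of_forall fun u => by
      rw [Real.norm_of_nonneg (hq0 u i), ← hqsum u]
      exact Finset.single_le_sum (fun j _ => hq0 u j) (Finset.mem_univ i))
  have hsi : ∀ i, Integrable (fun s : Fin (n + 1) → Ω => (S (s i))⁻¹) η := fun i =>
    integrable_comp_eval (μ := fun _ : Fin (n + 1) => ν) hi
  have hFi : Integrable F (ρ.prod η) := integrable_finsetSum _ fun i _ => (hqi i).mul_prod (hsi i)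
  have hFe : ∫ x, F x ∂ρ.prod η = (∫ u, (∑ i, wgt n m (u i))⁻¹ ∂ρ) * ∫ x, (S x)⁻¹ ∂ν := by
    simp only [F]
    rw [integral_finsetSum _ fun i _ => (hqi i).mul_prod (hsi i)]
    rw [Finset.sum_congr rfl fun i _ =>
      integral_prod_mul (μ := ρ) (ν := η) (fun u => q u i) (fun s => (S (s i))⁻¹)]
    have hev : ∀ i, ∫ s : Fin (n + 1) → Ω, (S (s i))⁻¹ ∂η = ∫ x, (S x)⁻¹ ∂ν := fun i =>
      integral_comp_eval (μ := fun _ : Fin (n + 1) => ν) (f := fun x => (S x)⁻¹)
        hS.inv.aestronglyMeasurable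
    simp_rw [hev, ← Finset.sum_mul, ← hqsum]
    rw [integral_finsetSum _ fun i _ => hqi i]
  have hle : ∀ ω, (zsum n m S ω)⁻¹ ≤ F (e ω) := fun ω => by
    have hz := zsum_pos n m h0 ω
    have hW := hpos fun i => (ω i).1
    have hT := Finset.sq_sum_div_le_sum_sq_div Finset.univ (fun i => wgt n m (ω i).1)
      (g := fun i => wgt n m (ω i).1 * S (ω i).2) fun i _ => mul_pos (wgt_pos n m _) (h0 _)
    have hT' : (∑ i, wgt n m (ω i).1) ^ 2 * (zsum n m S ω)⁻¹
        ≤ ∑ i, wgt n m (ω i).1 * (S (ω i).2)⁻¹ := by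
      refine hT.trans_eq (Finset.sum_congr rfl fun i _ => ?_)
      have := (wgt_pos n m (ω i).1).ne'
      have := (h0 (ω i).2).ne'
      field_simp
    show _ ≤ ∑ i, wgt n m (ω i).1 * ((∑ j, wgt n m (ω j).1)⁻¹) ^ 2 * (S (ω i).2)⁻¹
    calc (zsum n m S ω)⁻¹
        = ((∑ j, wgt n m (ω j).1)⁻¹) ^ 2 * ((∑ i, wgt n m (ω i).1) ^ 2 * (zsum n m S ω)⁻¹) := by
          have := hW.ne'
          field_simp
      _ ≤ ((∑ j, wgt n m (ω j).1)⁻¹) ^ 2 * ∑ i, wgt n m (ω i).1 * (S (ω i).2)⁻¹ :=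
          mul_le_mul_of_nonneg_left hT' (sq_nonneg _)
      _ = _ := by rw [Finset.mul_sum]; exact Finset.sum_congr rfl fun i _ => by ring
  have hce : Integrable (fun ω => F (e ω)) (kids ν n) := he.integrable_comp_of_integrable hFi
  have hi' : Integrable (fun ω => (zsum n m S ω)⁻¹) (kids ν n) :=
    hce.mono' (measurable_zsum n m hS).inv.aestronglyMeasurable (.of_forall fun ω => by
      rw [Real.norm_of_nonneg (inv_pos.2 (zsum_pos n m h0 ω)).le]; exact hle ω)
  refine ⟨hi', (integral_mono hi' hce hle).trans_eq ?_⟩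
  rw [he.integral_comp' F, hFe]

end Vale.Agent.P157.Casc.Rec
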