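import Vale.Agent.P157.Casc.LimitStep

/-!
Finite Pareto trees of any depth: moments and the logarithm of the partition sum converge to the
nested recursion.
-/

open MeasureTheory Set Filter Topology Real

namespace Vale.Agent.P157.Casc.Rec

variable {ζ : Type}

/-- Randomness of a tree of depth `K` with `n + 1` children at every node: each child carries a
uniform variable for its weight, a mark and its subtree. -/
def TreeSpace (ζ : Type) (n : ℕ) : ℕ → Type
  | 0 => Unit
  | K + 1 => Fin (n + 1) → ℝ × (ζ × TreeSpace ζ n K)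

instance treeMeas [MeasurableSpace ζ] (n : ℕ) : (K : ℕ) → MeasurableSpace (TreeSpace ζ n K)
  | 0 => (inferInstance : MeasurableSpace Unit)
  | K + 1 =>
    let _ := treeMeas n K
    (inferInstance : MeasurableSpace (Fin (n + 1) → ℝ × (ζ × TreeSpace ζ n K)))

/-- The law of the tree. -/
noncomputable def treeLaw [MeasurableSpace ζ] (γ : Measure ζ) (n : ℕ) :
    (K : ℕ) → Measure (TreeSpace ζ n K)
  | 0 => Measure.dirac ()
  | K + 1 => kids (γ.prod (treeLaw γ n K)) n

/-- The partition sum: leaves weighted by the product of the weights along their branch. -/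
noncomputable def treeZ (n : ℕ) :
    (K : ℕ) → (Fin K → ℝ) → ((Fin K → ζ) → ℝ) → TreeSpace ζ n K → ℝ
  | 0, _, X, _ => X ![]
  | K + 1, m, X, ω =>
    zsum n (m 0) (fun c => treeZ n K (Fin.tail m) (fun z => X (Fin.cons c.1 z)) c.2) ω

/-- The nested recursion. -/
noncomputable def rec' [MeasurableSpace ζ] (γ : Measure ζ) :
    (K : ℕ) → (Fin K → ℝ) → ((Fin K → ζ) → ℝ) → ℝ
  | 0, _, X => X ![]
  | K + 1, m, X =>
    (∫ c, rec' γ K (Fin.tail m) (fun z => X (Fin.cons c z)) ^ m 0 ∂γ) ^ (m 0)⁻¹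

/-- Moment constant. -/
noncomputable def mom : (K : ℕ) → (Fin K → ℝ) → ℝ → ℝ
  | 0, _, _ => 1
  | K + 1, m, p =>
    (jc (m 0) * mom K (Fin.tail m) (m 0)) ^ (p / m 0) * (jc (p / m 0) / jc p)

/-- Moment bound constant. -/
noncomputable def momB : (K : ℕ) → (Fin K → ℝ) → ℝ → ℝ
  | 0, _, _ => 1
  | K + 1, m, p => (jc (m 0) * momB K (Fin.tail m) (m 0)) ^ (p / m 0) * kc (m 0) p

/-- Centring constant of the logarithm. -/
noncomputable def cen : (K : ℕ) → (Fin K → ℝ) → ℝ
  | 0, _ => 0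
  | K + 1, m => kap (m 0) + log (jc (m 0) * mom K (Fin.tail m) (m 0)) / m 0

/-- Admissible exponents. -/
def Expo {K : ℕ} (m : Fin K → ℝ) : Prop := StrictMono m ∧ ∀ i, 0 < m i ∧ m i < 1

theorem Expo.tail {K : ℕ} {m : Fin (K + 1) → ℝ} (h : Expo m) : Expo (Fin.tail m) :=
  ⟨fun _ _ hij => h.1 (Fin.succ_lt_succ_iff.2 hij), fun i => h.2 i.succ⟩

theorem Expo.lt_tail {K : ℕ} {m : Fin (K + 1) → ℝ} (h : Expo m) (i : Fin K) :
    m 0 < Fin.tail m i := h.1 (Fin.succ_pos i)

/-- An exponent strictly between the first and the second. -/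
theorem Expo.exists_between {K : ℕ} {m : Fin (K + 1) → ℝ} (h : Expo m) :
    ∃ p, m 0 < p ∧ p ≤ 1 ∧ ∀ i, p < Fin.tail m i := by
  rcases Nat.eq_zero_or_pos K with rfl | hK
  · exact ⟨1, (h.2 0).2, le_rfl, fun i => i.elim0⟩
  · obtain ⟨p, hp1, hp2⟩ := _root_.exists_between (h.lt_tail ⟨0, hK⟩)
    refine ⟨p, hp1, hp2.le.trans (h.2 _).2.le, fun i => hp2.trans_le (h.1.monotone ?_)⟩
    exact Fin.succ_le_succ_iff.2 (Fin.le_def.2 (Nat.zero_le _))

theorem treeZ_pos (n : ℕ) : ∀ (K : ℕ) (m : Fin K → ℝ) {X : (Fin K → ζ) → ℝ},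
    (∀ z, 0 < X z) → ∀ ω, 0 < treeZ n K m X ω
  | 0, _, _, hX, _ => hX _
  | K + 1, m, X, hX, ω => by
    simp only [treeZ]
    exact zsum_pos n (m 0) (fun c => treeZ_pos n K _ (fun _ => hX _) c.2) ω

variable [MeasurableSpace ζ] {γ : Measure ζ} [IsProbabilityMeasure γ]

instance treeLaw_prob (n : ℕ) : ∀ K, IsProbabilityMeasure (treeLaw γ n K)
  | 0 => by unfold treeLaw; exact Measure.dirac.isProbabilityMeasure
  | K + 1 => by
    have := treeLaw_prob n K
    unfold treeLaw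
    exact kids_prob _ n

theorem measurable_cons {K : ℕ} :
    Measurable fun p : ζ × (Fin K → ζ) => (Fin.cons p.1 p.2 : Fin (K + 1) → ζ) :=
  measurable_pi_lambda _ fun i => Fin.cases (by simpa using measurable_fst)
    (fun j => by simp only [Fin.cons_succ]; exact (measurable_pi_apply j).comp measurable_snd) i

theorem measurable_treeZ_param (n : ℕ) : ∀ (K : ℕ) (m : Fin K → ℝ) {α : Type} [MeasurableSpace α]
    {X : α → (Fin K → ζ) → ℝ}, Measurable (Function.uncurry X) →
    Measurable fun p : α × TreeSpace ζ n K => treeZ n K m (X p.1) p.2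
  | 0, _, _, _, _, hX => hX.comp (measurable_fst.prodMk measurable_const)
  | K + 1, m, α, _, X, hX => by
    have hX' : Measurable (Function.uncurry fun (q : α × ζ) (z : Fin K → ζ) =>
        X q.1 (Fin.cons q.2 z)) :=
      hX.comp ((measurable_fst.comp measurable_fst).prodMk
        (measurable_cons.comp ((measurable_snd.comp measurable_fst).prodMk measurable_snd)))
    have ih := measurable_treeZ_param n K (Fin.tail m) hX'
    show Measurable fun p : α × (Fin (n + 1) → ℝ × (ζ × TreeSpace ζ n K)) => ∑ i,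
      wgt n (m 0) (p.2 i).1 *
        treeZ n K (Fin.tail m) (fun z => X p.1 (Fin.cons (p.2 i).2.1 z)) (p.2 i).2.2
    refine Finset.measurable_sum _ fun i _ => ?_
    have hi : Measurable fun p : α × (Fin (n + 1) → ℝ × (ζ × TreeSpace ζ n K)) => p.2 i :=
      (measurable_pi_apply i).comp measurable_snd
    exact ((measurable_wgt n _).comp (measurable_fst.comp hi)).mul
      (ih.comp ((measurable_fst.prodMk (measurable_fst.comp (measurable_snd.comp hi))).prodMk
        (measurable_snd.comp (measurable_snd.comp hi))))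

theorem measurable_child (n : ℕ) {K : ℕ} (m : Fin K → ℝ) {X : (Fin (K + 1) → ζ) → ℝ}
    (hX : Measurable X) :
    Measurable fun c : ζ × TreeSpace ζ n K =>
      treeZ n K m (fun z => X (Fin.cons c.1 z)) c.2 :=
  measurable_treeZ_param (α := ζ) n K m (X := fun c z => X (Fin.cons c z))
    (hX.comp measurable_cons)

theorem measurable_treeZ (n : ℕ) (K : ℕ) (m : Fin K → ℝ) {X : (Fin K → ζ) → ℝ} (hX : Measurable X) :
    Measurable (treeZ n K m X) :=
  (measurable_treeZ_param (α := Unit) n K m (X := fun _ => X) (hX.comp measurable_snd)).comp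
    ((measurable_const (a := ())).prodMk measurable_id)

theorem measurable_rec_param : ∀ (K : ℕ) (m : Fin K → ℝ) {α : Type} [MeasurableSpace α]
    {X : α → (Fin K → ζ) → ℝ}, Measurable (Function.uncurry X) →
    Measurable fun a => rec' γ K m (X a)
  | 0, _, _, _, _, hX => hX.comp (measurable_id.prodMk measurable_const)
  | K + 1, m, α, _, X, hX => by
    have hX' : Measurable (Function.uncurry fun (q : α × ζ) (z : Fin K → ζ) =>
        X q.1 (Fin.cons q.2 z)) :=
      hX.comp ((measurable_fst.comp measurable_fst).prodMk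
        (measurable_cons.comp ((measurable_snd.comp measurable_fst).prodMk measurable_snd)))
    have ih := (measurable_rec_param K (Fin.tail m) hX').pow_const (m 0)
    exact (StronglyMeasurable.integral_prod_right' (ν := γ)
      ih.stronglyMeasurable).measurable.pow_const _

theorem measurable_rec_child {K : ℕ} (m : Fin K → ℝ) {X : (Fin (K + 1) → ζ) → ℝ}
    (hX : Measurable X) : Measurable fun c => rec' γ K m (fun z => X (Fin.cons c z)) :=
  measurable_rec_param (α := ζ) K m (X := fun c z => X (Fin.cons c z)) (hX.comp measurable_cons)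

/-- Slicing an integrable function along the first coordinate. -/
theorem slice {K : ℕ} {X : (Fin (K + 1) → ζ) → ℝ}
    (hX : Integrable X (Measure.pi fun _ => γ)) :
    (∀ᵐ c ∂γ, Integrable (fun z => X (Fin.cons c z)) (Measure.pi fun _ : Fin K => γ)) ∧
      Integrable (fun c => ∫ z, X (Fin.cons c z) ∂(Measure.pi fun _ : Fin K => γ)) γ ∧
      ∫ c, ∫ z, X (Fin.cons c z) ∂(Measure.pi fun _ : Fin K => γ) ∂γ
        = ∫ z, X z ∂(Measure.pi fun _ : Fin (K + 1) => γ) := by
  have he := (measurePreserving_piFinSuccAbove (fun _ : Fin (K + 1) => γ) 0).symm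
  have hfun : (fun p : ζ × (Fin K → ζ) =>
      X ((MeasurableEquiv.piFinSuccAbove (fun _ => ζ) 0).symm p)) = fun p => X (Fin.cons p.1 p.2) := by
    funext p
    congr 1
    simp [MeasurableEquiv.piFinSuccAbove, Fin.insertNthEquiv]
  have hi := he.integrable_comp_of_integrable hX
  rw [Function.comp_def, hfun] at hi
  refine ⟨hi.prod_right_ae, hi.integral_prod_left, ?_⟩
  rw [← integral_prod _ hi, ← hfun]
  exact he.integral_comp' X

theorem rpow_le_tangent {x a p : ℝ} (hx : 0 ≤ x) (ha : 0 < a) (hp0 : 0 ≤ p) (hp1 : p ≤ 1) :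
    x ^ p ≤ a ^ p * (p * (x / a) + (1 - p)) := by
  have h := Real.geom_mean_le_arith_mean2_weighted hp0 (by linarith : (0 : ℝ) ≤ 1 - p)
    (div_nonneg hx ha.le) zero_le_one (by ring)
  rw [one_rpow, mul_one, mul_one, div_rpow hx ha.le, div_le_iff₀ (rpow_pos_of_pos ha p)] at h
  linarith

theorem integral_pos_of_pos {α : Type*} [MeasurableSpace α] {μ : Measure α}
    [IsProbabilityMeasure μ] {f : α → ℝ} (hf : ∀ᵐ x ∂μ, 0 < f x) (hi : Integrable f μ) :
    0 < ∫ x, f x ∂μ := by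
  refine (integral_nonneg_of_ae (hf.mono fun x hx => hx.le)).lt_of_ne fun h => ?_
  have h0 := (integral_eq_zero_iff_of_nonneg_ae (hf.mono fun x hx => hx.le) hi).1 h.symm
  have : ∀ᵐ _x ∂μ, False := by
    filter_upwards [hf, h0] with x hx hx0
    simp only [Pi.zero_apply] at hx0
    linarith
  simp at this
  exact IsProbabilityMeasure.ne_zero μ this

theorem integrable_rpow_le_one {α : Type*} [MeasurableSpace α] {μ : Measure α}
    [IsProbabilityMeasure μ] {f : α → ℝ} (hm : AEStronglyMeasurable f μ) (hf : ∀ᵐ x ∂μ, 0 ≤ f x)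
    (hi : Integrable f μ) {p : ℝ} (hp0 : 0 ≤ p) (hp1 : p ≤ 1) :
    Integrable (fun x => f x ^ p) μ := by
  refine ((integrable_const 1).add hi).mono' ((hm.aemeasurable.pow_const p).aestronglyMeasurable) ?_
  filter_upwards [hf] with x hx
  rw [Real.norm_of_nonneg (rpow_nonneg hx p), Pi.add_apply]
  refine (rpow_le_tangent hx one_pos hp0 hp1).trans ?_
  rw [one_rpow, one_mul, div_one]
  nlinarith

/-- The recursion is positive and at most the mean. -/
theorem rec_bounds : ∀ (K : ℕ) {m : Fin K → ℝ}, Expo m → ∀ {X : (Fin K → ζ) → ℝ},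
    (∀ z, 0 < X z) → Measurable X → Integrable X (Measure.pi fun _ => γ) →
    0 < rec' γ K m X ∧ rec' γ K m X ≤ ∫ z, X z ∂(Measure.pi fun _ => γ) := by
  intro K
  induction K with
  | zero =>
    intro m _ X hX0 _ _
    refine ⟨hX0 _, le_of_eq ?_⟩
    rw [Measure.pi_of_empty, integral_dirac]
    exact congrArg X (Subsingleton.elim _ _)
  | succ K ih =>
    intro m hm X hX0 hXm hX
    obtain ⟨hs1, hs2, hs3⟩ := slice hX
    set f := fun c => rec' γ K (Fin.tail m) fun z => X (Fin.cons c z)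
    set g := fun c => ∫ z, X (Fin.cons c z) ∂(Measure.pi fun _ : Fin K => γ)
    have hfg : ∀ᵐ c ∂γ, 0 < f c ∧ f c ≤ g c := by
      filter_upwards [hs1] with c hc
      exact ih hm.tail (fun _ => hX0 _) (hXm.comp (measurable_cons.comp measurable_prodMk_left)) hc
    have hmf : Measurable f := measurable_rec_child _ hXm
    have hfi : Integrable f γ := hs2.mono' hmf.aestronglyMeasurable (by
      filter_upwards [hfg] with c hc
      rw [Real.norm_of_nonneg hc.1.le]; exact hc.2)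
    obtain ⟨h0, h1⟩ := hm.2 0
    have hpi : Integrable (fun c => f c ^ m 0) γ :=
      integrable_rpow_le_one hmf.aestronglyMeasurable (hfg.mono fun c hc => hc.1.le) hfi h0.le h1.le
    have hpos : 0 < ∫ c, f c ^ m 0 ∂γ :=
      integral_pos_of_pos (hfg.mono fun c hc => rpow_pos_of_pos hc.1 _) hpi
    refine ⟨rpow_pos_of_pos hpos _, ?_⟩
    set a := ∫ z, X z ∂(Measure.pi fun _ : Fin (K + 1) => γ)
    have ha : 0 < a := integral_pos_of_pos (.of_forall hX0) hX
    have hle : ∫ c, f c ^ m 0 ∂γ ≤ a ^ m 0 := by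
      calc ∫ c, f c ^ m 0 ∂γ ≤ ∫ c, a ^ m 0 * (m 0 * (g c / a) + (1 - m 0)) ∂γ := by
            refine integral_mono_ae hpi
              ((((hs2.div_const a).const_mul _).add (integrable_const _)).const_mul _) ?_
            filter_upwards [hfg] with c hc
            exact (rpow_le_rpow hc.1.le hc.2 h0.le).trans
              (rpow_le_tangent (hc.1.le.trans hc.2) ha h0.le h1.le)
        _ = a ^ m 0 := by
            rw [integral_const_mul, integral_add ((hs2.div_const a).const_mul _) (integrable_const _),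
              integral_const_mul, integral_div, hs3]
            simp only [integral_const, probReal_univ, smul_eq_mul, one_mul]
            rw [div_self ha.ne']
            ring
    calc rec' γ (K + 1) m X ≤ (a ^ m 0) ^ (m 0)⁻¹ :=
          rpow_le_rpow hpos.le hle (inv_nonneg.2 h0.le)
      _ = a := rpow_rpow_inv ha.le h0.ne'

theorem mom_pos : ∀ (K : ℕ) {m : Fin K → ℝ}, Expo m → ∀ {p : ℝ}, 0 < p → p ≤ 1 →
    (∀ i, p < m i) → 0 < mom K m p := by
  intro K
  induction K with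
  | zero => intro m _ p _ _ _; exact one_pos
  | succ K ih =>
    intro m hm p hp0 _ hp
    obtain ⟨h0, h1⟩ := hm.2 0
    exact mul_pos (rpow_pos_of_pos (mul_pos (jc_pos h0 h1) (ih hm.tail h0 h1.le hm.lt_tail)) _)
      (div_pos (jc_pos (div_pos hp0 h0) ((div_lt_one h0).2 (hp 0)))
        (jc_pos hp0 ((hp 0).trans h1)))

theorem momB_nonneg : ∀ (K : ℕ) {m : Fin K → ℝ}, Expo m → ∀ {p : ℝ}, 0 < p → p ≤ 1 →
    (∀ i, p < m i) → 0 ≤ momB K m p := by
  intro K
  induction K with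
  | zero => intro m _ p _ _ _; exact zero_le_one
  | succ K ih =>
    intro m hm p hp0 _ hp
    obtain ⟨h0, h1⟩ := hm.2 0
    refine mul_nonneg (rpow_nonneg (mul_nonneg (jc_pos h0 h1).le (ih hm.tail h0 h1.le hm.lt_tail)) _)
      (div_nonneg ?_ (jc_pos hp0 ((hp 0).trans h1)).le)
    exact setIntegral_nonneg measurableSet_Ioi fun v (hv : 0 < v) =>
      le_min zero_le_one (rpow_nonneg hv.le _)

theorem momB_pos : ∀ (K : ℕ) {m : Fin K → ℝ}, Expo m → ∀ {p : ℝ}, 0 < p → p ≤ 1 →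
    (∀ i, p < m i) → 0 < momB K m p := by
  intro K
  induction K with
  | zero => intro m _ p _ _ _; exact one_pos
  | succ K ih =>
    intro m hm p hp0 _ hp
    obtain ⟨h0, h1⟩ := hm.2 0
    refine mul_pos (rpow_pos_of_pos (mul_pos (jc_pos h0 h1) (ih hm.tail h0 h1.le hm.lt_tail)) _)
      (div_pos ?_ (jc_pos hp0 ((hp 0).trans h1)))
    have hint : IntegrableOn (fun v : ℝ => min 1 (v ^ (-(m 0 / p)))) (Ioi 0) := by
      simpa using integrableOn_min ((one_lt_div hp0).2 (hp 0)) zero_le_one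
    refine (setIntegral_pos_iff_support_of_nonneg_ae ((ae_restrict_iff' measurableSet_Ioi).2
      (.of_forall fun v (hv : 0 < v) => le_min zero_le_one (rpow_nonneg hv.le _))) hint).2 ?_
    refine lt_of_lt_of_le (by simp : (0 : ENNReal) < volume (Ioc (0 : ℝ) 1))
      (measure_mono fun v hv => ⟨?_, hv.1⟩)
    exact (lt_min one_pos (rpow_pos_of_pos hv.1 _)).ne'

/-- Bound on the `p`-th moments. -/
def Bounded (γ : Measure ζ) (n K : ℕ) (m : Fin K → ℝ) (p : ℝ) (X : (Fin K → ζ) → ℝ) : Prop :=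
  Integrable (fun ω => treeZ n K m X ω ^ p) (treeLaw γ n K) ∧
    ∫ ω, treeZ n K m X ω ^ p ∂treeLaw γ n K ≤ momB K m p * rec' γ K m X ^ p

theorem child_bound {K : ℕ} {m : Fin K → ℝ} (hm : Expo m) {X : (Fin (K + 1) → ζ) → ℝ}
    (hX0 : ∀ z, 0 < X z) (hXm : Measurable X) (hX : Integrable X (Measure.pi fun _ => γ))
    {p : ℝ} (hp0 : 0 < p) (hp1 : p ≤ 1) (n : ℕ)
    (ih : ∀ᵐ c ∂γ, Bounded γ n K m p fun z => X (Fin.cons c z)) :
    Integrable (fun c : ζ × TreeSpace ζ n K =>
        treeZ n K m (fun z => X (Fin.cons c.1 z)) c.2 ^ p) (γ.prod (treeLaw γ n K)) ∧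
      ∫ c, treeZ n K m (fun z => X (Fin.cons c.1 z)) c.2 ^ p ∂γ.prod (treeLaw γ n K)
        ≤ momB K m p * ∫ c, rec' γ K m (fun z => X (Fin.cons c z)) ^ p ∂γ := by
  obtain ⟨hs1, hs2, -⟩ := slice hX
  set f := fun c => rec' γ K m fun z => X (Fin.cons c z)
  have hfg : ∀ᵐ c ∂γ, 0 < f c ∧ f c ≤ ∫ z, X (Fin.cons c z) ∂(Measure.pi fun _ : Fin K => γ) := by
    filter_upwards [hs1] with c hc
    exact rec_bounds K hm (fun _ => hX0 _) (hXm.comp (measurable_cons.comp measurable_prodMk_left)) hc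
  have hmf : Measurable f := measurable_rec_child m hXm
  have hfi : Integrable f γ := hs2.mono' hmf.aestronglyMeasurable (by
    filter_upwards [hfg] with c hc
    rw [Real.norm_of_nonneg hc.1.le]; exact hc.2)
  have hfp : Integrable (fun c => momB K m p * f c ^ p) γ :=
    (integrable_rpow_le_one hmf.aestronglyMeasurable (hfg.mono fun c hc => hc.1.le) hfi
      hp0.le hp1).const_mul _
  have hmS : Measurable fun c : ζ × TreeSpace ζ n K =>
      treeZ n K m (fun z => X (Fin.cons c.1 z)) c.2 ^ p := (measurable_child n m hXm).pow_const p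
  have hint : Integrable (fun c : ζ × TreeSpace ζ n K =>
      treeZ n K m (fun z => X (Fin.cons c.1 z)) c.2 ^ p) (γ.prod (treeLaw γ n K)) := by
    rw [integrable_prod_iff hmS.aestronglyMeasurable]
    refine ⟨ih.mono fun c hc => hc.1, ?_⟩
    refine hfp.mono' (StronglyMeasurable.integral_prod_right'
      hmS.norm.stronglyMeasurable).aestronglyMeasurable ?_
    filter_upwards [ih] with c hc
    rw [Real.norm_of_nonneg (integral_nonneg fun ω => norm_nonneg _)]
    refine le_trans (le_of_eq (integral_congr_ae (.of_forall fun ω => ?_))) hc.2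
    exact Real.norm_of_nonneg (rpow_nonneg (treeZ_pos n K m (fun _ => hX0 _) ω).le p)
  refine ⟨hint, ?_⟩
  rw [integral_prod _ hint, ← integral_const_mul]
  exact integral_mono_ae hint.integral_prod_left hfp (ih.mono fun c hc => hc.2)

/-- Moments below the first exponent. -/
theorem tree_bound : ∀ (K : ℕ) {m : Fin K → ℝ}, Expo m → ∀ {X : (Fin K → ζ) → ℝ},
    (∀ z, 0 < X z) → Measurable X → Integrable X (Measure.pi fun _ => γ) →
    ∀ {p : ℝ}, 0 < p → p ≤ 1 → (∀ i, p < m i) → ∀ n, Bounded γ n K m p X := by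
  intro K
  induction K with
  | zero =>
    intro m _ X _ _ _ p _ _ _ n
    exact ⟨integrable_const (X ![] ^ p), by simp [treeZ, rec', momB]⟩
  | succ K ih =>
    intro m hm X hX0 hXm hX p hp0 hp1 hp n
    obtain ⟨h0, h1⟩ := hm.2 0
    obtain ⟨hs1, -, -⟩ := slice hX
    obtain ⟨hA1, hA2⟩ := child_bound hm.tail hX0 hXm hX h0 h1.le n (hs1.mono fun c hc =>
      ih hm.tail (fun _ => hX0 _) (hXm.comp (measurable_cons.comp measurable_prodMk_left))
        hc h0 h1.le hm.lt_tail n)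
    set S : ζ × TreeSpace ζ n K → ℝ := fun c =>
      treeZ n K (Fin.tail m) (fun z => X (Fin.cons c.1 z)) c.2
    set I := ∫ c, rec' γ K (Fin.tail m) (fun z => X (Fin.cons c z)) ^ m 0 ∂γ
    have hS : Measurable S := measurable_child n _ hXm
    have hS0 : ∀ c, 0 < S c := fun c => treeZ_pos n K _ (fun _ => hX0 _) c.2
    obtain ⟨hR, -⟩ := rec_bounds (γ := γ) (K + 1) hm hX0 hXm hX
    have hI0 : 0 ≤ I := by
      refine integral_nonneg_of_ae ?_
      filter_upwards [hs1] with c hc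
      exact rpow_nonneg (rec_bounds K hm.tail (fun _ => hX0 _)
        (hXm.comp (measurable_cons.comp measurable_prodMk_left)) hc).1.le _
    have hI : 0 < I := by
      refine hI0.lt_of_ne fun h => hR.ne' ?_
      show I ^ (m 0)⁻¹ = 0
      rw [← h, zero_rpow (inv_ne_zero h0.ne')]
    have hRp : rec' γ (K + 1) m X ^ p = I ^ (p / m 0) := by
      show (I ^ (m 0)⁻¹) ^ p = _
      rw [← rpow_mul hI.le, inv_mul_eq_div]
    have hJ := jc_pos h0 h1
    have hB0 : 0 < momB K (Fin.tail m) (m 0) := momB_pos K hm.tail h0 h1.le hm.lt_tail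
    obtain ⟨h3, h4⟩ := moment_bound (measurable_zsum n (m 0) hS) (zsum_pos n (m 0) hS0)
      hp0 (hp 0) h1.le (mul_pos hJ (mul_pos hB0 hI)) fun t ht =>
        (zsum_lap_bound n h0 h1 hS hS0 hA1 ht).trans (mul_le_mul_of_nonneg_right
          (mul_le_mul_of_nonneg_left hA2 hJ.le) (rpow_nonneg ht.le _))
    refine ⟨h3, h4.trans_eq ?_⟩
    rw [hRp, momB, ← mul_assoc (jc (m 0)), mul_rpow (mul_nonneg hJ.le hB0.le) hI.le]
    ring

/-- Inverse moments, bounded uniformly in the number of children. -/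
theorem tree_inv : ∀ (K : ℕ) {m : Fin K → ℝ}, Expo m → ∃ C : ℝ, 0 ≤ C ∧
    ∀ {X : (Fin K → ζ) → ℝ}, (∀ z, 0 < X z) → Measurable X →
      Integrable (fun z => (X z)⁻¹) (Measure.pi fun _ => γ) → ∀ n,
      Integrable (fun ω => (treeZ n K m X ω)⁻¹) (treeLaw γ n K) ∧
        ∫ ω, (treeZ n K m X ω)⁻¹ ∂treeLaw γ n K ≤ C * ∫ z, (X z)⁻¹ ∂(Measure.pi fun _ => γ) := by
  intro K
  induction K with
  | zero =>
    intro m _
    refine ⟨1, zero_le_one, fun {X} _ _ _ n => ⟨integrable_const (X ![])⁻¹, le_of_eq ?_⟩⟩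
    rw [Measure.pi_of_empty, integral_dirac, one_mul]
    show ∫ _ω, (X ![])⁻¹ ∂treeLaw γ n 0 = _
    rw [integral_const, probReal_univ, one_smul]
    exact congrArg (fun z => (X z)⁻¹) (Subsingleton.elim _ _)
  | succ K ih =>
    intro m hm
    obtain ⟨C, hC0, hC⟩ := ih hm.tail
    obtain ⟨h0, h1⟩ := hm.2 0
    obtain ⟨W, hW0, hW⟩ := exists_inv_wgt_bound h0 h1
    refine ⟨W * C, mul_nonneg hW0 hC0, fun {X} hX0 hXm hX n => ?_⟩
    obtain ⟨hs1, hs2, hs3⟩ := slice hX
    set S := fun c : ζ × TreeSpace ζ n K => treeZ n K (Fin.tail m) (fun z => X (Fin.cons c.1 z)) c.2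
    have hS : Measurable S := measurable_child n _ hXm
    have hS0 : ∀ c, 0 < S c := fun c => treeZ_pos n K _ (fun _ => hX0 _) c.2
    have hc' : ∀ᵐ c ∂γ, Integrable (fun ω => (S (c, ω))⁻¹) (treeLaw γ n K) ∧
        ∫ ω, (S (c, ω))⁻¹ ∂treeLaw γ n K
          ≤ C * ∫ z, (X (Fin.cons c z))⁻¹ ∂(Measure.pi fun _ : Fin K => γ) := by
      filter_upwards [hs1] with c hc
      exact hC (fun _ => hX0 _) (hXm.comp (measurable_cons.comp measurable_prodMk_left)) hc n
    have hint : Integrable (fun c => (S c)⁻¹) (γ.prod (treeLaw γ n K)) := by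
      have hSi : Measurable fun c => (S c)⁻¹ := hS.inv
      rw [integrable_prod_iff hSi.aestronglyMeasurable]
      refine ⟨hc'.mono fun c hc => hc.1, (hs2.const_mul C).mono'
        (StronglyMeasurable.integral_prod_right'
          hSi.norm.stronglyMeasurable).aestronglyMeasurable ?_⟩
      filter_upwards [hc'] with c hc
      rw [Real.norm_of_nonneg (integral_nonneg fun ω => norm_nonneg _)]
      refine le_trans (le_of_eq (integral_congr_ae (.of_forall fun ω => ?_))) hc.2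
      exact Real.norm_of_nonneg (inv_pos.2 (hS0 (c, ω))).le
    obtain ⟨h3, h4⟩ := zsum_inv_bound (m := m 0) n hS hS0 hint (hW n).1
    refine ⟨h3, h4.trans ?_⟩
    rw [mul_assoc]
    refine mul_le_mul (hW n).2 ?_ (integral_nonneg fun c => (inv_pos.2 (hS0 c)).le) hW0
    rw [integral_prod _ hint, ← hs3, ← integral_const_mul]
    exact integral_mono_ae hint.integral_prod_left (hs2.const_mul C) (hc'.mono fun c hc => hc.2)

/-- A sequence of leaf factors under one envelope. -/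
structure Env (γ : Measure ζ) {K : ℕ} (X : ℕ → (Fin K → ζ) → ℝ) (Xl V : (Fin K → ζ) → ℝ) :
    Prop where
  meas : ∀ k, Measurable (X k)
  measl : Measurable Xl
  measV : Measurable V
  pos : ∀ k z, 0 < X k z
  le : ∀ k z, X k z ≤ V z
  inv_le : ∀ k z, (X k z)⁻¹ ≤ V z
  intV : Integrable V (Measure.pi fun _ => γ)
  conv : ∀ z, Tendsto (fun k => X k z) atTop (𝓝 (Xl z))

section
variable {K : ℕ} {m : Fin K → ℝ} {X : ℕ → (Fin K → ζ) → ℝ} {Xl V : (Fin K → ζ) → ℝ}
  {nn : ℕ → ℕ}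

omit [IsProbabilityMeasure γ] in
theorem Env.posV (h : Env γ X Xl V) (z : Fin K → ζ) : 0 < V z :=
  (h.pos 0 z).trans_le (h.le 0 z)

omit [IsProbabilityMeasure γ] in
theorem Env.posl (h : Env γ X Xl V) (z : Fin K → ζ) : 0 < Xl z := by
  refine (inv_pos.2 (h.posV z)).trans_le (ge_of_tendsto' (h.conv z) fun k => ?_)
  exact (inv_le_comm₀ (h.posV z) (h.pos k z)).2 (h.inv_le k z)

omit [IsProbabilityMeasure γ] in
theorem Env.lel (h : Env γ X Xl V) (z : Fin K → ζ) : Xl z ≤ V z :=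
  le_of_tendsto' (h.conv z) fun k => h.le k z

omit [IsProbabilityMeasure γ] in
theorem Env.int (h : Env γ X Xl V) (k : ℕ) : Integrable (X k) (Measure.pi fun _ => γ) :=
  h.intV.mono' (h.meas k).aestronglyMeasurable
    (.of_forall fun z => by rw [Real.norm_of_nonneg (h.pos k z).le]; exact h.le k z)

omit [IsProbabilityMeasure γ] in
theorem Env.intl (h : Env γ X Xl V) : Integrable Xl (Measure.pi fun _ => γ) :=
  h.intV.mono' h.measl.aestronglyMeasurable
    (.of_forall fun z => by rw [Real.norm_of_nonneg (h.posl z).le]; exact h.lel z)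

omit [IsProbabilityMeasure γ] in
theorem Env.inti (h : Env γ X Xl V) (k : ℕ) :
    Integrable (fun z => (X k z)⁻¹) (Measure.pi fun _ => γ) :=
  h.intV.mono' (h.meas k).inv.aestronglyMeasurable
    (.of_forall fun z => by rw [Real.norm_of_nonneg (inv_pos.2 (h.pos k z)).le]; exact h.inv_le k z)

theorem Env.rec_pow_le (h : Env γ X Xl V) (hm : Expo m) (k : ℕ) {p : ℝ} (hp0 : 0 ≤ p)
    (hp1 : p ≤ 1) : rec' γ K m (X k) ^ p ≤ 1 + ∫ z, V z ∂(Measure.pi fun _ => γ) := by
  obtain ⟨h1, h2⟩ := rec_bounds (γ := γ) K hm (h.pos k) (h.meas k) (h.int k)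
  have h3 := integral_mono (h.int k) h.intV (h.le k)
  have h4 := rpow_le_tangent h1.le one_pos hp0 hp1
  rw [one_rpow, one_mul, div_one] at h4
  have h5 : p * rec' γ K m (X k) ≤ rec' γ K m (X k) := mul_le_of_le_one_left h1.le hp1
  linarith

end

theorem Env.child {K : ℕ} {X : ℕ → (Fin (K + 1) → ζ) → ℝ} {Xl V : (Fin (K + 1) → ζ) → ℝ}
    (h : Env γ X Xl V) : ∀ᵐ c ∂γ,
      Env γ (fun k z => X k (Fin.cons c z)) (fun z => Xl (Fin.cons c z))
        (fun z => V (Fin.cons c z)) := by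
  filter_upwards [(slice h.intV).1] with c hc
  have hc' : Measurable fun z : Fin K → ζ => (Fin.cons c z : Fin (K + 1) → ζ) :=
    measurable_cons.comp measurable_prodMk_left
  exact ⟨fun k => (h.meas k).comp hc', h.measl.comp hc', h.measV.comp hc',
    fun k _ => h.pos k _, fun k _ => h.le k _, fun k _ => h.inv_le k _, hc, fun _ => h.conv _⟩

/-- The children of the root: moments. -/
theorem child_seq {K : ℕ} {m : Fin K → ℝ} (hm : Expo m) {X : ℕ → (Fin (K + 1) → ζ) → ℝ}
    {Xl V : (Fin (K + 1) → ζ) → ℝ} (h : Env γ X Xl V) {nn : ℕ → ℕ} {p : ℝ} (hp0 : 0 < p)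
    (hp1 : p ≤ 1) (hp : ∀ i, p < m i)
    (ih : ∀ᵐ c ∂γ, Tendsto (fun k => ∫ ω, treeZ (nn k) K m (fun z => X k (Fin.cons c z)) ω ^ p
      ∂treeLaw γ (nn k) K) atTop (𝓝 (mom K m p * rec' γ K m (fun z => Xl (Fin.cons c z)) ^ p))) :
    (∀ k, Integrable (fun c : ζ × TreeSpace ζ (nn k) K =>
        treeZ (nn k) K m (fun z => X k (Fin.cons c.1 z)) c.2 ^ p)
        (γ.prod (treeLaw γ (nn k) K)) ∧
      ∫ c, treeZ (nn k) K m (fun z => X k (Fin.cons c.1 z)) c.2 ^ p ∂γ.prod (treeLaw γ (nn k) K)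
        ≤ momB K m p * (1 + ∫ z, V z ∂(Measure.pi fun _ : Fin (K + 1) => γ))) ∧
    Tendsto (fun k => ∫ c, treeZ (nn k) K m (fun z => X k (Fin.cons c.1 z)) c.2 ^ p
        ∂γ.prod (treeLaw γ (nn k) K)) atTop
      (𝓝 (mom K m p * ∫ c, rec' γ K m (fun z => Xl (Fin.cons c z)) ^ p ∂γ)) := by
  obtain ⟨-, hv2, hv3⟩ := slice h.intV
  have hB := momB_nonneg K hm hp0 hp1 hp
  set g := fun c => momB K m p * (1 + ∫ z, V (Fin.cons c z) ∂(Measure.pi fun _ : Fin K => γ))
  have hg : Integrable g γ := ((integrable_const (1 : ℝ)).add hv2).const_mul _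
  have hbd : ∀ k, ∀ᵐ c ∂γ,
      Bounded γ (nn k) K m p (fun z => X k (Fin.cons c z)) ∧
        ∫ ω, treeZ (nn k) K m (fun z => X k (Fin.cons c z)) ω ^ p ∂treeLaw γ (nn k) K ≤ g c :=
    fun k => by
      filter_upwards [h.child] with c hc
      have hb := tree_bound K hm (hc.pos k) (hc.meas k) (hc.int k) hp0 hp1 hp (nn k)
      exact ⟨hb, hb.2.trans (mul_le_mul_of_nonneg_left (hc.rec_pow_le hm k hp0.le hp1) hB)⟩
  have hint : ∀ k, Integrable (fun c : ζ × TreeSpace ζ (nn k) K =>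
      treeZ (nn k) K m (fun z => X k (Fin.cons c.1 z)) c.2 ^ p) (γ.prod (treeLaw γ (nn k) K)) :=
    fun k => (child_bound hm (h.pos k) (h.meas k) (h.int k) hp0 hp1 (nn k)
      ((hbd k).mono fun c hc => hc.1)).1
  refine ⟨fun k => ⟨hint k, ?_⟩, ?_⟩
  · rw [integral_prod _ (hint k)]
    refine (integral_mono_ae (hint k).integral_prod_left hg
      ((hbd k).mono fun c hc => hc.2)).trans_eq ?_
    rw [integral_const_mul, integral_add (integrable_const _) hv2, hv3]
    simp
  · rw [← integral_const_mul]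
    simp_rw [fun k => integral_prod _ (hint k)]
    refine tendsto_integral_of_dominated_convergence g
      (fun k => (hint k).integral_prod_left.aestronglyMeasurable) hg (fun k => ?_) ih
    filter_upwards [hbd k] with c hc
    rw [Real.norm_of_nonneg (integral_nonneg fun ω =>
      rpow_nonneg (treeZ_pos (nn k) K m (fun _ => h.pos k _) ω).le p)]
    exact hc.2

/-- The root Laplace transform along a sequence, given the moments of the children. -/
theorem seq_lap' {K : ℕ} {m : Fin (K + 1) → ℝ} (hm : Expo m) {X : ℕ → (Fin (K + 1) → ζ) → ℝ}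
    {Xl V : (Fin (K + 1) → ζ) → ℝ} (h : Env γ X Xl V) {nn : ℕ → ℕ} (hn : Tendsto nn atTop atTop)
    (hmom : ∀ q : ℝ, 0 < q → q ≤ 1 → (∀ i, q < Fin.tail m i) → ∀ᵐ c ∂γ,
      Tendsto (fun k => ∫ ω, treeZ (nn k) K (Fin.tail m) (fun z => X k (Fin.cons c z)) ω ^ q
        ∂treeLaw γ (nn k) K) atTop
        (𝓝 (mom K (Fin.tail m) q * rec' γ K (Fin.tail m) (fun z => Xl (Fin.cons c z)) ^ q))) :
    ∃ D A : ℝ, 0 < D ∧ 0 < A ∧
      A = jc (m 0) * mom K (Fin.tail m) (m 0) * rec' γ (K + 1) m Xl ^ m 0 ∧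
      (∀ k, ∀ t : ℝ, 0 < t →
        1 - lap (treeLaw γ (nn k) (K + 1)) (treeZ (nn k) (K + 1) m (X k)) t ≤ D * t ^ m 0) ∧
      ∀ t : ℝ, 0 < t → Tendsto
        (fun k => lap (treeLaw γ (nn k) (K + 1)) (treeZ (nn k) (K + 1) m (X k)) t)
        atTop (𝓝 (exp (-(A * t ^ m 0)))) := by
  obtain ⟨h0, h1⟩ := hm.2 0
  obtain ⟨q, hq0, hq1, hq⟩ := hm.exists_between
  obtain ⟨hA, hAl⟩ := child_seq hm.tail h h0 h1.le hm.lt_tail (hmom _ h0 h1.le hm.lt_tail)
  obtain ⟨hB, -⟩ := child_seq hm.tail h (h0.trans hq0) hq1 hq (hmom _ (h0.trans hq0) hq1 hq)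
  obtain ⟨hR, -⟩ := rec_bounds (γ := γ) (K + 1) hm h.posl h.measl h.intl
  set I := ∫ c, rec' γ K (Fin.tail m) (fun z => Xl (Fin.cons c z)) ^ m 0 ∂γ
  have hI0 : 0 ≤ I := by
    refine integral_nonneg_of_ae ?_
    filter_upwards [h.child] with c hc
    exact rpow_nonneg (rec_bounds K hm.tail hc.posl hc.measl hc.intl).1.le _
  have hIe : rec' γ (K + 1) m Xl ^ m 0 = I := by
    show (I ^ (m 0)⁻¹) ^ m 0 = I
    exact rpow_inv_rpow hI0 h0.ne'
  have hM0 : 0 < mom K (Fin.tail m) (m 0) := mom_pos K hm.tail h0 h1.le hm.lt_tail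
  have hJ := jc_pos h0 h1
  have hV : 0 ≤ ∫ z, V z ∂(Measure.pi fun _ : Fin (K + 1) => γ) :=
    integral_nonneg fun z => (h.posV z).le
  refine ⟨jc (m 0) * (momB K (Fin.tail m) (m 0) * (1 + ∫ z, V z ∂(Measure.pi fun _ => γ))), _,
    mul_pos hJ (mul_pos (momB_pos K hm.tail h0 h1.le hm.lt_tail) (by linarith)),
    mul_pos (mul_pos hJ hM0) (rpow_pos_of_pos hR (m 0)), rfl, fun k t ht => ?_, fun t ht => ?_⟩
  · exact (zsum_lap_bound (nn k) h0 h1 (measurable_child (nn k) _ (h.meas k))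
      (fun c => treeZ_pos (nn k) K _ (fun _ => h.pos k _) c.2) (hA k).1 ht).trans
        (mul_le_mul_of_nonneg_right (mul_le_mul_of_nonneg_left (hA k).2 hJ.le) (rpow_nonneg ht.le _))
  · have := tendsto_lap_zsum hn h0 h1 (ν := fun k => γ.prod (treeLaw γ (nn k) K))
      (fun k => measurable_child (nn k) (Fin.tail m) (h.meas k))
      (fun k c => treeZ_pos (nn k) K _ (fun _ => h.pos k _) c.2) (fun k => (hA k).1) hq0 hq1
      (fun k => (hB k).1) (fun k => (hB k).2) hAl ht
    rw [hIe, mul_assoc (jc (m 0))]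
    exact this

/-- Limits of the moments along a sequence. -/
theorem seq_moments : ∀ (K : ℕ) {m : Fin K → ℝ}, Expo m → ∀ {X : ℕ → (Fin K → ζ) → ℝ}
    {Xl V : (Fin K → ζ) → ℝ}, Env γ X Xl V → ∀ {nn : ℕ → ℕ}, Tendsto nn atTop atTop →
    ∀ {p : ℝ}, 0 < p → p ≤ 1 → (∀ i, p < m i) →
    Tendsto (fun k => ∫ ω, treeZ (nn k) K m (X k) ω ^ p ∂treeLaw γ (nn k) K) atTop
      (𝓝 (mom K m p * rec' γ K m Xl ^ p)) := by
  intro K
  induction K with
  | zero =>
    intro m _ X Xl V h nn _ p hp0 _ _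
    simpa [treeZ, rec', mom] using (h.conv ![]).rpow_const (.inr hp0.le)
  | succ K ih =>
    intro m hm X Xl V h nn hn p hp0 hp1 hp
    obtain ⟨h0, h1⟩ := hm.2 0
    obtain ⟨D, A, hD, hA, hAe, hbd, hl⟩ := seq_lap' hm h hn fun q hq0 hq1 hq =>
      h.child.mono fun c hc => ih hm.tail hc hn hq0 hq1 hq
    have := tendsto_moment (μ := fun k => treeLaw γ (nn k) (K + 1))
      (Z := fun k => treeZ (nn k) (K + 1) m (X k))
      (fun k => measurable_treeZ (nn k) (K + 1) m (h.meas k))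
      (fun k => treeZ_pos (nn k) (K + 1) m (h.pos k)) hp0 (hp 0) h1.le hA.le hD hbd hl
    convert this using 2
    have hR := (rec_bounds (γ := γ) (K + 1) hm h.posl h.measl h.intl).1
    rw [hAe, mul_rpow (mul_pos (jc_pos h0 h1) (mom_pos K hm.tail h0 h1.le hm.lt_tail)).le
      (rpow_pos_of_pos hR _).le, ← rpow_mul hR.le, mul_div_cancel₀ _ h0.ne', mom]
    ring

/-- The Laplace transform at the root. -/
theorem seq_lap {K : ℕ} {m : Fin (K + 1) → ℝ} (hm : Expo m) {X : ℕ → (Fin (K + 1) → ζ) → ℝ}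
    {Xl V : (Fin (K + 1) → ζ) → ℝ} (h : Env γ X Xl V) {nn : ℕ → ℕ}
    (hn : Tendsto nn atTop atTop) :
    ∃ D A : ℝ, 0 < D ∧ 0 < A ∧
      A = jc (m 0) * mom K (Fin.tail m) (m 0) * rec' γ (K + 1) m Xl ^ m 0 ∧
      (∀ k, ∀ t : ℝ, 0 < t →
        1 - lap (treeLaw γ (nn k) (K + 1)) (treeZ (nn k) (K + 1) m (X k)) t ≤ D * t ^ m 0) ∧
      ∀ t : ℝ, 0 < t → Tendsto
        (fun k => lap (treeLaw γ (nn k) (K + 1)) (treeZ (nn k) (K + 1) m (X k)) t)
        atTop (𝓝 (exp (-(A * t ^ m 0)))) :=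
  seq_lap' hm h hn fun _ hq0 hq1 hq =>
    h.child.mono fun _ hc => seq_moments K hm.tail hc hn hq0 hq1 hq

end Vale.Agent.P157.Casc.Rec
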