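import Vale.Agent.P157.Casc.LowerSys
import Vale.Agent.P157.Casc.SyncMeas
import Vale.Agent.P157.Formula.Opt

/-!
Facts on paths and levels used by the cavity step from below: bounds of the energy overlap, the law
of the levels on compact sets of variances, measurability and integrability of the errors.
-/

open MeasureTheory ProbabilityTheory Filter Topology Set

namespace Vale.Agent.P157.Casc.Low

variable {N M K n : ℕ}

theorem continuous_pathField3 :
    Continuous fun e : (Fin (K + 1) → ℝ) × ℝ × (Fin K → ℝ) => pathField e.1 e.2.1 e.2.2 := by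
  unfold pathField; fun_prop

theorem vF_facts (P : Pot) (Q : Fin (K + 1) → ℝ) :
    Monotone (vF P Q) ∧ ∀ l, 0 ≤ vF P Q l ∧ vF P Q l ≤ P.b1 ^ 2 := by
  set H : ℝ → (Fin K → ℝ) → ℝ := fun z y => P.f (pathField Q z y)
  set a : ℝ → (Fin K → ℝ) → ℝ := fun z y => P.f1 (pathField Q z y)
  have hH : Measurable (Function.uncurry H) :=
    ((pot_continuous P).comp (continuous_pathField2 Q)).measurable
  have ha : Measurable (Function.uncurry a) :=
    ((pot_continuous1 P).comp (continuous_pathField2 Q)).measurable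
  have h : ∀ z, Monotone (csq (gaussianReal 0 1) K (mlev K) (H z) (a z)) ∧
      0 ≤ csq (gaussianReal 0 1) K (mlev K) (H z) (a z) 0 ∧
      csq (gaussianReal 0 1) K (mlev K) (H z) (a z) (Fin.last K) ≤ P.b1 ^ 2 := fun z =>
    csq_mono (grid_mlev K) (hH.comp measurable_prodMk_left) (ha.comp measurable_prodMk_left)
      (fun y => P.h1 _) fun t => by
        refine (integrable_const (Real.exp (|t| * P.bF))).mono'
          ((((hH.comp measurable_prodMk_left).norm).const_mul t).exp).aestronglyMeasurable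
          (ae_of_all _ fun y => ?_)
        rw [Real.norm_of_nonneg (Real.exp_pos _).le]
        exact Real.exp_le_exp.2 ((mul_le_mul_of_nonneg_right (le_abs_self t) (abs_nonneg _)).trans
          (mul_le_mul_of_nonneg_left (P.hF _) (abs_nonneg _)))
  have hb : ∀ z l, 0 ≤ csq (gaussianReal 0 1) K (mlev K) (H z) (a z) l ∧
      csq (gaussianReal 0 1) K (mlev K) (H z) (a z) l ≤ P.b1 ^ 2 := fun z l =>
    ⟨(h z).2.1.trans ((h z).1 (Fin.zero_le l)), ((h z).1 (Fin.le_last l)).trans (h z).2.2⟩
  have hi : ∀ l, Integrable (fun z => csq (gaussianReal 0 1) K (mlev K) (H z) (a z) l)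
      (gaussianReal 0 1) := fun l =>
    integrable_of_bdd (measurable_csq_param K (mlev K) hH ha l).aestronglyMeasurable fun z =>
      (abs_of_nonneg (hb z l).1).trans_le (hb z l).2
  refine ⟨fun l l' hl => integral_mono (hi l) (hi l') fun z => (h z).1 hl, fun l =>
    ⟨integral_nonneg fun z => (hb z l).1, ?_⟩⟩
  refine (integral_mono (hi l) (integrable_const (P.b1 ^ 2)) fun z => (hb z l).2).trans_eq ?_
  simp

theorem measurable_vF (P : Pot) (l : Fin (K + 1)) :
    Measurable fun Q : Fin (K + 1) → ℝ => vF P Q l := by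
  have hc : Measurable fun e : ((Fin (K + 1) → ℝ) × ℝ) × (Fin K → ℝ) =>
      pathField e.1.1 e.1.2 e.2 :=
    (continuous_pathField3.comp (f := fun e : ((Fin (K + 1) → ℝ) × ℝ) × (Fin K → ℝ) =>
      (e.1.1, e.1.2, e.2)) (by fun_prop)).measurable
  exact ((measurable_csq_param (ν := gaussianReal 0 1) K (mlev K)
    (α := (Fin (K + 1) → ℝ) × ℝ) (H := fun e y => P.f (pathField e.1 e.2 y))
    (a := fun e y => P.f1 (pathField e.1 e.2 y)) ((pot_continuous P).measurable.comp hc)
    ((pot_continuous1 P).measurable.comp hc) l).stronglyMeasurable.integral_prod_right'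
      (ν := gaussianReal 0 1)).measurable

/-- The levels have the law of the cascade, uniformly on compact sets of variances. -/
theorem piX_uniform (P : Pot) (π : Prior N) {s : Set (CIdx N M K → ℝ)} (hs : IsCompact s) {η : ℝ}
    (hη : 0 < η) : ∃ n0, ∀ n ≥ n0, ∀ c ∈ s, ∀ l, |piX n P π c l - pi0 K| ≤ η := by
  have key : ∀ l, ∃ n0, ∀ n ≥ n0, ∀ c ∈ s, |piX n P π c l - pi0 K| ≤ η := fun l => by
    refine uniform_of_seq hs (fun c cl nn _ _ hlim hn ε hε => ?_) hη
    obtain ⟨A, hA⟩ := conv_leafY P π hlim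
    have h : Tendsto (fun k => piX (nn k) P π (c k) l) atTop (𝓝 (gap (mlev K) l)) :=
      (casc_level (grid_mlev K) hA hn l).congr fun k => ?_
    · rw [gap_mlev] at h
      have h' := (h.sub_const (pi0 K)).abs
      rw [sub_self, abs_zero] at h'
      exact h'.eventually (eventually_le_nhds hε)
    · symm
      have he := fun z ξ (α : Leaf K (nn k)) => show
          leafAvg P π (c k) (fun _ _ => (1 : ℝ)) z (path ξ α) = 1 by
        rw [leafAvg, div_eq_one_iff_eq (leafY_pos P π (c k) z _).ne', leafY]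
        simp
      rw [piX, mpair_level P π (c k) (d := 1) (fun _ _ _ => (1 : ℝ))
        (fun _ _ => continuous_const) (B := 1) (fun _ _ _ => (abs_one).le) l
        (fun _ st st' => onLev l (ovU π st st') 1) (fun z ξ st st' => by simp) (fun _ _ => continuous_const)
        fun G x y => by unfold onLev; split_ifs <;> simp]
      simp [he]
  choose n0 hn0 using key
  exact ⟨Finset.univ.sup n0, fun n hn c hc l =>
    hn0 l n ((Finset.le_sup (Finset.mem_univ l)).trans hn) c hc⟩

theorem pathField_zero (z : ℝ) (y : Fin K → ℝ) :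
    pathField (fun _ : Fin (K + 1) => (0 : ℝ)) z y = 0 := by simp [pathField]

theorem psiI_nonpos {p : Fin (K + 1) → ℝ} (hp : Monotone p) (hp0 : 0 ≤ p 0) : psiI p ≤ 0 := by
  have h := psiI_tangent hp hp0 (monotone_const (c := (0 : ℝ))) le_rfl
  have h1 : psiI (fun _ : Fin (K + 1) => (0 : ℝ)) = 0 := by
    simp [psiI, pathField_zero, casc_fix (gaussianReal 0 1) K (grid_mlev K).pos]
  have h2 : ∀ l, vI (fun _ : Fin (K + 1) => (0 : ℝ)) l = 0 := fun l => by
    have := (csq_const (ν := gaussianReal 0 1) 0 K (grid_mlev K)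
      (H := fun _ => (0 : ℝ)) measurable_const (integrable_const _)).2 l
    simp only [vI, pathField_zero, Real.cosh_zero, Real.log_one, Real.tanh_zero, this]
    simp
  simpa [h1, h2] using h

theorem sum_pi0_le {v : Fin (K + 1) → ℝ} {L : ℝ} (h : ∀ l, v l ≤ L) :
    pi0 K * ∑ l, v l ≤ L := by
  refine (mul_le_mul_of_nonneg_left (Finset.sum_le_sum fun l _ => h l)
    (by rw [pi0]; positivity)).trans_eq ?_
  rw [Finset.sum_const, Finset.card_univ, Fintype.card_fin, nsmul_eq_mul, pi0]
  push_cast
  field_simp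

/-- Values below all maxima are bounded. -/
theorem le_of_hyp (P : Pot) {α L V : ℝ} (hα : 0 ≤ α)
    (hV : ∀ q ∈ pathsQ K, ∃ p ∈ pathsP K L, V ≤ pfun psiI α P.f p q) : V ≤ α * P.bF + L / 2 := by
  obtain ⟨p, hp, h⟩ := hV (fun _ => 1) ⟨monotone_const, zero_le_one, rfl⟩
  have h1 := mul_le_mul_of_nonneg_left ((le_abs_self _).trans (Formula.abs_psiF_le
    (pot_continuous P).measurable P.hF (monotone_const (c := (1 : ℝ)) (α := Fin (K + 1))))) hα
  have h2 := sum_pi0_le (v := p) fun l => (hp.1 (Fin.le_last l)).trans hp.2.2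
  have h3 := psiI_nonpos hp.1 hp.2.1
  simp only [pfun, mul_one] at h
  linarith

section Errors

variable (P : Pot) {α L : ℝ} (hα : α * P.b1 ^ 2 ≤ L)

theorem stdP_eq (n M N : ℕ) (X : ℕ → ℝ) (l : Fin (K + 1)) :
    stdP n M N P (par0 K) X l = (M : ℝ) / N * vF P (stdQ n M N P (par0 K) X) l := by
  simp [stdP, pvec, qeff_par0]

include hα in
theorem stdP_mem (n : ℕ) (hN : 0 < N) (hM : (M : ℝ) ≤ α * N) (X : ℕ → ℝ) :
    stdP n M N P (par0 K) X ∈ pathsP K L ∧
      ∀ l, |stdP n M N P (par0 K) X l| ≤ α * P.b1 ^ 2 := by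
  obtain ⟨hm, hb⟩ := vF_facts (K := K) P (stdQ n M N P (par0 K) X)
  have hr : (M : ℝ) / N ≤ α := (div_le_iff₀ (Nat.cast_pos.2 hN)).2 hM
  have hl : ∀ l, 0 ≤ stdP n M N P (par0 K) X l ∧ stdP n M N P (par0 K) X l ≤ α * P.b1 ^ 2 :=
    fun l => by
      rw [stdP_eq]
      exact ⟨mul_nonneg (by positivity) (hb l).1,
        (mul_le_mul_of_nonneg_left (hb l).2 (by positivity)).trans
          (mul_le_mul_of_nonneg_right hr (sq_nonneg _))⟩
  refine ⟨⟨fun a b hab => ?_, (hl 0).1, (hl _).2.trans hα⟩,
    fun l => (abs_of_nonneg (hl l).1).trans_le (hl l).2⟩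
  rw [stdP_eq, stdP_eq]
  exact mul_le_mul_of_nonneg_left (hm hab) (by positivity)

theorem stdQ_mem (n M N : ℕ) (X : ℕ → ℝ) : stdQ n M N P (par0 K) X ∈ pathsQ K := qhat_mem n P _ _

theorem abs_stdQ_le (n M N : ℕ) (X : ℕ → ℝ) (l : Fin (K + 1)) :
    |stdQ n M N P (par0 K) X l| ≤ 1 := by
  obtain ⟨hm, h0, h1⟩ := stdQ_mem (K := K) P n M N X
  exact abs_le.2 ⟨by linarith [h0.trans (hm (Fin.zero_le l))], (hm (Fin.le_last l)).trans h1.le⟩

theorem measurable_stdQ (n : ℕ) (l : Fin (K + 1)) :
    Measurable fun x : Fin N → ℝ => stdQ n M N P (par0 K) (ext0 x) l := by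
  have hc := (continuous_stdc (M := M) (N := N) (par0 K)).measurable
  have hX : ∀ l, Measurable fun x : Fin N → ℝ =>
      qX n N P (isingP N) (stdc (par0 K) (ext0 x) : CIdx N M K → ℝ) l := fun l =>
    (measurable_mpair_param P (isingP N) hc (O := fun _ _ st st' =>
      onLev l (ovU (isingP N) st st') (ovR N (isingP N) st st'))
      fun _ _ => measurable_const).div_const _
  simp only [stdQ, qhat]
  by_cases hl : l = Fin.last K
  · simp only [if_pos hl]; exact measurable_const
  · simp only [if_neg hl]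
    exact (measurable_pi_apply l).comp
      ((continuous_monoP 1).measurable.comp (measurable_pi_lambda _ hX))

theorem measurable_stdP (n : ℕ) (l : Fin (K + 1)) :
    Measurable fun x : Fin N → ℝ => stdP n M N P (par0 K) (ext0 x) l := by
  simp only [stdP_eq]
  exact ((measurable_vF P l).comp
    (measurable_pi_lambda _ fun i => measurable_stdQ P n i)).const_mul _

include hα in
theorem integrable_errs (n : ℕ) (hN : 0 < N) (hM : (M : ℝ) ≤ α * N) :
    Integrable (fun x : Fin N → ℝ => baseErr n M N P (par0 K) (ext0 x)) (xlaw N) ∧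
      Integrable (fun x : Fin N → ℝ => statErr n M N P (par0 K) (ext0 x)) (xlaw N) := by
  have hc := (continuous_stdc (M := M) (N := N) (par0 K)).measurable
  set π := isingP N
  constructor
  · have hR : Measurable fun x : Fin N → ℝ => errR n P π (stdc (par0 K) (ext0 x) : CIdx N M K → ℝ)
        (stdQ n M N P (par0 K) (ext0 x)) :=
      measurable_mpair_param P π hc (O := fun x _ st st' =>
        (ovR N π st st' - stdQ n M N P (par0 K) (ext0 x) (ovU π st st')) ^ 2)
        fun s t => (measurable_const.sub ((measurable_stdQ P n _).comp measurable_fst)).pow_const 2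
    have hP : Measurable fun x : Fin N → ℝ => errP n P π (stdc (par0 K) (ext0 x) : CIdx N M K → ℝ)
        (stdP n M N P (par0 K) (ext0 x)) :=
      measurable_mpair_param P π hc (O := fun x G st st' =>
        (ovP N P π (stdc (par0 K) (ext0 x) : CIdx N M K → ℝ) G st st'
          - stdP n M N P (par0 K) (ext0 x) (ovU π st st')) ^ 2)
        fun s t => by
          refine (Measurable.sub ?_ ((measurable_stdP P n _).comp measurable_fst)).pow_const 2
          have hf := pot_continuous1 P
          have hs : Continuous fun y : (Fin N → ℝ) × (GIdx N M K n → ℝ) =>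
              (pull (stdc (par0 K) (ext0 y.1) : CIdx N M K → ℝ) : GIdx N M K n → ℝ) :=
            continuous_pi fun i => by
              have h1 := (continuous_stdc (M := M) (N := N) (par0 K)).comp
                (continuous_fst (Y := GIdx N M K n → ℝ))
              rcases i with e | ⟨o, i⟩
              · exact (continuous_apply (Sum.inl e)).comp h1
              · exact (continuous_apply (Sum.inr (lev o, i))).comp h1
          have hs' := fun i => (continuous_apply i).comp hs
          simp only [Function.comp_def] at hs'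
          exact Continuous.measurable (by unfold ovP lin; fun_prop)
    refine integrable_of_bdd (hR.add hP).aestronglyMeasurable
      (C := 4 + (α * P.b1 ^ 2 + α * P.b1 ^ 2) ^ 2) fun x => ?_
    refine (abs_add_le _ _).trans (add_le_add ?_ ?_) <;>
      refine abs_mpair_le P π _ (by positivity) fun G s t => ?_ <;> rw [abs_pow]
    · rw [show (4 : ℝ) = 2 ^ 2 by norm_num]
      exact pow_le_pow_left₀ (abs_nonneg _) ((abs_sub _ _).trans (by
        linarith [abs_ovR_le_one π s t, abs_stdQ_le (K := K) P n M N (ext0 x) (ovU π s t)])) 2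
    · refine pow_le_pow_left₀ (abs_nonneg _) ((abs_sub _ _).trans (add_le_add
        ((abs_ovP_le P π _ G s t).trans ?_) ((stdP_mem P hα n hN hM (ext0 x)).2 _))) 2
      rw [div_le_iff₀ (Nat.cast_pos.2 hN)]
      nlinarith [mul_le_mul_of_nonneg_right hM (sq_nonneg P.b1)]
  · set s : Set (Fin (K + 1) → ℝ) := Set.univ.pi fun _ => Icc (-(α * P.b1 ^ 2)) (α * P.b1 ^ 2)
    have hs : IsCompact s := isCompact_univ_pi fun _ => isCompact_Icc
    choose C hC using fun l : Fin (K + 1) =>
      hs.exists_bound_of_continuousOn (continuous_vI l).continuousOn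
    have hm : Measurable fun x : Fin N → ℝ => statErr n M N P (par0 K) (ext0 x) := by
      simp only [statErr, ceff_par0]
      refine (Finset.measurable_sum _ fun l _ => ((measurable_stdQ P n l).sub
        ((continuous_vI l).measurable.comp (measurable_pi_lambda _ fun i =>
          measurable_stdP P n i))).abs).const_mul _
    refine integrable_of_bdd hm.aestronglyMeasurable
      (C := |pi0 K| * ∑ l, (1 + C l)) fun x => ?_
    simp only [statErr, ceff_par0, abs_mul]
    refine mul_le_mul_of_nonneg_left ((Finset.abs_sum_le_sum_abs _ _).trans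
      (Finset.sum_le_sum fun l _ => ?_)) (abs_nonneg _)
    rw [abs_abs]
    refine (abs_sub _ _).trans (add_le_add (abs_stdQ_le P n M N _ l) ?_)
    rw [← Real.norm_eq_abs]
    exact hC l _ fun i _ => abs_le.1 ((stdP_mem P hα n hN hM (ext0 x)).2 i)

end Errors

/-- Almost every parameter lies in the box. -/
theorem ae_box (J : ℕ) : ∀ᵐ x ∂xlaw J, x ∈ Set.univ.pi fun _ : Fin J => Icc (1 : ℝ) 2 := by
  have : IsProbabilityMeasure (volume.restrict (Icc (1 : ℝ) 2)) := ⟨by norm_num⟩
  have h : ∀ᵐ x ∂xlaw J, ∀ i, x i ∈ Icc (1 : ℝ) 2 := ae_all_iff.2 fun i =>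
    (measurePreserving_eval (μ := fun _ : Fin J => volume.restrict (Icc (1 : ℝ) 2))
      i).quasiMeasurePreserving.ae (ae_restrict_mem measurableSet_Icc)
  filter_upwards [h] with x hx i _ using hx i

theorem abs_ext0_le {J : ℕ} {x : Fin J → ℝ}
    (hx : x ∈ Set.univ.pi fun _ : Fin J => Icc (1 : ℝ) 2) (i : ℕ) : |ext0 x i| ≤ 2 := by
  unfold ext0
  split_ifs with h
  · have := hx ⟨i, h⟩ (Set.mem_univ _)
    exact abs_le.2 ⟨by linarith [this.1], this.2⟩
  · simp

end Vale.Agent.P157.Casc.Low
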