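import Vale.Agent.P157.Casc.LowerStep

/-!
The increment of the free energy at fixed parameters of the perturbation, from below.
-/

open MeasureTheory ProbabilityTheory Filter Topology Set

namespace Vale.Agent.P157.Casc.Low

variable {N M K n : ℕ}

/-- Decoupling the new patterns. -/
theorem step_patterns (P : Pot) {α L : ℝ} (hL : α * P.b1 ^ 2 ≤ L) {B k : ℕ} {δ : ℝ} (hδ : 0 < δ)
    (hN : 0 < N) (hM : ((M + k : ℕ) : ℝ) ≤ α * ((N + B : ℕ) : ℝ))
    (hn : 0 < n) {D kb : ℝ} (hkb : (k : ℝ) * P.b1 ^ 2 ≤ kb) {X : ℕ → ℝ}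
    (herr : errR n P (isingP (N + B)) (sysS (K := K) n N B M k P X)
        (stdQ n (M + k) (N + B) P (par0 K) X)
      ≤ Real.exp (8 * D) * errR n P (isingP (N + B)) (stdc (par0 K) X : CIdx (N + B) (M + k) K → ℝ)
          (stdQ n (M + k) (N + B) P (par0 K) X)) :
    mfree n P (isingP (N + B)) (sysB (K := K) n N B M k P X)
        - (kb * (δ + 2 * B / ((N + B : ℕ) : ℝ)) / 2
          + kb / (8 * δ) * (Real.exp (8 * (2 * kb)) * (Real.exp (8 * D)
            * baseErr n (M + k) (N + B) P (par0 K) X)))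
      ≤ mfree n P (isingP (N + B)) (sysS (K := K) n N B M k P X) := by
  set π := isingP (N + B)
  set q := stdQ n (M + k) (N + B) P (par0 K) X with hqdef
  set p := stdP n (M + k) (N + B) P (par0 K) X with hpdef
  set c : CIdx (N + B) (M + k) K → ℝ := sysS n N B M k P X
  set d : CIdx (N + B) (M + k) K → ℝ :=
    fun i => decSys N M q p X i - decSys N (M + k) q p X i
  set Lp := α * P.b1 ^ 2
  have hN' : 0 < N + B := by omega
  obtain ⟨hqm, hq0, hq1⟩ := stdQ_mem (K := K) P n (M + k) (N + B) X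
  obtain ⟨⟨hpm, hp0, -⟩, hpb⟩ := stdP_mem (K := K) P hL n hN' hM X
  have hqb := abs_stdQ_le (K := K) P n (M + k) (N + B) X
  rw [← hqdef] at hqm hq0 hq1 hqb
  rw [← hpdef] at hpm hp0 hpb
  have hk0 : 0 ≤ (k : ℝ) * P.b1 ^ 2 := by positivity
  have hkb0 : 0 ≤ kb := hk0.trans hkb
  have hb : ((N + B : ℕ) : ℝ) - N = B := by push_cast; ring
  have hMk : ((M + k : ℕ) : ℝ) - M = k := by push_cast; ring
  have hgr : ∀ (c' : CIdx (N + B) (M + k) K → ℝ) G (x y : State π K n),
      |grad P (bpat π) (bspin π) (pull c') (pull d) G x y|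
        ≤ kb * |q (ovU π x y) - ovR N π x y| := fun c' G x y => by
    refine (grad_two q p X P hN' (Nat.le_add_right M k) c' G x y).trans ?_
    rw [hMk]
    exact mul_le_mul_of_nonneg_right hkb (abs_nonneg _)
  have hov := fun x y : State π K n => abs_ovR_low hN (Nat.le_add_right N B) x y
  have hcq : ∀ x y : State π K n, |q (ovU π x y) - ovR N π x y|
      ≤ 2 * (B : ℝ) / ((N + B : ℕ) : ℝ) + |ovR (N + B) π x y - q (ovU π x y)| := fun x y => by
    rw [abs_sub_comm]
    refine (abs_sub_le _ (ovR (N + B) π x y) _).trans (add_le_add ?_ le_rfl)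
    exact (hov x y).2.trans_eq (by rw [hb])
  have hq2 : ∀ x y : State π K n, |q (ovU π x y) - ovR N π x y| ≤ 2 := fun x y =>
    (abs_sub _ _).trans (by linarith [hqb (ovU π x y), (hov x y).1])
  have hc : ∀ i, 0 ≤ c i := decSys_nonneg hqm hq0 hpm hp0 _ _ _
  have hcd : ∀ i, 0 ≤ c i + d i := fun i => by
    simp only [c, d, sysS, ← hqdef, ← hpdef, add_sub_cancel]
    exact decSys_nonneg hqm hq0 hpm hp0 _ _ _ i
  have hdiag := diag_two (M := M + k) (M0 := M) (n := n) q p X hN (Nat.le_add_right N B) hq1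
  obtain ⟨t, ht, he⟩ := mfree_mvt_point P π hn (c := c) (d := d)
    (fun t ht i => by nlinarith [mul_nonneg (sub_nonneg.2 ht.2) (hc i), mul_nonneg ht.1 (hcd i)])
    hdiag
  rw [show (fun i => c i + d i) = sysB n N B M k P X from
    funext fun i => by simp only [c, d, sysS, sysB, ← hqdef, ← hpdef, add_sub_cancel]] at he
  set ct := fun i => c i + t * d i
  obtain ⟨hR, -⟩ := seg_err P π hn hc hcd hdiag hqb hpb (Dg := 2 * kb) (Da := 2)
    (by positivity) (by norm_num)
    (fun c' G x y => (hgr c' G x y).trans (by nlinarith [hq2 x y]))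
    (fun a x y => by
      rw [cov_pat_two q p X hN']
      split_ifs
      · simp
      · exact hq2 x y)
    (t := t) (Ioo_subset_Icc_self ht)
  have hkey := mpair_ge P π hn ct
    (O := grad P (bpat π) (bspin π) (pull ct) (pull d))
    (F1 := fun _ _ _ => (0 : ℝ))
    (F2 := fun _ x y => (ovR (N + B) π x y - q (ovU π x y)) ^ 2)
    (continuous_grad P π _ _) (fun _ _ => continuous_const)
    (fun _ _ => continuous_const) (C := kb * 2 + 4) (by positivity)
    (fun G x y => by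
      linarith [(hgr ct G x y).trans (mul_le_mul_of_nonneg_left (hq2 x y) hkb0)])
    (fun G x y => by rw [abs_zero]; positivity)
    (fun G x y => by
      rw [abs_pow]
      have := pow_le_pow_left₀ (abs_nonneg _) ((abs_sub (ovR (N + B) π x y) _).trans
        (add_le_add (abs_ovR_le_one π x y) (hqb (ovU π x y)))) 2
      linarith)
    (fun _ => 0) (w1 := 0) (w2 := kb / (4 * δ))
    (r := kb * (δ + 2 * (B : ℝ) / ((N + B : ℕ) : ℝ)))
    (fun G x y => by
      have h := ((neg_le_abs _).trans (hgr ct G x y)).trans (mul_le_mul_of_nonneg_left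
        ((hcq x y).trans (add_le_add le_rfl (abs_le_sq hδ _))) hkb0)
      rw [zero_mul, zero_sub, zero_add, div_mul_eq_mul_div, neg_le]
      refine h.trans_eq ?_
      ring)
  have e2 : mpair n P π ct (fun _ x y => (ovR (N + B) π x y - q (ovU π x y)) ^ 2)
      = errR n P π ct q := rfl
  rw [e2] at hkey
  simp only [zero_mul, Finset.sum_const_zero, zero_sub, zero_add] at hkey
  set base := baseErr n (M + k) (N + B) P (par0 K) X
  have hR0 : errR n P π (stdc (par0 K) X : CIdx (N + B) (M + k) K → ℝ) q ≤ base := by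
    have := state_ne (K := K) π hn
    refine le_add_of_nonneg_right (integral_nonneg_of_ae ((ae_mbw_pos P π
      (stdc (par0 K) X : CIdx (N + B) (M + k) K → ℝ)).mono fun e he => ?_))
    exact Finset.sum_nonneg fun x _ => Finset.sum_nonneg fun y _ =>
      mul_nonneg (mul_nonneg (Itp.gibbs_nonneg he x) (Itp.gibbs_nonneg he y)) (sq_nonneg _)
  have hfin : errR n P π ct q ≤ Real.exp (8 * (2 * kb)) * (Real.exp (8 * D) * base) :=
    hR.trans (mul_le_mul_of_nonneg_left
      (herr.trans (mul_le_mul_of_nonneg_left hR0 (Real.exp_pos _).le)) (Real.exp_pos _).le)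
  have := mul_le_mul_of_nonneg_left hfin (show 0 ≤ kb / (4 * δ) by positivity)
  have e3 : kb / (8 * δ) = kb / (4 * δ) / 2 := by ring
  rw [e3, div_mul_eq_mul_div (kb / (4 * δ)) 2]
  linarith

/-- The limiting value of the new spins and patterns is above `B V`, up to stationarity. -/
theorem value_bound (P : Pot) {α L V st : ℝ} {B k : ℕ} (hk : |(k : ℝ) - α * B| ≤ 1)
    {q p : Fin (K + 1) → ℝ} (hq : q ∈ pathsQ K) (hp : p ∈ pathsP K L)
    (hst : st = pi0 K * ∑ l, |q l - vI p l|)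
    (hV : ∀ q ∈ pathsQ K, ∃ p ∈ pathsP K L, V ≤ pfun psiI α P.f p q) :
    B * V - P.bF - B * (L / 2 * st)
      ≤ k * psiF P.f q + B * psiI p + B * (pi0 K / 2 * ∑ l, p l * q l) := by
  obtain ⟨p', hp', hVp⟩ := hV q hq
  have htan := psiI_tangent hp'.1 hp'.2.1 hp.1 hp.2.1
  have hterm : ∑ l, q l * p' l + ∑ l, -(L * |q l - vI p l|)
      ≤ ∑ l, q l * p l + ∑ l, vI p l * (p' l - p l) := by
    simp only [← Finset.sum_add_distrib]
    refine Finset.sum_le_sum fun l _ => ?_
    have hd : |p' l - p l| ≤ L := abs_le.2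
      ⟨by linarith [hp'.2.1.trans (hp'.1 (Fin.zero_le l)), (hp.1 (Fin.le_last l)).trans hp.2.2],
        by linarith [hp.2.1.trans (hp.1 (Fin.zero_le l)), (hp'.1 (Fin.le_last l)).trans hp'.2.2]⟩
    have h := (le_abs_self ((q l - vI p l) * (p' l - p l))).trans_eq (abs_mul _ _)
    have := h.trans (mul_le_mul_of_nonneg_left hd (abs_nonneg _))
    linarith
  have hpi0 : 0 ≤ pi0 K := by rw [pi0]; positivity
  have hterm' := mul_le_mul_of_nonneg_left hterm (show 0 ≤ pi0 K / 2 by positivity)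
  rw [mul_add, mul_add, Finset.sum_neg_distrib, ← Finset.mul_sum] at hterm'
  have hpsi : psiI p' + pi0 K / 2 * ∑ l, p' l * q l - L / 2 * st
      ≤ psiI p + pi0 K / 2 * ∑ l, p l * q l := by
    rw [hst]
    simp only [mul_comm (p' _), mul_comm (p _) (q _)]
    linarith
  have hF : (α : ℝ) * B * psiF P.f q - P.bF ≤ k * psiF P.f q := by
    have h := Formula.abs_psiF_le (pot_continuous P).measurable P.hF hq.1
    have : |((k : ℝ) - α * B) * psiF P.f q| ≤ P.bF := by
      rw [abs_mul]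
      exact (mul_le_mul hk h (abs_nonneg _) zero_le_one).trans_eq (one_mul _)
    linarith [(abs_le.1 this).1]
  have hval := mul_le_mul_of_nonneg_left hVp (Nat.cast_nonneg (α := ℝ) B)
  have hpsiB := mul_le_mul_of_nonneg_left hpsi (Nat.cast_nonneg (α := ℝ) B)
  simp only [pfun] at hval
  linarith

/-- The small terms of one step are bounded by one multiple of their common measure. -/
theorem small_terms {B Lp L G0 kb δ E F β T η r base st Q : ℝ} (hB : 0 ≤ B) (hLp : 0 ≤ Lp)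
    (hL : 0 ≤ L) (hG : 0 ≤ G0) (hkb : 0 ≤ kb) (hkbeq : kb ≤ β * B) (hδ : 0 < δ) (hE : 0 ≤ E)
    (hF : 0 ≤ F) (hη : 0 ≤ η) (hT : η ≤ T) (hr : 0 ≤ r) (hbase : 0 ≤ base) (hst : 0 ≤ st)
    (_hQ0 : 0 ≤ Q) (hQ : Q ≤ r) :
    B * Lp * T + (2 + Lp) * B * δ / 2
        + (2 + Lp) * B / (8 * δ) * (E * (base + 8 * G0 * (2 * B * Q)))
        + (Lp * B ^ 2 * Q + 10 * B * r)
        + (kb * (δ + 2 * B * Q) / 2 + kb / (8 * δ) * (F * (E * base)))
        + η + B * (L / 2 * st)
      ≤ 2 * (1 + Lp + β) * B * δ + (B * Lp + 1 + (2 + Lp) * B / (8 * δ) * E * (1 + 16 * G0 * B)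
          + Lp * B ^ 2 + 10 * B + kb * B + kb / (8 * δ) * (F * E) + B * L / 2)
        * (T + r + base + st) := by
  set S := T + r + base + st
  set U1 := (2 + Lp) * B / (8 * δ) * E
  set U2 := kb / (8 * δ) * (F * E)
  have hT0 : 0 ≤ T := hη.trans hT
  have hU1 : 0 ≤ U1 := by positivity
  have hU2 : 0 ≤ U2 := by positivity
  have i1 : T ≤ S := by simp only [S]; linarith
  have i2 : Q ≤ S := by simp only [S]; linarith
  have i3 : r ≤ S := by simp only [S]; linarith
  have i4 : base ≤ S := by simp only [S]; linarith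
  have i5 : st ≤ S := by simp only [S]; linarith
  have hS : 0 ≤ S := hst.trans i5
  have s1 := mul_le_mul_of_nonneg_left i1 (show 0 ≤ B * Lp by positivity)
  have s3 := mul_le_mul_of_nonneg_left
    (add_le_add i4 (mul_le_mul_of_nonneg_left i2 (show 0 ≤ 16 * G0 * B by positivity))) hU1
  have s4 := mul_le_mul_of_nonneg_left i2 (show 0 ≤ Lp * B ^ 2 by positivity)
  have s5 := mul_le_mul_of_nonneg_left i3 (show 0 ≤ 10 * B by positivity)
  have s6 := mul_le_mul_of_nonneg_left i2 (show 0 ≤ kb * B by positivity)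
  have s7 := mul_le_mul_of_nonneg_left i4 hU2
  have s8 := mul_le_mul_of_nonneg_left i5 (show 0 ≤ B * L / 2 by positivity)
  have hd1 : (2 + Lp) * B * δ / 2 + kb * δ / 2 ≤ 2 * (1 + Lp + β) * B * δ := by
    have h1 := mul_le_mul_of_nonneg_right hkbeq hδ.le
    have : 0 ≤ Lp * (B * δ) := by positivity
    have : 0 ≤ kb * δ := by positivity
    have : 0 ≤ B * δ := by positivity
    linarith
  have e1 : (2 + Lp) * B / (8 * δ) * (E * (base + 8 * G0 * (2 * B * Q)))
      = U1 * (base + 16 * G0 * B * Q) := by simp only [U1]; ring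
  have e2 : kb / (8 * δ) * (F * (E * base)) = U2 * base := by simp only [U2]; ring
  rw [e1, e2]
  linarith

/-- One cavity step from below at fixed parameters of the perturbation. -/
theorem lower_point (P : Pot) {α L : ℝ} (hα : 0 < α) (hL : α * P.b1 ^ 2 ≤ L) {B : ℕ} (hB : 1 ≤ B)
    {δ : ℝ} (hδ : 0 < δ) :
    ∃ A, 0 ≤ A ∧ ∀ K N M k n : ℕ, B ≤ N → ((M + k : ℕ) : ℝ) ≤ α * ((N + B : ℕ) : ℝ) →
      |(k : ℝ) - α * B| ≤ 1 → 0 < n → ∀ η : ℝ, 0 ≤ η → ∀ X : ℕ → ℝ, (∀ i, |X i| ≤ 2) →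
      (∀ t ∈ Icc (0 : ℝ) 1, ∀ l, |piX n P (isingP (N + B))
        (fun i : CIdx (N + B) (M + k) K => stdc (par0 K) X i
          + t * (sysS n N B M k P X i - stdc (par0 K) X i)) l - pi0 K| ≤ η) →
      |mfree n P (isingP (N + B)) (sysB (K := K) n N B M k P X)
          - mfree n P (isingP N) (stdc (par0 K) X : CIdx N M K → ℝ)
          - (k * psiF P.f (stdQ n (M + k) (N + B) P (par0 K) X)
            + B * psiI (stdP n (M + k) (N + B) P (par0 K) X))| ≤ η →
      ∀ V : ℝ, (∀ q ∈ pathsQ K, ∃ p ∈ pathsP K L, V ≤ pfun psiI α P.f p q) →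
        B * V - (P.bF + 2 * (1 + α * P.b1 ^ 2 + (α + 1) * P.b1 ^ 2) * B * δ
            + A * (((K : ℝ) + 1) * η + ((N : ℝ) ^ ((1 : ℝ) / 4))⁻¹
              + baseErr n (M + k) (N + B) P (par0 K) X + statErr n (M + k) (N + B) P (par0 K) X))
          ≤ mfree n P (isingP (N + B)) (stdc (par0 K) X : CIdx (N + B) (M + k) K → ℝ)
            - mfree n P (isingP N) (stdc (par0 K) X : CIdx N M K → ℝ) := by
  set Lp := α * P.b1 ^ 2
  have hLp : 0 ≤ Lp := by positivity
  have hL0 : 0 ≤ L := hLp.trans hL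
  set G0 := α * (4 * Lp * (P.b2 * P.b1) * P.b1
    + (2 * (P.b2 * P.b1) ^ 2 + 4 * Lp * (P.b3 * P.b1 + P.b2 ^ 2)))
  have hG0 : 0 ≤ G0 := by
    have := Itp.b1_nonneg P
    have := Itp.b2_nonneg P
    have : 0 ≤ P.b3 := (abs_nonneg _).trans (P.h3 0)
    positivity
  set kb := (α + 1) * P.b1 ^ 2 * B
  set D := (B : ℝ) * (3 * Lp + 20)
  refine ⟨B * Lp + 1 + (2 + Lp) * B / (8 * δ) * Real.exp (8 * D) * (1 + 16 * G0 * B)
    + Lp * (B : ℝ) ^ 2 + 10 * B + kb * B
    + kb / (8 * δ) * (Real.exp (8 * (2 * kb)) * Real.exp (8 * D)) + B * L / 2,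
    by positivity, fun K N M k n hBN hM hk hn η hη X hX hpi hgrown V hV => ?_⟩
  have hN : 0 < N := by omega
  have hN' : 0 < N + B := by omega
  have hkb : (k : ℝ) * P.b1 ^ 2 ≤ kb := by
    refine (mul_le_mul_of_nonneg_right (show (k : ℝ) ≤ (α + 1) * B by
      linarith [(abs_le.1 hk).2, Nat.one_le_cast (α := ℝ).2 hB]) (sq_nonneg _)).trans_eq ?_
    simp only [kb]; ring
  obtain ⟨h1, h1R⟩ := step_spins (K := K) P hL hδ hN hBN hM hn hX hpi
  have h1' := h1R 1 ⟨zero_le_one, le_rfl⟩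
  simp only [one_mul, add_sub_cancel] at h1'
  have h2 := step_patterns (K := K) P hL hδ hN hM hn hkb h1'
  have hst : statErr n (M + k) (N + B) P (par0 K) X
      = pi0 K * ∑ l, |stdQ n (M + k) (N + B) P (par0 K) X l
          - vI (stdP n (M + k) (N + B) P (par0 K) X) l| := by
    simp only [statErr, ceff_par0]
  have h3 := value_bound P hk (stdQ_mem P n (M + k) (N + B) X)
    (stdP_mem P hL n hN' hM X).1 hst hV
  have hbase : 0 ≤ baseErr n (M + k) (N + B) P (par0 K) X := by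
    have := state_ne (K := K) (isingP (N + B)) hn
    refine add_nonneg ?_ ?_ <;>
      exact integral_nonneg_of_ae ((ae_mbw_pos P (isingP (N + B))
        (stdc (par0 K) X : CIdx (N + B) (M + k) K → ℝ)).mono fun e he =>
        Finset.sum_nonneg fun x _ => Finset.sum_nonneg fun y _ =>
          mul_nonneg (mul_nonneg (Itp.gibbs_nonneg he x) (Itp.gibbs_nonneg he y)) (sq_nonneg _))
  have hst0 : 0 ≤ statErr n (M + k) (N + B) P (par0 K) X := by
    rw [hst, pi0]; positivity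
  have hrN : ((N + B : ℕ) : ℝ)⁻¹ ≤ ((N : ℝ) ^ ((1 : ℝ) / 4))⁻¹ := by
    have h : (N : ℝ) ^ ((1 : ℝ) / 4) ≤ (N : ℝ) :=
      (Real.rpow_le_rpow_of_exponent_le (Nat.one_le_cast.2 hN)
        (by norm_num : (1 : ℝ) / 4 ≤ 1)).trans_eq (Real.rpow_one _)
    exact inv_anti₀ (by positivity) (h.trans (Nat.cast_le.2 (Nat.le_add_right N B)))
  have h4 := small_terms (L := L) (E := Real.exp (8 * D)) (F := Real.exp (8 * (2 * kb)))
    (β := (α + 1) * P.b1 ^ 2) (T := ((K : ℝ) + 1) * η) (Nat.cast_nonneg B) hLp hL0 hG0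
    (show 0 ≤ kb by positivity) le_rfl hδ (Real.exp_pos _).le (Real.exp_pos _).le hη
    (le_mul_of_one_le_left hη (by linarith [Nat.cast_nonneg (α := ℝ) K]))
    (show 0 ≤ ((N : ℝ) ^ ((1 : ℝ) / 4))⁻¹ by positivity) hbase hst0
    (show 0 ≤ ((N + B : ℕ) : ℝ)⁻¹ by positivity) hrN
  simp only [div_eq_mul_inv _ ((N + B : ℕ) : ℝ),
    div_eq_mul_inv _ ((N : ℝ) ^ ((1 : ℝ) / 4))] at h1 h2
  linarith [(abs_le.1 hgrown).1]

end Vale.Agent.P157.Casc.Low
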