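import Vale.Agent.P157.Casc.LowerPaths

/-!
One cavity step from below, at fixed parameters of the perturbation.
-/

open MeasureTheory ProbabilityTheory Filter Topology Set

namespace Vale.Agent.P157.Casc.Low

variable {N M K n : ℕ}

/-- A linear lower bound passes to pair averages. -/
theorem mpair_ge (P : Pot) (π : Prior N) (hn : 0 < n) (c : CIdx N M K → ℝ)
    {O F1 F2 : (GIdx N M K n → ℝ) → State π K n → State π K n → ℝ}
    (hO : ∀ x y, Continuous fun G => O G x y) (h1 : ∀ x y, Continuous fun G => F1 G x y)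
    (h2 : ∀ x y, Continuous fun G => F2 G x y) {C : ℝ} (hC : 0 ≤ C)
    (hOb : ∀ G x y, |O G x y| ≤ C) (h1b : ∀ G x y, |F1 G x y| ≤ C) (h2b : ∀ G x y, |F2 G x y| ≤ C)
    (a : Fin (K + 1) → ℝ) {w1 w2 r : ℝ}
    (h : ∀ G x y, a (ovU π x y) - (w1 * F1 G x y + w2 * F2 G x y + r) ≤ O G x y) :
    ∑ l, a l * piX n P π c l - (w1 * mpair n P π c F1 + w2 * mpair n P π c F2 + r)
      ≤ mpair n P π c O := by
  have := state_ne (K := K) π hn
  have iO := measurable_mpair_fun P π c hO hC hOb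
  have i1 := measurable_mpair_fun P π c h1 hC h1b
  have i2 := measurable_mpair_fun P π c h2 hC h2b
  have iL : ∀ l, Integrable (fun e => avg2 (mbw P π c e)
      fun st st' => onLev l (ovU π st st') (1 : ℝ)) (envLaw N M K n) := fun l =>
    measurable_mpair_fun P π c (O := fun _ st st' => onLev l (ovU π st st') 1)
      (fun _ _ => continuous_const) zero_le_one fun G x y => by unfold onLev; split_ifs <;> simp
  have iS := integrable_finsetSum Finset.univ fun l _ => (iL l).const_mul (a l)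
  have iR : Integrable (fun e => w1 * avg2 (mbw P π c e) (F1 e.2)
      + w2 * avg2 (mbw P π c e) (F2 e.2) + r) (envLaw N M K n) :=
    ((i1.const_mul w1).add (i2.const_mul w2)).add (integrable_const r)
  have he : ∑ l, a l * piX n P π c l - (w1 * mpair n P π c F1 + w2 * mpair n P π c F2 + r)
      = ∫ e, (∑ l, a l * avg2 (mbw P π c e) fun st st' => onLev l (ovU π st st') (1 : ℝ))
        - (w1 * avg2 (mbw P π c e) (F1 e.2) + w2 * avg2 (mbw P π c e) (F2 e.2) + r)
          ∂envLaw N M K n := by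
    rw [integral_sub iS iR, integral_finsetSum _ fun l _ => (iL l).const_mul (a l)]
    have j := (i1.const_mul w1).add (i2.const_mul w2)
    simp only [Pi.add_def] at j
    rw [integral_add j (integrable_const r), integral_add (i1.const_mul w1) (i2.const_mul w2)]
    simp only [integral_const_mul, integral_const, probReal_univ, one_smul]
    rfl
  rw [he]
  refine integral_mono_ae (iS.sub iR) iO ?_
  filter_upwards [ae_mbw_pos P π c] with e he
  set g := gibbs (mbw P π c e)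
  have hs : ∑ x, g x = 1 := Itp.sum_gibbs he
  have hg : ∀ x, 0 ≤ g x := Itp.gibbs_nonneg he
  have hr : r = ∑ x, ∑ y, g x * g y * r := by
    simp only [← Finset.sum_mul, ← Finset.mul_sum, hs, one_mul]
  simp only [avg2]
  conv_lhs => rw [hr]
  simp only [Finset.mul_sum, ← Finset.sum_add_distrib]
  rw [Finset.sum_comm, ← Finset.sum_sub_distrib]
  refine Finset.sum_le_sum fun x _ => ?_
  rw [Finset.sum_comm, ← Finset.sum_sub_distrib]
  refine Finset.sum_le_sum fun y _ => ?_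
  have e1 : ∑ l, a l * (g x * g y * onLev l (ovU π x y) 1) = g x * g y * a (ovU π x y) := by
    simp only [onLev, mul_ite, mul_one, mul_zero]
    rw [Finset.sum_ite_eq, if_pos (Finset.mem_univ _), mul_comm]
  rw [e1]
  calc _ = g x * g y * (a (ovU π x y) - (w1 * F1 e.2 x y + w2 * F2 e.2 x y + r)) := by ring
    _ ≤ _ := mul_le_mul_of_nonneg_left (h e.2 x y) (mul_nonneg (hg x) (hg y))

theorem abs_le_sq {δ : ℝ} (hδ : 0 < δ) (y : ℝ) : |y| ≤ δ + y ^ 2 / (4 * δ) := by
  have h : |y| * (4 * δ) ≤ δ * (4 * δ) + y ^ 2 := by nlinarith [sq_nonneg (|y| - 2 * δ), sq_abs y]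
  rw [← sub_le_iff_le_add', le_div_iff₀ (by positivity)]
  linarith

theorem pull_smul (d : CIdx N M K → ℝ) (t : ℝ) :
    (pull fun i => t * d i : GIdx N M K n → ℝ) = fun i => t * pull d i := by
  funext i; rcases i with e | ⟨o, i⟩ <;> rfl

/-- The errors along a segment with a bounded bracket. -/
theorem seg_err (P : Pot) (π : Prior N) (hn : 0 < n) {c d : CIdx N M K → ℝ} (hc : ∀ i, 0 ≤ c i)
    (hcd : ∀ i, 0 ≤ c i + d i)
    (hdiag : ∀ a (x : State π K n), ∑ i, pull d i * bpat π a x i ^ 2 = 0)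
    {q p : Fin (K + 1) → ℝ} {Lp : ℝ} (hq : ∀ u, |q u| ≤ 1) (hp : ∀ u, |p u| ≤ Lp)
    {Dg Da : ℝ} (hDg0 : 0 ≤ Dg) (hDa0 : 0 ≤ Da)
    (hDg : ∀ (c' : CIdx N M K → ℝ) (G : GIdx N M K n → ℝ) (x y : State π K n),
      |grad P (bpat π) (bspin π) (pull c') (pull d) G x y| ≤ Dg)
    (hDa : ∀ a (x y : State π K n), |∑ i, pull d i * (bpat π a x i * bpat π a y i)| ≤ Da)
    {t : ℝ} (ht : t ∈ Icc (0 : ℝ) 1) :
    errR n P π (fun i => c i + t * d i) q ≤ Real.exp (8 * Dg) * errR n P π c q ∧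
    errP n P π (fun i => c i + t * d i) p
      ≤ Real.exp (8 * Dg) * (errP n P π c p + 8 * (M * (gamP P N M Lp * Da))) := by
  set c' := fun i => c i + t * d i
  have ed : (fun i => c' i - c i) = fun i => t * d i := funext fun i => by simp [c']
  have hc' : ∀ i, 0 ≤ c' i := fun i => by
    nlinarith [mul_nonneg (sub_nonneg.2 ht.2) (hc i), mul_nonneg ht.1 (hcd i)]
  have hgr : ∀ (lam : GIdx N M K n → ℝ) G x y,
      grad P (bpat π) (bspin π) lam (pull fun i => c' i - c i) G x y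
        = t * grad P (bpat π) (bspin π) lam (pull d) G x y := fun lam G x y => by
    simp only [ed, pull_smul, grad, mul_assoc, ← Finset.mul_sum, mul_add]
  obtain ⟨hR, hP, -⟩ := seg_bound P π hn (c := c) (c' := c') hc hc'
    (fun a x => by simp only [ed, pull_smul, mul_assoc, ← Finset.mul_sum, hdiag, mul_zero])
    hq hp (Dg := Dg) (Da := Da) (B0 := Dg) (A := 0) (A' := 0) hDg0 hDa0 hDg0 le_rfl le_rfl
    (fun s _ G x y => by
      rw [hgr, abs_mul, abs_of_nonneg ht.1]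
      exact (mul_le_of_le_one_left (abs_nonneg _) ht.2).trans (hDg _ G x y))
    (fun a x y => by
      simp only [ed, pull_smul, mul_assoc, ← Finset.mul_sum]
      rw [abs_mul, abs_of_nonneg ht.1]
      exact (mul_le_of_le_one_left (abs_nonneg _) ht.2).trans (hDa a x y))
    (fun s _ G x y => by
      rw [hgr, abs_mul, abs_of_nonneg ht.1, zero_mul, zero_mul, add_zero, add_zero]
      exact (mul_le_of_le_one_left (abs_nonneg _) ht.2).trans (hDg _ G x y))
    (fun _ _ => 0) (fun _ _ => by simp)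
  exact ⟨hR, hP⟩

theorem gamP_le (P : Pot) {α : ℝ} (hN : 0 < N) (hM : (M : ℝ) ≤ α * N) :
    (M : ℝ) * gamP P N M (α * P.b1 ^ 2) ≤ α * (4 * (α * P.b1 ^ 2) * (P.b2 * P.b1) * P.b1
      + (2 * (P.b2 * P.b1) ^ 2 + 4 * (α * P.b1 ^ 2) * (P.b3 * P.b1 + P.b2 ^ 2))) := by
  have hN1 : (1 : ℝ) ≤ N := Nat.one_le_cast.2 hN
  have hb1 := Itp.b1_nonneg P
  have hb2 := Itp.b2_nonneg P
  have hb3 : 0 ≤ P.b3 := (abs_nonneg _).trans (P.h3 0)
  have hr : (M : ℝ) / N ≤ α := (div_le_iff₀ (by linarith)).2 hM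
  have hα : 0 ≤ α := le_trans (by positivity) hr
  have hLp : (M : ℝ) * P.b1 ^ 2 / N ≤ α * P.b1 ^ 2 := by
    rw [mul_div_right_comm]; exact mul_le_mul_of_nonneg_right hr (sq_nonneg _)
  set Lp := α * P.b1 ^ 2
  set m := (M : ℝ) * P.b1 ^ 2 / N + Lp
  have hm : m ≤ 2 * Lp := by simp only [m]; linarith
  have hm0 : 0 ≤ m := by positivity
  have hsq : (P.b2 * P.b1) ^ 2 / (N : ℝ) ≤ (P.b2 * P.b1) ^ 2 := div_le_self (sq_nonneg _) hN1
  calc (M : ℝ) * gamP P N M Lp
      = (M : ℝ) / N * (2 * m * (P.b2 * P.b1) * P.b1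
          + (2 * ((P.b2 * P.b1) ^ 2 / N) + 2 * m * (P.b3 * P.b1 + P.b2 ^ 2))) := by
        simp only [gamP, m]; field_simp
    _ ≤ α * (2 * (2 * Lp) * (P.b2 * P.b1) * P.b1
          + (2 * (P.b2 * P.b1) ^ 2 + 2 * (2 * Lp) * (P.b3 * P.b1 + P.b2 ^ 2))) := by
        gcongr
    _ = _ := by ring

/-- The standard system with the new spins decoupled. -/
noncomputable def sysS (n N B M k : ℕ) (P : Pot) (X : ℕ → ℝ) : CIdx (N + B) (M + k) K → ℝ :=
  decSys N (M + k) (stdQ n (M + k) (N + B) P (par0 K) X) (stdP n (M + k) (N + B) P (par0 K) X) X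

/-- The standard system with the new spins and patterns decoupled. -/
noncomputable def sysB (n N B M k : ℕ) (P : Pot) (X : ℕ → ℝ) : CIdx (N + B) (M + k) K → ℝ :=
  decSys N M (stdQ n (M + k) (N + B) P (par0 K) X) (stdP n (M + k) (N + B) P (par0 K) X) X

/-- Decoupling the new spins. -/
theorem step_spins (P : Pot) {α L : ℝ} (hL : α * P.b1 ^ 2 ≤ L) {B k : ℕ} {δ : ℝ} (hδ : 0 < δ)
    (hN : 0 < N) (hBN : B ≤ N) (hM : ((M + k : ℕ) : ℝ) ≤ α * ((N + B : ℕ) : ℝ)) (hn : 0 < n)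
    {η : ℝ} {X : ℕ → ℝ} (hX : ∀ i, |X i| ≤ 2)
    (hpi : ∀ t ∈ Icc (0 : ℝ) 1, ∀ l, |piX n P (isingP (N + B))
      (fun i : CIdx (N + B) (M + k) K => stdc (par0 K) X i
        + t * (sysS n N B M k P X i - stdc (par0 K) X i)) l - pi0 K| ≤ η) :
    mfree n P (isingP (N + B)) (sysS (K := K) n N B M k P X)
        + (B : ℝ) * (pi0 K / 2 * ∑ l, stdP n (M + k) (N + B) P (par0 K) X l
            * stdQ n (M + k) (N + B) P (par0 K) X l)
        - ((B : ℝ) * (α * P.b1 ^ 2) * ((K + 1 : ℝ) * η)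
          + (2 + α * P.b1 ^ 2) * B * δ / 2
          + (2 + α * P.b1 ^ 2) * B / (8 * δ) * (Real.exp (8 * (B * (3 * (α * P.b1 ^ 2) + 20)))
            * (baseErr n (M + k) (N + B) P (par0 K) X
              + 8 * (α * (4 * (α * P.b1 ^ 2) * (P.b2 * P.b1) * P.b1 + (2 * (P.b2 * P.b1) ^ 2
                + 4 * (α * P.b1 ^ 2) * (P.b3 * P.b1 + P.b2 ^ 2)))) * (2 * B / ((N + B : ℕ) : ℝ))))
          + (α * P.b1 ^ 2 * (B : ℝ) ^ 2 / ((N + B : ℕ) : ℝ)
            + 10 * B / (N : ℝ) ^ ((1 : ℝ) / 4)))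
      ≤ mfree n P (isingP (N + B)) (stdc (par0 K) X : CIdx (N + B) (M + k) K → ℝ) ∧
    ∀ t ∈ Icc (0 : ℝ) 1, errR n P (isingP (N + B))
        (fun i : CIdx (N + B) (M + k) K => stdc (par0 K) X i
          + t * (sysS n N B M k P X i - stdc (par0 K) X i))
        (stdQ n (M + k) (N + B) P (par0 K) X)
      ≤ Real.exp (8 * (B * (3 * (α * P.b1 ^ 2) + 20)))
        * errR n P (isingP (N + B)) (stdc (par0 K) X : CIdx (N + B) (M + k) K → ℝ)
          (stdQ n (M + k) (N + B) P (par0 K) X) := by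
  set π := isingP (N + B)
  set q := stdQ n (M + k) (N + B) P (par0 K) X with hqdef
  set p := stdP n (M + k) (N + B) P (par0 K) X with hpdef
  set c : CIdx (N + B) (M + k) K → ℝ := stdc (par0 K) X
  set d : CIdx (N + B) (M + k) K → ℝ := fun i => decSys N (M + k) q p X i - stdc (par0 K) X i
  set Lp := α * P.b1 ^ 2
  set D := (B : ℝ) * (3 * Lp + 20)
  set G0 := α * (4 * Lp * (P.b2 * P.b1) * P.b1
    + (2 * (P.b2 * P.b1) ^ 2 + 4 * Lp * (P.b3 * P.b1 + P.b2 ^ 2)))
  have hN' : 0 < N + B := by omega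
  obtain ⟨hqm, hq0, hq1⟩ := stdQ_mem (K := K) P n (M + k) (N + B) X
  obtain ⟨⟨hpm, hp0, -⟩, hpb⟩ := stdP_mem (K := K) P hL n hN' hM X
  have hqb := abs_stdQ_le (K := K) P n (M + k) (N + B) X
  rw [← hqdef] at hqm hq0 hqb
  rw [← hpdef] at hpm hp0 hpb
  have hLp : 0 ≤ Lp := (abs_nonneg _).trans (hpb 0)
  have hb : ((N + B : ℕ) : ℝ) - N = B := by push_cast; ring
  have hMP : ((M + k : ℕ) : ℝ) * P.b1 ^ 2 / ((N + B : ℕ) : ℝ) ≤ Lp := by
    rw [div_le_iff₀ (Nat.cast_pos.2 hN')]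
    calc ((M + k : ℕ) : ℝ) * P.b1 ^ 2 ≤ α * ((N + B : ℕ) : ℝ) * P.b1 ^ 2 :=
          mul_le_mul_of_nonneg_right hM (sq_nonneg _)
      _ = _ := by simp only [Lp]; ring
  have hgr := fun (c' : CIdx (N + B) (M + k) K → ℝ) G (x y : State π K n) =>
    grad_one q p X P hN (Nat.le_add_right N B) (by rw [hb]; exact_mod_cast hBN) hX hpb hMP c' G x y
  simp only [hb] at hgr
  have hc : ∀ i, 0 ≤ c i := stdc0_nonneg X
  have hcd : ∀ i, 0 ≤ c i + d i := fun i => by
    simp only [c, d, add_sub_cancel]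
    exact decSys_nonneg hqm hq0 hpm hp0 _ _ _ i
  have hcov : ∀ a (x y : State π K n),
      |∑ i, pull d i * (bpat π a x i * bpat π a y i)| ≤ 2 * (B : ℝ) / ((N + B : ℕ) : ℝ) :=
    fun a x y => by
      rw [cov_pat_one q p X hN (Nat.le_add_right N B)]
      exact (abs_ovR_low hN (Nat.le_add_right N B) x y).2.trans_eq (by rw [hb])
  have herr := fun t ht => seg_err P π hn hc hcd (diag_one q p X hN (Nat.le_add_right N B))
    hqb hpb (Dg := D) (Da := 2 * (B : ℝ) / ((N + B : ℕ) : ℝ))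
    (mul_nonneg (Nat.cast_nonneg _) (by linarith)) (by positivity) (fun c' G x y => (hgr c' G x y).1)
    hcov (t := t) ht
  refine ⟨?_, fun t ht => (herr t ht).1⟩
  obtain ⟨t, ht, he⟩ := mfree_mvt_point P π hn (c := c) (d := d)
    (fun t ht i => by nlinarith [mul_nonneg (sub_nonneg.2 ht.2) (hc i), mul_nonneg ht.1 (hcd i)])
    (diag_one q p X hN (Nat.le_add_right N B))
  rw [show (fun i => c i + d i) = sysS n N B M k P X from
    funext fun i => add_sub_cancel (c i) _] at he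
  set ct := fun i => c i + t * d i
  obtain ⟨hR, hP⟩ := herr t (Ioo_subset_Icc_self ht)
  set u1 := 2 * (B : ℝ) / (4 * δ)
  set u2 := (B : ℝ) * Lp / (4 * δ)
  set r0 := 2 * Lp * (B : ℝ) ^ 2 / ((N + B : ℕ) : ℝ) + 20 * B / (N : ℝ) ^ ((1 : ℝ) / 4)
  have hkey := mpair_ge P π hn ct
    (O := grad P (bpat π) (bspin π) (pull ct) (pull d))
    (F1 := fun G x y => (ovP (N + B) P π ct G x y - p (ovU π x y)) ^ 2)
    (F2 := fun _ x y => (ovR (N + B) π x y - q (ovU π x y)) ^ 2)
    (continuous_grad P π _ _) (fun x y => ((continuous_ovP P π ct x y).sub continuous_const).pow 2)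
    (fun _ _ => continuous_const) (C := D + (2 * Lp) ^ 2 + 4) (by positivity)
    (fun G x y => by linarith [(hgr ct G x y).1, sq_nonneg (2 * Lp)])
    (fun G x y => by
      rw [abs_pow]
      have := pow_le_pow_left₀ (abs_nonneg _) ((abs_sub (ovP (N + B) P π ct G x y) _).trans
        (add_le_add ((abs_ovP_le P π ct G x y).trans hMP) (hpb (ovU π x y)))) 2
      have : 0 ≤ D := by positivity
      rw [← two_mul] at *
      linarith)
    (fun G x y => by
      rw [abs_pow]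
      have := pow_le_pow_left₀ (abs_nonneg _) ((abs_sub (ovR (N + B) π x y) _).trans
        (add_le_add (abs_ovR_le_one π x y) (hqb (ovU π x y)))) 2
      have : 0 ≤ D := by positivity
      nlinarith [sq_nonneg (2 * Lp)])
    (fun l => (B : ℝ) * (q l * p l)) (w1 := u1) (w2 := u2) (r := 2 * B * δ + B * Lp * δ + r0)
    (fun G x y => by
      have h := (abs_le.1 (hgr ct G x y).2).1
      have i1 := mul_le_mul_of_nonneg_left
        (abs_le_sq hδ (ovP (N + B) P π ct G x y - p (ovU π x y))) (by positivity : (0 : ℝ) ≤ 2 * B)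
      have i2 := mul_le_mul_of_nonneg_left
        (abs_le_sq hδ (ovR (N + B) π x y - q (ovU π x y))) (by positivity : (0 : ℝ) ≤ B * Lp)
      rw [mul_add, mul_div_assoc'] at i1 i2
      simp only [u1, u2, div_mul_eq_mul_div]
      linarith)
  have hsum : (B : ℝ) * (pi0 K * ∑ l, p l * q l) - B * Lp * ((K + 1 : ℝ) * η)
      ≤ ∑ l, (B : ℝ) * (q l * p l) * piX n P π ct l := by
    have hl : ∀ l, (B : ℝ) * (pi0 K * (p l * q l)) - B * Lp * η
        ≤ (B : ℝ) * (q l * p l) * piX n P π ct l := fun l => by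
      have h1 := hpi t (Ioo_subset_Icc_self ht) l
      have h2 : |(B : ℝ) * (q l * p l) * (piX n P π ct l - pi0 K)| ≤ B * Lp * η := by
        rw [abs_mul, abs_mul, abs_mul, Nat.abs_cast]
        refine mul_le_mul (mul_le_mul_of_nonneg_left ?_ (Nat.cast_nonneg _)) h1 (abs_nonneg _)
          (by positivity)
        calc |q l| * |p l| ≤ 1 * Lp := mul_le_mul (hqb l) (hpb l) (abs_nonneg _) zero_le_one
          _ = Lp := one_mul _
      linarith [(abs_le.1 h2).1]
    refine le_trans (le_of_eq ?_) (Finset.sum_le_sum fun l _ => hl l)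
    simp only [Finset.sum_sub_distrib, Finset.sum_const, Finset.card_univ, Fintype.card_fin,
      nsmul_eq_mul, Finset.mul_sum]
    push_cast
    ring
  have hx1 : (0 : ℝ) ≤ u1 := by positivity
  have hx2 : (0 : ℝ) ≤ u2 := by positivity
  have hP' := mul_le_mul_of_nonneg_left hP hx1
  have hR' := mul_le_mul_of_nonneg_left hR hx2
  have hgam := mul_le_mul_of_nonneg_right (gamP_le P hN' hM)
    (show (0 : ℝ) ≤ 2 * (B : ℝ) / ((N + B : ℕ) : ℝ) by positivity)
  set E := Real.exp (8 * D)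
  set eR := errR n P π c q
  set eP := errP n P π c p
  have hE : 0 ≤ E := (Real.exp_pos _).le
  have heR : 0 ≤ eR := integral_nonneg_of_ae ((ae_mbw_pos P π c).mono fun e he =>
    Finset.sum_nonneg fun x _ => Finset.sum_nonneg fun y _ =>
      mul_nonneg (mul_nonneg (Itp.gibbs_nonneg he x) (Itp.gibbs_nonneg he y)) (sq_nonneg _))
  have heP : 0 ≤ eP := integral_nonneg_of_ae ((ae_mbw_pos P π c).mono fun e he =>
    Finset.sum_nonneg fun x _ => Finset.sum_nonneg fun y _ =>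
      mul_nonneg (mul_nonneg (Itp.gibbs_nonneg he x) (Itp.gibbs_nonneg he y)) (sq_nonneg _))
  have hbase : baseErr n (M + k) (N + B) P (par0 K) X = eR + eP := rfl
  rw [hbase]
  have hG : 0 ≤ G0 * (2 * (B : ℝ) / ((N + B : ℕ) : ℝ)) := by
    have hb2 := Itp.b2_nonneg P
    have hb1 := Itp.b1_nonneg P
    have hb3 : 0 ≤ P.b3 := (abs_nonneg _).trans (P.h3 0)
    have hα : 0 ≤ α := by
      refine (show (0 : ℝ) ≤ ((M + k : ℕ) : ℝ) / ((N + B : ℕ) : ℝ) by positivity).trans ?_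
      exact (div_le_iff₀ (Nat.cast_pos.2 hN')).2 hM
    positivity
  set W := (2 + Lp) * (B : ℝ) / (8 * δ)
  set Y := E * (eR + eP + 8 * G0 * (2 * (B : ℝ) / ((N + B : ℕ) : ℝ)))
  have hmain : (u1 * errP n P π ct p + u2 * errR n P π ct q) / 2 ≤ W * Y := by
    have j1 : errP n P π ct p ≤ Y := hP.trans (mul_le_mul_of_nonneg_left (by linarith) hE)
    have j2 : errR n P π ct q ≤ Y := hR.trans (mul_le_mul_of_nonneg_left (by linarith) hE)
    calc _ ≤ (u1 * Y + u2 * Y) / 2 := by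
          linarith [mul_le_mul_of_nonneg_left j1 hx1, mul_le_mul_of_nonneg_left j2 hx2]
      _ = _ := by simp only [u1, u2, W]; ring
  have e1 : mpair n P π ct (fun G x y => (ovP (N + B) P π ct G x y - p (ovU π x y)) ^ 2)
      = errP n P π ct p := rfl
  have e2 : mpair n P π ct (fun _ x y => (ovR (N + B) π x y - q (ovU π x y)) ^ 2)
      = errR n P π ct q := rfl
  rw [e1, e2] at hkey
  have hr0 : r0 / 2 = Lp * (B : ℝ) ^ 2 / ((N + B : ℕ) : ℝ) + 10 * B / (N : ℝ) ^ ((1 : ℝ) / 4) := by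
    simp only [r0]; ring
  have hη : 0 ≤ (B : ℝ) * Lp * ((K + 1 : ℝ) * η) := by
    have := (abs_nonneg _).trans (hpi 0 ⟨le_rfl, zero_le_one⟩ 0)
    positivity
  linarith

end Vale.Agent.P157.Casc.Low
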