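import Vale.Agent.P157.Casc.Seg
import Vale.Agent.P157.Casc.GrownValue

/-!
The segments of the cavity step from below: from the standard system to the system with decoupled
spins, and from there to decoupled patterns.
-/

open MeasureTheory ProbabilityTheory Filter Topology Set

namespace Vale.Agent.P157.Casc.Low

variable {N M K n : ℕ}

/-- The parameters of the perceptron itself. -/
def par0 (K : ℕ) : Par K := (1, 0, 0)

theorem adm_par0 {L : ℝ} (hL : 0 ≤ L) : Adm K L (par0 K) :=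
  ⟨⟨zero_le_one, le_rfl⟩, monotone_const, le_rfl, by simp [par0], monotone_const, le_rfl, hL⟩

theorem qeff_par0 (q : Fin (K + 1) → ℝ) : qeff (par0 K) q = q := funext fun l => by
  simp [qeff, par0]

theorem ceff_par0 (p : Fin (K + 1) → ℝ) : ceff (par0 K) p = p := funext fun l => by
  simp [ceff, par0]

/-- The spins below `N0`. -/
def lowSet (N N0 : ℕ) : Finset (Fin N) := Finset.univ.filter fun j => j.val < N0

theorem card_lowSet {N0 : ℕ} (h : N0 ≤ N) : (lowSet N N0).card = N0 := by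
  rw [← Finset.card_map Fin.valEmbedding, show (lowSet N N0).map Fin.valEmbedding = Finset.range N0
    from Finset.ext fun j => ?_, Finset.card_range]
  simp only [lowSet, Finset.mem_map, Finset.mem_filter, Finset.mem_univ, true_and,
    Fin.valEmbedding_apply, Finset.mem_range]
  exact ⟨fun ⟨a, ha, e⟩ => e ▸ ha, fun hj => ⟨⟨j, by omega⟩, hj, rfl⟩⟩

/-- The system with the patterns from `M0` and the spins from `N0` decoupled. -/
noncomputable def decSys (N0 M0 : ℕ) (q p : Fin (K + 1) → ℝ) (X : ℕ → ℝ) : CIdx N M K → ℝ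
  | Sum.inl (a, j) => if a.val < M0 ∧ j.val < N0 then (N : ℝ) / N0 else 0
  | Sum.inr (l, Sum.inl a) => if a.val < M0 then 0 else incr q l
  | Sum.inr (l, Sum.inr (Sum.inl j)) => if j.val < N0 then 0 else incr p l
  | Sum.inr (l, Sum.inr (Sum.inr t)) =>
      pertS (M := M) (lowSet N N0) X (Sum.inr (l, Sum.inr (Sum.inr t)))

theorem stdc0_inl (X : ℕ → ℝ) (e : Fin M × Fin N) :
    (stdc (par0 K) X : CIdx N M K → ℝ) (Sum.inl e) = 1 := by simp [stdc, fieldc, pertc, par0]

theorem stdc0_lab (X : ℕ → ℝ) (l : Fin (K + 1)) (a : Fin M) :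
    (stdc (par0 K) X : CIdx N M K → ℝ) (Sum.inr (l, Sum.inl a)) = 0 := by
  simp [stdc, fieldc, pertc, par0, incr_of_zero]

theorem stdc0_spin (X : ℕ → ℝ) (l : Fin (K + 1)) (j : Fin N) :
    (stdc (par0 K) X : CIdx N M K → ℝ) (Sum.inr (l, Sum.inr (Sum.inl j))) = 0 := by
  simp [stdc, fieldc, pertc, par0, incr_of_zero]

theorem stdc0_pert (X : ℕ → ℝ) (l : Fin (K + 1)) (t : PIdx N) :
    (stdc (par0 K) X : CIdx N M K → ℝ) (Sum.inr (l, Sum.inr (Sum.inr t)))
      = pertS (M := M) Finset.univ X (Sum.inr (l, Sum.inr (Sum.inr t))) := by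
  rw [← pertc_eq_pertS]; simp [stdc, fieldc]

theorem incr_nonneg {v : Fin (K + 1) → ℝ} (hv : Monotone v) (h0 : 0 ≤ v 0) (l : Fin (K + 1)) :
    0 ≤ incr v l := by
  refine Fin.cases ?_ (fun i => ?_) l
  · simpa [incr] using h0
  · simpa [incr] using hv (Fin.castSucc_le_succ i)

theorem pertS_nonneg (S : Finset (Fin N)) (X : ℕ → ℝ) (i : CIdx N M K) : 0 ≤ pertS S X i := by
  rcases i with p | ⟨l, a | j | ⟨j, i, t⟩⟩ <;> simp only [pertS, le_refl]
  split_ifs
  · refine div_nonneg (mul_nonneg (sq_nonneg _) (mul_nonneg (by positivity)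
      (incr_nonneg (fun a b h => ?_) ?_ l))) (by positivity)
    · exact pow_le_pow_left₀ (Nat.cast_nonneg _) (Nat.cast_le.2 h) _
    · simp only [powPath]; positivity
  · exact le_rfl

theorem decSys_nonneg {q p : Fin (K + 1) → ℝ} (hq : Monotone q) (hq0 : 0 ≤ q 0) (hp : Monotone p)
    (hp0 : 0 ≤ p 0) (N0 M0 : ℕ) (X : ℕ → ℝ) (i : CIdx N M K) : 0 ≤ decSys N0 M0 q p X i := by
  rcases i with e | ⟨l, a | j | t⟩ <;> simp only [decSys]
  · split_ifs <;> positivity
  · split_ifs
    exacts [le_rfl, incr_nonneg hq hq0 l]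
  · split_ifs
    exacts [le_rfl, incr_nonneg hp hp0 l]
  · exact pertS_nonneg _ _ _

theorem stdc0_nonneg (X : ℕ → ℝ) (i : CIdx N M K) : 0 ≤ stdc (par0 K) X i := by
  refine add_nonneg ?_ (pertc_nonneg X i)
  rcases i with e | ⟨l, a | j | t⟩ <;> simp [fieldc, par0, incr_of_zero]

theorem continuous_ext0 {J : ℕ} (j : ℕ) : Continuous fun x : Fin J → ℝ => ext0 x j := by
  unfold ext0; split_ifs <;> fun_prop

theorem continuous_incr (l : Fin (K + 1)) :
    Continuous fun v : Fin (K + 1) → ℝ => incr v l := by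
  refine Fin.cases ?_ (fun i => ?_) l <;> simp only [incr, Fin.cases_zero, Fin.cases_succ] <;>
    fun_prop

theorem continuous_decSys (N0 M0 J : ℕ) :
    Continuous fun e : (Fin J → ℝ) × (Fin (K + 1) → ℝ) × (Fin (K + 1) → ℝ) =>
      (decSys N0 M0 e.2.1 e.2.2 (ext0 e.1) : CIdx N M K → ℝ) := by
  refine continuous_pi fun i => ?_
  rcases i with e | ⟨l, a | j | ⟨j, i, t⟩⟩ <;> simp only [decSys, pertS]
  · exact continuous_const
  · split_ifs
    exacts [continuous_const, (continuous_incr l).comp (by fun_prop)]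
  · split_ifs
    exacts [continuous_const, (continuous_incr l).comp (by fun_prop)]
  · split_ifs
    · have := (continuous_ext0 (J := J) j).comp
        (continuous_fst (Y := (Fin (K + 1) → ℝ) × (Fin (K + 1) → ℝ)))
      fun_prop
    · exact continuous_const

/-- The decoupled system is the smaller standard system with free patterns and spins. -/
theorem grown_decSys (B k : ℕ) (q p : Fin (K + 1) → ℝ) (X : ℕ → ℝ) :
    Grown (decSys (N := N + B) (M := M + k) N M q p X) (stdc (par0 K) X : CIdx N M K → ℝ) q p where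
  pat a j := by simp [decSys, stdc0_inl]
  patT a j := by simp [decSys]
  patA a j := by simp [decSys]
  lab l i := by
    rcases i with a | j | ⟨j, i, t⟩
    · simp [embL, decSys, stdc0_lab]
    · simp [embL, decSys, stdc0_spin]
    · simp only [embL, decSys, pertS, stdc0_pert, card_lowSet (Nat.le_add_right N B),
        Finset.card_univ, Fintype.card_fin]
      simp [lowSet]
  labA l a := by simp [decSys]
  spinT l j := by simp [decSys]
  pert l t ht := by
    obtain ⟨j, i, t⟩ := t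
    simp only [decSys, pertS, card_lowSet (Nat.le_add_right N B)]
    refine if_neg fun h => ht ⟨Sum.inr (Sum.inr ⟨⟨j.val, h.1⟩, i, fun r => ⟨(t r).val, ?_⟩⟩), ?_⟩
    · simpa [lowSet] using h.2 r
    · rfl

section Overlaps

variable (N0 : ℕ)

theorem spin_mul_abs (σ τ : Fin (isingP N).c) (j : Fin N) :
    |(isingP N).spin σ j * (isingP N).spin τ j| = 1 := by
  rw [← abs_eq_abs.2 (Or.inl rfl), ← Real.sqrt_sq_eq_abs, mul_pow, isingP_spin_sq, isingP_spin_sq,
    one_mul, Real.sqrt_one]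

theorem abs_low_sum {N0 : ℕ} (h : N0 ≤ N) (σ τ : Fin (isingP N).c) :
    |∑ j : Fin N, if j.val < N0 then (isingP N).spin σ j * (isingP N).spin τ j else 0| ≤ (N0 : ℝ) ∧
    |∑ j : Fin N, if j.val < N0 then 0 else (isingP N).spin σ j * (isingP N).spin τ j|
      ≤ (N : ℝ) - N0 := by
  have hc : ∑ j : Fin N, (if j.val < N0 then (1 : ℝ) else 0) = N0 := by
    rw [Finset.sum_boole, ← lowSet, card_lowSet h]
  have hc' : ∑ j : Fin N, (if j.val < N0 then (0 : ℝ) else 1) = N - N0 := by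
    rw [eq_sub_iff_add_eq]
    conv_lhs => rw [← hc, ← Finset.sum_add_distrib]
    rw [Finset.sum_congr rfl fun j _ =>
      show (if j.val < N0 then (0 : ℝ) else 1) + (if j.val < N0 then (1 : ℝ) else 0) = 1 by
        split_ifs <;> norm_num]
    simp
  constructor
  · refine (Finset.abs_sum_le_sum_abs _ _).trans (le_of_eq (Eq.trans ?_ hc))
    exact Finset.sum_congr rfl fun j _ => by
      split_ifs <;> simp only [abs_zero, spin_mul_abs]
  · refine (Finset.abs_sum_le_sum_abs _ _).trans (le_of_eq (Eq.trans ?_ hc'))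
    exact Finset.sum_congr rfl fun j _ => by
      split_ifs <;> simp only [abs_zero, spin_mul_abs]

theorem abs_ovR_low {N0 : ℕ} (hN0 : 0 < N0) (h : N0 ≤ N) (x y : State (isingP N) K n) :
    |ovR N0 (isingP N) x y| ≤ 1 ∧
      |ovR N0 (isingP N) x y - ovR N (isingP N) x y| ≤ 2 * ((N : ℝ) - N0) / N := by
  obtain ⟨h1, h2⟩ := abs_low_sum h x.1 y.1
  have h0 : (0 : ℝ) < N0 := Nat.cast_pos.2 hN0
  have hN : (0 : ℝ) < N := Nat.cast_pos.2 (by omega)
  refine ⟨by rw [ovR, abs_div, Nat.abs_cast, div_le_one h0]; exact h1, ?_⟩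
  set A := ∑ j : Fin N, if j.val < N0 then (isingP N).spin x.1 j * (isingP N).spin y.1 j else 0
  set D := ∑ j : Fin N, if j.val < N0 then 0 else (isingP N).spin x.1 j * (isingP N).spin y.1 j
  have e : ovR N (isingP N) x y = (A + D) / N := by
    simp only [ovR, Fin.is_lt, if_true, A, D, ← Finset.sum_add_distrib]
    congr 1
    exact Finset.sum_congr rfl fun j _ => by split_ifs <;> simp
  have e2 : ovR N0 (isingP N) x y - ovR N (isingP N) x y
      = A / N0 * ((N - N0) / N) - D / N := by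
    rw [e, ovR]
    field_simp
    ring
  rw [e2]
  refine (abs_sub _ _).trans ?_
  have hb : (0 : ℝ) ≤ N - N0 := sub_nonneg.2 (Nat.cast_le.2 h)
  have h3 : |A / N0| ≤ 1 := by rw [abs_div, Nat.abs_cast, div_le_one h0]; exact h1
  rw [abs_mul, abs_of_nonneg (show 0 ≤ ((N : ℝ) - N0) / N by positivity), abs_div D, Nat.abs_cast]
  have := mul_le_mul_of_nonneg_right h3 (show 0 ≤ ((N : ℝ) - N0) / N by positivity)
  have := div_le_div_of_nonneg_right h2 hN.le
  rw [mul_div_assoc]
  linarith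

end Overlaps

/-- Series of the perturbation as a function of the kernel. -/
noncomputable def pser (N0 : ℕ) (X : ℕ → ℝ) (R u : ℝ) (K : ℕ) (j : ℕ) : ℝ :=
  (amp N0 j * X j) ^ 2 * ((R + 3 * u) / ((3 * K + 1 : ℕ) : ℝ)) ^ (j + 1)

theorem amp_sq (N0 j : ℕ) :
    amp N0 j ^ 2 = (N0 : ℝ) ^ ((3 : ℝ) / 4) * ((1 : ℝ) / 4) ^ (j + 1) := by
  rw [amp, div_pow, one_div, inv_pow, ← Real.rpow_natCast ((N0 : ℝ) ^ ((3 : ℝ) / 8)) 2,
    ← Real.rpow_mul (Nat.cast_nonneg _), ← pow_mul, mul_comm (j + 1) 2, pow_mul]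
  norm_num
  ring

theorem rpow_gap {a b : ℝ} (ha : 1 ≤ a) (hab : a ≤ b) :
    b ^ ((3 : ℝ) / 4) - a ^ ((3 : ℝ) / 4) ≤ (b - a) / a ^ ((1 : ℝ) / 4) := by
  have ha0 : 0 < a := lt_of_lt_of_le one_pos ha
  have h1 : b ^ ((3 : ℝ) / 4) ≤ a ^ ((3 : ℝ) / 4) * (b / a) := by
    have : (b / a) ^ ((3 : ℝ) / 4) ≤ b / a := by
      calc (b / a) ^ ((3 : ℝ) / 4) ≤ (b / a) ^ (1 : ℝ) :=
            Real.rpow_le_rpow_of_exponent_le ((one_le_div ha0).2 hab) (by norm_num)
        _ = b / a := Real.rpow_one _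
    calc b ^ ((3 : ℝ) / 4) = a ^ ((3 : ℝ) / 4) * (b / a) ^ ((3 : ℝ) / 4) := by
          rw [← Real.mul_rpow ha0.le (div_nonneg (ha0.le.trans hab) ha0.le), mul_div_cancel₀ _ ha0.ne']
      _ ≤ _ := mul_le_mul_of_nonneg_left this (by positivity)
  have h2 : a ^ ((3 : ℝ) / 4) * a ^ ((1 : ℝ) / 4) = a := by
    rw [← Real.rpow_add ha0]; norm_num
  rw [le_div_iff₀ (by positivity)]
  calc (b ^ ((3 : ℝ) / 4) - a ^ ((3 : ℝ) / 4)) * a ^ ((1 : ℝ) / 4)
      ≤ (a ^ ((3 : ℝ) / 4) * (b / a) - a ^ ((3 : ℝ) / 4)) * a ^ ((1 : ℝ) / 4) :=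
        mul_le_mul_of_nonneg_right (by linarith) (by positivity)
    _ = a ^ ((3 : ℝ) / 4) * a ^ ((1 : ℝ) / 4) * (b / a - 1) := by ring
    _ = b - a := by rw [h2]; field_simp

/-- Moving the perturbation to a large subset of the spins changes its series little. -/
theorem abs_pser_diff {N0 : ℕ} (hN0 : 0 < N0) (h : N0 ≤ N) (hb : (N : ℝ) - N0 ≤ N0) {X : ℕ → ℝ}
    (hX : ∀ i, |X i| ≤ 2) {R0 R : ℝ} (hR0 : |R0| ≤ 1) (hR : |R| ≤ 1)
    (hd : |R0 - R| ≤ 2 * ((N : ℝ) - N0) / N) (u : Fin (K + 1)) :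
    |(∑ j : Fin N, if j.val < N0 then pser N0 X R0 (u : ℕ) K j else 0)
        - ∑ j : Fin N, pser N X R (u : ℕ) K j|
      ≤ 20 * ((N : ℝ) - N0) / (N0 : ℝ) ^ ((1 : ℝ) / 4) := by
  set b := (N : ℝ) - N0 with hbdef
  have hb0 : 0 ≤ b := sub_nonneg.2 (Nat.cast_le.2 h)
  have h0 : (1 : ℝ) ≤ N0 := Nat.one_le_cast.2 hN0
  have hNN : (N0 : ℝ) ≤ N := Nat.cast_le.2 h
  set a0 := (N0 : ℝ) ^ ((3 : ℝ) / 4)
  set a1 := (N : ℝ) ^ ((3 : ℝ) / 4)
  set r := (N0 : ℝ) ^ ((1 : ℝ) / 4)
  have hr : 0 < r := by positivity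
  have hgap : a1 - a0 ≤ b / r := rpow_gap h0 hNN
  have hmono : a0 ≤ a1 := Real.rpow_le_rpow (by positivity) hNN (by norm_num)
  have har : a0 * r = N0 := by
    simp only [a0, r]
    rw [← Real.rpow_add (by positivity)]; norm_num
  have ha1 : a1 * (2 * b / N0) ≤ 4 * (b / r) := by
    have : a1 ≤ 2 * a0 := by
      have : b / r ≤ a0 := by rw [div_le_iff₀ hr, har]; exact hb
      linarith
    calc a1 * (2 * b / N0) ≤ 2 * a0 * (2 * b / N0) :=
          mul_le_mul_of_nonneg_right this (by positivity)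
      _ = 4 * (b / r) := by
          have ha0' : a0 ≠ 0 := by positivity
          rw [← har]; field_simp; ring
  have hu : ((u : ℕ) : ℝ) ≤ K := Nat.cast_le.2 (Nat.lt_succ_iff.1 u.isLt)
  set den := ((3 * K + 1 : ℕ) : ℝ) with hden
  have hden1 : 1 ≤ den := by simp [den]
  have hk : ∀ S : ℝ, |S| ≤ 1 → |(S + 3 * ((u : ℕ) : ℝ)) / den| ≤ 1 := fun S hS => by
    rw [abs_div, abs_of_nonneg (zero_le_one.trans hden1), div_le_one (lt_of_lt_of_le one_pos hden1)]
    refine (abs_add_le _ _).trans ?_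
    rw [abs_of_nonneg (show (0 : ℝ) ≤ 3 * ((u : ℕ) : ℝ) by positivity), hden]
    push_cast
    linarith
  have hterm : ∀ j : Fin N, |(if j.val < N0 then pser N0 X R0 (u : ℕ) K j else 0)
      - pser N X R (u : ℕ) K j| ≤ 20 * (b / r) * ((1 : ℝ) / 2) ^ (j.val + 1) := by
    intro j
    set m := j.val + 1 with hm
    set k0 := (R0 + 3 * ((u : ℕ) : ℝ)) / den
    set k1 := (R + 3 * ((u : ℕ) : ℝ)) / den
    have hk0 : |k0 ^ m| ≤ 1 := by rw [abs_pow]; exact pow_le_one₀ (abs_nonneg _) (hk R0 hR0)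
    have hk1 : |k1 ^ m| ≤ 1 := by rw [abs_pow]; exact pow_le_one₀ (abs_nonneg _) (hk R hR)
    have hkd : |k0 ^ m - k1 ^ m| ≤ m * (2 * b / N0) := by
      refine (abs_pow_sub_pow_le k0 k1 m).trans ?_
      have e : |k0 - k1| ≤ 2 * b / N0 := by
        simp only [k0, k1]
        rw [← sub_div, add_sub_add_right_eq_sub, abs_div,
          abs_of_nonneg (zero_le_one.trans hden1)]
        exact (div_le_self (abs_nonneg _) hden1).trans (hd.trans
          (div_le_div_of_nonneg_left (by positivity) (by positivity) hNN))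
      calc |k0 - k1| * (m : ℝ) * max |k0| |k1| ^ (m - 1) ≤ 2 * b / N0 * m * 1 :=
            mul_le_mul (mul_le_mul_of_nonneg_right e (Nat.cast_nonneg _))
              (pow_le_one₀ (le_max_of_le_left (abs_nonneg _)) (max_le (hk R0 hR0) (hk R hR)))
              (by positivity) (by positivity)
        _ = _ := by ring
    have hm1 : (1 : ℝ) ≤ m := by simp [hm]
    have hinner : ((j.val < N0 → |a0 * k0 ^ m - a1 * k1 ^ m| ≤ 5 * (b / r) * m) ∧
        (¬ j.val < N0 → |a1 * k1 ^ m| ≤ 5 * (b / r) * m)) := by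
      refine ⟨fun _ => ?_, fun hj => ?_⟩
      · have e : a0 * k0 ^ m - a1 * k1 ^ m = (a0 - a1) * k0 ^ m + a1 * (k0 ^ m - k1 ^ m) := by ring
        rw [e]
        refine (abs_add_le _ _).trans ?_
        rw [abs_mul, abs_mul, abs_of_nonneg (show (0 : ℝ) ≤ a1 by positivity), abs_sub_comm a0,
          abs_of_nonneg (sub_nonneg.2 hmono)]
        have i1 : (a1 - a0) * |k0 ^ m| ≤ b / r := (mul_le_of_le_one_right (by linarith) hk0).trans hgap
        have i2 : a1 * |k0 ^ m - k1 ^ m| ≤ 4 * (b / r) * m :=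
          calc a1 * |k0 ^ m - k1 ^ m| ≤ a1 * (m * (2 * b / N0)) :=
                mul_le_mul_of_nonneg_left hkd (by positivity)
            _ = a1 * (2 * b / N0) * m := by ring
            _ ≤ _ := mul_le_mul_of_nonneg_right ha1 (by positivity)
        nlinarith [mul_le_mul_of_nonneg_left hm1 (show 0 ≤ b / r by positivity)]
      · have hb1 : 1 ≤ b := by
          rw [hbdef, le_sub_iff_add_le]
          exact_mod_cast (by have := j.isLt; omega : 1 + N0 ≤ N)
        have hmN : (1 : ℝ) ≤ 2 * b / N0 * m := by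
          have : (N0 : ℝ) ≤ m := by rw [hm]; exact_mod_cast (by omega : N0 ≤ j.val + 1)
          rw [div_mul_eq_mul_div, one_le_div (by positivity)]
          nlinarith [mul_le_mul_of_nonneg_right hb1 (Nat.cast_nonneg (α := ℝ) m)]
        rw [abs_mul, abs_of_nonneg (show (0 : ℝ) ≤ a1 by positivity)]
        calc a1 * |k1 ^ m| ≤ a1 * (2 * b / N0 * m) :=
              mul_le_mul_of_nonneg_left (hk1.trans hmN) (by positivity)
          _ = a1 * (2 * b / N0) * m := by ring
          _ ≤ 4 * (b / r) * m := mul_le_mul_of_nonneg_right ha1 (by positivity)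
          _ ≤ _ := by nlinarith [show 0 ≤ b / r * m by positivity]
    have hgeo : X j ^ 2 * ((1 : ℝ) / 4) ^ m * (5 * (b / r) * m)
        ≤ 20 * (b / r) * ((1 : ℝ) / 2) ^ m := by
      have hX2 : X j ^ 2 ≤ 4 := by
        rw [← sq_abs, show (4 : ℝ) = 2 ^ 2 by norm_num]
        exact pow_le_pow_left₀ (abs_nonneg _) (hX _) 2
      have hm2 : (m : ℝ) ≤ 2 ^ m := by exact_mod_cast Nat.lt_two_pow_self.le
      calc X j ^ 2 * ((1 : ℝ) / 4) ^ m * (5 * (b / r) * m)
          = 5 * (b / r) * (((1 : ℝ) / 4) ^ m * (m * X j ^ 2)) := by ring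
        _ ≤ 5 * (b / r) * (((1 : ℝ) / 4) ^ m * (2 ^ m * 4)) := by gcongr
        _ = 20 * (b / r) * (((1 : ℝ) / 4) * 2) ^ m := by rw [mul_pow]; ring
        _ = _ := by norm_num
    refine le_trans ?_ hgeo
    simp only [pser, mul_pow, amp_sq, ← hm]
    split_ifs with hj
    · rw [show a0 * ((1 : ℝ) / 4) ^ m * X j ^ 2 * k0 ^ m - a1 * ((1 : ℝ) / 4) ^ m * X j ^ 2 * k1 ^ m
          = X j ^ 2 * ((1 : ℝ) / 4) ^ m * (a0 * k0 ^ m - a1 * k1 ^ m) by ring, abs_mul,
        abs_of_nonneg (show 0 ≤ X j ^ 2 * ((1 : ℝ) / 4) ^ m by positivity)]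
      exact mul_le_mul_of_nonneg_left (hinner.1 hj) (by positivity)
    · rw [zero_sub, abs_neg, show a1 * ((1 : ℝ) / 4) ^ m * X j ^ 2 * k1 ^ m
          = X j ^ 2 * ((1 : ℝ) / 4) ^ m * (a1 * k1 ^ m) by ring, abs_mul,
        abs_of_nonneg (show 0 ≤ X j ^ 2 * ((1 : ℝ) / 4) ^ m by positivity)]
      exact mul_le_mul_of_nonneg_left (hinner.2 hj) (by positivity)
  rw [← Finset.sum_sub_distrib]
  refine (Finset.abs_sum_le_sum_abs _ _).trans ((Finset.sum_le_sum fun j _ => hterm j).trans ?_)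
  rw [← Finset.mul_sum, mul_div_assoc]
  refine mul_le_of_le_one_right (by positivity) ?_
  rw [Fin.sum_univ_eq_sum_range (fun j => ((1 : ℝ) / 2) ^ (j + 1)) N,
    Finset.sum_congr rfl fun j _ => pow_succ ((1 : ℝ) / 2) j, ← Finset.sum_mul]
  linarith [sum_geometric_two_le N]

variable {N0 M0 : ℕ} (q p : Fin (K + 1) → ℝ) (X : ℕ → ℝ)

/-- First segment: covariances of the pattern fields. -/
theorem cov_pat_one (hN0 : 0 < N0) (h : N0 ≤ N) (a : Fin M) (x y : State (isingP N) K n) :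
    ∑ i, pull (fun i : CIdx N M K => decSys N0 M q p X i - stdc (par0 K) X i) i
        * (bpat (isingP N) a x i * bpat (isingP N) a y i)
      = ovR N0 (isingP N) x y - ovR N (isingP N) x y := by
  have hN : (N : ℝ) ≠ 0 := Nat.cast_ne_zero.2 (by omega)
  have h0 : (N0 : ℝ) ≠ 0 := Nat.cast_ne_zero.2 (by omega)
  rw [cov_bpat]
  simp only [decSys, stdc0_inl, stdc0_lab, a.isLt, true_and, if_true, sub_zero,
    Finset.sum_const_zero, add_zero, ovR, Fin.is_lt]
  rw [Finset.sum_congr rfl fun j _ => show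
      ((if j.val < N0 then (N : ℝ) / N0 else 0) - 1)
          * ((isingP N).spin x.1 j * (isingP N).spin y.1 j)
        = (N : ℝ) / N0 * (if j.val < N0 then (isingP N).spin x.1 j * (isingP N).spin y.1 j else 0)
          - (isingP N).spin x.1 j * (isingP N).spin y.1 j by split_ifs <;> ring,
    Finset.sum_sub_distrib, ← Finset.mul_sum]
  field_simp

/-- First segment: covariance of the linear field. -/
theorem cov_spin_one (h : N0 ≤ N) (x y : State (isingP N) K n) :
    ∑ i, pull (fun i : CIdx N M K => decSys N0 M q p X i - stdc (par0 K) X i) i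
        * (bspin (isingP N) x i * bspin (isingP N) y i)
      = p (ovU (isingP N) x y) * (∑ j : Fin N, if j.val < N0 then 0 else
            (isingP N).spin x.1 j * (isingP N).spin y.1 j)
        + ((∑ j : Fin N, if j.val < N0 then
              pser N0 X (ovR N0 (isingP N) x y) ((ovU (isingP N) x y : ℕ) : ℝ) K j else 0)
          - ∑ j : Fin N, pser N X (ovR N (isingP N) x y) ((ovU (isingP N) x y : ℕ) : ℝ) K j) := by
  rw [cov_bspin]
  simp only [decSys, stdc0_spin, stdc0_pert, sub_zero, Finset.sum_sub_distrib, mul_sub]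
  rw [cov_pertS, cov_pertS]
  congr 1
  · rw [Finset.mul_sum]
    refine Finset.sum_congr rfl fun j _ => ?_
    split_ifs
    · simp
    · rw [sum_incr, ovU]; ring
  · congr 1
    · rw [card_lowSet h, Finset.sum_filter]
      refine Finset.sum_congr rfl fun j _ => if_congr Iff.rfl ?_ rfl
      simp only [pser, ovSet, ovR, ovU, card_lowSet h]
      rw [lowSet, Finset.sum_filter]
    · rw [Finset.card_univ, Fintype.card_fin, Finset.filter_true_of_mem fun j _ => j.isLt]
      refine Finset.sum_congr rfl fun j _ => ?_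
      simp [pser, ovSet, ovR, ovU, Finset.card_univ, Fintype.card_fin]

/-- First segment: the bracket is the product of the paths, up to small terms. -/
theorem grad_one (P : Pot) (hN0 : 0 < N0) (h : N0 ≤ N) (hb : (N : ℝ) - N0 ≤ N0)
    (hX : ∀ i, |X i| ≤ 2) {Lp : ℝ} (hp : ∀ u, |p u| ≤ Lp) (hM : (M : ℝ) * P.b1 ^ 2 / N ≤ Lp)
    (c : CIdx N M K → ℝ) (G : GIdx N M K n → ℝ) (x y : State (isingP N) K n) :
    |grad P (bpat (isingP N)) (bspin (isingP N)) (pull c)
        (pull fun i => decSys N0 M q p X i - stdc (par0 K) X i) G x y|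
      ≤ ((N : ℝ) - N0) * (3 * Lp + 20) ∧
    |grad P (bpat (isingP N)) (bspin (isingP N)) (pull c)
        (pull fun i => decSys N0 M q p X i - stdc (par0 K) X i) G x y
      - ((N : ℝ) - N0) * (q (ovU (isingP N) x y) * p (ovU (isingP N) x y))|
      ≤ 2 * ((N : ℝ) - N0) * |ovP N P (isingP N) c G x y - p (ovU (isingP N) x y)|
        + ((N : ℝ) - N0) * Lp * |ovR N (isingP N) x y - q (ovU (isingP N) x y)|
        + (2 * Lp * ((N : ℝ) - N0) ^ 2 / N
          + 20 * ((N : ℝ) - N0) / (N0 : ℝ) ^ ((1 : ℝ) / 4)) := by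
  set b := (N : ℝ) - N0 with hbdef
  have hb0 : 0 ≤ b := sub_nonneg.2 (Nat.cast_le.2 h)
  have hN : (0 : ℝ) < N := Nat.cast_pos.2 (by omega)
  have h1 : (1 : ℝ) ≤ (N0 : ℝ) ^ ((1 : ℝ) / 4) :=
    Real.one_le_rpow (Nat.one_le_cast.2 hN0) (by norm_num)
  set u := ovU (isingP N) x y
  set R0 := ovR N0 (isingP N) x y
  set R := ovR N (isingP N) x y
  set Pt := ovP N P (isingP N) c G x y
  obtain ⟨hR0, hd⟩ := abs_ovR_low hN0 h x y
  set Δ := (∑ j : Fin N, if j.val < N0 then pser N0 X R0 ((u : ℕ) : ℝ) K j else 0)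
    - ∑ j : Fin N, pser N X R ((u : ℕ) : ℝ) K j
  have hΔ : |Δ| ≤ 20 * b / (N0 : ℝ) ^ ((1 : ℝ) / 4) :=
    abs_pser_diff hN0 h hb hX hR0 (abs_ovR_le_one _ x y) hd u
  have hΔ' : |Δ| ≤ 20 * b := hΔ.trans (div_le_self (by positivity) h1)
  have hT : (∑ j : Fin N, if j.val < N0 then 0 else
      (isingP N).spin x.1 j * (isingP N).spin y.1 j) = N * R - N0 * R0 := by
    simp only [R, R0, ovR, Fin.is_lt, if_true]
    rw [mul_div_cancel₀ _ hN.ne', mul_div_cancel₀ _ (Nat.cast_ne_zero.2 hN0.ne'),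
      ← Finset.sum_sub_distrib]
    exact Finset.sum_congr rfl fun j _ => by split_ifs <;> ring
  have hg : grad P (bpat (isingP N)) (bspin (isingP N)) (pull c)
      (pull fun i => decSys N0 M q p X i - stdc (par0 K) X i) G x y
      = N * (R0 - R) * Pt + p u * (N * R - N0 * R0) + Δ := by
    rw [grad, cov_spin_one q p X h x y, ← hT]
    simp only [cov_pat_one q p X hN0 h]
    rw [← Finset.mul_sum]
    simp only [Pt, ovP]
    field_simp
    ring
  have hC : |(N : ℝ) * (R0 - R)| ≤ 2 * b := by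
    rw [abs_mul, Nat.abs_cast]
    calc (N : ℝ) * |R0 - R| ≤ N * (2 * b / N) := mul_le_mul_of_nonneg_left hd hN.le
      _ = _ := by field_simp
  have hPt : |Pt| ≤ Lp := (abs_ovP_le P _ c G x y).trans hM
  have hLp : 0 ≤ Lp := (abs_nonneg _).trans hPt
  constructor
  · rw [hg]
    refine (abs_add_three _ _ _).trans ?_
    rw [abs_mul, abs_mul (p u)]
    have hT' : |(N : ℝ) * R - N0 * R0| ≤ b := hT ▸ (abs_low_sum h x.1 y.1).2
    have := mul_le_mul hC hPt (abs_nonneg _) (by positivity)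
    have := mul_le_mul (hp u) hT' (abs_nonneg _) hLp
    linarith
  · rw [hg, show (N : ℝ) * (R0 - R) * Pt + p u * (N * R - N0 * R0) + Δ - b * (q u * p u)
      = (N : ℝ) * (R0 - R) * (Pt - p u) + b * p u * (R - q u) + (b * p u * (R0 - R) + Δ) by
        rw [hbdef]; ring]
    refine (abs_add_three _ _ _).trans (add_le_add (add_le_add ?_ ?_) ?_)
    · rw [abs_mul]
      exact mul_le_mul_of_nonneg_right hC (abs_nonneg _)
    · rw [abs_mul, abs_mul, abs_of_nonneg hb0]
      exact mul_le_mul_of_nonneg_right (mul_le_mul_of_nonneg_left (hp u) hb0) (abs_nonneg _)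
    · refine (abs_add_le _ _).trans (add_le_add ?_ hΔ)
      rw [abs_mul, abs_mul, abs_of_nonneg hb0]
      refine (mul_le_mul (mul_le_mul_of_nonneg_left (hp u) hb0) hd (abs_nonneg _)
        (by positivity)).trans_eq ?_
      ring

/-- Second segment: covariances of the pattern fields. -/
theorem cov_pat_two (hN : 0 < N) (a : Fin M) (x y : State (isingP N) K n) :
    ∑ i, pull (fun i : CIdx N M K => decSys N0 M0 q p X i - decSys N0 M q p X i) i
        * (bpat (isingP N) a x i * bpat (isingP N) a y i)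
      = if a.val < M0 then 0 else q (ovU (isingP N) x y) - ovR N0 (isingP N) x y := by
  have hN' : (N : ℝ) ≠ 0 := Nat.cast_ne_zero.2 hN.ne'
  rw [cov_bpat]
  split_ifs with ha
  · simp [decSys, ha]
  · simp only [decSys, ha, a.isLt, true_and, false_and, if_false, if_true, sub_zero, sum_incr,
      ovU, ovR]
    rw [Finset.sum_congr rfl fun j _ => show
        ((0 : ℝ) - if j.val < N0 then (N : ℝ) / N0 else 0)
            * ((isingP N).spin x.1 j * (isingP N).spin y.1 j)
          = -((N : ℝ) / N0) * (if j.val < N0 then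
              (isingP N).spin x.1 j * (isingP N).spin y.1 j else 0) by split_ifs <;> ring,
      ← Finset.mul_sum]
    field_simp
    ring

/-- Second segment: the bracket. -/
theorem grad_two (P : Pot) (hN : 0 < N) (hM0 : M0 ≤ M)
    (c : CIdx N M K → ℝ) (G : GIdx N M K n → ℝ) (x y : State (isingP N) K n) :
    |grad P (bpat (isingP N)) (bspin (isingP N)) (pull c)
        (pull fun i => decSys N0 M0 q p X i - decSys N0 M q p X i) G x y|
      ≤ ((M : ℝ) - M0) * P.b1 ^ 2 * |q (ovU (isingP N) x y) - ovR N0 (isingP N) x y| := by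
  have hz : ∑ i, pull (fun i : CIdx N M K => decSys N0 M0 q p X i - decSys N0 M q p X i) i
      * (bspin (isingP N) x i * bspin (isingP N) y i) = 0 := by
    rw [cov_bspin]
    simp [decSys]
  rw [grad, hz, add_zero]
  simp only [cov_pat_two q p X hN]
  set D := q (ovU (isingP N) x y) - ovR N0 (isingP N) x y
  refine (Finset.abs_sum_le_sum_abs _ _).trans ?_
  refine (Finset.sum_le_sum (g := fun a : Fin M => (if a.val < M0 then (0 : ℝ) else 1)
    * (P.b1 ^ 2 * |D|)) fun a _ => ?_).trans_eq ?_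
  · rw [abs_mul]
    split_ifs
    · simp
    · rw [one_mul, mul_comm (P.b1 ^ 2), abs_mul, sq]
      exact mul_le_mul_of_nonneg_left
        (mul_le_mul (P.h1 _) (P.h1 _) (abs_nonneg _) (Itp.b1_nonneg P)) (abs_nonneg _)
  · rw [← Finset.sum_mul, ← mul_assoc]
    congr 1
    have hc : ∑ a : Fin M, (if a.val < M0 then (1 : ℝ) else 0) = M0 := by
      rw [Finset.sum_boole, ← lowSet, card_lowSet hM0]
    rw [Finset.sum_congr rfl fun (a : Fin M) _ =>
      show (if a.val < M0 then (0 : ℝ) else 1) = 1 - if a.val < M0 then (1 : ℝ) else 0 by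
        split_ifs <;> norm_num, Finset.sum_sub_distrib, hc]
    simp

theorem diag_one (hN0 : 0 < N0) (h : N0 ≤ N) (a : Fin M) (x : State (isingP N) K n) :
    ∑ i, pull (fun i : CIdx N M K => decSys N0 M q p X i - stdc (par0 K) X i) i
      * bpat (isingP N) a x i ^ 2 = 0 := by
  simp only [sq, cov_pat_one q p X hN0 h, ovR]
  have h1 : ∀ (j : Fin N), (isingP N).spin x.1 j * (isingP N).spin x.1 j = 1 := fun j => by
    rw [← sq, isingP_spin_sq]
  simp only [h1, Finset.sum_boole]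
  rw [← lowSet, ← lowSet, card_lowSet h, card_lowSet le_rfl]
  have hN' : (N : ℝ) ≠ 0 := Nat.cast_ne_zero.2 (by omega)
  have h0 : (N0 : ℝ) ≠ 0 := Nat.cast_ne_zero.2 (by omega)
  field_simp
  ring

theorem diag_two (hN0 : 0 < N0) (h : N0 ≤ N) (hq : q (Fin.last K) = 1) (a : Fin M)
    (x : State (isingP N) K n) :
    ∑ i, pull (fun i : CIdx N M K => decSys N0 M0 q p X i - decSys N0 M q p X i) i
      * bpat (isingP N) a x i ^ 2 = 0 := by
  simp only [sq, cov_pat_two q p X (hN0.trans_le h), ovU, com_self, hq, ovR]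
  have h1 : ∀ (j : Fin N), (isingP N).spin x.1 j * (isingP N).spin x.1 j = 1 := fun j => by
    rw [← sq, isingP_spin_sq]
  simp only [h1, Finset.sum_boole]
  rw [← lowSet, card_lowSet h]
  have h0 : (N0 : ℝ) ≠ 0 := Nat.cast_ne_zero.2 (by omega)
  split_ifs <;> field_simp <;> ring

end Vale.Agent.P157.Casc.Low
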