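import Vale.Agent.P157.Casc.Defs

/-!
The perceptron coupled to cascade fields and to a hierarchical perturbation, and the functionals
of the variational formula.
-/

open MeasureTheory ProbabilityTheory Filter Topology

namespace Vale.Agent.P157.Casc

/-- A finitely supported prior on the sphere of squared radius `N`. -/
structure Prior (N : ℕ) where
  c : ℕ
  w : Fin c → ℝ
  spin : Fin c → Fin N → ℝ
  w_pos : ∀ σ, 0 < w σ
  w_sum : ∑ σ, w σ = 1
  norm_spin : ∀ σ, ∑ j, spin σ j ^ 2 = N

/-- States: a configuration and a leaf. -/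
abbrev State {N : ℕ} (π : Prior N) (K n : ℕ) : Type := Fin π.c × Leaf K n

/-- Labels of one perturbation feature: degree, power of the overlap, tensor index. -/
abbrev PIdx (N : ℕ) : Type := (j : Fin N) × (i : Fin (j.val + 2)) × (Fin i.val → Fin N)

/-- Coordinates of the label of a vertex. -/
abbrev LIdx (N M : ℕ) : Type := Fin M ⊕ Fin N ⊕ PIdx N

/-- All Gaussian coordinates: patterns, and labels of the root and of the vertices. -/
abbrev GIdx (N M K n : ℕ) : Type := (Fin M × Fin N) ⊕ (Option (Node K n) × LIdx N M)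

/-- Coordinates up to the position in a level: what the variances may depend on. -/
abbrev CIdx (N M K : ℕ) : Type := (Fin M × Fin N) ⊕ (Fin (K + 1) × LIdx N M)

/-- Level of the root or of a vertex. -/
def lev {K n : ℕ} : Option (Node K n) → Fin (K + 1)
  | none => 0
  | some u => u.1.succ

/-- Variances of all coordinates from those of the levels. -/
def pull {N M K n : ℕ} (c : CIdx N M K → ℝ) : GIdx N M K n → ℝ
  | Sum.inl p => c (Sum.inl p)
  | Sum.inr (o, i) => c (Sum.inr (lev o, i))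

/-- Parameters `(s, Q, C)`: pattern strength, pattern-field path, spin-field path. -/
abbrev Par (K : ℕ) : Type := ℝ × (Fin (K + 1) → ℝ) × (Fin (K + 1) → ℝ)

/-- Increment of a path at a level. -/
def incr {K : ℕ} (v : Fin (K + 1) → ℝ) : Fin (K + 1) → ℝ :=
  Fin.cases (v 0) fun l => v l.succ - v l.castSucc

/-- Indicator that a leaf lies below a vertex. -/
def below {K n : ℕ} (α : Leaf K n) : Option (Node K n) → ℝ
  | none => 1
  | some u => if node α u.1 = u then 1 else 0

/-- Amplitude of the perturbation of degree `j + 1`. -/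
noncomputable def amp (N j : ℕ) : ℝ := (N : ℝ) ^ ((3 : ℝ) / 8) / 2 ^ (j + 1)

/-- The path `l ↦ l ^ k`. -/
def powPath (K k : ℕ) (l : Fin (K + 1)) : ℝ := ((l : ℕ) : ℝ) ^ k

/-- Variances of the perturbation on the first `N0` spins, with parameters `x`. -/
noncomputable def pertc {N M K : ℕ} (N0 : ℕ) (x : ℕ → ℝ) : CIdx N M K → ℝ
  | Sum.inr (l, Sum.inr (Sum.inr ⟨j, i, t⟩)) =>
      if j.val < N0 ∧ ∀ r, (t r).val < N0 then
        (amp N0 j * x j) ^ 2 * ((j.val + 1).choose i.val * 3 ^ (j.val + 1 - i.val)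
          * incr (powPath K (j.val + 1 - i.val)) l)
          / (((3 * K + 1 : ℕ) : ℝ) ^ (j.val + 1) * (N0 : ℝ) ^ i.val)
      else 0
  | _ => 0

/-- Variances of the patterns and of the hierarchical fields. -/
def fieldc {N M K : ℕ} (Λ : Par K) : CIdx N M K → ℝ
  | Sum.inl _ => Λ.1
  | Sum.inr (l, Sum.inl _) => incr Λ.2.1 l
  | Sum.inr (l, Sum.inr (Sum.inl _)) => incr Λ.2.2 l
  | Sum.inr (_, Sum.inr (Sum.inr _)) => 0

/-- Variances of the standard system. -/
noncomputable def stdc {N M K : ℕ} (Λ : Par K) (x : ℕ → ℝ) (i : CIdx N M K) : ℝ :=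
  fieldc Λ i + pertc N x i

/-- Directions of the pattern fields. -/
noncomputable def bpat {N M K n : ℕ} (π : Prior N) (a : Fin M) (st : State π K n) :
    GIdx N M K n → ℝ
  | Sum.inl (a', j) => if a' = a then π.spin st.1 j / √(N : ℝ) else 0
  | Sum.inr (o, Sum.inl a') => if a' = a then below st.2 o else 0
  | Sum.inr (_, Sum.inr _) => 0

/-- Directions of the linear field. -/
noncomputable def bspin {N M K n : ℕ} (π : Prior N) (st : State π K n) : GIdx N M K n → ℝ
  | Sum.inl _ => 0
  | Sum.inr (_, Sum.inl _) => 0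
  | Sum.inr (o, Sum.inr (Sum.inl j)) => below st.2 o * π.spin st.1 j
  | Sum.inr (o, Sum.inr (Sum.inr ⟨_, _, t⟩)) => below st.2 o * ∏ r, π.spin st.1 (t r)

/-- Prior weight of a state. -/
noncomputable def stw {N K n : ℕ} (π : Prior N) (W : Node K n → ℝ) (st : State π K n) : ℝ :=
  π.w st.1 * wgt (mlev K) W st.2

/-- Weights and Gaussian coordinates, as one random environment. -/
noncomputable def envLaw (N M K n : ℕ) : Measure ((Node K n → ℝ) × (GIdx N M K n → ℝ)) :=
  (casW (mlev K) n).prod (gaus (GIdx N M K n))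

/-- Unnormalised random weights of the states. -/
noncomputable def mbw {N M K n : ℕ} (P : Pot) (π : Prior N) (c : CIdx N M K → ℝ)
    (p : (Node K n → ℝ) × (GIdx N M K n → ℝ)) : State π K n → ℝ :=
  bw P (stw π p.1) (bpat π) (bspin π) (pull c) p.2

/-- Free energy, normalised by that of the bare cascade. -/
noncomputable def mfree {N M K : ℕ} (n : ℕ) (P : Pot) (π : Prior N) (c : CIdx N M K → ℝ) : ℝ :=
  (∫ p, Real.log (∑ st, mbw P π c p st) ∂envLaw N M K n) - cst (mlev K) n

/-- Expected two-replica average. -/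
noncomputable def mpair {N M K : ℕ} (n : ℕ) (P : Pot) (π : Prior N) (c : CIdx N M K → ℝ)
    (O : (GIdx N M K n → ℝ) → State π K n → State π K n → ℝ) : ℝ :=
  ∫ p, avg2 (mbw P π c p) (O p.2) ∂envLaw N M K n

/-- Overlap of the first `N0` spins, divided by `N0`. -/
noncomputable def ovR {N K n : ℕ} (N0 : ℕ) (π : Prior N) (st st' : State π K n) : ℝ :=
  (∑ j : Fin N, if j.val < N0 then π.spin st.1 j * π.spin st'.1 j else 0) / N0

/-- Common level of two states. -/
def ovU {N K n : ℕ} (π : Prior N) (st st' : State π K n) : Fin (K + 1) := com st.2 st'.2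

/-- Kernel of the perturbation. -/
noncomputable def ovS {N K n : ℕ} (N0 : ℕ) (π : Prior N) (st st' : State π K n) : ℝ :=
  (ovR N0 π st st' + 3 * ((ovU π st st' : ℕ) : ℝ)) / ((3 * K + 1 : ℕ) : ℝ)

/-- Overlap of the derivatives of the potentials. -/
noncomputable def ovP {N M K n : ℕ} (N0 : ℕ) (P : Pot) (π : Prior N) (c : CIdx N M K → ℝ)
    (G : GIdx N M K n → ℝ) (st st' : State π K n) : ℝ :=
  (∑ a, P.f1 (lin (bpat π a) (pull c) G st) * P.f1 (lin (bpat π a) (pull c) G st')) / N0

/-- Value `g` on the pairs at level `l`. -/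
def onLev {K : ℕ} (l u : Fin (K + 1)) (g : ℝ) : ℝ := if u = l then g else 0

/-- Probability of the level `l`. -/
noncomputable def piX {N M K : ℕ} (n : ℕ) (P : Pot) (π : Prior N) (c : CIdx N M K → ℝ)
    (l : Fin (K + 1)) : ℝ :=
  mpair n P π c (fun _ st st' => onLev l (ovU π st st') 1)

/-- Spin overlap at level `l`, divided by `pi0`. -/
noncomputable def qX {N M K : ℕ} (n N0 : ℕ) (P : Pot) (π : Prior N) (c : CIdx N M K → ℝ)
    (l : Fin (K + 1)) : ℝ :=
  mpair n P π c (fun _ st st' => onLev l (ovU π st st') (ovR N0 π st st')) / pi0 K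

/-- Overlap of derivatives at level `l`, divided by `pi0`. -/
noncomputable def pX {N M K : ℕ} (n N0 : ℕ) (P : Pot) (π : Prior N) (c : CIdx N M K → ℝ)
    (l : Fin (K + 1)) : ℝ :=
  mpair n P π c (fun G st st' => onLev l (ovU π st st') (ovP N0 P π c G st st')) / pi0 K

/-- Coordinates of the root: patterns and the label of the root. -/
abbrev RIdx (N M : ℕ) : Type := (Fin M × Fin N) ⊕ LIdx N M

/-- The coordinates of one branch, as those of a tree with one child per vertex. -/
def branch {N M K : ℕ} (z : RIdx N M → ℝ) (y : Fin K → LIdx N M → ℝ) : GIdx N M K 1 → ℝ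
  | Sum.inl p => z (Sum.inl p)
  | Sum.inr (none, l) => z (Sum.inr l)
  | Sum.inr (some u, l) => y u.1 l

/-- The factor of a leaf given the root and the labels on its branch. -/
noncomputable def leafY {N M K : ℕ} (P : Pot) (π : Prior N) (c : CIdx N M K → ℝ)
    (z : RIdx N M → ℝ) (y : Fin K → LIdx N M → ℝ) : ℝ :=
  ∑ σ, π.w σ *
    Real.exp (ham P (bpat (n := 1) π) (bspin π) (pull c) (branch z y) (σ, fun _ => 0))

/-- Parameters of the perturbation: uniform on `[1, 2]`, independent. -/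
noncomputable def xlaw (J : ℕ) : Measure (Fin J → ℝ) :=
  Measure.pi fun _ => volume.restrict (Set.Icc (1 : ℝ) 2)

instance xlaw_prob (J : ℕ) : IsProbabilityMeasure (xlaw J) := by
  have : IsProbabilityMeasure (volume.restrict (Set.Icc (1 : ℝ) 2)) := ⟨by norm_num⟩
  unfold xlaw; infer_instance

/-- Extension of a finite list of parameters by zero. -/
def ext0 {J : ℕ} (x : Fin J → ℝ) (j : ℕ) : ℝ := if h : j < J then x ⟨j, h⟩ else 0

/-- Admissible parameters. -/
def Adm (K : ℕ) (L : ℝ) (Λ : Par K) : Prop :=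
  Λ.1 ∈ Set.Icc (0 : ℝ) 1 ∧ Monotone Λ.2.1 ∧ 0 ≤ Λ.2.1 0 ∧ Λ.2.1 (Fin.last K) = 1 - Λ.1 ∧
    Monotone Λ.2.2 ∧ 0 ≤ Λ.2.2 0 ∧ Λ.2.2 (Fin.last K) ≤ L

/-- Expected log partition function of the perceptron with a finitely supported prior. -/
noncomputable def pressP {N : ℕ} (M : ℕ) (f : ℝ → ℝ) (π : Prior N) : ℝ :=
  ∫ G, Real.log (∑ σ, π.w σ * Real.exp (∑ a : Fin M,
    f ((∑ j, G a j * π.spin σ j) / √(N : ℝ))))
    ∂Measure.pi fun _ : Fin M => gaus (Fin N)

/-- A path as a field: value along the labels of the levels. -/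
noncomputable def pathField {K : ℕ} (v : Fin (K + 1) → ℝ) (z : ℝ) (y : Fin K → ℝ) : ℝ :=
  √(v 0) * z + ∑ l : Fin K, √(v l.succ - v l.castSucc) * y l

/-- The entropy functional of a prior. -/
noncomputable def psiP {N K : ℕ} (π : Prior N) (C : Fin (K + 1) → ℝ) : ℝ :=
  (∫ z : Fin N → ℝ, casc (gaus (Fin N)) K (mlev K) (fun y => Real.log (∑ σ, π.w σ *
      Real.exp (∑ j, π.spin σ j * pathField C (z j) (fun l => y l j)))) ∂gaus (Fin N)) / N
    - C (Fin.last K) / 2

/-- The entropy functional of the Ising cube. -/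
noncomputable def psiI {K : ℕ} (C : Fin (K + 1) → ℝ) : ℝ :=
  (∫ z, casc (gaussianReal 0 1) K (mlev K) (fun y => Real.log (Real.cosh (pathField C z y)))
    ∂gaussianReal 0 1) - C (Fin.last K) / 2

/-- The energy functional. -/
noncomputable def psiF {K : ℕ} (f : ℝ → ℝ) (Q : Fin (K + 1) → ℝ) : ℝ :=
  ∫ z, casc (gaussianReal 0 1) K (mlev K) (fun y => f (pathField Q z y)) ∂gaussianReal 0 1

/-- The spin overlap of the cascade functional of the Ising cube. -/
noncomputable def vI {K : ℕ} (C : Fin (K + 1) → ℝ) (l : Fin (K + 1)) : ℝ :=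
  ∫ z, csq (gaussianReal 0 1) K (mlev K) (fun y => Real.log (Real.cosh (pathField C z y)))
    (fun y => Real.tanh (pathField C z y)) l ∂gaussianReal 0 1

/-- The overlap of derivatives of the energy functional. -/
noncomputable def vF {K : ℕ} (P : Pot) (Q : Fin (K + 1) → ℝ) (l : Fin (K + 1)) : ℝ :=
  ∫ z, csq (gaussianReal 0 1) K (mlev K) (fun y => P.f (pathField Q z y))
    (fun y => P.f1 (pathField Q z y)) l ∂gaussianReal 0 1

/-- The variational functional. -/
noncomputable def pfun {K : ℕ} (psi : (Fin (K + 1) → ℝ) → ℝ) (α : ℝ) (f : ℝ → ℝ)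
    (p q : Fin (K + 1) → ℝ) : ℝ :=
  psi p + α * psiF f q + pi0 K / 2 * ∑ l, p l * q l

/-- Paths of the spin side. -/
def pathsP (K : ℕ) (L : ℝ) : Set (Fin (K + 1) → ℝ) :=
  {p | Monotone p ∧ 0 ≤ p 0 ∧ p (Fin.last K) ≤ L}

/-- Paths of the pattern side. -/
def pathsQ (K : ℕ) : Set (Fin (K + 1) → ℝ) :=
  {q | Monotone q ∧ 0 ≤ q 0 ∧ q (Fin.last K) = 1}

end Vale.Agent.P157.Casc
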