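import Vale.Agent.P157.Casc.SyncMeas
import Vale.Agent.P157.Casc.Ultra.Sync
import Vale.Agent.P157.Casc.LimitDefs

/-!
Synchronisation of the standard systems: on average over the perturbation, the spin overlap is
predicted by the level.
-/

open MeasureTheory ProbabilityTheory Filter Topology Set

namespace Vale.Agent.P157.Casc

variable {N M K n : ℕ}

theorem unitGram_ovR (π : Prior N) (hN : 0 < N) :
    UnitGram (ovR N π : State π K n → State π K n → ℝ) := by
  have hN' : (0 : ℝ) < N := Nat.cast_pos.2 hN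
  refine ⟨N, fun st j => π.spin st.1 j / √(N : ℝ), fun st st' => ?_, fun st => ?_⟩
  · simp only [ovR, Fin.is_lt, if_true, Finset.sum_div]
    refine Finset.sum_congr rfl fun j _ => ?_
    rw [div_mul_div_comm, Real.mul_self_sqrt hN'.le]
  · simp only [ovR, Fin.is_lt, if_true]
    rw [show ∑ j, π.spin st.1 j * π.spin st.1 j = (N : ℝ) by
      simpa [pow_two] using π.norm_spin st.1]
    exact div_self hN'.ne'

theorem com_min (α β γ : Leaf K n) : min (com α β) (com β γ) ≤ com α γ := by
  by_contra hne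
  rw [not_le] at hne
  have h1 := Fin.lt_def.1 (hne.trans_le (min_le_left _ _))
  have h2 := Fin.lt_def.1 (hne.trans_le (min_le_right _ _))
  have hlt : (com α γ : ℕ) < K := lt_of_lt_of_le h1 (Nat.lt_succ_iff.1 (com α β).isLt)
  have a := (node_eq_iff_lt α β ⟨_, hlt⟩).2 h1
  have b := (node_eq_iff_lt β γ ⟨_, hlt⟩).2 h2
  exact absurd ((node_eq_iff_lt α γ ⟨_, hlt⟩).1 (a.trans b)) (lt_irrefl _)

open Classical in
theorem unitGram_ovU (π : Prior N) (hK : 0 < K) :
    UnitGram fun st st' : State π K n => ((ovU π st st' : ℕ) : ℝ) / K := by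
  have hK' : (0 : ℝ) < K := Nat.cast_pos.2 hK
  set e := Fintype.equivFin (Node K n)
  have key : ∀ α β : Leaf K n, ∑ v : Node K n, (if node α v.1 = v then (1 : ℝ) else 0)
      * (if node β v.1 = v then 1 else 0) = (com α β : ℕ) := by
    intro α β
    rw [Fintype.sum_sigma]
    have : ∀ l : Fin K, ∑ w : Fin (l.val + 1) → Fin n,
        (if node α l = ⟨l, w⟩ then (1 : ℝ) else 0) * (if node β l = ⟨l, w⟩ then 1 else 0)
        = if node α l = node β l then 1 else 0 := by
      intro l
      refine (Finset.sum_eq_single (node α l).2 ?_ ?_).trans ?_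
      rotate_left 2
      · rw [if_pos (by rfl), one_mul]
        simp only [eq_comm (a := node β l)]
        rfl
      · intro w _ hw
        rw [if_neg (fun h => hw ?_), zero_mul]
        exact (eq_of_heq (Sigma.mk.inj_iff.1 h).2).symm
      · exact fun h => absurd (Finset.mem_univ _) h
    rw [Finset.sum_congr rfl fun l _ => this l, Finset.sum_boole]
    simp only [com]
  refine ⟨Fintype.card (Node K n),
    fun st i => (if node st.2 (e.symm i).1 = e.symm i then 1 else 0) / √(K : ℝ),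
    fun st st' => ?_, fun st => ?_⟩
  · simp only [div_mul_div_comm, Real.mul_self_sqrt hK'.le, ← Finset.sum_div, ovU]
    rw [Equiv.sum_comp e.symm (fun v => (if node st.2 v.1 = v then (1 : ℝ) else 0)
      * (if node st'.2 v.1 = v then 1 else 0)), key]
  · simp only [ovU, com_self, Fin.val_last]
    exact div_self hK'.ne'

theorem abs_ovR_le (π : Prior N) (hN : 0 < N) (st st' : State π K n) : |ovR N π st st'| ≤ 1 :=
  abs_le.2 ((unitGram_ovR π hN).mem st st')

/-- Prediction error from the abstract one, once the levels and the conditional means converge. -/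
theorem errR_le (P : Pot) (π : Prior N) [Nonempty (State π K n)] (hN : 0 < N) (c : CIdx N M K → ℝ) {η : ℝ}
    (hpi : ∀ l, |piX n P π c l - pi0 K| ≤ η)
    (hq : ∀ l, l ≠ Fin.last K → |qX n N P π c l - qhat n P π c l| ≤ η) :
    errR n P π c (qhat n P π c) ≤ 4 * pi0 K + 2 * syncErr (envLaw N M K n) (posW P π c)
        (ovR N π) (ovU π) + 8 * ((K : ℝ) + 1) * η := by
  classical
  set ρ := envLaw N M K n
  set u := posW (n := n) P π c
  have hm := measurable_posW (n := n) P π c
  have hp := posW_pos (n := n) P π c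
  have hpl : 0 < pi0 K := by rw [pi0]; positivity
  set I : Fin (K + 1) → (Fin 2 → State π K n) → ℝ := fun l x =>
    if ovU π (x 0) (x 1) = l then 1 else 0
  set mean : Fin (K + 1) → ℝ := fun l =>
    eavg ρ u 2 (fun y => I l y * ovR N π (y 0) (y 1)) / eavg ρ u 2 (I l)
  have epi : ∀ l, piX n P π c l = eavg ρ u 2 (I l) := fun l => by
    rw [piX, mpair_eq_eavg, ← eavg_posW]
    rfl
  have eq : ∀ l, qX n N P π c l = eavg ρ u 2 (fun y => I l y * ovR N π (y 0) (y 1)) / pi0 K :=
    fun l => by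
    rw [qX, mpair_eq_eavg, ← eavg_posW]
    congr 2
    funext y
    simp only [I, onLev]
    split_ifs <;> simp
  set q := qhat n P π c
  have hq01 : ∀ l, q l ∈ Icc (0 : ℝ) 1 := fun l =>
    ⟨(qhat_mem n P π c).2.1.trans ((qhat_mem n P π c).1 (Fin.zero_le l)),
      ((qhat_mem n P π c).1 (Fin.le_last l)).trans (qhat_mem n P π c).2.2.le⟩
  have hgap : ∀ l, eavg ρ u 2 (I l) * |mean l - q l|
      ≤ 2 * η + if l = Fin.last K then 2 * pi0 K else 0 := by
    intro l
    set A := eavg ρ u 2 (I l)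
    set B := eavg ρ u 2 (fun y => I l y * ovR N π (y 0) (y 1))
    have hA0 : 0 ≤ A := by
      rw [← eavg_const' (μ := ρ) hp 2 (0 : ℝ)]
      exact eavg_mono' hm hp fun x => by simp only [I]; split_ifs <;> norm_num
    have hBA : |B| ≤ A := abs_le.2 ⟨by
      rw [← neg_one_mul, ← eavg_smul']
      exact eavg_mono' hm hp fun x => by
        simp only [I]; split_ifs <;> simp [(abs_le.1 (abs_ovR_le π hN (x 0) (x 1))).1], by
      exact eavg_mono' hm hp fun x => by
        simp only [I]; split_ifs <;> simp [(abs_le.1 (abs_ovR_le π hN (x 0) (x 1))).2]⟩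
    have hAm : A * mean l = B := by
      rcases hA0.eq_or_lt with hz | hpos
      · rw [← hz] at hBA
        rw [← hz, zero_mul, abs_nonpos_iff.1 hBA]
      · exact mul_div_cancel₀ _ hpos.ne'
    have hAd : |A - pi0 K| ≤ η := by rw [show A = piX n P π c l from (epi l).symm]; exact hpi l
    rw [show A * |mean l - q l| = |B - A * q l| by
      rw [← hAm, ← mul_sub, abs_mul, abs_of_nonneg hA0]]
    split_ifs with hl
    · have h1 : |A * q l| ≤ A := by
        rw [abs_mul, abs_of_nonneg hA0, abs_of_nonneg (hq01 l).1]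
        exact mul_le_of_le_one_right hA0 (hq01 l).2
      linarith [abs_sub B (A * q l), (abs_le.1 hAd).2]
    · have h2 : |B - pi0 K * q l| ≤ pi0 K * η := by
        have := hq l hl
        rw [eq l] at this
        calc |B - pi0 K * q l| = pi0 K * |B / pi0 K - q l| := by
              rw [← abs_of_pos hpl, ← abs_mul, abs_of_pos hpl, mul_sub, mul_div_cancel₀ _ hpl.ne']
          _ ≤ _ := mul_le_mul_of_nonneg_left this hpl.le
      have h3 : |pi0 K * q l - A * q l| ≤ η := by
        rw [← sub_mul, abs_mul, abs_sub_comm, abs_of_nonneg (hq01 l).1]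
        exact (mul_le_of_le_one_right (abs_nonneg _) (hq01 l).2).trans hAd
      have h4 : pi0 K * η ≤ η := mul_le_of_le_one_left ((abs_nonneg _).trans hAd)
        (by rw [pi0, div_le_one (by positivity)]; linarith [Nat.cast_nonneg (α := ℝ) K])
      linarith [abs_sub_le B (pi0 K * q l) (A * q l)]
  have hsync : syncErr ρ u (ovR N π) (ovU π)
      = eavg ρ u 2 (fun x => ∑ l, I l x * |ovR N π (x 0) (x 1) - mean l|) := by
    rw [syncErr]
    congr 1
    funext x
    rw [Finset.sum_eq_single (ovU π (x 0) (x 1)) (fun l _ hl => by simp [I, hl.symm])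
      (fun h => absurd (Finset.mem_univ _) h)]
    simp [I, mean]
  rw [errR, mpair_eq_eavg, ← eavg_posW]
  refine (eavg_mono' hm hp (H := fun x => 2 * (∑ l, I l x * |ovR N π (x 0) (x 1) - mean l|)
    + 2 * ∑ l, |mean l - q l| * I l x) fun x => ?_).trans ?_
  · rw [Finset.sum_eq_single (ovU π (x 0) (x 1)) (fun l _ hl => by simp [I, hl.symm])
      (fun h => absurd (Finset.mem_univ _) h),
      Finset.sum_eq_single (ovU π (x 0) (x 1)) (fun l _ hl => by simp [I, hl.symm])
      (fun h => absurd (Finset.mem_univ _) h)]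
    simp only [I, if_true, one_mul, mul_one]
    have h1 := abs_le.1 (abs_ovR_le π hN (x 0) (x 1))
    have h2 := hq01 (ovU π (x 0) (x 1))
    have h3 : |ovR N π (x 0) (x 1) - q (ovU π (x 0) (x 1))| ≤ 2 :=
      abs_le.2 ⟨by linarith [h1.1, h2.2], by linarith [h1.2, h2.1]⟩
    rw [← sq_abs, pow_two]
    refine (mul_le_mul_of_nonneg_right h3 (abs_nonneg _)).trans ?_
    linarith [abs_sub_le (ovR N π (x 0) (x 1)) (mean (ovU π (x 0) (x 1))) (q (ovU π (x 0) (x 1)))]
  · rw [eavg_add' hm hp, eavg_smul', eavg_smul', ← hsync, eavg_sum' hm hp]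
    have hs : ∑ l, eavg ρ u 2 (fun x => |mean l - q l| * I l x)
        ≤ ∑ l, (2 * η + if l = Fin.last K then 2 * pi0 K else 0) := Finset.sum_le_sum fun l _ => by
      rw [eavg_smul', mul_comm]; exact hgap l
    rw [Finset.sum_add_distrib, Finset.sum_const, Finset.card_univ, Fintype.card_fin,
      nsmul_eq_mul, Finset.sum_ite_eq' Finset.univ (Fin.last K), if_pos (Finset.mem_univ _)] at hs
    push_cast at hs
    have : 0 ≤ ((K : ℝ) + 1) * η := mul_nonneg (by positivity) ((abs_nonneg _).trans (hpi 0))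
    linarith

theorem state_nonempty (π : Prior N) (hn : 0 < n) : Nonempty (State π K n) := by
  have hσ : Nonempty (Fin π.c) := by
    by_contra h
    have := π.w_sum
    rw [not_nonempty_iff] at h
    simp at this
  exact ⟨hσ.some, fun _ => ⟨0, hn⟩⟩

open Classical in
/-- Synchronisation of the standard systems, from the averaged identities and the convergence of
levels and conditional means. -/
theorem sync_model (P : Pot) (πf : ∀ N, Prior N) (α L : ℝ)
    (hgg : ∀ K j : ℕ, ∀ ε > (0 : ℝ), ∃ Nmin : ℕ, ∀ N ≥ Nmin, j < N ∧ ∀ M : ℕ,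
      (M : ℝ) ≤ α * N → ∃ n0, ∀ n ≥ n0, ∀ Λ : Par K, Adm K L Λ →
        ∃ δ : (Fin N → ℝ) → ℝ, Integrable δ (xlaw N) ∧ (∀ x, 0 ≤ δ x) ∧
          ∫ x, δ x ∂xlaw N ≤ ε ∧ ∀ x : Fin N → ℝ, (∀ i, x i ∈ Icc (1 : ℝ) 2) →
            ∀ (r : ℕ) (F : (Fin (r + 1) → State (πf N) K n) → ℝ), (∀ y, |F y| ≤ 1) →
              |ggDef (envLaw N M K n) (mbw P (πf N) (stdc Λ (ext0 x)))
                (fun s s' => ovS N (πf N) s s' ^ (j + 1)) r F| ≤ δ x)
    (hlev : ∀ (N M K : ℕ) (π : Prior N), 0 < N → ∀ η > (0 : ℝ), ∃ n0, ∀ n ≥ n0,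
      ∀ Λ : Par K, Adm K L Λ → ∀ x : Fin N → ℝ, (∀ i, x i ∈ Icc (1 : ℝ) 2) →
        (∀ l, |piX n P π (stdc Λ (ext0 x) : CIdx N M K → ℝ) l - pi0 K| ≤ η) ∧
          ∀ l, l ≠ Fin.last K → |qX n N P π (stdc Λ (ext0 x) : CIdx N M K → ℝ) l
            - qhat n P π (stdc Λ (ext0 x) : CIdx N M K → ℝ) l| ≤ η)
    {ε : ℝ} (hε : 0 < ε) :
    ∃ K0 : ℕ, ∀ K ≥ K0, ∃ N1 : ℕ, ∀ N ≥ N1, ∀ M : ℕ, (M : ℝ) ≤ α * N →
      ∃ n0 : ℕ, ∀ n ≥ n0, ∀ Λ : Par K, Adm K L Λ →
        ∫ x, errR n P (πf N) (stdc Λ (ext0 x) : CIdx N M K → ℝ)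
          (qhat n P (πf N) (stdc Λ (ext0 x) : CIdx N M K → ℝ)) ∂xlaw N ≤ ε := by
  obtain ⟨K0, hK0⟩ := exists_nat_gt (300 / ε)
  refine ⟨K0 + 1, fun K hK => ?_⟩
  have hKpos : 0 < K := lt_of_lt_of_le (Nat.succ_pos K0) hK
  have hpi : 0 < pi0 K := by rw [pi0]; positivity
  have hpismall : pi0 K ≤ ε / 300 := by
    rw [pi0, div_le_div_iff₀ (by positivity) (by norm_num)]
    have : (K0 : ℝ) + 1 ≤ K := by exact_mod_cast hK
    rw [div_lt_iff₀ hε] at hK0
    have := mul_le_mul_of_nonneg_left this hε.le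
    linarith
  by_contra hne
  push Not at hne
  -- choose the sequence of bad systems
  have hsel : ∀ k : ℕ, ∃ Nk : ℕ, 0 < Nk ∧ k ≤ Nk ∧ ∃ (π : Prior Nk) (M : ℕ) (n : ℕ) (Λ : Par K)
      (x : Fin Nk → ℝ), 0 < n ∧
      ε - 1 / ((k : ℝ) + 1) ≤ errR n P π (stdc Λ (ext0 x) : CIdx Nk M K → ℝ)
        (qhat n P π (stdc Λ (ext0 x) : CIdx Nk M K → ℝ)) ∧
      (∀ l, |piX n P π (stdc Λ (ext0 x) : CIdx Nk M K → ℝ) l - pi0 K| ≤ 1 / ((k : ℝ) + 1)) ∧
      (∀ l, l ≠ Fin.last K → |qX n Nk P π (stdc Λ (ext0 x) : CIdx Nk M K → ℝ) l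
        - qhat n P π (stdc Λ (ext0 x) : CIdx Nk M K → ℝ) l| ≤ 1 / ((k : ℝ) + 1)) ∧
      ∀ j ≤ k, ∀ (r : ℕ) (F : (Fin (r + 1) → State π K n) → ℝ), (∀ y, |F y| ≤ 1) →
        |ggDef (envLaw Nk M K n) (mbw P π (stdc Λ (ext0 x)))
          (fun s s' => ovS Nk π s s' ^ (j + 1)) r F| ≤ 5 / ((k : ℝ) + 1) := by
    intro k
    set e := 1 / ((k : ℝ) + 1) ^ 3 with he
    choose Nmin hNmin using fun j => hgg K j e (by positivity)
    obtain ⟨N, hN, M, hM, hbad⟩ := hne (k + 1 + ∑ j ∈ Finset.range (k + 1), Nmin j)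
    set π := πf N
    have hN0 : 0 < N := by omega
    have hNj : ∀ j ∈ Finset.range (k + 1), Nmin j ≤ N := fun j hj =>
      (Finset.single_le_sum (fun i _ => Nat.zero_le _) hj).trans (by omega)
    choose! nj hnj using fun j (hj : j ∈ Finset.range (k + 1)) => (hNmin j N (hNj j hj)).2 M hM
    obtain ⟨n1, hn1⟩ := hlev N M K π hN0 (1 / ((k : ℝ) + 1)) (by positivity)
    obtain ⟨n, hn, Λ, hΛ, hlt⟩ := hbad (n1 + 1 + ∑ j ∈ Finset.range (k + 1), nj j)
    choose! δ hδi hδ0 hδe hδ using fun j (hj : j ∈ Finset.range (k + 1)) => hnj j hj n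
      ((Finset.single_le_sum (fun i _ => Nat.zero_le _) hj).trans (by omega)) Λ hΛ
    set f : (Fin N → ℝ) → ℝ := fun x => errR n P π (stdc Λ (ext0 x) : CIdx N M K → ℝ)
      (qhat n P π (stdc Λ (ext0 x) : CIdx N M K → ℝ))
    set D : (Fin N → ℝ) → ℝ := fun x => ∑ j ∈ Finset.range (k + 1), δ j x
    have hc := (continuous_stdc (M := M) (N := N) Λ).measurable
    have hq : Measurable fun x : Fin N → ℝ => qhat n P π (stdc Λ (ext0 x) : CIdx N M K → ℝ) := by
      have hX : ∀ l, Measurable fun x : Fin N → ℝ =>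
          qX n N P π (stdc Λ (ext0 x) : CIdx N M K → ℝ) l := fun l =>
        (measurable_mpair_param P π hc (O := fun _ _ st st' =>
          onLev l (ovU π st st') (ovR N π st st')) fun _ _ => measurable_const).div_const _
      refine measurable_pi_lambda _ fun l => ?_
      unfold qhat
      by_cases hl : l = Fin.last K
      · simp only [if_pos hl]; exact measurable_const
      · simp only [if_neg hl]
        exact (measurable_pi_apply l).comp
          ((continuous_monoP 1).measurable.comp (measurable_pi_lambda _ hX))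
    have hfm : Measurable f := measurable_mpair_param P π hc (O := fun x _ st st' =>
      (ovR N π st st' - qhat n P π (stdc Λ (ext0 x) : CIdx N M K → ℝ) (ovU π st st')) ^ 2)
      fun s t => ((measurable_const.sub ((measurable_pi_apply _).comp
        (hq.comp measurable_fst))).pow_const 2)
    have hfb : ∀ x, |f x| ≤ 4 := fun x => abs_mpair_le P π _ (by norm_num) fun G s t => by
      have h1 := abs_le.1 (abs_ovR_le π hN0 s t)
      obtain ⟨hmono, hq0, hq1⟩ := qhat_mem n P π (stdc Λ (ext0 x) : CIdx N M K → ℝ)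
      have h2 := hq0.trans (hmono (Fin.zero_le (ovU π s t)))
      have h3 := (hmono (Fin.le_last (ovU π s t))).trans hq1.le
      rw [abs_pow, show (4 : ℝ) = 2 ^ 2 by norm_num]
      exact pow_le_pow_left₀ (abs_nonneg _) (abs_le.2 ⟨by linarith, by linarith⟩) 2
    have hfi : Integrable f (xlaw N) := Integrable.of_bound hfm.aestronglyMeasurable 4
      (Eventually.of_forall fun x => (Real.norm_eq_abs _).trans_le (hfb x))
    have hDi : Integrable D (xlaw N) := integrable_finsetSum _ fun j hj => hδi j hj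
    have hnull : xlaw N {x | ∀ i, x i ∈ Icc (1 : ℝ) 2}ᶜ = 0 := by
      have : IsProbabilityMeasure (volume.restrict (Icc (1 : ℝ) 2)) := ⟨by norm_num⟩
      have h : ∀ᵐ x ∂xlaw N, ∀ i, x i ∈ Icc (1 : ℝ) 2 := ae_all_iff.2 fun i =>
        (measurePreserving_eval (μ := fun _ : Fin N => volume.restrict (Icc (1 : ℝ) 2))
          i).quasiMeasurePreserving.ae (ae_restrict_mem measurableSet_Icc)
      exact ae_iff.1 h
    obtain ⟨x, hxmem, hx⟩ := exists_notMem_null_integral_le
      (hfi.sub (hDi.const_mul ((k : ℝ) + 1))) hnull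
    simp only [Set.mem_compl_iff, Set.mem_ofPred_eq, not_not] at hxmem
    simp only [Pi.sub_apply] at hx
    rw [integral_sub hfi (hDi.const_mul _), integral_const_mul] at hx
    have hDle : ((k : ℝ) + 1) * ∫ x, D x ∂xlaw N ≤ 1 / ((k : ℝ) + 1) := by
      rw [integral_finsetSum _ fun j hj => hδi j hj]
      refine (mul_le_mul_of_nonneg_left (Finset.sum_le_sum hδe) (by positivity)).trans_eq ?_
      rw [Finset.sum_const, Finset.card_range, nsmul_eq_mul, he]
      push_cast
      field_simp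
    have hD0 : 0 ≤ D x := Finset.sum_nonneg fun j hj => hδ0 j hj x
    have hlt' : ε < ∫ x, f x ∂xlaw N := hlt
    refine ⟨N, hN0, by omega, π, M, n, Λ, x, by omega, ?_, (hn1 n (by omega) Λ hΛ x hxmem).1,
      (hn1 n (by omega) Λ hΛ x hxmem).2, fun j hj r F hF => ?_⟩
    · change ε - 1 / ((k : ℝ) + 1) ≤ f x
      linarith [mul_nonneg (show (0 : ℝ) ≤ (k : ℝ) + 1 by positivity) hD0]
    · have hjm : j ∈ Finset.range (k + 1) := Finset.mem_range.2 (by omega)
      refine (hδ j hjm x hxmem r F hF).trans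
        ((Finset.single_le_sum (fun i hi => hδ0 i hi x) hjm).trans ?_)
      change D x ≤ _
      rw [le_div_iff₀ (by positivity)]
      have : 1 / ((k : ℝ) + 1) ≤ 1 := by
        rw [div_le_one (by positivity)]; linarith [Nat.cast_nonneg (α := ℝ) k]
      linarith [(abs_le.1 (hfb x)).2]
  choose Nk hNk hkN π M n Λ x hn herr hpi' hq hg using hsel
  have hne' : ∀ k, Nonempty (State (π k) K (n k)) := fun k => state_nonempty _ (hn k)
  have hlim : Tendsto (fun k : ℕ => 1 / ((k : ℝ) + 1)) atTop (𝓝 0) :=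
    tendsto_one_div_add_atTop_nhds_zero_nat
  have hsync := sync_error (T := fun k => State (π k) K (n k))
    (Ω := fun k => (Node K (n k) → ℝ) × (GIdx (Nk k) (M k) K (n k) → ℝ))
    (μ := fun k => envLaw (Nk k) (M k) K (n k))
    (u := fun k => posW P (π k) (stdc (Λ k) (ext0 (x k))))
    (hm := fun k => measurable_posW P _ _) (hp := fun k => posW_pos P _ _)
    (R := fun k => ovR (Nk k) (π k)) (U := fun k => ovU (π k))
    (fun k => unitGram_ovR _ (hNk k)) (fun k => unitGram_ovU _ hKpos)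
    (fun k a b c => com_min a.2 b.2 c.2)
    (fun j ε' hε' => by
      filter_upwards [eventually_ge_atTop j,
        (hlim.const_mul 5).eventually (eventually_le_nhds (by simpa using hε'))] with k hjk hk r F hF
      rw [ggDef_posW]
      refine (le_of_eq_of_le ?_ (hg k j hjk r F hF)).trans ((le_of_eq ?_).trans hk)
      · rfl
      · rw [mul_one_div])
    hKpos (fun l => by
      filter_upwards [hlim.eventually (eventually_le_nhds hpi)] with k hk
      have := (abs_le.1 (hpi' k l)).2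
      rw [piX, mpair_eq_eavg, ← eavg_posW] at this
      simp only [onLev] at this
      linarith)
    (show 0 < ε / 100 by positivity)
  have hη := (hlim.const_mul (8 * ((K : ℝ) + 1))).eventually
    (eventually_le_nhds (show 8 * ((K : ℝ) + 1) * 0 < ε / 100 by rw [mul_zero]; positivity))
  obtain ⟨k, hk1, hk2, hk3⟩ := (hsync.and (hη.and (hlim.eventually
    (eventually_le_nhds (show (0 : ℝ) < ε / 100 by positivity))))).exists
  have := errR_le P (π k) (hNk k) _ (hpi' k) (hq k)
  linarith [herr k]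

end Vale.Agent.P157.Casc
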