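import Vale.Agent.P157.Casc.Transfer
import Vale.Agent.P157.Casc.FreePat
import Vale.Agent.P157.Casc.Uniform
import Vale.Agent.P157.Casc.Upper
import Vale.Agent.P157.Casc.SyncModel

/-!
The overlap of the derivatives of a standard system is predicted by the spin overlap: two patterns
are decoupled at a time, at a cost bounded by the error of the spin overlap.
-/

open MeasureTheory ProbabilityTheory Filter Topology Set

namespace Vale.Agent.P157.Casc

variable {N M K n : ℕ}

theorem mpair_lin (P : Pot) (π : Prior N) (c : CIdx N M K → ℝ) {ι : Type*} [Fintype ι] (cf : ι → ℝ)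
    {O : ι → (GIdx N M K n → ℝ) → State π K n → State π K n → ℝ}
    (hO : ∀ i x y, Continuous fun G => O i G x y) {B : ℝ} (hB : 0 ≤ B)
    (hOb : ∀ i G x y, |O i G x y| ≤ B) :
    mpair n P π c (fun G x y => ∑ i, cf i * O i G x y) = ∑ i, cf i * mpair n P π c (O i) := by
  simp only [mpair, ← integral_const_mul]
  rw [← integral_finsetSum _ fun i _ =>
    (measurable_mpair_fun (n := n) P π c (hO i) hB (hOb i)).const_mul (cf i)]
  refine integral_congr_ae (ae_of_all _ fun p => ?_)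
  simp only [avg2, Finset.mul_sum]
  conv_rhs => rw [Finset.sum_comm]
  refine Finset.sum_congr rfl fun x _ => ?_
  conv_rhs => rw [Finset.sum_comm]
  exact Finset.sum_congr rfl fun y _ => Finset.sum_congr rfl fun i _ => by ring

theorem mpair_nonneg (P : Pot) (π : Prior N) (c : CIdx N M K → ℝ)
    {O : (GIdx N M K n → ℝ) → State π K n → State π K n → ℝ} (hO : ∀ G x y, 0 ≤ O G x y) :
    0 ≤ mpair n P π c O := by
  refine integral_nonneg_of_ae ((ae_mbw_pos P π c).mono fun p hp => ?_)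
  exact Finset.sum_nonneg fun x _ => Finset.sum_nonneg fun y _ => mul_nonneg
    (mul_nonneg (div_nonneg (hp x).le (Finset.sum_nonneg fun w _ => (hp w).le))
      (div_nonneg (hp y).le (Finset.sum_nonneg fun w _ => (hp w).le))) (hO _ _ _)

theorem mpair_dev_le (P : Pot) (π : Prior N) (hn : 0 < n) (c : CIdx N M K → ℝ)
    (q : Fin (K + 1) → ℝ) {η : ℝ} (hη : 0 < η) :
    mpair n P π c (fun _ x y => |ovR N π x y - q (ovU π x y)|) ≤ η + errR n P π c q / η := by
  have := state_ne (K := K) π hn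
  have hm := measurable_posW (n := n) P π c
  have hp := posW_pos (n := n) P π c
  rw [errR, mpair_eq_eavg, mpair_eq_eavg, ← eavg_posW, ← eavg_posW]
  refine (eavg_mono' hm hp (H := fun x => η
    + η⁻¹ * (ovR N π (x 0) (x 1) - q (ovU π (x 0) (x 1))) ^ 2) fun x =>
      (abs_le_add_sq hη _).trans_eq (by rw [div_eq_inv_mul])).trans_eq ?_
  rw [eavg_add' hm hp, eavg_const' hp, eavg_smul', div_eq_inv_mul]

/-- One factor of the observable of two patterns. -/
noncomputable def patY (P : Pot) (π : Prior N) (v : Fin (K + 1) → ℝ) (a : Fin M)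
    (h : Fin M → Fin 2 → ℝ) (xs : Fin 2 → State π K n) : ℝ :=
  P.f1 (h a 0) * P.f1 (h a 1) - v (ovU π (xs 0) (xs 1))

/-- The observable of two patterns. -/
noncomputable def patPair (P : Pot) (π : Prior N) (v : Fin (K + 1) → ℝ) (a b : Fin M)
    (h : Fin M → Fin 2 → ℝ) (xs : Fin 2 → State π K n) : ℝ :=
  patY P π v a h xs * patY P π v b h xs

theorem abs_patY_le (P : Pot) (π : Prior N) {v : Fin (K + 1) → ℝ} (hv : ∀ u, |v u| ≤ P.b1 ^ 2)
    (a : Fin M) (h : Fin M → Fin 2 → ℝ) (xs : Fin 2 → State π K n) :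
    |patY P π v a h xs| ≤ 2 * P.b1 ^ 2 := by
  refine (abs_sub _ _).trans ?_
  rw [abs_mul, two_mul]
  refine add_le_add ?_ (hv _)
  rw [sq]
  exact mul_le_mul (P.h1 _) (P.h1 _) (abs_nonneg _) (Itp.b1_nonneg P)

theorem abs_patPair_le (P : Pot) (π : Prior N) {v : Fin (K + 1) → ℝ} (hv : ∀ u, |v u| ≤ P.b1 ^ 2)
    (a b : Fin M) (h : Fin M → Fin 2 → ℝ) (xs : Fin 2 → State π K n) :
    |patPair P π v a b h xs| ≤ (2 * P.b1 ^ 2) ^ 2 := by
  rw [patPair, abs_mul, sq (2 * P.b1 ^ 2)]
  exact mul_le_mul (abs_patY_le P π hv a h xs) (abs_patY_le P π hv b h xs) (abs_nonneg _)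
    (by positivity)

theorem cont_patY (P : Pot) (π : Prior N) (v : Fin (K + 1) → ℝ) (a : Fin M)
    (xs : Fin 2 → State π K n) : Continuous fun h => patY P π v a h xs := by
  have := pot_continuous1 P
  unfold patY
  fun_prop

theorem continuous_patPair_field (P : Pot) (π : Prior N) (v : Fin (K + 1) → ℝ) (a b : Fin M)
    (c : CIdx N M K → ℝ) (x y : State π K n) :
    Continuous fun G : GIdx N M K n → ℝ =>
      patPair P π v a b (fun a l => lin (bpat π a) (pull c) G (![x, y] l)) ![x, y] :=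
  Continuous.comp (g := fun h => patPair P π v a b h ![x, y])
    (f := fun G : GIdx N M K n → ℝ => fun a l => lin (bpat π a) (pull c) G (![x, y] l))
    ((cont_patY P π v a _).mul (cont_patY P π v b _))
    (continuous_pi fun a => continuous_pi fun l => Itp.cont_lin _ _ _)

theorem deriv_prod1 (P : Pot) (k : Fin 2 → ℝ) (l : Fin 2) :
    HasDerivAt (fun u => P.f1 (Function.update k l u 0) * P.f1 (Function.update k l u 1))
      (P.f2 (k l) * P.f1 (k (1 - l))) (k l) := by
  fin_cases l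
  · simpa using (P.d2 (k 0)).mul_const (P.f1 (k 1))
  · simpa [mul_comm] using (P.d2 (k 1)).const_mul (P.f1 (k 0))

theorem deriv_prod2 (P : Pot) (k : Fin 2 → ℝ) (l l' : Fin 2) :
    HasDerivAt (fun u => P.f2 (Function.update k l' u l) * P.f1 (Function.update k l' u (1 - l)))
      (if l' = l then P.f3 (k l) * P.f1 (k (1 - l)) else P.f2 (k l) * P.f2 (k (1 - l))) (k l') := by
  fin_cases l <;> fin_cases l'
  · simpa using (P.d3 (k 0)).mul_const (P.f1 (k 1))
  · simpa using (P.d2 (k 1)).const_mul (P.f2 (k 0))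
  · simpa using (P.d2 (k 0)).const_mul (P.f2 (k 1))
  · simpa using (P.d3 (k 1)).mul_const (P.f1 (k 0))

theorem incr_mem_Icc {q : Fin (K + 1) → ℝ} (hq : q ∈ pathsQ K) (l : Fin (K + 1)) :
    incr q l ∈ Icc (0 : ℝ) 1 := by
  obtain ⟨hm, h0, h1⟩ := hq
  have hb : ∀ i, q i ∈ Icc (0 : ℝ) 1 := fun i =>
    ⟨h0.trans (hm (Fin.zero_le i)), (hm (Fin.le_last i)).trans h1.le⟩
  refine Fin.cases ?_ (fun i => ?_) l <;> simp only [incr, Fin.cases_zero, Fin.cases_succ]
  · exact hb 0
  · exact ⟨sub_nonneg.2 (hm (Fin.castSucc_le_succ i)),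
      by linarith [(hb i.succ).2, (hb i.castSucc).1]⟩

theorem stdc_nonneg {L : ℝ} {Λ : Par K} (h : Adm K L Λ) (x : ℕ → ℝ) (i : CIdx N M K) :
    0 ≤ stdc Λ x i :=
  add_nonneg (fieldc_nonneg h i) (pertc_nonneg x i)

section Move

variable {Λ : Par K} {q : Fin (K + 1) → ℝ} (a b : Fin M) (x : ℕ → ℝ)

theorem freePats_decPat (Λ : Par K) (q : Fin (K + 1) → ℝ) :
    FreePats (decPat Λ q a b (stdc Λ x : CIdx N M K → ℝ)) {a, b} (qeff Λ q) := by
  refine ⟨fun a' ha j => ?_, fun a' ha l => ?_⟩ <;>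
    simp only [Finset.mem_insert, Finset.mem_singleton] at ha <;> simp [decPat, ha]

theorem cov_decPat (π : Prior N) (a' : Fin M) (st st' : State π K n) :
    ∑ i, (pull (decPat Λ q a b (stdc Λ x)) i - pull (stdc Λ x : CIdx N M K → ℝ) i)
        * (bpat π a' st i * bpat π a' st' i)
      = if a' = a ∨ a' = b then Λ.1 * (q (ovU π st st') - ovR N π st st') else 0 := by
  have h0 : ∀ j, (stdc Λ x : CIdx N M K → ℝ) (Sum.inl (a', j)) = Λ.1 := fun j => by
    simp [stdc, fieldc, pertc]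
  have h1 : ∀ l, (stdc Λ x : CIdx N M K → ℝ) (Sum.inr (l, Sum.inl a')) = incr Λ.2.1 l := fun l => by
    simp [stdc, fieldc, pertc]
  simp only [sub_mul, Finset.sum_sub_distrib, cov_bpat, decPat, h0, h1]
  split_ifs
  · simp only [zero_mul, Finset.sum_const_zero, zero_div, zero_add, sum_incr, qeff, ovU, ovR,
      Fin.is_lt, if_true, ← Finset.mul_sum]
    ring
  · ring

theorem cov_decPat_spin (π : Prior N) (st st' : State π K n) :
    ∑ i, (pull (decPat Λ q a b (stdc Λ x)) i - pull (stdc Λ x : CIdx N M K → ℝ) i)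
        * (bspin π st i * bspin π st' i) = 0 := by
  refine Finset.sum_eq_zero fun i _ => ?_
  rcases i with ⟨a', j⟩ | ⟨o, a' | j | t⟩ <;> simp [bspin, pull, decPat]

/-- Decoupling two patterns costs at most the mean deviation of the spin overlap from `q`. -/
theorem patPair_move (P : Pot) (π : Prior N) (hN : 0 < N) (hn : 0 < n) {L : ℝ} (hΛ : Adm K L Λ)
    (hq : q ∈ pathsQ K) {v : Fin (K + 1) → ℝ} (hv : ∀ u, |v u| ≤ P.b1 ^ 2) (hab : a ≠ b) :
    |mpair n P π (decPat Λ q a b (stdc Λ x : CIdx N M K → ℝ)) (fun G st st' => patPair P π v a b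
          (fun a' l => lin (bpat π a') (pull (decPat Λ q a b (stdc Λ x))) G (![st, st'] l))
          ![st, st'])
      - mpair n P π (stdc Λ x : CIdx N M K → ℝ) (fun G st st' => patPair P π v a b
          (fun a' l => lin (bpat π a') (pull (stdc Λ x)) G (![st, st'] l)) ![st, st'])|
      ≤ 8 * ((2 * P.b1 ^ 2) ^ 2 * (2 * P.b1 ^ 2)
          + 2 * (P.b2 * P.b1 * (2 * P.b1 ^ 2) * P.b1
            + (P.b3 * P.b1 + P.b2 ^ 2) * (2 * P.b1 ^ 2)))
        * (Real.exp (8 * (2 * P.b1 ^ 2 * 2))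
          * mpair n P π (stdc Λ x : CIdx N M K → ℝ)
              fun _ st st' => |ovR N π st st' - q (ovU π st st')|) := by
  have hq' : ∀ u, q u ∈ Icc (0 : ℝ) 1 := fun u =>
    ⟨hq.2.1.trans (hq.1 (Fin.zero_le u)), (hq.1 (Fin.le_last u)).trans hq.2.2.le⟩
  have hb2 := Itp.b2_nonneg P
  have hb3 : 0 ≤ P.b3 := (abs_nonneg _).trans (P.h3 0)
  have hb1 := Itp.b1_nonneg P
  have hc0 : ∀ i : CIdx N M K, 0 ≤ stdc Λ x i := stdc_nonneg hΛ x
  have hc1 : ∀ i : CIdx N M K, 0 ≤ decPat Λ q a b (stdc Λ x) i := fun i => by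
    rcases i with ⟨a', j⟩ | ⟨l, a' | i⟩ <;> simp only [decPat]
    · split_ifs
      exacts [le_rfl, hc0 _]
    · split_ifs
      exacts [(incr_mem_Icc (qeff_mem hΛ hq) l).1, hc0 _]
    · exact hc0 _
  set ca : Fin M → ℝ := fun a' => (if a' = a then 1 else 0) + if a' = b then 1 else 0
  have hca : ∀ a', 0 ≤ ca a' := fun a' => by simp only [ca]; split_ifs <;> norm_num
  have hcov : ∀ (a' : Fin M) (st st' : State π K n),
      |∑ i, (pull (decPat Λ q a b (stdc Λ x)) i - pull (stdc Λ x : CIdx N M K → ℝ) i)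
          * (bpat π a' st i * bpat π a' st' i)|
        ≤ ca a' * |ovR N π st st' - q (ovU π st st')| := fun a' st st' => by
    rw [cov_decPat]
    split_ifs with h
    · rw [abs_mul, abs_sub_comm, abs_of_nonneg hΛ.1.1]
      refine mul_le_mul_of_nonneg_right (hΛ.1.2.trans ?_) (abs_nonneg _)
      rcases h with h | h <;> simp [ca, h, hab, Ne.symm hab]
    · simpa using mul_nonneg (hca a') (abs_nonneg _)
  have hsum : ∀ t : ℝ, ∑ a', t * ca a' = 2 * t := fun t => by
    simp [ca, mul_add, Finset.sum_add_distrib, two_mul]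
  refine (mpair_transfer P π hn hc0 hc1 (fun a' st => ?_)
    (fun st st' => |ovR N π st st' - q (ovU π st st')|) (E := 2) (cg := 2 * P.b1 ^ 2) (ca := ca)
    (fun _ _ => abs_nonneg _)
    (fun st st' => abs_le.2 ⟨by linarith [(abs_le.1 (abs_ovR_le π hN st st')).1, (hq' (ovU π st st')).2],
      by linarith [(abs_le.1 (abs_ovR_le π hN st st')).2, (hq' (ovU π st st')).1]⟩)
    (by positivity) hca (fun lam G st st' => ?_) hcov (patPair P π v a b) ((2 * P.b1 ^ 2) ^ 2)
    (fun _ => P.b2 * P.b1 * (2 * P.b1 ^ 2)) (fun _ => (P.b3 * P.b1 + P.b2 ^ 2) * (2 * P.b1 ^ 2))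
    (fun a' l h xs => if a' = a then P.f2 (h a l) * P.f1 (h a (1 - l)) * patY P π v b h xs
      else if a' = b then patY P π v a h xs * (P.f2 (h b l) * P.f1 (h b (1 - l))) else 0)
    (fun a' l l' h xs => if a' = a then (if l' = l then P.f3 (h a l) * P.f1 (h a (1 - l))
        else P.f2 (h a l) * P.f2 (h a (1 - l))) * patY P π v b h xs
      else if a' = b then patY P π v a h xs * (if l' = l then P.f3 (h b l) * P.f1 (h b (1 - l))
        else P.f2 (h b l) * P.f2 (h b (1 - l))) else 0)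
    (fun xs => (cont_patY P π v a xs).mul (cont_patY P π v b xs))
    (fun a' l xs => ?_) (fun a' l l' xs => ?_) (fun a' l h xs => ?_) (fun a' l l' h xs => ?_)
    (fun h xs => abs_patPair_le P π hv a b h xs)
    (fun a' l h xs => ?_) (fun a' l l' h xs => ?_)).trans_eq ?_
  · simp only [sq, cov_decPat, ovU, com_self, ovR, Fin.is_lt, if_true]
    rw [hq.2.2, show ∑ j, π.spin st.1 j * π.spin st.1 j = (N : ℝ) by
      simpa [pow_two] using π.norm_spin st.1, div_self (Nat.cast_ne_zero.2 hN.ne')]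
    simp
  · simp only [grad, cov_decPat_spin, add_zero]
    refine (Finset.abs_sum_le_sum_abs _ _).trans ((Finset.sum_le_sum
      (g := fun a' => P.b1 ^ 2 * |ovR N π st st' - q (ovU π st st')| * ca a') fun a' _ => ?_).trans_eq
        (by rw [hsum]; ring))
    rw [abs_mul, mul_assoc, mul_comm (P.b1 ^ 2) (_ * _)]
    refine mul_le_mul ((hcov a' st st').trans_eq (mul_comm _ _)) ?_ (abs_nonneg _)
      (mul_nonneg (abs_nonneg _) (hca a'))
    rw [abs_mul, sq]
    exact mul_le_mul (P.h1 _) (P.h1 _) (abs_nonneg _) hb1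
  · have := pot_continuous1 P; have := P.c2
    have := cont_patY P π v a xs; have := cont_patY P π v b xs
    split_ifs <;> fun_prop
  · have := pot_continuous1 P; have := P.c2; have := P.c3
    have := cont_patY P π v a xs; have := cont_patY P π v b xs
    split_ifs <;> fun_prop
  · rcases eq_or_ne a' a with rfl | ha
    · simp only [if_true, patPair, patY, Function.update_of_ne (Ne.symm hab), Function.update_self]
      exact ((deriv_prod1 P (h a') l).sub_const _).mul_const _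
    rcases eq_or_ne a' b with rfl | hb
    · simp only [if_neg ha, if_true, patPair, patY, Function.update_of_ne hab, Function.update_self]
      exact ((deriv_prod1 P (h a') l).sub_const _).const_mul _
    · simp only [if_neg ha, if_neg hb, patPair, patY, Function.update_of_ne (Ne.symm ha),
        Function.update_of_ne (Ne.symm hb)]
      exact hasDerivAt_const _ _
  · rcases eq_or_ne a' a with rfl | ha
    · simp only [if_true, patY, Function.update_of_ne (Ne.symm hab), Function.update_self]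
      exact (deriv_prod2 P (h a') l l').mul_const _
    rcases eq_or_ne a' b with rfl | hb
    · simp only [if_neg ha, if_true, patY, Function.update_of_ne hab, Function.update_self]
      exact (deriv_prod2 P (h a') l l').const_mul _
    · simp only [if_neg ha, if_neg hb]
      exact hasDerivAt_const _ _
  · have h2 : ∀ u w : ℝ, |P.f2 u * P.f1 w| ≤ P.b2 * P.b1 := fun u w => by
      rw [abs_mul]; exact mul_le_mul (P.h2 _) (P.h1 _) (abs_nonneg _) hb2
    split_ifs
    · rw [abs_mul]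
      exact mul_le_mul (h2 _ _) (abs_patY_le P π hv b h xs) (abs_nonneg _) (by positivity)
    · rw [abs_mul, mul_comm]
      exact mul_le_mul (h2 _ _) (abs_patY_le P π hv a h xs) (abs_nonneg _) (by positivity)
    · rw [abs_zero]; positivity
  · have h3 : ∀ u w : ℝ, |if l' = l then P.f3 u * P.f1 w else P.f2 u * P.f2 w|
        ≤ P.b3 * P.b1 + P.b2 ^ 2 := fun u w => by
      split_ifs
      · rw [abs_mul]
        exact (mul_le_mul (P.h3 _) (P.h1 _) (abs_nonneg _) hb3).trans
          (le_add_of_nonneg_right (sq_nonneg _))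
      · rw [abs_mul, sq]
        exact (mul_le_mul (P.h2 _) (P.h2 _) (abs_nonneg _) hb2).trans
          (le_add_of_nonneg_left (mul_nonneg hb3 hb1))
    by_cases ha : a' = a
    · rw [if_pos ha, abs_mul]
      exact mul_le_mul (h3 _ _) (abs_patY_le P π hv b h xs) (abs_nonneg _) (by positivity)
    rw [if_neg ha]
    by_cases hb : a' = b
    · rw [if_pos hb, abs_mul, mul_comm]
      exact mul_le_mul (h3 _ _) (abs_patY_le P π hv a h xs) (abs_nonneg _) (by positivity)
    · rw [if_neg hb, abs_zero]; positivity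
  · rw [hsum]

end Move

/-- The end value: at free patterns the observable of two patterns has mean zero in the limit. -/
theorem patPair_end (P : Pot) (π : Prior N) (c : CIdx N M K → ℝ) {v : Fin (K + 1) → ℝ} {a b : Fin M}
    (hab : a ≠ b) (hv : ∀ u, |v u| ≤ P.b1 ^ 2) {η : ℝ}
    (h : ∀ l, ∀ S ∈ ({{a, b}, {a}, {b}, ∅} : Finset (Finset (Fin M))),
      |patLev n P π c S l - pi0 K * v l ^ S.card| ≤ η) :
    |mpair n P π c (fun G st st' => patPair P π v a b
        (fun a' l => lin (bpat π a') (pull c) G (![st, st'] l)) ![st, st'])|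
      ≤ ((K : ℝ) + 1) * ((1 + P.b1 ^ 2) ^ 2 * η) := by
  have hb1 := Itp.b1_nonneg P
  set Bm := max 1 P.b1
  have hBm : 1 ≤ Bm := le_max_left _ _
  set prodO : Finset (Fin M) → Fin (K + 1) →
      (GIdx N M K n → ℝ) → State π K n → State π K n → ℝ := fun S l G st st' =>
    onLev l (ovU π st st') ((∏ a ∈ S, P.f1 (lin (bpat π a) (pull c) G st))
      * ∏ a ∈ S, P.f1 (lin (bpat π a) (pull c) G st'))
  have hcS : ∀ (S : Finset (Fin M)) (st : State π K n), Continuous fun G : GIdx N M K n → ℝ =>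
      ∏ a ∈ S, P.f1 (lin (bpat π a) (pull c) G st) := fun S st =>
    continuous_finsetProd _ fun a _ => (pot_continuous1 P).comp (Itp.cont_lin _ _ _)
  have hcO : ∀ S l x y, Continuous fun G => prodO S l G x y := fun S l x y => by
    simp only [prodO, onLev]
    split_ifs
    exacts [(hcS S x).mul (hcS S y), continuous_const]
  have hbS : ∀ (S : Finset (Fin M)) (G : GIdx N M K n → ℝ) (st : State π K n),
      |∏ a ∈ S, P.f1 (lin (bpat π a) (pull c) G st)| ≤ Bm ^ M := fun S G st => by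
    rw [Finset.abs_prod]
    refine (Finset.prod_le_prod (fun _ _ => abs_nonneg _)
      fun a _ => (P.h1 _).trans (le_max_right 1 P.b1)).trans ?_
    rw [Finset.prod_const]
    exact pow_le_pow_right₀ hBm (by simpa using Finset.card_le_univ S)
  have hbO : ∀ S l G x y, |prodO S l G x y| ≤ Bm ^ M * Bm ^ M := fun S l G x y => by
    simp only [prodO, onLev]
    split_ifs
    · rw [abs_mul]
      exact mul_le_mul (hbS S G x) (hbS S G y) (abs_nonneg _) (by positivity)
    · rw [abs_zero]; positivity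
  set cf : Fin (K + 1) × Fin 4 → ℝ := fun i => ![1, -v i.1, -v i.1, v i.1 ^ 2] i.2
  set Ss : Fin 4 → Finset (Fin M) := ![{a, b}, {a}, {b}, ∅]
  have e : (fun G st st' => patPair P π v a b
        (fun a' l => lin (bpat π a') (pull c) G (![st, st'] l)) ![st, st'])
      = fun G st st' => ∑ i, cf i * prodO (Ss i.2) i.1 G st st' := by
    funext G st st'
    rw [Fintype.sum_prod_type, Finset.sum_eq_single (ovU π st st')]
    · simp only [Fin.sum_univ_four, cf, Ss, prodO, onLev, if_true, patPair, patY,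
        Matrix.cons_val_zero, Matrix.cons_val_one, Matrix.cons_val, Finset.prod_pair hab,
        Finset.prod_singleton, Finset.prod_empty]
      ring
    · intro l _ hl
      simp [prodO, onLev, Ne.symm hl]
    · exact fun h => absurd (Finset.mem_univ _) h
  have hlin := mpair_lin P π c cf (O := fun i => prodO (Ss i.2) i.1) (fun i => hcO _ _)
    (by positivity) (fun i => hbO _ _)
  rw [e, hlin, Fintype.sum_prod_type]
  refine (Finset.abs_sum_le_sum_abs _ _).trans ((Finset.sum_le_sum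
    (g := fun _ => (1 + P.b1 ^ 2) ^ 2 * η) fun l _ => ?_).trans_eq (by simp))
  simp only [Fin.sum_univ_four, cf, Ss, Matrix.cons_val_zero, Matrix.cons_val_one, Matrix.cons_val]
  have h1 := h l {a, b} (by simp)
  have h2 := h l {a} (by simp)
  have h3 := h l {b} (by simp)
  have h4 := h l ∅ (by simp)
  rw [Finset.card_pair hab] at h1
  rw [Finset.card_singleton, pow_one] at h2 h3
  rw [Finset.card_empty, pow_zero, mul_one] at h4
  change |1 * patLev n P π c {a, b} l + -v l * patLev n P π c {a} l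
    + -v l * patLev n P π c {b} l + v l ^ 2 * patLev n P π c ∅ l| ≤ _
  set A := patLev n P π c {a, b} l
  set B := patLev n P π c {a} l
  set C := patLev n P π c {b} l
  set D := patLev n P π c ∅ l
  rw [show 1 * A + -v l * B + -v l * C + v l ^ 2 * D = (A - pi0 K * v l ^ 2)
    - v l * ((B - pi0 K * v l) + (C - pi0 K * v l)) + v l ^ 2 * (D - pi0 K) by ring]
  have hη : 0 ≤ η := (abs_nonneg _).trans h4
  calc |(A - pi0 K * v l ^ 2) - v l * ((B - pi0 K * v l) + (C - pi0 K * v l))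
        + v l ^ 2 * (D - pi0 K)|
      ≤ η + P.b1 ^ 2 * (η + η) + (P.b1 ^ 2) ^ 2 * η := by
        refine (abs_add_le _ _).trans (add_le_add ((abs_sub _ _).trans (add_le_add h1 ?_)) ?_)
        · rw [abs_mul]
          exact mul_le_mul (hv l) ((abs_add_le _ _).trans (add_le_add h2 h3)) (abs_nonneg _)
            (by positivity)
        · rw [abs_mul, abs_pow]
          exact mul_le_mul (pow_le_pow_left₀ (abs_nonneg _) (hv l) 2) h4 (abs_nonneg _)
            (by positivity)
    _ = (1 + P.b1 ^ 2) ^ 2 * η := by ring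

/-- The error of the overlap of derivatives as a sum over pairs of patterns. -/
theorem errP_eq_sum (P : Pot) (π : Prior N) (c : CIdx N M K → ℝ) {v : Fin (K + 1) → ℝ}
    (hv : ∀ u, |v u| ≤ P.b1 ^ 2) :
    errP n P π c (fun l => (M : ℝ) / N * v l) = ∑ i : Fin M × Fin M, ((N : ℝ) ^ 2)⁻¹ *
      mpair n P π c (fun G st st' => patPair P π v i.1 i.2
        (fun a l => lin (bpat π a) (pull c) G (![st, st'] l)) ![st, st']) := by
  rw [← mpair_lin P π c (fun _ : Fin M × Fin M => ((N : ℝ) ^ 2)⁻¹) (B := (2 * P.b1 ^ 2) ^ 2)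
    (O := fun i G st st' => patPair P π v i.1 i.2
      (fun a l => lin (bpat π a) (pull c) G (![st, st'] l)) ![st, st'])
    (fun i => continuous_patPair_field P π v i.1 i.2 c) (by positivity)
    (fun i G x y => abs_patPair_le P π hv _ _ _ _)]
  rw [errP]
  congr 1
  funext G st st'
  rw [Fintype.sum_prod_type]
  simp only [← Finset.mul_sum, patPair, patY, Matrix.cons_val_zero, Matrix.cons_val_one]
  rw [← Finset.sum_mul, ← sq, ← inv_pow, ← mul_pow, Finset.sum_sub_distrib, Finset.sum_const,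
    Finset.card_univ, Fintype.card_fin, nsmul_eq_mul, ovP]
  congr 1
  ring

/-- The error of the overlap of derivatives of a standard system from that of the spin overlap. -/
theorem errP_std_le (P : Pot) (L : ℝ) (N M K : ℕ) (hN : 0 < N) {ε0 : ℝ} (hε0 : 0 < ε0) :
    ∃ n0, ∀ n ≥ n0, ∀ Λ : Par K, Adm K L Λ → ∀ x : Fin N → ℝ, (∀ i, x i ∈ Icc (1 : ℝ) 2) →
      ∀ η > (0 : ℝ),
        errP n P (isingP N) (stdc Λ (ext0 x) : CIdx N M K → ℝ) (stdP n M N P Λ (ext0 x))
          ≤ (M : ℝ) / N ^ 2 * (2 * P.b1 ^ 2) ^ 2 + ((M : ℝ) / N) ^ 2 * (ε0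
            + 8 * ((2 * P.b1 ^ 2) ^ 2 * (2 * P.b1 ^ 2)
              + 2 * (P.b2 * P.b1 * (2 * P.b1 ^ 2) * P.b1
                + (P.b3 * P.b1 + P.b2 ^ 2) * (2 * P.b1 ^ 2))) * Real.exp (8 * (2 * P.b1 ^ 2 * 2))
              * (η + errR n P (isingP N) (stdc Λ (ext0 x) : CIdx N M K → ℝ)
                  (stdQ n M N P Λ (ext0 x)) / η)) := by
  classical
  obtain ⟨R0, hR0⟩ := (isCompact_boxPar N K L).bddAbove_image
    ((continuous_stdc2 (M := M)).norm.continuousOn)
  set R := max R0 1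
  set η0 := ε0 / (((K : ℝ) + 1) * (1 + P.b1 ^ 2) ^ 2)
  have hη0 : 0 < η0 := by
    have : (0 : ℝ) < ((K : ℝ) + 1) * (1 + P.b1 ^ 2) ^ 2 := by
      have : (0 : ℝ) < 1 + P.b1 ^ 2 := by positivity
      positivity
    positivity
  have hev : ∀ᶠ n in atTop, ∀ (a b : Fin M) (l : Fin (K + 1)),
      ∀ S ∈ ({{a, b}, {a}, {b}, ∅} : Finset (Finset (Fin M))),
      ∀ (c : CIdx N M K → ℝ) (v : Fin (K + 1) → ℝ), (∀ i, c i ∈ Icc 0 R) →
      (∀ i, v i ∈ Icc (0 : ℝ) 1) → FreePats c {a, b} v →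
      |patLev n P (isingP N) c S l - pi0 K * vF P v l ^ S.card| ≤ η0 := by
    refine eventually_all.2 fun a => eventually_all.2 fun b => eventually_all.2 fun l =>
      (Finset.eventually_all _).2 fun S hS => ?_
    obtain ⟨n0, h⟩ := patLev_uniform P (isingP N) {a, b} (S := S) (by
      simp only [Finset.mem_insert, Finset.mem_singleton] at hS
      rcases hS with rfl | rfl | rfl | rfl <;> simp [Finset.subset_iff]) R l hη0
    exact eventually_atTop.2 ⟨n0, h⟩
  obtain ⟨n0, hn0⟩ := eventually_atTop.1 (hev.and (eventually_gt_atTop 0))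
  refine ⟨n0, fun n hn Λ hΛ x hx η hη => ?_⟩
  obtain ⟨hlev, hnpos⟩ := hn0 n hn
  set c0 : CIdx N M K → ℝ := stdc Λ (ext0 x) with hc0def
  set q := stdQ n M N P Λ (ext0 x)
  set v := vF P (qeff Λ q)
  have hq : q ∈ pathsQ K := qhat_mem n P (isingP N) c0
  have hv : ∀ u, |v u| ≤ P.b1 ^ 2 := abs_vF_le P _
  have hqe := qeff_mem hΛ hq
  have hc0R : ∀ i, c0 i ≤ R := fun i => ((le_abs_self _).trans
    ((Real.norm_eq_abs _).symm.trans_le (norm_le_pi_norm c0 i))).trans
      ((hR0 ⟨(Λ, x), ⟨hΛ, fun i _ => hx i⟩, rfl⟩).trans (le_max_left _ _))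
  set CP := 8 * ((2 * P.b1 ^ 2) ^ 2 * (2 * P.b1 ^ 2)
    + 2 * (P.b2 * P.b1 * (2 * P.b1 ^ 2) * P.b1
      + (P.b3 * P.b1 + P.b2 ^ 2) * (2 * P.b1 ^ 2))) * Real.exp (8 * (2 * P.b1 ^ 2 * 2)) with hCP
  set X := η + errR n P (isingP N) c0 q / η
  have hdev : mpair n P (isingP N) c0 (fun _ st st' =>
      |ovR N (isingP N) st st' - q (ovU (isingP N) st st')|) ≤ X :=
    mpair_dev_le P (isingP N) hnpos c0 q hη
  have hCP0 : 0 ≤ CP := by
    have := Itp.b1_nonneg P; have := Itp.b2_nonneg P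
    have : 0 ≤ P.b3 := (abs_nonneg _).trans (P.h3 0)
    positivity
  have hX0 : 0 ≤ X := add_nonneg hη.le
    (div_nonneg (mpair_nonneg P _ _ fun _ _ _ => sq_nonneg _) hη.le)
  set m : Fin M × Fin M → ℝ := fun i => mpair n P (isingP N) c0
    (fun G st st' => patPair P (isingP N) v i.1 i.2
      (fun a l => lin (bpat (isingP N) a) (pull c0) G (![st, st'] l)) ![st, st'])
  have hm : ∀ i, m i ≤ (if i.1 = i.2 then (2 * P.b1 ^ 2) ^ 2 else 0) + (ε0 + CP * X) := by
    rintro ⟨a, b⟩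
    have hrest : 0 ≤ ε0 + CP * X := add_nonneg hε0.le (mul_nonneg hCP0 hX0)
    rcases eq_or_ne a b with rfl | hab
    · rw [if_pos rfl]
      exact ((le_abs_self _).trans (abs_mpair_le P _ c0 (by positivity)
        fun G st st' => abs_patPair_le P _ hv _ _ _ _)).trans (le_add_of_nonneg_right hrest)
    rw [if_neg hab, zero_add]
    set c1 := decPat Λ q a b c0
    have hc1 : ∀ i, c1 i ∈ Icc 0 R := fun i => by
      rcases i with ⟨a', j⟩ | ⟨l, a' | i⟩ <;> simp only [c1, decPat]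
      · split_ifs
        exacts [⟨le_rfl, le_trans zero_le_one (le_max_right _ _)⟩,
          ⟨stdc_nonneg hΛ _ _, hc0R _⟩]
      · split_ifs
        exacts [⟨(incr_mem_Icc hqe l).1, (incr_mem_Icc hqe l).2.trans (le_max_right _ _)⟩,
          ⟨stdc_nonneg hΛ _ _, hc0R _⟩]
      · exact ⟨stdc_nonneg hΛ _ _, hc0R _⟩
    have h1 := patPair_end P (isingP N) c1 (n := n) hab hv fun l S hS =>
      hlev a b l S hS c1 (qeff Λ q) hc1
        (fun i => ⟨hqe.2.1.trans (hqe.1 (Fin.zero_le i)), (hqe.1 (Fin.le_last i)).trans hqe.2.2.le⟩)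
        (freePats_decPat a b (ext0 x) Λ q)
    have h2 := (patPair_move a b (ext0 x) P (isingP N) hN hnpos hΛ hq hv hab).trans
      (mul_le_mul_of_nonneg_left (mul_le_mul_of_nonneg_left hdev (Real.exp_pos _).le)
        (by
          have := Itp.b1_nonneg P; have := Itp.b2_nonneg P
          have : 0 ≤ P.b3 := (abs_nonneg _).trans (P.h3 0)
          positivity))
    have he : ((K : ℝ) + 1) * ((1 + P.b1 ^ 2) ^ 2 * η0) = ε0 := by
      have : (1 + P.b1 ^ 2) ≠ 0 := (show (0 : ℝ) < 1 + P.b1 ^ 2 by positivity).ne'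
      simp only [η0]
      field_simp
    rw [he] at h1
    rw [← mul_assoc, ← hCP] at h2
    have := (abs_le.1 h1).2
    have := (abs_le.1 h2).1
    simp only [m]
    linarith
  rw [show stdP n M N P Λ (ext0 x) = fun l => (M : ℝ) / N * v l from rfl, errP_eq_sum P _ c0 hv]
  refine (Finset.sum_le_sum fun i _ => mul_le_mul_of_nonneg_left (hm i) (by positivity)).trans_eq ?_
  rw [← Finset.mul_sum, Finset.sum_add_distrib, Finset.sum_const, Finset.card_univ,
    Fintype.card_prod, Fintype.card_fin, nsmul_eq_mul, Fintype.sum_prod_type]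
  simp only [Finset.sum_ite_eq, Finset.mem_univ, if_true, Finset.sum_const, Finset.card_univ,
    Fintype.card_fin, nsmul_eq_mul]
  push_cast
  ring

/-- Both overlap errors of the standard systems are small on average over the perturbation, given
the averaged identities. -/
theorem base_small_of (P : Pot) (α L : ℝ)
    (hgg : ∀ K j : ℕ, ∀ ε > (0 : ℝ), ∃ Nmin : ℕ, ∀ N ≥ Nmin, j < N ∧ ∀ M : ℕ,
      (M : ℝ) ≤ α * N → ∃ n0, ∀ n ≥ n0, ∀ Λ : Par K, Adm K L Λ →
        ∃ δ : (Fin N → ℝ) → ℝ, Integrable δ (xlaw N) ∧ (∀ x, 0 ≤ δ x) ∧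
          ∫ x, δ x ∂xlaw N ≤ ε ∧ ∀ x : Fin N → ℝ, (∀ i, x i ∈ Icc (1 : ℝ) 2) →
            ∀ (r : ℕ) (F : (Fin (r + 1) → State (isingP N) K n) → ℝ), (∀ y, |F y| ≤ 1) →
              |ggDef (envLaw N M K n) (mbw P (isingP N) (stdc Λ (ext0 x)))
                (fun s s' => ovS N (isingP N) s s' ^ (j + 1)) r F| ≤ δ x)
    {ε : ℝ} (hε : 0 < ε) :
    ∃ K0 : ℕ, ∀ K ≥ K0, ∃ N1 : ℕ, ∀ N ≥ N1, ∀ M : ℕ, (M : ℝ) ≤ α * N →
      ∃ n0 : ℕ, ∀ n ≥ n0, ∀ Λ : Par K, Adm K L Λ →
        ∫ x, baseErr n M N P Λ (ext0 x) ∂xlaw N ≤ ε := by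
  set A := |α| with hA
  set CP := 8 * ((2 * P.b1 ^ 2) ^ 2 * (2 * P.b1 ^ 2)
    + 2 * (P.b2 * P.b1 * (2 * P.b1 ^ 2) * P.b1
      + (P.b3 * P.b1 + P.b2 ^ 2) * (2 * P.b1 ^ 2))) * Real.exp (8 * (2 * P.b1 ^ 2 * 2)) with hCP
  have hA0 : 0 ≤ A := abs_nonneg _
  have hCP0 : 0 ≤ CP := by
    have := Itp.b1_nonneg P; have := Itp.b2_nonneg P
    have : 0 ≤ P.b3 := (abs_nonneg _).trans (P.h3 0)
    positivity
  set η := ε / (5 * (A ^ 2 * CP + 1)) with hηd
  have hη : 0 < η := by positivity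
  set ε0 := ε / (5 * (A ^ 2 + 1)) with hε0d
  have hε0 : 0 < ε0 := by positivity
  set cs := 1 + A ^ 2 * CP / η with hcs
  have hcs0 : 0 < cs := by positivity
  obtain ⟨K0, hK0⟩ := sync_model P isingP α L hgg
    (fun N M K π _ η hη => level_uniform P L N M K π hη) (ε := ε / (5 * cs)) (by positivity)
  refine ⟨K0, fun K hK => ?_⟩
  obtain ⟨N0, hN0⟩ := hK0 K hK
  obtain ⟨N1, hN1⟩ := exists_nat_gt (5 * A * (2 * P.b1 ^ 2) ^ 2 / ε)
  refine ⟨max N0 (N1 + 1), fun N hN M hM => ?_⟩
  have hNpos : 0 < N := by omega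
  have hNr : (0 : ℝ) < N := Nat.cast_pos.2 hNpos
  obtain ⟨n1, hn1⟩ := hN0 N (by omega) M hM
  obtain ⟨n2, hn2⟩ := errP_std_le P L N M K hNpos hε0
  refine ⟨max n1 n2, fun n hn Λ hΛ => ?_⟩
  have hρ : (M : ℝ) / N ≤ A :=
    ((div_le_iff₀ hNr).2 hM).trans (le_abs_self α)
  have hρ2 : ((M : ℝ) / N) ^ 2 ≤ A ^ 2 := pow_le_pow_left₀ (by positivity) hρ 2
  have hdiag : (M : ℝ) / N ^ 2 * (2 * P.b1 ^ 2) ^ 2 ≤ ε / 5 := by
    have h1 : 5 * A * (2 * P.b1 ^ 2) ^ 2 / ε < N :=
      hN1.trans_le (by exact_mod_cast (show N1 ≤ N by omega))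
    rw [div_lt_iff₀ hε] at h1
    calc (M : ℝ) / N ^ 2 * (2 * P.b1 ^ 2) ^ 2 = (M : ℝ) / N * ((2 * P.b1 ^ 2) ^ 2 / N) := by
          field_simp
      _ ≤ A * ((2 * P.b1 ^ 2) ^ 2 / N) := mul_le_mul_of_nonneg_right hρ (by positivity)
      _ ≤ ε / 5 := by
          rw [← mul_div_assoc, div_le_div_iff₀ hNr (by norm_num)]
          linarith
  set eR : (Fin N → ℝ) → ℝ := fun x =>
    errR n P (isingP N) (stdc Λ (ext0 x) : CIdx N M K → ℝ) (stdQ n M N P Λ (ext0 x))
  have hRm : Measurable eR := measurable_mpair_param P (isingP N)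
    (continuous_stdc (M := M) (N := N) Λ).measurable
    (O := fun x _ st st' =>
      (ovR N (isingP N) st st' - stdQ n M N P Λ (ext0 x) (ovU (isingP N) st st')) ^ 2)
    fun s t => ((measurable_const.sub ((measurable_pi_apply _).comp
      ((measurable_stdQ (M := M) n P Λ).comp measurable_fst))).pow_const 2)
  have hRb : ∀ x, |eR x| ≤ 4 := fun x => abs_mpair_le P _ _ (by norm_num) fun G s t => by
    obtain ⟨hmono, hq0, hq1⟩ := qhat_mem n P (isingP N) (stdc Λ (ext0 x) : CIdx N M K → ℝ)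
    have h1 := abs_le.1 (abs_ovR_le (isingP N) hNpos s t)
    have h2 := hq0.trans (hmono (Fin.zero_le (ovU (isingP N) s t)))
    have h3 := (hmono (Fin.le_last (ovU (isingP N) s t))).trans hq1.le
    rw [abs_pow, show (4 : ℝ) = 2 ^ 2 by norm_num]
    refine pow_le_pow_left₀ (abs_nonneg _) (abs_le.2 ⟨?_, ?_⟩) 2 <;>
      simp only [stdQ] <;> linarith
  have hRi : Integrable eR (xlaw N) := Integrable.of_bound hRm.aestronglyMeasurable 4
    (Eventually.of_forall fun x => (Real.norm_eq_abs _).trans_le (hRb x))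
  set g : (Fin N → ℝ) → ℝ := fun x => cs * eR x + (ε / 5 + ε / 5 + ε / 5)
  have hnonneg : ∀ x : Fin N → ℝ, 0 ≤ baseErr n M N P Λ (ext0 x) := fun x => by
    unfold baseErr errR errP
    refine add_nonneg ?_ ?_ <;> exact mpair_nonneg P _ _ fun _ _ _ => sq_nonneg _
  have hle : ∀ᵐ x ∂xlaw N, baseErr n M N P Λ (ext0 x) ≤ g x := by
    filter_upwards [ae_xlaw_box] with x hx
    have hP := hn2 n (le_of_max_le_right hn) Λ hΛ x hx η hη
    rw [← hCP] at hP
    have hR0 : 0 ≤ eR x := mpair_nonneg P _ _ fun _ _ _ => sq_nonneg _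
    have hin : ((M : ℝ) / N) ^ 2 * (ε0 + CP * (η + eR x / η))
        ≤ ε / 5 + ε / 5 + A ^ 2 * CP / η * eR x := by
      refine (mul_le_mul_of_nonneg_right hρ2 (by positivity)).trans ?_
      have a1 : A ^ 2 * ε0 ≤ ε / 5 := by
        rw [hε0d, ← mul_div_assoc, div_le_div_iff₀ (by positivity) (by norm_num)]
        linarith
      have a2 : A ^ 2 * CP * η ≤ ε / 5 := by
        rw [hηd, ← mul_div_assoc, div_le_div_iff₀ (by positivity) (by norm_num)]
        linarith
      calc A ^ 2 * (ε0 + CP * (η + eR x / η))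
          = A ^ 2 * ε0 + A ^ 2 * CP * η + A ^ 2 * CP / η * eR x := by ring
        _ ≤ _ := by linarith
    change eR x + errP n P (isingP N) _ _ ≤ cs * eR x + _
    rw [hcs, add_mul, one_mul]
    linarith
  refine (integral_mono_of_nonneg (ae_of_all _ hnonneg)
    ((hRi.const_mul cs).add (integrable_const _)) hle).trans ?_
  simp only [Pi.add_apply]
  rw [integral_add (hRi.const_mul cs) (integrable_const _), integral_const_mul]
  simp only [integral_const, probReal_univ, one_smul]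
  have hs : cs * ∫ x, eR x ∂xlaw N ≤ ε / 5 := by
    refine (mul_le_mul_of_nonneg_left (hn1 n (le_of_max_le_left hn) Λ hΛ) hcs0.le).trans_eq ?_
    field_simp
  linarith

end Vale.Agent.P157.Casc
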