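import Vale.Agent.P157.Casc.Sys

/-!
The factor of a leaf at the decoupled systems.
-/

open MeasureTheory ProbabilityTheory Filter Topology

namespace Vale.Agent.P157.Casc

variable {N M K : ℕ}

/-- The branch field of one pattern label. -/
noncomputable def labField (v : Fin (K + 1) → ℝ) (z : RIdx N M → ℝ) (y : Fin K → LIdx N M → ℝ)
    (i : LIdx N M) : ℝ :=
  pathField v (z (Sum.inr i)) (fun l => y l i)

theorem incr_zero (v : Fin (K + 1) → ℝ) : incr v 0 = v 0 := rfl

theorem incr_succ (v : Fin (K + 1) → ℝ) (l : Fin K) :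
    incr v l.succ = v l.succ - v l.castSucc := rfl

theorem labField_eq (v : Fin (K + 1) → ℝ) (z : RIdx N M → ℝ) (y : Fin K → LIdx N M → ℝ)
    (i : LIdx N M) :
    √(incr v 0) * z (Sum.inr i) + ∑ l : Fin K, √(incr v l.succ) * y l i = labField v z y i := rfl

/-- A pattern without couplings to the spins only sees its label. -/
theorem lin_bpat_label (π : Prior N) (c : CIdx N M K → ℝ) (a : Fin M) (v : Fin (K + 1) → ℝ)
    (h0 : ∀ j, c (Sum.inl (a, j)) = 0) (h1 : ∀ l, c (Sum.inr (l, Sum.inl a)) = incr v l)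
    (z : RIdx N M → ℝ) (y : Fin K → LIdx N M → ℝ) (σ : Fin π.c) :
    lin (bpat (n := 1) π a) (pull c) (branch z y) (σ, fun _ => 0)
      = labField v z y (Sum.inl a) := by
  rw [lin_bpat]
  simp only [h0, Real.sqrt_zero, zero_mul, Finset.sum_const_zero, zero_add, h1]
  rfl

/-- The field of a spin. -/
theorem lin_spin_label (c : CIdx N M K → ℝ) (j : Fin N) (v : Fin (K + 1) → ℝ)
    (h : ∀ l, c (Sum.inr (l, Sum.inr (Sum.inl j))) = incr v l)
    (z : RIdx N M → ℝ) (y : Fin K → LIdx N M → ℝ) :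
    √(c (Sum.inr (0, Sum.inr (Sum.inl j)))) * branch z y (Sum.inr (none, Sum.inr (Sum.inl j)))
        + ∑ l : Fin K, √(c (Sum.inr (l.succ, Sum.inr (Sum.inl j))))
          * branch z y (Sum.inr (some (node (fun _ => (0 : Fin 1)) l), Sum.inr (Sum.inl j)))
      = labField v z y (Sum.inr (Sum.inl j)) := by
  simp only [h]
  rfl

/-- The factor of a leaf without the patterns in `A`. -/
noncomputable def restY (P : Pot) (π : Prior N) (c : CIdx N M K → ℝ) (A : Finset (Fin M))
    (z : RIdx N M → ℝ) (y : Fin K → LIdx N M → ℝ) : ℝ :=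
  ∑ σ, π.w σ * Real.exp ((∑ a ∈ Finset.univ \ A,
      P.f (lin (bpat (n := 1) π a) (pull c) (branch z y) (σ, fun _ => 0)))
    + lin (bspin π) (pull c) (branch z y) (σ, fun _ => 0)
    - (1 / 2) * ∑ i : GIdx N M K 1, pull c i * bspin π (σ, fun _ => 0) i ^ 2)

theorem prior_nonempty (π : Prior N) : Nonempty (Fin π.c) := by
  by_contra h
  have := π.w_sum
  rw [not_nonempty_iff] at h
  simp at this

theorem restY_pos (P : Pot) (π : Prior N) (c : CIdx N M K → ℝ) (A : Finset (Fin M))
    (z : RIdx N M → ℝ) (y : Fin K → LIdx N M → ℝ) : 0 < restY P π c A z y := by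
  have := prior_nonempty π
  exact Finset.sum_pos (fun σ _ => mul_pos (π.w_pos σ) (Real.exp_pos _)) Finset.univ_nonempty

/-- Patterns seeing only their labels factor out. -/
theorem log_leafY_split (P : Pot) (π : Prior N) (c : CIdx N M K → ℝ) (A : Finset (Fin M))
    (v : Fin (K + 1) → ℝ) (h0 : ∀ a ∈ A, ∀ j, c (Sum.inl (a, j)) = 0)
    (h1 : ∀ a ∈ A, ∀ l, c (Sum.inr (l, Sum.inl a)) = incr v l)
    (z : RIdx N M → ℝ) (y : Fin K → LIdx N M → ℝ) :
    Real.log (leafY P π c z y)
      = (∑ a ∈ A, P.f (labField v z y (Sum.inl a))) + Real.log (restY P π c A z y) := by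
  rw [← Real.log_exp (∑ a ∈ A, P.f (labField v z y (Sum.inl a))),
    ← Real.log_mul (Real.exp_pos _).ne' (restY_pos P π c A z y).ne']
  congr 1
  rw [leafY, restY, Finset.mul_sum]
  refine Finset.sum_congr rfl fun σ _ => ?_
  have hA : ∑ a ∈ A, P.f (lin (bpat (n := 1) π a) (pull c) (branch z y) (σ, fun _ => 0))
      = ∑ a ∈ A, P.f (labField v z y (Sum.inl a)) := Finset.sum_congr rfl fun a ha => by
    rw [lin_bpat_label π c a v (h0 a ha) (h1 a ha) z y σ]
  rw [ham, ← Finset.sum_sdiff (Finset.subset_univ A), hA,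
    mul_left_comm, ← Real.exp_add]
  congr 2
  ring

/-- The rest ignores the labels of the patterns factored out. -/
theorem restY_congr (P : Pot) (π : Prior N) (c : CIdx N M K → ℝ) (A : Finset (Fin M))
    {z z' : RIdx N M → ℝ} {y y' : Fin K → LIdx N M → ℝ}
    (hg : ∀ a j, a ∉ A → z (Sum.inl (a, j)) = z' (Sum.inl (a, j)))
    (hz : ∀ i : LIdx N M, (∀ a ∈ A, i ≠ Sum.inl a) → z (Sum.inr i) = z' (Sum.inr i))
    (hy : ∀ l, ∀ i : LIdx N M, (∀ a ∈ A, i ≠ Sum.inl a) → y l i = y' l i) :
    restY P π c A z y = restY P π c A z' y' := by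
  have hp : ∀ a ∈ Finset.univ \ A, ∀ σ,
      lin (bpat (n := 1) π a) (pull c) (branch z y) (σ, fun _ => 0)
        = lin (bpat (n := 1) π a) (pull c) (branch z' y') (σ, fun _ => 0) := by
    intro a ha σ
    have hna : a ∉ A := (Finset.mem_sdiff.1 ha).2
    have hne : ∀ a' ∈ A, (Sum.inl a : LIdx N M) ≠ Sum.inl a' := fun a' ha' h =>
      hna (by simpa using (Sum.inl.inj h) ▸ ha')
    simp only [lin_bpat, branch, hg _ _ hna, hz _ hne]
    simp only [node_fst, hy _ _ hne]
  have hs : ∀ σ, lin (bspin π) (pull c) (branch z y) ((σ, fun _ => 0) : State π K 1)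
      = lin (bspin π) (pull c) (branch z' y') (σ, fun _ => 0) := by
    intro σ
    have hne : ∀ i : Fin N ⊕ PIdx N, ∀ a ∈ A, (Sum.inr i : LIdx N M) ≠ Sum.inl a :=
      fun _ _ _ h => by simp at h
    simp only [lin_bspin, branch, hz _ (hne _)]
    simp only [node_fst, hy _ _ (hne _)]
  unfold restY
  refine Finset.sum_congr rfl fun σ _ => ?_
  rw [hs σ, Finset.sum_congr rfl fun a ha => congrArg P.f (hp a ha σ)]

/-- Flip of one spin of the Ising prior. -/
noncomputable def flipSpin (j : Fin N) : Equiv.Perm (Fin (isingP N).c) :=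
  let e := Fintype.equivFin (Fin N → Bool)
  (e.symm.trans (Equiv.piCongrRight fun i => if i = j then Equiv.swap false true
    else Equiv.refl Bool)).trans e

theorem spin_flipSpin (j i : Fin N) (σ : Fin (isingP N).c) :
    (isingP N).spin (flipSpin j σ) i
      = (if i = j then -1 else 1) * (isingP N).spin σ i := by
  set e := Fintype.equivFin (Fin N → Bool)
  have he : e.symm (flipSpin j σ)
      = fun i => (if i = j then Equiv.swap false true else Equiv.refl Bool) (e.symm σ i) := by
    change e.symm (e _) = _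
    rw [Equiv.symm_apply_apply]
    rfl
  change sgn (e.symm (flipSpin j σ) i) = _ * sgn (e.symm σ i)
  rw [he]
  split_ifs with h
  · subst h
    rcases Bool.eq_false_or_eq_true (e.symm σ i) with hb | hb <;> simp [sgn, hb]
  · simp [h]

theorem isingP_w (σ σ' : Fin (isingP N).c) : (isingP N).w σ = (isingP N).w σ' := rfl

theorem exp_mul_sign {s F : ℝ} (hs : s ^ 2 = 1) :
    Real.exp (s * F) = Real.cosh F + s * Real.sinh F := by
  rcases eq_or_eq_neg_of_sq_eq_sq s 1 (by simpa using hs) with rfl | rfl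
  · simp [Real.cosh_add_sinh]
  · rw [neg_one_mul, neg_one_mul, ← sub_eq_add_neg, Real.cosh_sub_sinh]

/-- Spins on which the rest does not depend are averaged by themselves. -/
theorem sum_ising_split (B : Finset (Fin N)) (F : Fin N → ℝ) :
    ∀ (g : Fin (isingP N).c → ℝ), (∀ j ∈ B, ∀ σ, g (flipSpin j σ) = g σ) →
      (∑ σ, (isingP N).w σ * g σ * ∏ j ∈ B, Real.exp ((isingP N).spin σ j * F j))
          = (∏ j ∈ B, Real.cosh (F j)) * ∑ σ, (isingP N).w σ * g σ ∧
      ∀ j0 ∈ B, (∑ σ, (isingP N).w σ * g σ * (∏ j ∈ B, Real.exp ((isingP N).spin σ j * F j))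
          * (isingP N).spin σ j0)
        = Real.tanh (F j0) * ((∏ j ∈ B, Real.cosh (F j)) * ∑ σ, (isingP N).w σ * g σ) := by
  classical
  induction B using Finset.induction with
  | empty => exact fun g _ => ⟨by simp, fun j0 h => absurd h (Finset.notMem_empty j0)⟩
  | insert a B ha ih =>
    intro g hg
    have hgB : ∀ j ∈ B, ∀ σ, g (flipSpin j σ) = g σ := fun j hj =>
      hg j (Finset.mem_insert_of_mem hj)
    have hB : ∀ j ∈ B, j ≠ a := fun j hj h => ha (h ▸ hj)
    -- odd sums in the spin `a` vanish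
    have hodd : ∀ k : Fin (isingP N).c → ℝ, (∀ σ, k (flipSpin a σ) = k σ) →
        ∑ σ, (isingP N).w σ * k σ * (isingP N).spin σ a = 0 := fun k hk => by
      have h := Equiv.sum_comp (flipSpin a)
        fun σ => (isingP N).w σ * k σ * (isingP N).spin σ a
      have hw : ∀ σ, (isingP N).w (flipSpin a σ) = (isingP N).w σ := fun _ => rfl
      simp only [hk, spin_flipSpin, if_true, hw] at h
      simp only [neg_one_mul, mul_neg, Finset.sum_neg_distrib] at h
      linarith
    have hprod : ∀ σ, (∏ j ∈ B, Real.exp ((isingP N).spin (flipSpin a σ) j * F j))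
        = ∏ j ∈ B, Real.exp ((isingP N).spin σ j * F j) := fun σ =>
      Finset.prod_congr rfl fun j hj => by rw [spin_flipSpin, if_neg (hB j hj), one_mul]
    have key : ∀ k : Fin (isingP N).c → ℝ, (∀ σ, k (flipSpin a σ) = k σ) →
        (∑ σ, (isingP N).w σ * k σ * Real.exp ((isingP N).spin σ a * F a))
            = Real.cosh (F a) * ∑ σ, (isingP N).w σ * k σ ∧
        (∑ σ, (isingP N).w σ * k σ * Real.exp ((isingP N).spin σ a * F a) * (isingP N).spin σ a)
            = Real.sinh (F a) * ∑ σ, (isingP N).w σ * k σ := fun k hk => by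
      have h0 := hodd k hk
      constructor
      · rw [Finset.mul_sum, ← sub_eq_zero, ← Finset.sum_sub_distrib, ← mul_zero (Real.sinh (F a)),
          ← h0, Finset.mul_sum]
        refine Finset.sum_congr rfl fun σ _ => ?_
        rw [exp_mul_sign (isingP_spin_sq σ a)]
        ring
      · rw [Finset.mul_sum, ← sub_eq_zero, ← Finset.sum_sub_distrib, ← mul_zero (Real.cosh (F a)),
          ← h0, Finset.mul_sum]
        refine Finset.sum_congr rfl fun σ _ => ?_
        rw [exp_mul_sign (isingP_spin_sq σ a)]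
        have := isingP_spin_sq σ a
        linear_combination (isingP N).w σ * k σ * Real.sinh (F a) * this
    set k : Fin (isingP N).c → ℝ :=
      fun σ => g σ * ∏ j ∈ B, Real.exp ((isingP N).spin σ j * F j)
    have hk : ∀ σ, k (flipSpin a σ) = k σ := fun σ => by
      simp only [k, hprod, hg a (Finset.mem_insert_self a B)]
    have e : ∀ σ, (isingP N).w σ * g σ
        * ∏ j ∈ insert a B, Real.exp ((isingP N).spin σ j * F j)
          = (isingP N).w σ * k σ * Real.exp ((isingP N).spin σ a * F a) := fun σ => by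
      rw [Finset.prod_insert ha]; simp only [k]; ring
    have hsum : ∑ σ, (isingP N).w σ * k σ
        = (∏ j ∈ B, Real.cosh (F j)) * ∑ σ, (isingP N).w σ * g σ := by
      rw [← (ih g hgB).1]
      exact Finset.sum_congr rfl fun σ _ => by simp only [k]; ring
    simp only [e]
    rw [Finset.prod_insert ha]
    refine ⟨by rw [(key k hk).1, hsum]; ring, fun j0 hj0 => ?_⟩
    rcases Finset.mem_insert.1 hj0 with rfl | hj
    · rw [(key k hk).2, hsum, Real.tanh_eq_sinh_div_cosh]
      field_simp [(Real.cosh_pos (F j0)).ne']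
    · have hk' : ∀ σ, k (flipSpin a σ) * (isingP N).spin (flipSpin a σ) j0
          = k σ * (isingP N).spin σ j0 := fun σ => by
        rw [hk, spin_flipSpin, if_neg (hB j0 hj), one_mul]
      have h2 := (key (fun σ => k σ * (isingP N).spin σ j0) hk').1
      have h3 := (ih g hgB).2 j0 hj
      calc ∑ σ, (isingP N).w σ * k σ * Real.exp ((isingP N).spin σ a * F a) * (isingP N).spin σ j0
          = ∑ σ, (isingP N).w σ * (k σ * (isingP N).spin σ j0)
              * Real.exp ((isingP N).spin σ a * F a) :=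
            Finset.sum_congr rfl fun σ _ => by ring
        _ = Real.cosh (F a) * ∑ σ, (isingP N).w σ * (k σ * (isingP N).spin σ j0) := h2
        _ = Real.cosh (F a) * (Real.tanh (F j0)
              * ((∏ j ∈ B, Real.cosh (F j)) * ∑ σ, (isingP N).w σ * g σ)) := by
            rw [← h3]
            congr 1
            exact Finset.sum_congr rfl fun σ _ => by simp only [k]; ring
        _ = _ := by ring

/-- Spins uncoupled from the patterns and the perturbation, seeing fields with path `v`. -/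
structure FreeSpins (c : CIdx N M K → ℝ) (B : Finset (Fin N)) (v : Fin (K + 1) → ℝ) : Prop where
  pat : ∀ a, ∀ j ∈ B, c (Sum.inl (a, j)) = 0
  spin : ∀ j ∈ B, ∀ l, c (Sum.inr (l, Sum.inr (Sum.inl j))) = incr v l
  pert : ∀ l, ∀ t : PIdx N, (∃ r, t.2.2 r ∈ B) → c (Sum.inr (l, Sum.inr (Sum.inr t))) = 0

/-- The energy without the spins of `B`. -/
noncomputable def hamRest (P : Pot) (c : CIdx N M K → ℝ) (B : Finset (Fin N))
    (v : Fin (K + 1) → ℝ) (z : RIdx N M → ℝ) (y : Fin K → LIdx N M → ℝ)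
    (σ : Fin (isingP N).c) : ℝ :=
  ham P (bpat (n := 1) (isingP N)) (bspin (isingP N)) (pull c) (branch z y) (σ, fun _ => 0)
    - ∑ j ∈ B, ((isingP N).spin σ j * labField v z y (Sum.inr (Sum.inl j)) - v (Fin.last K) / 2)

theorem hamRest_flip (P : Pot) {c : CIdx N M K → ℝ} {B : Finset (Fin N)} {v : Fin (K + 1) → ℝ}
    (hc : FreeSpins c B v) (z : RIdx N M → ℝ) (y : Fin K → LIdx N M → ℝ) {j0 : Fin N}
    (hj0 : j0 ∈ B) (σ : Fin (isingP N).c) :
    hamRest P c B v z y (flipSpin j0 σ) = hamRest P c B v z y σ := by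
  classical
  have hs : ∀ i, i ≠ j0 → (isingP N).spin (flipSpin j0 σ) i = (isingP N).spin σ i := fun i hi => by
    rw [spin_flipSpin, if_neg hi, one_mul]
  have hpat : ∀ a, lin (bpat (n := 1) (isingP N) a) (pull c) (branch z y)
        (flipSpin j0 σ, fun _ => 0)
      = lin (bpat (isingP N) a) (pull c) (branch z y) (σ, fun _ => 0) := fun a => by
    simp only [lin_bpat]
    congr 1
    refine Finset.sum_congr rfl fun i _ => ?_
    by_cases hi : i = j0
    · simp [hi, hc.pat a j0 hj0]
    · rw [hs i hi]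
  have hcomp : ∑ i : GIdx N M K 1, pull c i * bspin (isingP N) (flipSpin j0 σ, fun _ => 0) i ^ 2
      = ∑ i : GIdx N M K 1, pull c i * bspin (isingP N) (σ, fun _ => 0) i ^ 2 := by
    simp only [comp_bspin, isingP_spin_sq, ← Finset.prod_pow, Finset.prod_const_one]
  have hsp : lin (bspin (isingP N)) (pull c) (branch z y)
        ((flipSpin j0 σ, fun _ => 0) : State (isingP N) K 1)
        - ∑ j ∈ B, (isingP N).spin (flipSpin j0 σ) j * labField v z y (Sum.inr (Sum.inl j))
      = lin (bspin (isingP N)) (pull c) (branch z y) (σ, fun _ => 0)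
        - ∑ j ∈ B, (isingP N).spin σ j * labField v z y (Sum.inr (Sum.inl j)) := by
    simp only [lin_bspin]
    rw [← Finset.sum_sdiff (Finset.subset_univ B), ← Finset.sum_sdiff (Finset.subset_univ B)]
    have hB : ∀ τ : Fin (isingP N).c, ∑ j ∈ B, (isingP N).spin τ j
        * (√(c (Sum.inr (0, Sum.inr (Sum.inl j)))) * branch z y (Sum.inr (none, Sum.inr (Sum.inl j)))
          + ∑ l, √(c (Sum.inr (l.succ, Sum.inr (Sum.inl j))))
            * branch z y (Sum.inr (some (node (fun _ => (0 : Fin 1)) l), Sum.inr (Sum.inl j))))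
          = ∑ j ∈ B, (isingP N).spin τ j * labField v z y (Sum.inr (Sum.inl j)) := fun τ =>
      Finset.sum_congr rfl fun j hj => by rw [lin_spin_label c j v (hc.spin j hj) z y]
    rw [hB, hB]
    have h1 : ∀ j ∈ Finset.univ \ B, (isingP N).spin (flipSpin j0 σ) j = (isingP N).spin σ j :=
      fun j hj => hs j fun h => (Finset.mem_sdiff.1 hj).2 (h ▸ hj0)
    rw [Finset.sum_congr rfl fun j hj => by rw [h1 j hj]]
    simp only [add_sub_cancel_left, add_sub_assoc, add_assoc]
    refine congrArg (_ + ·) ?_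
    refine Finset.sum_congr rfl fun t _ => ?_
    by_cases ht : ∃ r, t.2.2 r = j0
    · obtain ⟨r, hr⟩ := ht
      simp [hc.pert _ t ⟨r, hr ▸ hj0⟩]
    · push Not at ht
      rw [Finset.prod_congr rfl fun r _ => hs _ (ht r)]
  simp only [hamRest, ham, hpat, hcomp, Finset.sum_sub_distrib]
  linarith

/-- Free spins factor out of a leaf. -/
theorem leafY_free_spins (P : Pot) {c : CIdx N M K → ℝ} {B : Finset (Fin N)}
    {v : Fin (K + 1) → ℝ} (hc : FreeSpins c B v) (z : RIdx N M → ℝ)
    (y : Fin K → LIdx N M → ℝ) :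
    leafY P (isingP N) c z y
        = (∏ j ∈ B, Real.cosh (labField v z y (Sum.inr (Sum.inl j))))
          * ∑ σ, (isingP N).w σ * (Real.exp (hamRest P c B v z y σ)
            * Real.exp (-(B.card * (v (Fin.last K) / 2)))) ∧
      ∀ j0 ∈ B, leafAvg P (isingP N) c (fun σ _ => (isingP N).spin σ j0) z y
        = Real.tanh (labField v z y (Sum.inr (Sum.inl j0))) := by
  set g : Fin (isingP N).c → ℝ := fun σ => Real.exp (hamRest P c B v z y σ)
    * Real.exp (-(B.card * (v (Fin.last K) / 2)))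
  obtain ⟨h1, h2⟩ := sum_ising_split B (fun j => labField v z y (Sum.inr (Sum.inl j))) g
    (fun j hj σ => by simp only [g, hamRest_flip P hc z y hj σ])
  have e : ∀ σ, Real.exp (ham P (bpat (n := 1) (isingP N)) (bspin (isingP N)) (pull c) (branch z y)
      (σ, fun _ => 0))
        = g σ * ∏ j ∈ B, Real.exp ((isingP N).spin σ j * labField v z y (Sum.inr (Sum.inl j))) :=
    fun σ => by
      simp only [g, ← Real.exp_sum, ← Real.exp_add, hamRest, Finset.sum_sub_distrib,
        Finset.sum_const, nsmul_eq_mul]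
      congr 1
      ring
  have hY : leafY P (isingP N) c z y
      = (∏ j ∈ B, Real.cosh (labField v z y (Sum.inr (Sum.inl j))))
        * ∑ σ, (isingP N).w σ * g σ := by
    rw [leafY, ← h1]
    exact Finset.sum_congr rfl fun σ _ => by rw [e σ]; ring
  refine ⟨hY, fun j0 hj0 => ?_⟩
  rw [leafAvg, div_eq_iff (leafY_pos P (isingP N) c z y).ne', hY, ← h2 j0 hj0]
  exact Finset.sum_congr rfl fun σ _ => by rw [e σ]; ring

/-- The energy without free spins ignores their labels. -/
theorem hamRest_congr (P : Pot) {c : CIdx N M K → ℝ} {B : Finset (Fin N)}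
    {v : Fin (K + 1) → ℝ} (hc : FreeSpins c B v) {z z' : RIdx N M → ℝ}
    {y y' : Fin K → LIdx N M → ℝ}
    (hg : ∀ a, ∀ j ∉ B, z (Sum.inl (a, j)) = z' (Sum.inl (a, j)))
    (hz : ∀ i : LIdx N M, (∀ j ∈ B, i ≠ Sum.inr (Sum.inl j)) → z (Sum.inr i) = z' (Sum.inr i))
    (hy : ∀ l, ∀ i : LIdx N M, (∀ j ∈ B, i ≠ Sum.inr (Sum.inl j)) → y l i = y' l i)
    (σ : Fin (isingP N).c) : hamRest P c B v z y σ = hamRest P c B v z' y' σ := by
  classical
  have hpne : ∀ a : Fin M, ∀ j ∈ B, (Sum.inl a : LIdx N M) ≠ Sum.inr (Sum.inl j) :=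
    fun _ _ _ h => by simp at h
  have htne : ∀ t : PIdx N, ∀ j ∈ B, (Sum.inr (Sum.inr t) : LIdx N M) ≠ Sum.inr (Sum.inl j) :=
    fun _ _ _ h => by simp at h
  have hpat : ∀ a, lin (bpat (n := 1) (isingP N) a) (pull c) (branch z y) (σ, fun _ => 0)
      = lin (bpat (isingP N) a) (pull c) (branch z' y') (σ, fun _ => 0) := fun a => by
    simp only [lin_bpat, branch, hz _ (hpne a)]
    simp only [node_fst, hy _ _ (hpne a)]
    congr 1
    refine Finset.sum_congr rfl fun j _ => ?_
    by_cases hj : j ∈ B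
    · simp [hc.pat a j hj]
    · rw [hg a j hj]
  have hB : ∀ (z : RIdx N M → ℝ) (y : Fin K → LIdx N M → ℝ), ∑ j ∈ B, (isingP N).spin σ j
      * (√(c (Sum.inr (0, Sum.inr (Sum.inl j)))) * branch z y (Sum.inr (none, Sum.inr (Sum.inl j)))
        + ∑ l, √(c (Sum.inr (l.succ, Sum.inr (Sum.inl j))))
          * branch z y (Sum.inr (some (node (fun _ => (0 : Fin 1)) l), Sum.inr (Sum.inl j))))
        = ∑ j ∈ B, (isingP N).spin σ j * labField v z y (Sum.inr (Sum.inl j)) := fun z y =>
    Finset.sum_congr rfl fun j hj => by rw [lin_spin_label c j v (hc.spin j hj) z y]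
  have hsp : lin (bspin (isingP N)) (pull c) (branch z y)
        ((σ, fun _ => 0) : State (isingP N) K 1)
        - ∑ j ∈ B, (isingP N).spin σ j * labField v z y (Sum.inr (Sum.inl j))
      = lin (bspin (isingP N)) (pull c) (branch z' y') (σ, fun _ => 0)
        - ∑ j ∈ B, (isingP N).spin σ j * labField v z' y' (Sum.inr (Sum.inl j)) := by
    simp only [lin_bspin]
    rw [← Finset.sum_sdiff (Finset.subset_univ B), ← Finset.sum_sdiff (Finset.subset_univ B),
      hB, hB]
    have hrest : ∀ j ∈ Finset.univ \ B, ∀ j' ∈ B,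
        (Sum.inr (Sum.inl j) : LIdx N M) ≠ Sum.inr (Sum.inl j') := fun j hj j' hj' h => by
      simp only [Sum.inr.injEq, Sum.inl.injEq] at h
      exact (Finset.mem_sdiff.1 hj).2 (h ▸ hj')
    have e1 : ∀ j ∈ Finset.univ \ B, (isingP N).spin σ j
        * (√(c (Sum.inr (0, Sum.inr (Sum.inl j)))) * branch z y (Sum.inr (none, Sum.inr (Sum.inl j)))
          + ∑ l, √(c (Sum.inr (l.succ, Sum.inr (Sum.inl j))))
            * branch z y (Sum.inr (some (node (fun _ => (0 : Fin 1)) l), Sum.inr (Sum.inl j))))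
          = (isingP N).spin σ j
        * (√(c (Sum.inr (0, Sum.inr (Sum.inl j)))) * branch z' y' (Sum.inr (none, Sum.inr (Sum.inl j)))
          + ∑ l, √(c (Sum.inr (l.succ, Sum.inr (Sum.inl j))))
            * branch z' y' (Sum.inr (some (node (fun _ => (0 : Fin 1)) l), Sum.inr (Sum.inl j)))) :=
      fun j hj => by
        simp only [branch, hz _ (hrest j hj), hy _ _ (hrest j hj)]
    rw [Finset.sum_congr rfl e1]
    simp only [branch, hz _ (htne _), hy _ _ (htne _)]
    ring
  simp only [hamRest, ham, hpat, Finset.sum_sub_distrib]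
  linarith

end Vale.Agent.P157.Casc
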