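import Vale.Agent.P157.Casc.Uniform
import Vale.Agent.P157.Casc.Upper

/-!
Brackets of the segments of the single-spin cavity: moving the perturbation off one spin, a
spin-free hierarchical field, and the decoupling of the spin.
-/

open MeasureTheory ProbabilityTheory Filter Topology Set

namespace Vale.Agent.P157.Casc

variable {N M K n : ℕ}

/-- Fields with the perturbation carried by the spins in `S`. -/
noncomputable def spinSys (Λ : Par K) (S : Finset (Fin N)) (x : ℕ → ℝ) (i : CIdx N M K) : ℝ :=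
  fieldc Λ i + pertS S x i

/-- The free coordinate of top degree and power zero. -/
def dumIdx (hN : 0 < N) : PIdx N :=
  ⟨⟨N - 1, Nat.sub_lt hN one_pos⟩, ⟨0, Nat.succ_pos _⟩, fun r => Fin.elim0 r⟩

/-- A hierarchical field that does not see the spins. -/
noncomputable def dumc (hN : 0 < N) (v : Fin (K + 1) → ℝ) : CIdx N M K → ℝ
  | Sum.inr (l, Sum.inr (Sum.inr t)) => if t = dumIdx hN then incr v l else 0
  | _ => 0

/-- The product path cancelled by the free field. -/
def prodPath (Λ : Par K) (q p : Fin (K + 1) → ℝ) (u : Fin (K + 1)) : ℝ := Λ.1 * (q u * p u)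

theorem incr_nonneg {v : Fin (K + 1) → ℝ} (hv : Monotone v) (h0 : 0 ≤ v 0) (l : Fin (K + 1)) :
    0 ≤ incr v l :=
  Fin.cases (by simpa [incr] using h0)
    (fun r => by
      simp only [incr, Fin.cases_succ]
      linarith [hv (Fin.castSucc_le_succ r)]) l

theorem pertS_nonneg (S : Finset (Fin N)) (x : ℕ → ℝ) (i : CIdx N M K) : 0 ≤ pertS S x i := by
  rcases i with p | ⟨l, a | j | ⟨j, i, t⟩⟩ <;> simp only [pertS, le_refl]
  split_ifs
  · refine div_nonneg (mul_nonneg (sq_nonneg _) (mul_nonneg (by positivity) ?_)) (by positivity)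
    exact incr_nonneg (fun a b hab => pow_le_pow_left₀ (Nat.cast_nonneg _)
      (by exact_mod_cast hab) _) (by positivity) l
  · exact le_rfl

theorem spinSys_nonneg {L : ℝ} {Λ : Par K} (h : Adm K L Λ) (S : Finset (Fin N)) (x : ℕ → ℝ)
    (i : CIdx N M K) : 0 ≤ spinSys Λ S x i :=
  add_nonneg (fieldc_nonneg h i) (pertS_nonneg S x i)

theorem dumc_nonneg (hN : 0 < N) {v : Fin (K + 1) → ℝ} (hv : Monotone v) (h0 : 0 ≤ v 0)
    (i : CIdx N M K) : 0 ≤ dumc hN v i := by
  rcases i with p | ⟨l, a | j | t⟩ <;> simp only [dumc, le_refl]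
  split_ifs
  exacts [incr_nonneg hv h0 l, le_rfl]

theorem decSpin_nonneg {L : ℝ} {Λ : Par K} (h : Adm K L Λ) {p : Fin (K + 1) → ℝ} (hp : Monotone p)
    (hp0 : 0 ≤ p 0) (S : Finset (Fin N)) (x : ℕ → ℝ) (i : CIdx N M K) :
    0 ≤ decSpin Λ p S x i := by
  obtain ⟨hs, hQ, hQ0, -, hC, hC0, -⟩ := h
  rcases i with ⟨a, j⟩ | ⟨l, a | j | t⟩ <;> simp only [decSpin]
  · split_ifs
    exacts [div_nonneg (mul_nonneg hs.1 (Nat.cast_nonneg _)) (Nat.cast_nonneg _), le_rfl]
  · exact incr_nonneg hQ hQ0 l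
  · split_ifs
    exacts [incr_nonneg hC hC0 l,
      incr_nonneg (fun a b hab => add_le_add (hC hab) (mul_le_mul_of_nonneg_left (hp hab) hs.1))
        (add_nonneg hC0 (mul_nonneg hs.1 hp0)) l]
  · exact pertS_nonneg S x _

theorem dum_prod (hN : 0 < N) (f : Fin N → ℝ) : ∏ r, f ((dumIdx hN).2.2 r) = 1 :=
  Finset.prod_eq_one fun r _ => Fin.elim0 r

theorem sum_spin_sq (S : Finset (Fin N)) (σ : Fin (isingP N).c) :
    ∑ j ∈ S, (isingP N).spin σ j * (isingP N).spin σ j = S.card := by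
  simp [← pow_two, isingP_spin_sq]

theorem abs_ovSet_le (S : Finset (Fin N)) (st st' : State (isingP N) K n) :
    |ovSet S (isingP N) st st'| ≤ 1 := by
  rw [ovSet, abs_div, Nat.abs_cast]
  refine div_le_one_of_le₀ ((Finset.abs_sum_le_sum_abs _ _).trans ?_) (Nat.cast_nonneg _)
  refine (Finset.sum_le_sum fun j _ => ?_).trans_eq (by rw [Finset.sum_const, nsmul_one])
  rw [abs_mul]
  have h : ∀ σ, |(isingP N).spin σ j| ≤ 1 := fun σ => by
    rw [← sq_le_one_iff_abs_le_one, isingP_spin_sq]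
  exact mul_le_one₀ (h _) (abs_nonneg _) (h _)

theorem ovSet_univ (st st' : State (isingP N) K n) :
    ovSet Finset.univ (isingP N) st st' = ovR N (isingP N) st st' := by
  simp [ovSet, ovR]

/-- Removing one spin from the overlap. -/
theorem abs_ovSet_sub (hN : 2 ≤ N) (j : Fin N) (st st' : State (isingP N) K n) :
    |ovSet (Finset.univ.erase j) (isingP N) st st' - ovR N (isingP N) st st'| ≤ 4 / N := by
  have hN1 : (2 : ℝ) ≤ N := by exact_mod_cast hN
  set τ := (isingP N).spin st.1 j * (isingP N).spin st'.1 j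
  have hc : ((Finset.univ.erase j).card : ℝ) = (N : ℝ) - 1 := by
    rw [Finset.card_erase_of_mem (Finset.mem_univ j), Finset.card_univ, Fintype.card_fin,
      Nat.cast_sub (by omega)]
    simp
  have hsum : (∑ i ∈ Finset.univ.erase j, (isingP N).spin st.1 i * (isingP N).spin st'.1 i)
      = N * ovR N (isingP N) st st' - τ := by
    rw [Finset.sum_erase_eq_sub (Finset.mem_univ j)]
    simp only [ovR, Fin.is_lt, if_true]
    field_simp
    rfl
  have e : ovSet (Finset.univ.erase j) (isingP N) st st' - ovR N (isingP N) st st'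
      = (ovR N (isingP N) st st' - τ) / ((N : ℝ) - 1) := by
    rw [ovSet, hsum, hc, div_sub' (by linarith)]
    congr 1
    ring
  have hτ : |τ| ≤ 1 := by
    have h : ∀ σ, |(isingP N).spin σ j| ≤ 1 := fun σ => by
      rw [← sq_le_one_iff_abs_le_one, isingP_spin_sq]
    simp only [τ, abs_mul]
    exact mul_le_one₀ (h _) (abs_nonneg _) (h _)
  rw [e, abs_div, abs_of_pos (by linarith : (0 : ℝ) < (N : ℝ) - 1)]
  refine (div_le_div_of_nonneg_right ((abs_sub _ _).trans (add_le_add (abs_ovR_le_one _ _ _) hτ))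
    (by linarith)).trans ?_
  rw [div_le_div_iff₀ (by linarith) (by linarith)]
  linarith

/-- The series of the perturbation changes little when one spin is left out. -/
theorem pert_series (hN : 2 ≤ N) {x : ℕ → ℝ} (hx : ∀ i, |x i| ≤ 2) {a b : ℝ} (ha : |a| ≤ 1)
    (hb : |b| ≤ 1) (hab : |a - b| ≤ 4 / N) :
    |(∑ j : Fin N, if j.val < N - 1 then (amp (N - 1) j * x j) ^ 2 * a ^ (j.val + 1) else 0)
        - ∑ j : Fin N, (amp N j * x j) ^ 2 * b ^ (j.val + 1)|
      ≤ 20 * ((N : ℝ) ^ ((3 : ℝ) / 4) / N) := by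
  have hNr : (0 : ℝ) < N := by exact_mod_cast (by omega : 0 < N)
  set T := (N : ℝ) ^ ((3 : ℝ) / 4)
  have hT : 0 ≤ T := by positivity
  have eamp : ∀ m k : ℕ, amp m k ^ 2 = (m : ℝ) ^ ((3 : ℝ) / 4) * ((1 : ℝ) / 4) ^ (k + 1) :=
    fun m k => by
      rw [amp, div_pow, ← Real.rpow_natCast ((m : ℝ) ^ ((3 : ℝ) / 8)) 2,
        ← Real.rpow_mul (Nat.cast_nonneg m), ← pow_mul, mul_comm (k + 1) 2, pow_mul, one_div_pow]
      norm_num
      ring
  set T1 := (((N - 1 : ℕ) : ℝ)) ^ ((3 : ℝ) / 4)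
  have hT1 : T1 ≤ T ∧ T - T1 ≤ T / N := by
    have hm : ((N - 1 : ℕ) : ℝ) = (N : ℝ) - 1 := by rw [Nat.cast_sub (by omega)]; simp
    refine ⟨Real.rpow_le_rpow (Nat.cast_nonneg _) (by linarith) (by norm_num), ?_⟩
    have hr : ((N : ℝ) - 1) / N ≤ (((N : ℝ) - 1) / N) ^ ((3 : ℝ) / 4) := by
      have h1 : (1 : ℝ) ≤ N := by exact_mod_cast (by omega : 1 ≤ N)
      have h0 : 0 < ((N : ℝ) - 1) / N := div_pos (by
        have : (2 : ℝ) ≤ N := by exact_mod_cast hN
        linarith) hNr
      calc ((N : ℝ) - 1) / N = (((N : ℝ) - 1) / N) ^ (1 : ℝ) := (Real.rpow_one _).symm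
        _ ≤ _ := Real.rpow_le_rpow_of_exponent_ge h0 ((div_le_one hNr).2 (by linarith))
          (by norm_num)
    have hT1e : T1 = T * (((N : ℝ) - 1) / N) ^ ((3 : ℝ) / 4) := by
      simp only [T1, T, hm]
      rw [← Real.mul_rpow hNr.le (div_nonneg (by rw [← hm]; positivity) hNr.le),
        mul_div_cancel₀ _ hNr.ne']
    rw [hT1e]
    calc T - T * (((N : ℝ) - 1) / N) ^ ((3 : ℝ) / 4) ≤ T - T * (((N : ℝ) - 1) / N) := by
          linarith [mul_le_mul_of_nonneg_left hr hT]
      _ = T / N := by field_simp; ring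
  rw [← Finset.sum_sub_distrib]
  refine (Finset.abs_sum_le_sum_abs _ _).trans
    ((Finset.sum_le_sum (g := fun j : Fin N => 20 * (T / N) * ((1 : ℝ) / 2) ^ (j.val + 1))
      fun j _ => ?_).trans ?_)
  · set k := j.val + 1
    have hk : (1 : ℝ) ≤ k := by exact_mod_cast Nat.succ_pos j.val
    have hk2 : (k : ℝ) * ((1 : ℝ) / 4) ^ k ≤ ((1 : ℝ) / 2) ^ k := by
      calc (k : ℝ) * ((1 : ℝ) / 4) ^ k ≤ (2 : ℝ) ^ k * ((1 : ℝ) / 4) ^ k := by
            gcongr
            exact_mod_cast Nat.lt_two_pow_self.le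
        _ = _ := by rw [← mul_pow]; norm_num
    have hk4 : 0 ≤ ((1 : ℝ) / 4) ^ k := by positivity
    have hx2 : x j ^ 2 ≤ 4 := by
      calc x j ^ 2 = |x j| ^ 2 := (sq_abs _).symm
        _ ≤ 2 ^ 2 := pow_le_pow_left₀ (abs_nonneg _) (hx j) 2
        _ = 4 := by norm_num
    have hap : |a ^ k| ≤ 1 := by rw [abs_pow]; exact pow_le_one₀ (abs_nonneg _) ha
    have hbp : |b ^ k| ≤ 1 := by rw [abs_pow]; exact pow_le_one₀ (abs_nonneg _) hb
    split_ifs with hj
    · have hpow : |a ^ k - b ^ k| ≤ 4 / N * k := by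
        refine (abs_pow_sub_pow_le ..).trans ?_
        calc |a - b| * k * max |a| |b| ^ (k - 1) ≤ |a - b| * k * 1 :=
              mul_le_mul_of_nonneg_left (pow_le_one₀ (le_max_of_le_left (abs_nonneg _))
                (max_le ha hb)) (by positivity)
          _ ≤ 4 / N * k := by rw [mul_one]; gcongr
      rw [show (amp (N - 1) j * x j) ^ 2 * a ^ k - (amp N j * x j) ^ 2 * b ^ k
        = ((1 : ℝ) / 4) ^ k * x j ^ 2 * ((T1 - T) * a ^ k + T * (a ^ k - b ^ k)) by
          rw [mul_pow, mul_pow, eamp, eamp]; ring]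
      have hin : |(T1 - T) * a ^ k + T * (a ^ k - b ^ k)| ≤ 5 * (T / N) * k := by
        refine (abs_add_le _ _).trans ?_
        rw [abs_mul, abs_mul, abs_of_nonneg hT, abs_of_nonpos (sub_nonpos.2 hT1.1), neg_sub]
        have h1 : (T - T1) * |a ^ k| ≤ T / N := (mul_le_of_le_one_right (sub_nonneg.2 hT1.1) hap).trans hT1.2
        have h2 : T * |a ^ k - b ^ k| ≤ T * (4 / N * k) := mul_le_mul_of_nonneg_left hpow hT
        have h3 : T / N ≤ T / N * k := le_mul_of_one_le_right (by positivity) hk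
        have h4 : T * (4 / N * k) = 4 * (T / N) * k := by ring
        linarith
      rw [abs_mul, abs_mul, abs_of_nonneg hk4, abs_of_nonneg (sq_nonneg _)]
      calc ((1 : ℝ) / 4) ^ k * x j ^ 2 * |(T1 - T) * a ^ k + T * (a ^ k - b ^ k)|
          ≤ ((1 : ℝ) / 4) ^ k * 4 * (5 * (T / N) * k) := by gcongr
        _ = 20 * (T / N) * ((k : ℝ) * ((1 : ℝ) / 4) ^ k) := by ring
        _ ≤ _ := mul_le_mul_of_nonneg_left hk2 (by positivity)
    · have hkN : (k : ℝ) = N := by
        have : k = N := by have := j.isLt; omega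
        rw [this]
      rw [zero_sub, abs_neg, abs_mul, abs_of_nonneg (sq_nonneg _), mul_pow, eamp]
      calc T * ((1 : ℝ) / 4) ^ k * x j ^ 2 * |b ^ k|
          ≤ T * ((1 : ℝ) / 4) ^ k * 4 * 1 := by gcongr
        _ = 4 * (T / N) * ((k : ℝ) * ((1 : ℝ) / 4) ^ k) := by rw [hkN]; field_simp
        _ ≤ 20 * (T / N) * ((k : ℝ) * ((1 : ℝ) / 4) ^ k) :=
            mul_le_mul_of_nonneg_right (by linarith [show 0 ≤ T / N by positivity]) (by positivity)
        _ ≤ _ := mul_le_mul_of_nonneg_left hk2 (by positivity)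
  · rw [← Finset.mul_sum]
    refine mul_le_of_le_one_right (by positivity) ?_
    rw [Fin.sum_univ_eq_sum_range (fun i => ((1 : ℝ) / 2) ^ (i + 1)) N]
    simp only [pow_succ', ← Finset.mul_sum]
    linarith [sum_geometric_two_le N]

/-- Bracket of the segment moving the perturbation off the spin `j`. -/
theorem grad_pert_off (P : Pot) (hN : 2 ≤ N) (j : Fin N) {x : ℕ → ℝ} (hx : ∀ i, |x i| ≤ 2)
    (Λ : Par K) (lam G : GIdx N M K n → ℝ) (st st' : State (isingP N) K n) :
    |grad P (bpat (isingP N)) (bspin (isingP N)) lam (pull fun i =>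
        spinSys Λ (Finset.univ.erase j) x i - (stdc Λ x : CIdx N M K → ℝ) i) G st st'|
      ≤ 20 * ((N : ℝ) ^ ((3 : ℝ) / 4) / N) := by
  set S := Finset.univ.erase j
  set u := com st.2 st'.2
  have hS : S.card = N - 1 := by simp [S]
  simp only [grad, cov_bpat, cov_bspin]
  simp only [spinSys, stdc, pertS, pertc, add_zero, sub_self, zero_mul, mul_zero,
    Finset.sum_const_zero, zero_div, zero_add]
  simp only [mul_sub, Finset.sum_sub_distrib, fieldc, zero_add]
  have h1 := cov_pertS (M := M) (isingP N) S x st st'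
  have h2 := cov_pertS (M := M) (isingP N) Finset.univ x st st'
  rw [← pertc_eq_pertS] at h2
  simp only [pertS, pertc] at h1 h2
  rw [h1, h2]
  simp only [Finset.card_univ, Fintype.card_fin, Fin.is_lt, Finset.filter_true, hS, ovSet_univ,
    Finset.sum_filter]
  have hu : ((u : ℕ) : ℝ) ≤ K := by exact_mod_cast Nat.lt_succ_iff.1 u.isLt
  have h3 : (0 : ℝ) < ((3 * K + 1 : ℕ) : ℝ) := by positivity
  have hr : ∀ r : ℝ, |r| ≤ 1 → |(r + 3 * ((u : ℕ) : ℝ)) / ((3 * K + 1 : ℕ) : ℝ)| ≤ 1 := fun r hr => by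
    rw [abs_div, abs_of_pos h3, div_le_one h3]
    refine (abs_add_le _ _).trans ?_
    rw [abs_of_nonneg (by positivity : (0 : ℝ) ≤ 3 * ((u : ℕ) : ℝ))]
    push_cast
    linarith
  refine pert_series hN hx (hr _ (abs_ovSet_le _ _ _)) (hr _ (abs_ovR_le_one _ _ _)) ?_
  rw [← sub_div, add_sub_add_right_eq_sub, abs_div, abs_of_pos h3]
  refine (div_le_self (abs_nonneg _) ?_).trans (abs_ovSet_sub hN j st st')
  exact_mod_cast Nat.succ_pos (3 * K)

/-- Bracket of the free field. -/
theorem grad_dum (P : Pot) (π : Prior N) (hN : 0 < N) (v : Fin (K + 1) → ℝ)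
    (lam G : GIdx N M K n → ℝ) (st st' : State π K n) :
    grad P (bpat π) (bspin π) lam (pull (dumc hN v : CIdx N M K → ℝ)) G st st'
      = v (ovU π st st') := by
  simp only [grad, cov_bpat, cov_bspin, dumc, zero_mul, mul_zero, Finset.sum_const_zero, zero_div,
    zero_add, add_zero]
  rw [Finset.sum_eq_single (dumIdx hN) (fun t _ ht => by simp [ht])
    (fun h => absurd (Finset.mem_univ _) h)]
  simp [dum_prod hN, sum_incr, ovU]

/-- Covariance of the pattern fields along the decoupling of a spin. -/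
theorem cov_dec (hN : 2 ≤ N) (j : Fin N) (Λ : Par K) (q p : Fin (K + 1) → ℝ) (x : ℕ → ℝ)
    (h0 : 0 < N) (a : Fin M) (st st' : State (isingP N) K n) :
    ∑ i, pull (fun i => decSpin Λ p (Finset.univ.erase j) x i
        - (spinSys Λ (Finset.univ.erase j) x i + dumc h0 (prodPath Λ q p) i) : CIdx N M K → ℝ) i
          * (bpat (isingP N) a st i * bpat (isingP N) a st' i)
      = Λ.1 / N * (ovSet (Finset.univ.erase j) (isingP N) st st'
          - (isingP N).spin st.1 j * (isingP N).spin st'.1 j) := by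
  set S := Finset.univ.erase j
  have hN1 : (2 : ℝ) ≤ N := by exact_mod_cast hN
  have hS : (S.card : ℝ) = (N : ℝ) - 1 := by
    rw [Finset.card_erase_of_mem (Finset.mem_univ j), Finset.card_univ, Fintype.card_fin,
      Nat.cast_sub (by omega)]
    simp
  rw [cov_bpat]
  simp only [decSpin, spinSys, fieldc, pertS, dumc, add_zero, sub_self, Finset.sum_const_zero]
  rw [← Finset.add_sum_erase _ _ (Finset.mem_univ j), if_neg (Finset.notMem_erase j _)]
  have e : ∑ i ∈ S, ((if i ∈ S then Λ.1 * N / S.card else 0) - Λ.1)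
      * ((isingP N).spin st.1 i * (isingP N).spin st'.1 i)
      = (Λ.1 * N / S.card - Λ.1) * ∑ i ∈ S, (isingP N).spin st.1 i * (isingP N).spin st'.1 i := by
    rw [Finset.mul_sum]
    exact Finset.sum_congr rfl fun i hi => by rw [if_pos hi]
  have hne : (N : ℝ) - 1 ≠ 0 := by linarith
  rw [e, ovSet, hS]
  field_simp
  ring

/-- Bracket of the decoupling of a spin. -/
theorem grad_dec (P : Pot) (hN : 2 ≤ N) (h0 : 0 < N) (j : Fin N) (Λ : Par K)
    (q p : Fin (K + 1) → ℝ) (x : ℕ → ℝ) (ct : CIdx N M K → ℝ) (G : GIdx N M K n → ℝ)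
    (st st' : State (isingP N) K n) :
    grad P (bpat (isingP N)) (bspin (isingP N)) (pull ct) (pull fun i =>
        decSpin Λ p (Finset.univ.erase j) x i
          - (spinSys Λ (Finset.univ.erase j) x i + dumc h0 (prodPath Λ q p) i)) G st st'
      = Λ.1 * ((ovSet (Finset.univ.erase j) (isingP N) st st'
            - (isingP N).spin st.1 j * (isingP N).spin st'.1 j) * ovP N P (isingP N) ct G st st'
          + (isingP N).spin st.1 j * (isingP N).spin st'.1 j * p (ovU (isingP N) st st')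
          - q (ovU (isingP N) st st') * p (ovU (isingP N) st st')) := by
  simp only [grad, cov_dec hN j Λ q p x h0]
  set S := Finset.univ.erase j
  set τ := (isingP N).spin st.1 j * (isingP N).spin st'.1 j
  set u := com st.2 st'.2
  rw [cov_bspin]
  simp only [decSpin, spinSys, fieldc, pertS, dumc, add_zero, zero_add]
  have e1 : ∑ i : Fin N, (isingP N).spin st.1 i * (isingP N).spin st'.1 i * ∑ l ∈ Finset.Iic u,
      ((if i ∈ S then incr Λ.2.2 l else incr (ceff Λ p) l) - incr Λ.2.2 l) = τ * (Λ.1 * p u) := by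
    rw [Finset.sum_eq_single j (fun i _ hi => by
        simp [S, hi]) fun h => absurd (Finset.mem_univ _) h,
      Finset.sum_sub_distrib]
    simp only [S, Finset.notMem_erase, if_false, sum_incr]
    simp only [ceff, τ]
    ring
  have e2 : ∀ t : PIdx N, (∑ l ∈ Finset.Iic u, (pertS (M := M) S x (Sum.inr (l, Sum.inr (Sum.inr t)))
      - (pertS (M := M) S x (Sum.inr (l, Sum.inr (Sum.inr t)))
        + if t = dumIdx h0 then incr (prodPath Λ q p) l else 0)))
      = if t = dumIdx h0 then -(prodPath Λ q p u) else 0 := fun t => by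
    split_ifs
    · simp [sum_incr]
    · simp
  have e3 : ∑ t : PIdx N, ((∏ r, (isingP N).spin st.1 (t.2.2 r)) * ∏ r, (isingP N).spin st'.1 (t.2.2 r))
      * (∑ l ∈ Finset.Iic u, (pertS (M := M) S x (Sum.inr (l, Sum.inr (Sum.inr t)))
      - (pertS (M := M) S x (Sum.inr (l, Sum.inr (Sum.inr t)))
        + if t = dumIdx h0 then incr (prodPath Λ q p) l else 0))) = -(prodPath Λ q p u) := by
    simp only [e2, mul_ite, mul_zero, Finset.sum_ite_eq', Finset.mem_univ, if_true]
    rw [dum_prod h0, dum_prod h0, one_mul, one_mul]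
  simp only [pertS] at e3
  rw [e1, e3, ← Finset.mul_sum]
  simp only [ovP, prodPath, ovU]
  ring

end Vale.Agent.P157.Casc
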