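import Vale.Agent.P157.Casc.StatBr
import Vale.Agent.P157.Formula.Bridge

/-!
Limits of the single-spin level averages: the spin-free field does not change them, and at a
decoupled spin they are those of the Ising recursion.
-/

open MeasureTheory ProbabilityTheory Filter Topology Set

namespace Vale.Agent.P157.Casc

variable {N M K n : ℕ}

/-- Average of the product of the spin `j` on pairs at level `l`. -/
noncomputable def spinLev (n : ℕ) (P : Pot) (c : CIdx N M K → ℝ) (j : Fin N) (l : Fin (K + 1)) : ℝ :=
  mpair n P (isingP N) c fun _ st st' =>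
    onLev l (ovU (isingP N) st st') ((isingP N).spin st.1 j * (isingP N).spin st'.1 j)

theorem abs_spin_one (σ : Fin (isingP N).c) (j : Fin N) : |(isingP N).spin σ j| ≤ 1 := by
  rw [← sq_le_one_iff_abs_le_one, isingP_spin_sq]

theorem mpair_finsum (P : Pot) (π : Prior N) (c : CIdx N M K → ℝ) {ι : Type*} (s : Finset ι)
    (a : ι → ℝ) (f : ι → State π K n → State π K n → ℝ) {B : ℝ} (hB : 0 ≤ B)
    (hf : ∀ i ∈ s, ∀ x y, |f i x y| ≤ B) :
    mpair n P π c (fun _ x y => ∑ i ∈ s, a i * f i x y)
      = ∑ i ∈ s, a i * mpair n P π c (fun _ => f i) := by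
  have hi : ∀ i ∈ s, Integrable (fun p => a i * avg2 (mbw P π c p) (f i)) (envLaw N M K n) :=
    fun i his => (measurable_mpair_fun P π c (O := fun _ => f i) (fun _ _ => continuous_const) hB
      fun _ => hf i his).const_mul _
  simp only [mpair, ← integral_const_mul]
  rw [← integral_finsetSum _ hi]
  refine integral_congr_ae (ae_of_all _ fun p => ?_)
  simp only [avg2, Finset.mul_sum]
  conv_rhs => rw [Finset.sum_comm]
  refine Finset.sum_congr rfl fun x _ => ?_
  conv_rhs => rw [Finset.sum_comm]
  exact Finset.sum_congr rfl fun y _ => Finset.sum_congr rfl fun i _ => by ring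

/-- A function of the level times the product of a spin, by levels. -/
theorem mpair_spinLev (P : Pot) (c : CIdx N M K → ℝ) (j : Fin N) (g : Fin (K + 1) → ℝ) :
    mpair n P (isingP N) c (fun _ st st' => g (ovU (isingP N) st st')
        * ((isingP N).spin st.1 j * (isingP N).spin st'.1 j))
      = ∑ l, g l * spinLev n P c j l := by
  have h := mpair_finsum (n := n) P (isingP N) c Finset.univ g
    (fun l st st' => onLev l (ovU (isingP N) st st')
      ((isingP N).spin st.1 j * (isingP N).spin st'.1 j)) zero_le_one fun l _ x y => by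
    unfold onLev
    split_ifs
    · rw [abs_mul]; exact mul_le_one₀ (abs_spin_one _ _) (abs_nonneg _) (abs_spin_one _ _)
    · simp
  simp only [spinLev]
  rw [← h]
  congr 1
  funext G st st'
  simp [onLev]

/-- The spin overlap at a level is the mean over the spins. -/
theorem qX_eq_spinLev (P : Pot) (c : CIdx N M K → ℝ) (l : Fin (K + 1)) :
    qX n N P (isingP N) c l = (∑ j : Fin N, (1 / N : ℝ) * spinLev n P c j l) / pi0 K := by
  have h := mpair_finsum (n := n) P (isingP N) c Finset.univ (fun _ : Fin N => (1 / N : ℝ))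
    (fun j st st' => onLev l (ovU (isingP N) st st')
      ((isingP N).spin st.1 j * (isingP N).spin st'.1 j)) zero_le_one fun j _ x y => by
    unfold onLev
    split_ifs
    · rw [abs_mul]; exact mul_le_one₀ (abs_spin_one _ _) (abs_nonneg _) (abs_spin_one _ _)
    · simp
  simp only [spinLev]
  rw [← h, qX]
  congr 2
  funext G st st'
  simp only [onLev, ovR, Fin.is_lt, if_true]
  split_ifs <;> simp [Finset.mul_sum, div_eq_inv_mul]

/-- Fields through coordinates without variance do not matter. -/
theorem lin_congr {T I : Type*} [Fintype I] (b : T → I → ℝ) {lam : I → ℝ} {G G' : I → ℝ}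
    (h : ∀ i, lam i = 0 ∨ G i = G' i) (x : T) : lin b lam G x = lin b lam G' x :=
  Finset.sum_congr rfl fun i _ => by rcases h i with h | h <;> simp [h]

/-- Variances on disjoint coordinates add in the fields. -/
theorem lin_add {T I : Type*} [Fintype I] (b : T → I → ℝ) {lam mu : I → ℝ}
    (h : ∀ i, lam i = 0 ∨ mu i = 0) (G : I → ℝ) (x : T) :
    lin b (fun i => lam i + mu i) G x = lin b lam G x + lin b mu G x := by
  simp only [lin, ← Finset.sum_add_distrib]
  exact Finset.sum_congr rfl fun i _ => by rcases h i with h | h <;> simp [h]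

theorem spinSys_dum {S : Finset (Fin N)} (hS : S.card ≤ N - 1) (hN : 0 < N) (Λ : Par K)
    (x : ℕ → ℝ) (l : Fin (K + 1)) :
    (spinSys Λ S x : CIdx N M K → ℝ) (Sum.inr (l, Sum.inr (Sum.inr (dumIdx hN)))) = 0 := by
  simp only [spinSys, fieldc, pertS, dumIdx, zero_add]
  exact if_neg fun h => absurd h.1 (not_lt.2 hS)

/-- A leaf with the spin-free field at its free coordinate. -/
theorem leaf_dum (P : Pot) (hN : 0 < N) {c : CIdx N M K → ℝ}
    (h0 : ∀ l, c (Sum.inr (l, Sum.inr (Sum.inr (dumIdx hN)))) = 0) (v : Fin (K + 1) → ℝ)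
    (π : Prior N) (φ : Fin π.c → ℝ) (z : RIdx N M → ℝ) (y : Fin K → LIdx N M → ℝ) :
    leafY P π (fun i => c i + dumc hN v i) z y = leafY P π c z y
        * Real.exp (pathField v (z (Sum.inr (Sum.inr (Sum.inr (dumIdx hN)))))
            (fun l => y l (Sum.inr (Sum.inr (dumIdx hN)))) - v (Fin.last K) / 2) ∧
      leafAvg P π (fun i => c i + dumc hN v i) (fun σ _ => φ σ) z y
        = leafAvg P π c (fun σ _ => φ σ) z y ∧
      ∀ y', (∀ l i, ¬(i = (Sum.inr (Sum.inr (dumIdx hN)) : LIdx N M)) → y l i = y' l i) →
        leafY P π c z y = leafY P π c z y' ∧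
          leafAvg P π c (fun σ _ => φ σ) z y = leafAvg P π c (fun σ _ => φ σ) z y' := by
  classical
  set i0 : LIdx N M := Sum.inr (Sum.inr (dumIdx hN))
  set h := fun u : Fin K → ℝ => pathField v (z (Sum.inr i0)) u - v (Fin.last K) / 2
  have hh : Continuous h := by unfold h pathField; fun_prop
  set H := fun y : Fin K → LIdx N M → ℝ => h fun l => y l i0
  set c' : CIdx N M K → ℝ := fun i => c i + dumc hN v i
  have hdis : ∀ i : GIdx N M K 1, pull c i = 0 ∨ pull (dumc hN v : CIdx N M K → ℝ) i = 0 := by
    intro i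
    rcases i with q | ⟨o, a | j | t⟩ <;> simp only [pull, dumc, or_true]
    split_ifs with ht
    · exact Or.inl (ht ▸ h0 _)
    · exact Or.inr rfl
  have hpull : (pull c' : GIdx N M K 1 → ℝ)
      = fun i => pull c i + pull (dumc hN v : CIdx N M K → ℝ) i :=
    funext fun i => by rcases i with q | ⟨o, i⟩ <;> rfl
  have hpat : ∀ a σ (y : Fin K → LIdx N M → ℝ),
      lin (bpat (n := 1) π a) (pull (dumc hN v : CIdx N M K → ℝ)) (branch z y)
        (σ, fun _ => 0) = 0 := fun a σ y => by
    simp [lin_bpat, dumc]
  have hspin : ∀ σ (y : Fin K → LIdx N M → ℝ),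
      lin (bspin π) (pull (dumc hN v : CIdx N M K → ℝ)) (branch z y)
        ((σ, fun _ => 0) : State π K 1) = pathField v (z (Sum.inr i0)) fun l => y l i0 := fun σ y => by
    simp only [lin_bspin, dumc, Real.sqrt_zero, zero_mul, Finset.sum_const_zero, add_zero,
      mul_zero, zero_add]
    rw [Finset.sum_eq_single (dumIdx hN) (fun t _ ht => by simp [ht])
      (fun h => absurd (Finset.mem_univ _) h)]
    simp only [dum_prod hN, one_mul, if_true]
    rfl
  have hcomp : ∀ σ, ∑ i : GIdx N M K 1, pull (dumc hN v : CIdx N M K → ℝ) i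
      * bspin π (σ, fun _ => 0) i ^ 2 = v (Fin.last K) := fun σ => by
    simp only [comp_bspin, dumc, Finset.sum_const_zero, mul_zero, zero_add]
    rw [Finset.sum_eq_single (dumIdx hN) (fun t _ ht => by simp [ht])
      (fun h => absurd (Finset.mem_univ _) h)]
    simp [dum_prod hN, sum_incr_all]
  have hham : ∀ σ y, ham P (bpat (n := 1) π) (bspin π) (pull c') (branch z y) (σ, fun _ => 0)
      = ham P (bpat (n := 1) π) (bspin π) (pull c) (branch z y) (σ, fun _ => 0) + H y := fun σ y => by
    simp only [ham, hpull, lin_add _ hdis, hpat, hspin, add_zero, add_mul, Finset.sum_add_distrib,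
      hcomp, H, h]
    ring
  have hY : ∀ y, leafY P π c' z y = leafY P π c z y * Real.exp (H y) := fun y => by
    simp only [leafY, hham, Real.exp_add, Finset.sum_mul, mul_assoc]
  have hA : ∀ y, leafAvg P π c' (fun σ _ => φ σ) z y
      = leafAvg P π c (fun σ _ => φ σ) z y := fun y => by
    simp only [leafAvg, hham, hY, Real.exp_add]
    rw [← mul_div_mul_right _ (leafY P π c z y) (Real.exp_pos (H y)).ne', Finset.sum_mul]
    congr 1
    exact Finset.sum_congr rfl fun σ _ => by ring
  have hhamc : ∀ σ y y', (∀ l i, ¬(i = i0) → y l i = y' l i) →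
      ham P (bpat (n := 1) π) (bspin π) (pull c) (branch z y) (σ, fun _ => 0)
        = ham P (bpat (n := 1) π) (bspin π) (pull c) (branch z y') (σ, fun _ => 0) := by
    intro σ y y' hy
    have hi : ∀ i, pull c i = 0 ∨ branch z y i = branch z y' i := by
      intro i
      rcases i with q | ⟨_ | u, i⟩
      · exact Or.inr rfl
      · exact Or.inr rfl
      · by_cases hi : i = i0
        · subst hi; exact Or.inl (h0 _)
        · exact Or.inr (hy u.1 i hi)
    simp only [ham, lin_congr _ hi]
  refine ⟨hY y, hA y, fun y' hy => ?_⟩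
  simp only [leafY, leafAvg, hhamc _ y y' hy, and_self]

/-- The spin-free field at its free coordinate leaves the conditional means of a spin unchanged. -/
theorem csq_dum (P : Pot) (hN : 0 < N) {c : CIdx N M K → ℝ}
    (h0 : ∀ l, c (Sum.inr (l, Sum.inr (Sum.inr (dumIdx hN)))) = 0) (v : Fin (K + 1) → ℝ)
    (π : Prior N) (φ : Fin π.c → ℝ)
    (z : RIdx N M → ℝ) (l : Fin (K + 1)) :
    csq (gaus (LIdx N M)) K (mlev K)
        (fun y => Real.log (leafY P π (fun i => c i + dumc hN v i) z y))
        (fun y => leafAvg P π (fun i => c i + dumc hN v i) (fun σ _ => φ σ) z y) l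
      = csq (gaus (LIdx N M)) K (mlev K) (fun y => Real.log (leafY P π c z y))
        (fun y => leafAvg P π c (fun σ _ => φ σ) z y) l := by
  classical
  set i0 : LIdx N M := Sum.inr (Sum.inr (dumIdx hN))
  set h := fun u : Fin K → ℝ => pathField v (z (Sum.inr i0)) u - v (Fin.last K) / 2
  have hh : Continuous h := by unfold h pathField; fun_prop
  set H := fun y : Fin K → LIdx N M → ℝ => h fun l => y l i0
  set c' : CIdx N M K → ℝ := fun i => c i + dumc hN v i
  have hY : ∀ y, leafY P π c' z y = leafY P π c z y * Real.exp (H y) := fun y =>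
    (leaf_dum P hN h0 v π φ z y).1
  have hA : ∀ y, leafAvg P π c' (fun σ _ => φ σ) z y = leafAvg P π c (fun σ _ => φ σ) z y :=
    fun y => (leaf_dum P hN h0 v π φ z y).2.1
  have mH : Measurable H := hh.measurable.comp
    (measurable_pi_lambda _ fun l => (measurable_pi_apply i0).comp (measurable_pi_apply l))
  have hiH : Integrable (fun y => Real.exp (H y)) (Measure.pi fun _ : Fin K => gaus (LIdx N M)) := by
    set R : ℝ := (∑ i, |c i|) + ∑ i, |c' i|
    have hR : ∀ i, |c i| ≤ R ∧ |c' i| ≤ R := fun i => by
      have h1 := Finset.single_le_sum (f := fun i => |c i|) (fun i _ => abs_nonneg _)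
        (Finset.mem_univ i)
      have h2 := Finset.single_le_sum (f := fun i => |c' i|) (fun i _ => abs_nonneg _)
        (Finset.mem_univ i)
      have h3 : 0 ≤ ∑ i, |c i| := Finset.sum_nonneg fun i _ => abs_nonneg _
      have h4 : 0 ≤ ∑ i, |c' i| := Finset.sum_nonneg fun i _ => abs_nonneg _
      constructor <;> simp only [R] <;> linarith
    obtain ⟨A, -, hA⟩ := leafY_bound (M := M) (K := K) P π R
    refine (integrable_exp_absY (2 * A) z).mono' mH.exp.aestronglyMeasurable
      (ae_of_all _ fun y => ?_)
    have h1 := (hA c (fun i => (hR i).1) z y).1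
    have h2 := (hA c' (fun i => (hR i).2) z y).2
    rw [hY y] at h2
    rw [Real.norm_eq_abs, abs_of_pos (Real.exp_pos _), two_mul, add_mul, Real.exp_add]
    calc Real.exp (H y) = Real.exp (A * absSum z y) *
          (Real.exp (-(A * absSum z y)) * Real.exp (H y)) := by
          rw [← mul_assoc, ← Real.exp_add]; simp
      _ ≤ Real.exp (A * absSum z y) * (leafY P π c z y * Real.exp (H y)) := by gcongr
      _ ≤ _ := by gcongr
  have hma : Measurable fun y : Fin K → LIdx N M → ℝ => leafAvg P π c (fun σ _ => φ σ) z y := by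
    have h : ∀ σ, Continuous fun y : Fin K → LIdx N M → ℝ => π.w σ *
        Real.exp (ham P (bpat (n := 1) π) (bspin π) (pull c) (branch z y) (σ, fun _ => 0))
          * φ σ := fun σ =>
      ((Real.continuous_exp.comp ((continuous_ham_branch P π σ).comp
        (f := fun y : Fin K → LIdx N M → ℝ => (c, z, y))
        (continuous_const.prodMk (continuous_const.prodMk continuous_id)))).const_mul _).mul_const _
    exact (Finset.measurable_sum _ fun σ _ => (h σ).measurable).div
      (continuous_leafY_y P π c z).measurable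
  obtain ⟨-, hs⟩ := casc_sep (fun i : LIdx N M => i = i0) (grid_mlev K) (H := H)
    (H' := fun y => Real.log (leafY P π c z y)) (a := fun _ => 1)
    (a' := fun y => leafAvg P π c (fun σ _ => φ σ) z y) mH
    (continuous_leafY_y P π c z).measurable.log measurable_const
    hma
    (fun y y' hy => ⟨by simp only [H]; congr 1; exact funext fun l => hy l i0 rfl, rfl⟩)
    (fun y y' hy => by
      obtain ⟨e1, e2⟩ := (leaf_dum P hN h0 v π φ z y).2.2 y' hy
      exact ⟨by rw [e1], e2⟩)
    hiH (integrable_exp_logY P π c z)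
  have e1 : (fun y => Real.log (leafY P π c' z y))
      = fun y => H y + Real.log (leafY P π c z y) := funext fun y => by
    rw [hY, Real.log_mul (leafY_pos P π c z y).ne' (Real.exp_pos _).ne', Real.log_exp, add_comm]
  have e2 : (fun y => leafAvg P π c' (fun σ _ => φ σ) z y)
      = fun y => 1 * leafAvg P π c (fun σ _ => φ σ) z y := funext fun y => by rw [hA, one_mul]
  rw [e1, e2, hs l, (csq_const 1 K (grid_mlev K) mH hiH).2 l, one_pow, one_mul]

/-- Limit of the single-spin level averages. -/
theorem tendsto_spinLev (P : Pot) {c : ℕ → CIdx N M K → ℝ} {cl : CIdx N M K → ℝ}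
    (hc : Tendsto c atTop (𝓝 cl)) {nn : ℕ → ℕ} (hn : Tendsto nn atTop atTop) (j : Fin N)
    (l : Fin (K + 1)) :
    Tendsto (fun k => spinLev (nn k) P (c k) j l) atTop (𝓝 (pi0 K *
      ∫ z, csq (gaus (LIdx N M)) K (mlev K) (fun y => Real.log (leafY P (isingP N) cl z y))
        (fun y => leafAvg P (isingP N) cl (fun σ _ => (isingP N).spin σ j) z y) l
          ∂gaus (RIdx N M))) := by
  have h := tendsto_level P (isingP N) hc hn (d := 1) (φ := fun _ _ σ _ => (isingP N).spin σ j)
    (fun _ _ => continuous_const) (B := 1) (fun _ _ σ _ => abs_spin_one σ j) l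
    (fun n _ _ st st' => onLev l (ovU (isingP N) st st')
      ((isingP N).spin st.1 j * (isingP N).spin st'.1 j)) fun _ _ _ _ _ _ => by simp
  simpa [spinLev] using h

/-- Parameters with two further paths. -/
def statBox (N K : ℕ) (L Lp : ℝ) :
    Set ((Par K × (Fin N → ℝ)) × (Fin (K + 1) → ℝ) × (Fin (K + 1) → ℝ)) :=
  boxPar N K L ×ˢ (pathsQ K ×ˢ pathsP K Lp)

theorem continuous_incr {E : Type*} [TopologicalSpace E] {v : E → Fin (K + 1) → ℝ}
    (hv : Continuous v) (l : Fin (K + 1)) : Continuous fun e => incr (v e) l := by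
  refine Fin.cases ?_ (fun r => ?_) l <;> simp only [incr, Fin.cases_zero, Fin.cases_succ] <;>
    fun_prop

theorem continuous_pertS (S : Finset (Fin N)) :
    Continuous fun x : Fin N → ℝ => (pertS S (ext0 x) : CIdx N M K → ℝ) := by
  have he : ∀ j : ℕ, Continuous fun x : Fin N → ℝ => ext0 x j := fun j => by
    unfold ext0
    split_ifs <;> fun_prop
  refine continuous_pi fun i => ?_
  rcases i with p | ⟨l, a | j | ⟨j, i, t⟩⟩ <;> simp only [pertS] <;> try exact continuous_const
  split_ifs
  · have := he j
    fun_prop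
  · exact continuous_const

/-- Uniform limits of the single-spin level averages. -/
theorem spinLev_uniform (P : Pot) (L Lp : ℝ) (hN : 0 < N) {δ : ℝ} (hδ : 0 < δ) :
    ∃ n0, ∀ n ≥ n0, ∀ Λ : Par K, Adm K L Λ → ∀ x : Fin N → ℝ, (∀ i, x i ∈ Icc (1 : ℝ) 2) →
      ∀ q ∈ pathsQ K, ∀ p ∈ pathsP K Lp, ∀ j l,
        |spinLev n P (fun i => spinSys Λ (Finset.univ.erase j) (ext0 x) i
              + dumc hN (prodPath Λ q p) i : CIdx N M K → ℝ) j l
            - spinLev n P (spinSys Λ (Finset.univ.erase j) (ext0 x) : CIdx N M K → ℝ) j l| ≤ δ ∧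
        |spinLev n P (decSpin Λ p (Finset.univ.erase j) (ext0 x) : CIdx N M K → ℝ) j l
            - pi0 K * vI (ceff Λ p) l| ≤ δ := by
  classical
  set E := (Par K × (Fin N → ℝ)) × (Fin (K + 1) → ℝ) × (Fin (K + 1) → ℝ)
  set A : E → Fin N → CIdx N M K → ℝ := fun e j =>
    spinSys e.1.1 (Finset.univ.erase j) (ext0 e.1.2)
  set B : E → Fin N → CIdx N M K → ℝ := fun e j i =>
    A e j i + dumc hN (prodPath e.1.1 e.2.1 e.2.2) i
  set C : E → Fin N → CIdx N M K → ℝ := fun e j =>
    decSpin e.1.1 e.2.2 (Finset.univ.erase j) (ext0 e.1.2)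
  have hΛ : Continuous fun e : E => e.1.1 := continuous_fst.comp continuous_fst
  have hP : ∀ S : Finset (Fin N), ∀ i, Continuous fun e : E =>
      (pertS S (ext0 e.1.2) : CIdx N M K → ℝ) i := fun S i =>
    ((continuous_apply i).comp (continuous_pertS S)).comp (continuous_snd.comp continuous_fst)
  have hA : ∀ j, Continuous fun e => A e j := fun j => by
    refine continuous_pi fun i => ?_
    simp only [A, spinSys]
    refine Continuous.add ?_ (hP _ i)
    rcases i with q | ⟨l, a | i | t⟩ <;> simp only [fieldc]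
    · fun_prop
    · exact continuous_incr (v := fun e : E => e.1.1.2.1) (by fun_prop) l
    · exact continuous_incr (v := fun e : E => e.1.1.2.2) (by fun_prop) l
    · exact continuous_const
  have hB : ∀ j, Continuous fun e => B e j := fun j => by
    refine continuous_pi fun i => ((continuous_apply i).comp (hA j)).add ?_
    rcases i with q | ⟨l, a | i | t⟩ <;> simp only [dumc] <;> try exact continuous_const
    split_ifs
    · exact continuous_incr (v := fun e : E => prodPath e.1.1 e.2.1 e.2.2)
        (by unfold prodPath; fun_prop) l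
    · exact continuous_const
  have hC : ∀ j, Continuous fun e => C e j := fun j => by
    refine continuous_pi fun i => ?_
    rcases i with ⟨a, i⟩ | ⟨l, a | i | t⟩ <;> simp only [C, decSpin]
    · split_ifs
      · fun_prop
      · exact continuous_const
    · exact continuous_incr (v := fun e : E => e.1.1.2.1) (by fun_prop) l
    · split_ifs
      · exact continuous_incr (v := fun e : E => e.1.1.2.2) (by fun_prop) l
      · exact continuous_incr (v := fun e : E => ceff e.1.1 e.2.2) (by unfold ceff; fun_prop) l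
    · exact hP _ (Sum.inr (l, Sum.inr (Sum.inr t)))
  set D : ℕ → E → ℝ := fun n e => ∑ j, ∑ l,
    (|spinLev n P (B e j) j l - spinLev n P (A e j) j l|
      + |spinLev n P (C e j) j l - pi0 K * vI (ceff e.1.1 e.2.2) l|)
  obtain ⟨n0, hn0⟩ := uniform_of_seq ((isCompact_boxPar N K L).prod
    (isCompact_pathsQ.prod (isCompact_pathsP (K := K) Lp))) (D := D) (fun c cl nn _ _ hlim hn ε hε => by
      have ht : ∀ j l, Tendsto (fun k => |spinLev (nn k) P (B (c k) j) j l
          - spinLev (nn k) P (A (c k) j) j l|
          + |spinLev (nn k) P (C (c k) j) j l - pi0 K * vI (ceff (c k).1.1 (c k).2.2) l|)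
          atTop (𝓝 0) := fun j l => by
        have h1 := ((tendsto_spinLev P (((hB j).tendsto cl).comp hlim) hn j l).sub
          (tendsto_spinLev P (((hA j).tendsto cl).comp hlim) hn j l)).abs
        have hs : ∀ l, A cl j (Sum.inr (l, Sum.inr (Sum.inr (dumIdx hN)))) = 0 := fun l =>
          spinSys_dum (by simp) hN _ _ l
        simp only [B, csq_dum P hN hs, sub_self, abs_zero] at h1
        have hfree : FreeSpins (C cl j) {j} (ceff cl.1.1 cl.2.2) :=
          ⟨fun a i hi => by simp [C, decSpin, Finset.mem_singleton.1 hi],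
            fun i hi l => by simp [C, decSpin, Finset.mem_singleton.1 hi],
            fun l t ⟨r, hr⟩ => by
              simp only [C, decSpin, pertS]
              exact if_neg fun h => Finset.ne_of_mem_erase (h.2 r) (Finset.mem_singleton.1 hr)⟩
        have hv : Continuous fun e : E => vI (ceff e.1.1 e.2.2) l :=
          (continuous_vI l).comp (by unfold ceff; fun_prop)
        have h2 := ((tendsto_spinLev P (((hC j).tendsto cl).comp hlim) hn j l).sub
          (((hv.tendsto cl).comp hlim).const_mul (pi0 K))).abs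
        simp only [integral_csq_free_spin P hfree (Finset.mem_singleton_self j) l, sub_self,
          abs_zero] at h2
        rw [← add_zero (0 : ℝ)]
        exact h1.add h2
      have hsum := tendsto_finsetSum Finset.univ fun j _ =>
        tendsto_finsetSum Finset.univ fun l _ => ht j l
      simp only [Finset.sum_const_zero] at hsum
      exact hsum.eventually (eventually_le_nhds hε)) hδ
  refine ⟨n0, fun n hn Λ hΛ' x hx q hq p hp j l => ?_⟩
  have h := hn0 n hn ((Λ, x), q, p) ⟨⟨hΛ', fun i _ => hx i⟩, hq, hp⟩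
  have hnn : ∀ j l, 0 ≤ |spinLev n P (B ((Λ, x), q, p) j) j l - spinLev n P (A ((Λ, x), q, p) j) j l|
      + |spinLev n P (C ((Λ, x), q, p) j) j l - pi0 K * vI (ceff Λ p) l| := fun j l => by positivity
  have h1 := (Finset.single_le_sum (fun l _ => hnn j l) (Finset.mem_univ l)).trans
    ((Finset.single_le_sum (fun j _ => Finset.sum_nonneg fun l _ => hnn j l)
      (Finset.mem_univ j)).trans h)
  exact ⟨le_trans (le_add_of_nonneg_right (abs_nonneg _)) h1,
    le_trans (le_add_of_nonneg_left (abs_nonneg _)) h1⟩

end Vale.Agent.P157.Casc
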