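import Vale.Agent.P157.Casc.StatLimit
import Vale.Agent.P157.Casc.PSync

/-!
Stationarity of the standard systems: the spin-overlap path solves the Ising fixed-point equation
at the effective path of the predicted overlaps of derivatives.
-/

open MeasureTheory ProbabilityTheory Filter Topology Set

namespace Vale.Agent.P157.Casc

variable {N M K n : ℕ}

/-- Growth of the errors along the three segments. -/
noncomputable def statExp (Lp : ℝ) : ℝ := Real.exp (8 * 20 + 8 * Lp + 8 * (4 * Lp))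

/-- The derivative terms of the overlap of derivatives, times their number. -/
noncomputable def statGam (P : Pot) (Lp : ℝ) : ℝ :=
  4 * Lp * (P.b2 * P.b1) * P.b1 + 2 * (P.b2 * P.b1) ^ 2 + 4 * Lp * (P.b3 * P.b1 + P.b2 ^ 2)

theorem gamP_le (P : Pot) {α Lp : ℝ} (hLp : Lp = α * P.b1 ^ 2) (hN : 0 < N)
    (hM : (M : ℝ) ≤ α * N) :
    (M : ℝ) * (gamP P N M Lp * (2 / N)) ≤ 2 * α * statGam P Lp / N := by
  have hN' : (1 : ℝ) ≤ N := by exact_mod_cast hN
  have hb1 := Itp.b1_nonneg P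
  have hb2 := Itp.b2_nonneg P
  have hb3 : 0 ≤ P.b3 := (abs_nonneg _).trans (P.h3 0)
  have hG : (M : ℝ) * P.b1 ^ 2 / N + Lp ≤ 2 * Lp := by
    have : (M : ℝ) * P.b1 ^ 2 / N ≤ Lp := by
      rw [hLp, div_le_iff₀ (by positivity)]
      nlinarith [mul_le_mul_of_nonneg_right hM (sq_nonneg P.b1)]
    linarith
  have hG0 : 0 ≤ (M : ℝ) * P.b1 ^ 2 / N + Lp := by
    have : 0 ≤ α := nonneg_of_mul_nonneg_left ((Nat.cast_nonneg M).trans hM) (by positivity)
    rw [hLp]; positivity
  have hgam : gamP P N M Lp ≤ statGam P Lp / N := by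
    have h2 : 2 * (P.b2 * P.b1 / (N : ℝ)) ^ 2 ≤ 2 * (P.b2 * P.b1) ^ 2 / N := by
      rw [div_pow, mul_div_assoc]
      refine mul_le_mul_of_nonneg_left (div_le_div_of_nonneg_left (sq_nonneg _) (by positivity)
        (by nlinarith)) zero_le_two
    have h1 : 2 * ((M : ℝ) * P.b1 ^ 2 / N + Lp) * (P.b2 * P.b1 / N) * P.b1
        ≤ 4 * Lp * (P.b2 * P.b1) * P.b1 / N := by
      calc 2 * ((M : ℝ) * P.b1 ^ 2 / N + Lp) * (P.b2 * P.b1 / N) * P.b1
          ≤ 2 * (2 * Lp) * (P.b2 * P.b1 / N) * P.b1 := by gcongr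
        _ = _ := by ring
    have h3 : 2 * ((M : ℝ) * P.b1 ^ 2 / N + Lp) * ((P.b3 * P.b1 + P.b2 ^ 2) / N)
        ≤ 4 * Lp * (P.b3 * P.b1 + P.b2 ^ 2) / N := by
      calc 2 * ((M : ℝ) * P.b1 ^ 2 / N + Lp) * ((P.b3 * P.b1 + P.b2 ^ 2) / N)
          ≤ 2 * (2 * Lp) * ((P.b3 * P.b1 + P.b2 ^ 2) / N) := by gcongr
        _ = _ := by ring
    rw [show statGam P Lp / (N : ℝ) = 4 * Lp * (P.b2 * P.b1) * P.b1 / N
      + 2 * (P.b2 * P.b1) ^ 2 / N + 4 * Lp * (P.b3 * P.b1 + P.b2 ^ 2) / N by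
        simp only [statGam]; ring]
    simp only [gamP]
    linarith
  have h0 : 0 ≤ gamP P N M Lp := by unfold gamP; positivity
  calc (M : ℝ) * (gamP P N M Lp * (2 / N)) ≤ α * N * (statGam P Lp / N * (2 / N)) :=
        mul_le_mul hM (mul_le_mul_of_nonneg_right hgam (by positivity))
          (by positivity) ((Nat.cast_nonneg M).trans hM)
    _ = _ := by field_simp

theorem abs_prodPath_le {Lp L : ℝ} {Λ : Par K} (hΛ : Adm K L Λ) {q p : Fin (K + 1) → ℝ}
    (hq : q ∈ pathsQ K) (hp : p ∈ pathsP K Lp) (u : Fin (K + 1)) :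
    Monotone (prodPath Λ q p) ∧ 0 ≤ prodPath Λ q p 0 ∧ |prodPath Λ q p u| ≤ Lp := by
  have q0 : ∀ u, 0 ≤ q u := fun u => hq.2.1.trans (hq.1 (Fin.zero_le u))
  have p0 : ∀ u, 0 ≤ p u := fun u => hp.2.1.trans (hp.1 (Fin.zero_le u))
  refine ⟨fun a b hab => mul_le_mul_of_nonneg_left
    (mul_le_mul (hq.1 hab) (hp.1 hab) (p0 a) (q0 b)) hΛ.1.1,
    mul_nonneg hΛ.1.1 (mul_nonneg (q0 0) (p0 0)), ?_⟩
  simp only [prodPath]
  rw [abs_of_nonneg (mul_nonneg hΛ.1.1 (mul_nonneg (q0 u) (p0 u)))]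
  refine (mul_le_of_le_one_left (mul_nonneg (q0 u) (p0 u)) hΛ.1.2).trans ?_
  refine (mul_le_of_le_one_left (p0 u) ((hq.1 (Fin.le_last u)).trans hq.2.2.le)).trans ?_
  exact (hp.1 (Fin.le_last u)).trans hp.2.2

/-- The estimate at one spin, from the errors of the standard system. -/
theorem site_bound (P : Pot) {α L Lp η δ : ℝ} (hLp : Lp = α * P.b1 ^ 2) (hη : 0 < η)
    (hN : 2 ≤ N) (hN0 : 0 < N) (hn : 0 < n) (hM : (M : ℝ) ≤ α * N)
    (hsmall : 20 * ((N : ℝ) ^ ((3 : ℝ) / 4) / N) ≤ 20) {Λ : Par K} (hΛ : Adm K L Λ)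
    {x : ℕ → ℝ} (hx : ∀ i, |x i| ≤ 2) {q p : Fin (K + 1) → ℝ} (hq : q ∈ pathsQ K)
    (hp : p ∈ pathsP K Lp) (j : Fin N)
    (hd : ∀ l, |spinLev n P (fun i => spinSys Λ (Finset.univ.erase j) x i
            + dumc hN0 (prodPath Λ q p) i : CIdx N M K → ℝ) j l
          - spinLev n P (spinSys Λ (Finset.univ.erase j) x : CIdx N M K → ℝ) j l| ≤ δ)
    (he : ∀ l, |spinLev n P (decSpin Λ p (Finset.univ.erase j) x : CIdx N M K → ℝ) j l
          - pi0 K * vI (ceff Λ p) l| ≤ δ)
    {g : Fin (K + 1) → ℝ} (hg : ∀ l, |g l| ≤ 1) :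
    |∑ l, g l * spinLev n P (stdc Λ x : CIdx N M K → ℝ) j l
        - ∑ l, g l * (pi0 K * vI (ceff Λ p) l)|
      ≤ 8 * (20 * ((N : ℝ) ^ ((3 : ℝ) / 4) / N)) + 2 * ((K + 1) * δ)
        + 8 * (4 * Lp / N + (Lp + 2) * η
          + 2 / η * (statExp Lp * (16 * (α * statGam P Lp) / N)))
        + 8 * ((Lp + 2) / η * statExp Lp)
          * (errR n P (isingP N) (stdc Λ x : CIdx N M K → ℝ) q
            + errP n P (isingP N) (stdc Λ x : CIdx N M K → ℝ) p) := by
  set S := Finset.univ.erase j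
  set π := isingP N
  set c1 : CIdx N M K → ℝ := stdc Λ x
  set c2 : CIdx N M K → ℝ := spinSys Λ S x
  set v := prodPath Λ q p
  set c3 : CIdx N M K → ℝ := fun i => c2 i + dumc hN0 v i
  set c4 : CIdx N M K → ℝ := decSpin Λ p S x
  obtain ⟨hvm, hv0, -⟩ := abs_prodPath_le hΛ hq hp 0
  have hvb : ∀ u, |v u| ≤ Lp := fun u => (abs_prodPath_le hΛ hq hp u).2.2
  have hLp0 : 0 ≤ Lp := (abs_nonneg _).trans (hvb 0)
  have hα : 0 ≤ α := nonneg_of_mul_nonneg_left ((Nat.cast_nonneg M).trans hM)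
    (by exact_mod_cast hN0)
  have hN' : (0 : ℝ) < N := by exact_mod_cast hN0
  have p0 : ∀ u, 0 ≤ p u := fun u => hp.2.1.trans (hp.1 (Fin.zero_le u))
  have q0 : ∀ u, 0 ≤ q u := fun u => hq.2.1.trans (hq.1 (Fin.zero_le u))
  have hqa : ∀ u, |q u| ≤ 1 := fun u => by
    rw [abs_of_nonneg (q0 u)]; exact (hq.1 (Fin.le_last u)).trans hq.2.2.le
  have hpa : ∀ u, |p u| ≤ Lp := fun u => by
    rw [abs_of_nonneg (p0 u)]; exact (hp.1 (Fin.le_last u)).trans hp.2.2
  have h1n : ∀ i, 0 ≤ c1 i := fun i => add_nonneg (fieldc_nonneg hΛ i) (pertc_nonneg x i)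
  have h2n : ∀ i, 0 ≤ c2 i := spinSys_nonneg hΛ S x
  have h3n : ∀ i, 0 ≤ c3 i := fun i => add_nonneg (h2n i) (dumc_nonneg hN0 hvm hv0 i)
  have h4n : ∀ i, 0 ≤ c4 i := decSpin_nonneg hΛ hp.1 hp.2.1 S x
  set O : State π K n → State π K n → ℝ := fun st st' =>
    g (ovU π st st') * (π.spin st.1 j * π.spin st'.1 j)
  have hO : ∀ st st', |O st st'| ≤ 1 := fun st st' => by
    simp only [O, abs_mul]
    exact mul_le_one₀ (hg _) (by positivity) (mul_le_one₀ (abs_spin_one _ _) (abs_nonneg _)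
      (abs_spin_one _ _))
  have eO : ∀ c : CIdx N M K → ℝ, mpair n P π c (fun _ => O) = ∑ l, g l * spinLev n P c j l :=
    fun c => mpair_spinLev P c j g
  set ηp := 20 * ((N : ℝ) ^ ((3 : ℝ) / 4) / N)
  have hηp : 0 ≤ ηp := by positivity
  -- first segment: the perturbation leaves the spin
  obtain ⟨hR2, hP2, hO2⟩ := seg_bound P π hn h1n h2n (q := q) (p := p)
    (fun a st => by
      simp only [sq, cov_bpat]
      simp [c1, c2, spinSys, stdc, pertS, pertc])
    hqa hpa (Dg := ηp) (Da := 0) (B0 := ηp) (A := 0) (A' := 0) hηp le_rfl hηp le_rfl le_rfl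
    (fun t _ G st st' => grad_pert_off P hN j hx Λ _ G st st')
    (fun a st st' => by
      rw [cov_bpat]
      simp [c1, c2, spinSys, stdc, pertS, pertc])
    (fun t _ G st st' => by
      simpa using grad_pert_off P hN j hx Λ _ G st st') O hO
  simp only [mul_zero, add_zero, zero_mul] at hR2 hP2 hO2
  -- second segment: the spin-free field
  have hdum : (fun i => c3 i - c2 i) = dumc hN0 v := funext fun i => by simp [c3]
  obtain ⟨hR3, hP3, -⟩ := seg_bound P π hn h2n h3n (q := q) (p := p)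
    (fun a st => by
      rw [hdum]
      simp only [sq, cov_bpat]
      simp [dumc])
    hqa hpa (Dg := Lp) (Da := 0) (B0 := Lp) (A := 0) (A' := 0) hLp0 le_rfl hLp0 le_rfl le_rfl
    (fun t _ G st st' => by rw [hdum, grad_dum]; exact hvb _)
    (fun a st st' => by
      rw [hdum, cov_bpat]
      simp [dumc])
    (fun t _ G st st' => by rw [hdum, grad_dum]; simpa using hvb _) O hO
  simp only [mul_zero, add_zero] at hR3 hP3
  -- third segment: the spin decouples
  have hsS : ∀ st st' : State π K n, |ovSet S π st st'| ≤ 1 := fun st st' => abs_ovSet_le S st st'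
  have hτ : ∀ st st' : State π K n, |π.spin st.1 j * π.spin st'.1 j| ≤ 1 := fun st st' => by
    rw [abs_mul]; exact mul_le_one₀ (abs_spin_one _ _) (abs_nonneg _) (abs_spin_one _ _)
  have hPv : ∀ (ct : CIdx N M K → ℝ) (G : GIdx N M K n → ℝ) (st st' : State π K n),
      |ovP N P π ct G st st'| ≤ Lp := fun ct G st st' => by
    refine (abs_ovP_le P π ct G st st').trans ?_
    rw [hLp, div_le_iff₀ hN']
    nlinarith [mul_le_mul_of_nonneg_right hM (sq_nonneg P.b1)]
  have hbr : ∀ (ct : CIdx N M K → ℝ) (G : GIdx N M K n → ℝ) (st st' : State π K n),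
      |grad P (bpat π) (bspin π) (pull ct) (pull fun i => c4 i - c3 i) G st st'| ≤ 4 * Lp ∧
      |grad P (bpat π) (bspin π) (pull ct) (pull fun i => c4 i - c3 i) G st st'|
        ≤ 4 * Lp / N + (Lp + 2) * η + Lp / η * (ovR N π st st' - q (ovU π st st')) ^ 2
          + 2 / η * (ovP N P π ct G st st' - p (ovU π st st')) ^ 2 := by
    intro ct G st st'
    rw [grad_dec P hN hN0 j Λ q p x ct G st st']
    set u := ovU π st st'
    set Rs := ovSet S π st st'
    set R := ovR N π st st'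
    set τ := π.spin st.1 j * π.spin st'.1 j
    set Q := ovP N P π ct G st st'
    have hQ := hPv ct G st st'
    have hs0 := hΛ.1.1
    have hs1 := hΛ.1.2
    have hb : ∀ a b A B : ℝ, |a| ≤ A → |b| ≤ B → |a * b| ≤ A * B := fun a b A B ha hb => by
      rw [abs_mul]; exact mul_le_mul ha hb (abs_nonneg _) ((abs_nonneg _).trans ha)
    have hRs : |Rs - τ| ≤ 2 := (abs_sub _ _).trans (by linarith [hsS st st', hτ st st'])
    constructor
    · refine (hb _ _ 1 (4 * Lp) (by rw [abs_of_nonneg hs0]; exact hs1) ?_).trans (by rw [one_mul])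
      calc |(Rs - τ) * Q + τ * p u - q u * p u|
          ≤ |(Rs - τ) * Q| + |τ * p u| + |q u * p u| :=
            (abs_sub _ _).trans (add_le_add (abs_add_le _ _) le_rfl)
        _ ≤ 2 * Lp + 1 * Lp + 1 * Lp :=
            add_le_add (add_le_add (hb _ _ _ _ hRs hQ) (hb _ _ _ _ (hτ st st') (hpa u)))
              (hb _ _ _ _ (hqa u) (hpa u))
        _ = 4 * Lp := by ring
    · have e : (Rs - τ) * Q + τ * p u - q u * p u
          = (Rs - R) * Q + (R - q u) * Q + (q u - τ) * (Q - p u) := by ring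
      refine (hb _ _ 1 _ (by rw [abs_of_nonneg hs0]; exact hs1) le_rfl).trans ?_
      rw [one_mul, e]
      have h1 : |(Rs - R) * Q| ≤ 4 / N * Lp := hb _ _ _ _ (abs_ovSet_sub hN j st st') hQ
      have h2 : |(R - q u) * Q| ≤ (η + (R - q u) ^ 2 / η) * Lp :=
        hb _ _ _ _ (abs_le_add_sq hη _) hQ
      have h3 : |(q u - τ) * (Q - p u)| ≤ 2 * (η + (Q - p u) ^ 2 / η) :=
        hb _ _ _ _ ((abs_sub _ _).trans (by linarith [hqa u, hτ st st'])) (abs_le_add_sq hη _)
      refine (abs_add_le _ _).trans ((add_le_add (abs_add_le _ _) le_rfl).trans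
        ((add_le_add (add_le_add h1 h2) h3).trans (le_of_eq ?_)))
      ring
  obtain ⟨-, -, hO4⟩ := seg_bound P π hn h3n h4n (q := q) (p := p)
    (fun a st => by
      simp only [sq]
      rw [cov_dec hN j Λ q p x hN0]
      have h1 : ovSet S π st st = 1 := by
        rw [ovSet, sum_spin_sq, div_self]
        have : 0 < S.card := by simp [S]; omega
        exact_mod_cast this.ne'
      rw [h1, ← pow_two, isingP_spin_sq, sub_self, mul_zero])
    hqa hpa (Dg := 4 * Lp) (Da := 2 / N) (B0 := 4 * Lp / N + (Lp + 2) * η) (A := Lp / η)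
    (A' := 2 / η) (by linarith) (by positivity) (by positivity) (by positivity) (by positivity)
    (fun t _ G st st' => (hbr _ G st st').1)
    (fun a st st' => by
      rw [cov_dec hN j Λ q p x hN0, abs_mul, abs_of_nonneg (div_nonneg hΛ.1.1 hN'.le)]
      calc Λ.1 / N * |ovSet S π st st' - π.spin st.1 j * π.spin st'.1 j| ≤ 1 / N * 2 := by
            refine mul_le_mul (div_le_div_of_nonneg_right hΛ.1.2 hN'.le) ?_ (abs_nonneg _)
              (by positivity)
            exact (abs_sub _ _).trans (by linarith [hsS st st', hτ st st'])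
        _ = 2 / N := by ring)
    (fun t _ G st st' => (hbr _ G st st').2) O hO
  -- collect
  have hgs : ∀ a b : Fin (K + 1) → ℝ, (∀ l, |a l - b l| ≤ δ) →
      |∑ l, g l * a l - ∑ l, g l * b l| ≤ (K + 1) * δ := fun a b hab => by
    rw [← Finset.sum_sub_distrib]
    refine (Finset.abs_sum_le_sum_abs _ _).trans ((Finset.sum_le_sum fun l _ => ?_).trans_eq
      (by rw [Finset.sum_const, Finset.card_univ, Fintype.card_fin, nsmul_eq_mul]; push_cast; rfl))
    rw [← mul_sub, abs_mul]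
    exact (mul_le_of_le_one_left (abs_nonneg _) (hg l)).trans (hab l)
  have h32 := hgs _ _ hd
  have h4e := hgs _ _ he
  rw [eO, eO] at hO2 hO4
  set eR := errR n P π c1 q
  set eP := errP n P π c1 p
  have heR : 0 ≤ eR := by
    refine integral_nonneg_of_ae ((ae_mbw_pos P π c1).mono fun w hw => ?_)
    refine Finset.sum_nonneg fun a _ => Finset.sum_nonneg fun b _ => mul_nonneg (mul_nonneg ?_ ?_)
      (sq_nonneg _) <;>
      exact div_nonneg (hw _).le (Finset.sum_nonneg fun z _ => (hw z).le)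
  have heP : 0 ≤ eP := by
    refine integral_nonneg_of_ae ((ae_mbw_pos P π c1).mono fun w hw => ?_)
    refine Finset.sum_nonneg fun a _ => Finset.sum_nonneg fun b _ => mul_nonneg (mul_nonneg ?_ ?_)
      (sq_nonneg _) <;>
      exact div_nonneg (hw _).le (Finset.sum_nonneg fun z _ => (hw z).le)
  set E := statExp Lp
  have hE : ∀ a b c : ℝ, a ≤ 160 → b ≤ 8 * Lp → c ≤ 8 * (4 * Lp) →
      Real.exp c * (Real.exp b * Real.exp a) ≤ E := fun a b c ha hb hc => by
    rw [← Real.exp_add, ← Real.exp_add]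
    exact Real.exp_le_exp.2 (by linarith)
  have h8 : 8 * ηp ≤ 160 := by linarith
  have bR : Real.exp (8 * (4 * Lp)) * errR n P π c3 q ≤ E * eR :=
    calc Real.exp (8 * (4 * Lp)) * errR n P π c3 q
        ≤ Real.exp (8 * (4 * Lp)) * (Real.exp (8 * Lp) * (Real.exp (8 * ηp) * eR)) :=
          mul_le_mul_of_nonneg_left
            (hR3.trans (mul_le_mul_of_nonneg_left hR2 (Real.exp_pos _).le)) (Real.exp_pos _).le
      _ = Real.exp (8 * (4 * Lp)) * (Real.exp (8 * Lp) * Real.exp (8 * ηp)) * eR := by ring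
      _ ≤ E * eR := mul_le_mul_of_nonneg_right (hE _ _ _ h8 le_rfl le_rfl) heR
  set G8 := 8 * ((M : ℝ) * (gamP P N M Lp * (2 / N)))
  have hb1 := Itp.b1_nonneg P
  have hb2 := Itp.b2_nonneg P
  have hb3 : 0 ≤ P.b3 := (abs_nonneg _).trans (P.h3 0)
  have hG8 : 0 ≤ G8 ∧ G8 ≤ 16 * (α * statGam P Lp) / N := by
    refine ⟨?_, ?_⟩
    · simp only [G8, gamP]; positivity
    · calc G8 ≤ 8 * (2 * α * statGam P Lp / N) :=
            mul_le_mul_of_nonneg_left (gamP_le P hLp hN0 hM) (by norm_num)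
        _ = _ := by ring
  have bP : Real.exp (8 * (4 * Lp)) * (errP n P π c3 p + G8)
      ≤ E * eP + E * (16 * (α * statGam P Lp) / N) :=
    calc Real.exp (8 * (4 * Lp)) * (errP n P π c3 p + G8)
        ≤ Real.exp (8 * (4 * Lp)) * (Real.exp (8 * Lp) * (Real.exp (8 * ηp) * eP) + G8) := by
          gcongr
          exact hP3.trans (mul_le_mul_of_nonneg_left hP2 (Real.exp_pos _).le)
      _ = Real.exp (8 * (4 * Lp)) * (Real.exp (8 * Lp) * Real.exp (8 * ηp)) * eP
          + Real.exp (8 * (4 * Lp)) * G8 := by ring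
      _ ≤ _ := add_le_add (mul_le_mul_of_nonneg_right (hE _ _ _ h8 le_rfl le_rfl) heP)
          (mul_le_mul (Real.exp_le_exp.2 (by linarith)) hG8.2 hG8.1 (Real.exp_pos _).le)
  have hO4' : |∑ l, g l * spinLev n P c4 j l - ∑ l, g l * spinLev n P c3 j l|
      ≤ 8 * (4 * Lp / N + (Lp + 2) * η + 2 / η * (E * (16 * (α * statGam P Lp) / N)))
        + 8 * ((Lp + 2) / η * E) * (eR + eP) := by
    refine hO4.trans ?_
    have hx1 : Lp / η * (Real.exp (8 * (4 * Lp)) * errR n P π c3 q) ≤ Lp / η * (E * eR) :=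
      mul_le_mul_of_nonneg_left bR (by positivity)
    have hx2 : 2 / η * (Real.exp (8 * (4 * Lp)) * (errP n P π c3 p + G8))
        ≤ 2 / η * (E * eP + E * (16 * (α * statGam P Lp) / N)) :=
      mul_le_mul_of_nonneg_left bP (by positivity)
    have hEp : 0 < E := Real.exp_pos _
    have hy1 : 0 ≤ Lp / η * (E * eP) := by positivity
    have hy2 : 0 ≤ 2 / η * (E * eR) := by positivity
    have e : (Lp + 2) / η * E * (eR + eP)
        = Lp / η * (E * eR) + Lp / η * (E * eP) + 2 / η * (E * eR) + 2 / η * (E * eP) := by ring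
    simp only [G8] at hx2
    linarith
  rw [abs_le] at hO2 hO4' h32 h4e ⊢
  constructor <;> linarith [hO2.1, hO2.2, hO4'.1, hO4'.2, h32.1, h32.2, h4e.1, h4e.2]

theorem abs_vI_le (v : Fin (K + 1) → ℝ) (l : Fin (K + 1)) : |vI v l| ≤ 1 := by
  have hp : ∀ w : ℝ, Continuous fun u : Fin K → ℝ => pathField v w u := fun w => by
    unfold pathField; fun_prop
  rw [vI, ← Real.norm_eq_abs]
  refine (norm_integral_le_of_norm_le_const (C := 1) (ae_of_all _ fun w => ?_)).trans_eq (by simp)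
  rw [Real.norm_eq_abs]
  have hm : Measurable fun u : Fin K → ℝ => Real.log (Real.cosh (pathField v w u)) :=
    (Real.continuous_cosh.comp (hp w)).measurable.log
  have hi : Integrable (fun u => Real.exp (Real.log (Real.cosh (pathField v w u))))
      (Measure.pi fun _ : Fin K => gaussianReal 0 1) := by
    obtain ⟨A, -, hA⟩ := grow1_lcosh v w
    have h1 := (Integrable.fintype_prod (μ := fun _ : Fin K => gaussianReal 0 1)
      fun _ => integrable_exp_abs A).const_mul (Real.exp A)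
    refine h1.mono' hm.exp.aestronglyMeasurable (ae_of_all _ fun u => ?_)
    rw [Real.norm_eq_abs, abs_of_pos (Real.exp_pos _), ← Real.exp_sum, ← Real.exp_add,
      Real.exp_le_exp, ← Finset.mul_sum]
    linarith [(abs_le.1 (hA u)).2]
  refine ((csq_bound_mono K (grid_mlev K) hm ?_ hi (B := 1) fun u =>
    (Real.abs_tanh_lt_one _).le).1 l).trans_eq (one_pow 2)
  simp only [Real.tanh_eq_sinh_div_cosh]
  exact ((Real.continuous_sinh.comp (hp w)).measurable).div
    (Real.continuous_cosh.comp (hp w)).measurable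

theorem integrable_baseErr (P : Pot) {α : ℝ} (hM : (M : ℝ) ≤ α * N) (hN : 0 < N) (Λ : Par K) :
    Integrable (fun x : Fin N → ℝ => baseErr n M N P Λ (ext0 x)) (xlaw N) := by
  have hcm := (continuous_stdc (M := M) (N := N) Λ).measurable
  set B := (1 + α * P.b1 ^ 2) ^ 2 * 4 with hB'
  have hα : 0 ≤ α := nonneg_of_mul_nonneg_left ((Nat.cast_nonneg M).trans hM) (by exact_mod_cast hN)
  have hB : 0 ≤ B := by positivity
  have hPc : ∀ u v : State (isingP N) K n, Continuous fun y : (Fin N → ℝ) × (GIdx N M K n → ℝ) =>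
      ovP N P (isingP N) (stdc Λ (ext0 y.1)) y.2 u v := fun u v => by
    have := pot_continuous1 P
    have hp : Continuous fun y : (Fin N → ℝ) × (GIdx N M K n → ℝ) =>
        (pull (stdc Λ (ext0 y.1)) : GIdx N M K n → ℝ) := continuous_pi fun i => by
      rcases i with q | ⟨o, i⟩
      · exact (continuous_apply (Sum.inl q : CIdx N M K)).comp
          ((continuous_stdc Λ).comp continuous_fst)
      · exact (continuous_apply (Sum.inr (lev o, i) : CIdx N M K)).comp
          ((continuous_stdc Λ).comp continuous_fst)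
    unfold ovP lin
    fun_prop
  have m1 := measurable_mpair_param (n := n) P (isingP N) hcm (O := fun x _ u v =>
    (ovR N (isingP N) u v - stdQ n M N P Λ (ext0 x) (ovU (isingP N) u v)) ^ 2) fun u v =>
    (measurable_const.sub ((measurable_pi_apply (ovU (isingP N) u v)).comp
      ((measurable_stdQ n P Λ).comp measurable_fst))).pow_const 2
  have m2 := measurable_mpair_param (n := n) P (isingP N) hcm (O := fun x G u v =>
    (ovP N P (isingP N) (stdc Λ (ext0 x)) G u v - stdP n M N P Λ (ext0 x) (ovU (isingP N) u v)) ^ 2)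
    fun u v => ((hPc u v).measurable.sub ((measurable_pi_apply (ovU (isingP N) u v)).comp
      ((measurable_stdP n P Λ).comp measurable_fst))).pow_const 2
  refine (Integrable.of_bound m1.aestronglyMeasurable B (ae_of_all _ fun x => ?_)).add
    (Integrable.of_bound m2.aestronglyMeasurable B (ae_of_all _ fun x => ?_)) <;>
    refine (Real.norm_eq_abs _).trans_le (abs_mpair_le P _ _ hB fun G u v => ?_) <;>
    rw [abs_pow, hB', show (1 + α * P.b1 ^ 2) ^ 2 * 4 = (2 * (1 + α * P.b1 ^ 2)) ^ 2 by ring] <;>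
    refine pow_le_pow_left₀ (abs_nonneg _) ((abs_sub _ _).trans ?_) 2
  · obtain ⟨hm, h0, h1⟩ : stdQ n M N P Λ (ext0 x) ∈ pathsQ K := qhat_mem n P _ _
    have h2 := abs_ovR_le_one (isingP N) u v
    rw [abs_of_nonneg (h0.trans (hm (Fin.zero_le _)))]
    have := (hm (Fin.le_last (ovU (isingP N) u v))).trans h1.le
    nlinarith [mul_nonneg hα (sq_nonneg P.b1)]
  · obtain ⟨hm, h0, h1⟩ := stdP_mem (n := n) P le_rfl hM hN Λ (ext0 x)
    have h2 := (abs_ovP_le P (isingP N) (stdc Λ (ext0 x)) G u v).trans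
      ((div_le_iff₀ (by exact_mod_cast hN)).2
        (show (M : ℝ) * P.b1 ^ 2 ≤ α * P.b1 ^ 2 * N by
          nlinarith [mul_le_mul_of_nonneg_right hM (sq_nonneg P.b1)]))
    rw [abs_of_nonneg (h0.trans (hm (Fin.zero_le _)))]
    have := (hm (Fin.le_last (ovU (isingP N) u v))).trans h1
    linarith

/-- Stationarity of the standard systems, from the smallness of their prediction errors. -/
theorem stationary_of (P : Pot) (α L : ℝ)
    (hbase : ∀ ε > (0 : ℝ), ∃ K0 : ℕ, ∀ K ≥ K0, ∃ N1 : ℕ, ∀ N ≥ N1, ∀ M : ℕ, (M : ℝ) ≤ α * N →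
      ∃ n0 : ℕ, ∀ n ≥ n0, ∀ Λ : Par K, Adm K L Λ →
        ∫ x, baseErr n M N P Λ (ext0 x) ∂xlaw N ≤ ε)
    {ε : ℝ} (hε : 0 < ε) :
    ∃ K0 : ℕ, ∀ K ≥ K0, ∃ N1 : ℕ, ∀ N ≥ N1, ∀ M : ℕ, (M : ℝ) ≤ α * N →
      ∃ n0 : ℕ, ∀ n ≥ n0, ∀ Λ : Par K, Adm K L Λ →
        ∫ x, statErr n M N P Λ (ext0 x) ∂xlaw N ≤ ε := by
  set α' := max α 0
  set Lp := α' * P.b1 ^ 2 with hLp
  have hα' : 0 ≤ α' := le_max_right _ _
  have hLp0 : 0 ≤ Lp := by positivity
  set η := ε / (64 * (Lp + 2))
  have hη : 0 < η := by positivity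
  set b := 8 * ((Lp + 2) / η * statExp Lp)
  have hb : 0 < b := by have := Real.exp_pos (8 * 20 + 8 * Lp + 8 * (4 * Lp)); simp only [b, statExp]; positivity
  obtain ⟨Kb, hKb⟩ := hbase (ε / (8 * b)) (by positivity)
  obtain ⟨Kπ, hKπ⟩ := exists_nat_gt (16 / ε)
  refine ⟨max Kb Kπ, fun K hK => ?_⟩
  have hpi : 2 * pi0 K ≤ ε / 8 := by
    have h1 : (16 : ℝ) / ε ≤ K + 1 := by
      have : (Kπ : ℝ) ≤ K := by exact_mod_cast le_of_max_le_right hK
      linarith
    rw [div_le_iff₀ hε] at h1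
    rw [pi0, mul_one_div, div_le_div_iff₀ (by positivity) (by norm_num)]
    linarith
  have hpi0 : 0 ≤ pi0 K := by rw [pi0]; positivity
  have hKpi : pi0 K * ((K : ℝ) + 1) = 1 := by rw [pi0]; field_simp
  obtain ⟨Nb, hNb⟩ := hKb K (le_of_max_le_left hK)
  set Cst := 8 * (4 * Lp + 2 / η * (statExp Lp * (16 * (α' * statGam P Lp))))
  obtain ⟨N2, hN2⟩ := eventually_atTop.1 (((tendsto_rpow_atTop (by norm_num : (0 : ℝ) < 1 / 4)).comp
    tendsto_natCast_atTop_atTop).eventually_ge_atTop (max (160 * (8 / ε)) 1))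
  obtain ⟨N3, hN3⟩ := exists_nat_gt (|Cst| * (8 / ε))
  refine ⟨max (max Nb N2) (max N3 2), fun N hN M hM => ?_⟩
  simp only [max_le_iff, ge_iff_le] at hN
  obtain ⟨⟨hN1, hN2'⟩, hN3', hN4⟩ := hN
  have hN0 : 0 < N := by omega
  have hN' : (0 : ℝ) < N := by exact_mod_cast hN0
  have hM' : (M : ℝ) ≤ α' * N := hM.trans (mul_le_mul_of_nonneg_right (le_max_left _ _) hN'.le)
  obtain ⟨nb, hnb⟩ := hNb N hN1 M hM
  obtain ⟨nl, hnl⟩ := level_uniform P L N M K (isingP N) (by positivity : 0 < ε / 8)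
  obtain ⟨ns, hns⟩ := spinLev_uniform (M := M) P L Lp hN0 (K := K)
    (δ := ε / (16 * ((K : ℝ) + 1))) (by positivity)
  refine ⟨nb + nl + ns + 1, fun n hn Λ hΛ => ?_⟩
  -- sizes
  have hr : (N : ℝ) ^ ((3 : ℝ) / 4) / N = 1 / (N : ℝ) ^ ((1 : ℝ) / 4) := by
    rw [div_eq_div_iff hN'.ne' (by positivity), ← Real.rpow_add hN']
    norm_num
  have hN2'' := hN2 N hN2'
  simp only [Function.comp, max_le_iff] at hN2''
  have hη8 : 8 * (20 * ((N : ℝ) ^ ((3 : ℝ) / 4) / N)) ≤ ε / 8 := by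
    rw [hr]
    have h0 : (0 : ℝ) < (N : ℝ) ^ ((1 : ℝ) / 4) := by positivity
    rw [show 8 * (20 * (1 / (N : ℝ) ^ ((1 : ℝ) / 4))) = 160 / (N : ℝ) ^ ((1 : ℝ) / 4) by ring,
      div_le_div_iff₀ h0 (by norm_num)]
    have := hN2''.1
    rw [show 160 * (8 / ε) = 1280 / ε by ring, div_le_iff₀ hε] at this
    linarith
  have hsmall : 20 * ((N : ℝ) ^ ((3 : ℝ) / 4) / N) ≤ 20 := by
    rw [hr]
    refine mul_le_of_le_one_right (by norm_num) ?_
    rw [div_le_one (by positivity)]
    exact hN2''.2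
  have hC : Cst / N ≤ ε / 8 := by
    rw [div_le_iff₀ hN']
    have : |Cst| * (8 / ε) ≤ N := hN3.le.trans (by exact_mod_cast hN3')
    rw [← mul_div_assoc, div_le_iff₀ hε] at this
    linarith [le_abs_self Cst]
  set a := 7 * ε / 8
  -- the pointwise estimate
  have key : ∀ x : Fin N → ℝ, (∀ i, x i ∈ Icc (1 : ℝ) 2) →
      statErr n M N P Λ (ext0 x) ≤ a + b * baseErr n M N P Λ (ext0 x) := by
    intro x hx
    have hx2 : ∀ i, |ext0 x i| ≤ 2 := fun i => by
      unfold ext0
      split_ifs with h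
      · exact abs_le.2 ⟨by linarith [(hx ⟨i, h⟩).1], (hx ⟨i, h⟩).2⟩
      · norm_num
    set q := stdQ n M N P Λ (ext0 x)
    set p := stdP n M N P Λ (ext0 x)
    have hq : q ∈ pathsQ K := qhat_mem n P _ _
    have hp : p ∈ pathsP K Lp := stdP_mem P le_rfl hM' hN0 Λ _
    set c : CIdx N M K → ℝ := stdc Λ (ext0 x)
    set V := fun l => vI (ceff Λ p) l
    obtain ⟨-, hql⟩ := hnl n (by omega) Λ hΛ x hx
    set g : Fin (K + 1) → ℝ := fun l => if l = Fin.last K then 0 else
      if 0 ≤ qX n N P (isingP N) c l - V l then 1 else -1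
    have hg : ∀ l, |g l| ≤ 1 := fun l => by
      simp only [g]; split_ifs <;> norm_num
    have hsite := fun j => site_bound (M := M) P (α := α') (δ := ε / (16 * ((K : ℝ) + 1))) hLp hη hN4
      hN0 (n := n) (by omega) hM' hsmall hΛ hx2 hq hp j
      (fun l => (hns n (by omega) Λ hΛ x hx q hq p hp j l).1)
      (fun l => (hns n (by omega) Λ hΛ x hx q hq p hp j l).2) hg
    set Bd := 8 * (20 * ((N : ℝ) ^ ((3 : ℝ) / 4) / N))
      + 2 * (((K : ℝ) + 1) * (ε / (16 * ((K : ℝ) + 1))))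
      + 8 * (4 * Lp / N + (Lp + 2) * η
        + 2 / η * (statExp Lp * (16 * (α' * statGam P Lp) / N)))
      + b * baseErr n M N P Λ (ext0 x)
    have havg : |pi0 K * ∑ l, g l * qX n N P (isingP N) c l - pi0 K * ∑ l, g l * V l| ≤ Bd := by
      have e1 : pi0 K * ∑ l, g l * qX n N P (isingP N) c l
          = ∑ j : Fin N, (1 / N : ℝ) * ∑ l, g l * spinLev n P c j l := by
        simp only [qX_eq_spinLev, Finset.mul_sum, Finset.sum_div]
        rw [Finset.sum_comm]
        refine Finset.sum_congr rfl fun j _ => Finset.sum_congr rfl fun l _ => ?_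
        have : pi0 K ≠ 0 := by rw [pi0]; positivity
        field_simp
      have e2 : pi0 K * ∑ l, g l * V l
          = ∑ _j : Fin N, (1 / N : ℝ) * ∑ l, g l * (pi0 K * V l) := by
        rw [Finset.sum_const, Finset.card_univ, Fintype.card_fin, nsmul_eq_mul, ← mul_assoc,
          mul_one_div_cancel hN'.ne', one_mul, Finset.mul_sum]
        exact Finset.sum_congr rfl fun l _ => by ring
      rw [e1, e2, ← Finset.sum_sub_distrib]
      refine (Finset.abs_sum_le_sum_abs _ _).trans ((Finset.sum_le_sum fun j _ => ?_).trans_eq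
        (by rw [Finset.sum_const, Finset.card_univ, Fintype.card_fin, nsmul_eq_mul, ← mul_assoc,
          mul_one_div_cancel hN'.ne', one_mul]))
      rw [← mul_sub, abs_mul, abs_of_nonneg (by positivity : (0 : ℝ) ≤ 1 / N)]
      exact mul_le_mul_of_nonneg_left (hsite j) (by positivity)
    have hpt : ∀ l, |q l - V l|
        ≤ g l * (qX n N P (isingP N) c l - V l) + ε / 8 + if l = Fin.last K then 2 else 0 := by
      intro l
      by_cases hl : l = Fin.last K
      · have hql1 : q l = 1 := by simp [q, stdQ, qhat, hl]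
        simp only [g, hl, if_true, zero_mul, zero_add]
        rw [← hl, hql1]
        have := abs_le.1 (abs_vI_le (ceff Λ p) l)
        refine (abs_le.2 ⟨?_, ?_⟩ : |1 - V l| ≤ 2).trans (by linarith)
        · simp only [V]; linarith [this.2]
        · simp only [V]; linarith [this.1]
      · have hge : g l * (qX n N P (isingP N) c l - V l) = |qX n N P (isingP N) c l - V l| := by
          simp only [g, if_neg hl]
          split_ifs with h
          · rw [one_mul, abs_of_nonneg h]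
          · rw [neg_one_mul, abs_of_neg (not_le.1 h)]
        rw [hge, if_neg hl, add_zero]
        have : |qX n N P (isingP N) c l - q l| ≤ ε / 8 := hql l hl
        linarith [abs_sub_le (q l) (qX n N P (isingP N) c l) (V l),
          abs_sub_comm (q l) (qX n N P (isingP N) c l)]
    have hsum : pi0 K * ∑ l, |q l - V l|
        ≤ (pi0 K * ∑ l, g l * qX n N P (isingP N) c l - pi0 K * ∑ l, g l * V l) + ε / 8 + 2 * pi0 K := by
      refine (mul_le_mul_of_nonneg_left (Finset.sum_le_sum fun l _ => hpt l) hpi0).trans_eq ?_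
      rw [Finset.sum_add_distrib, Finset.sum_add_distrib, Finset.sum_const, Finset.card_univ,
        Fintype.card_fin, nsmul_eq_mul, Finset.sum_ite_eq' Finset.univ (Fin.last K),
        if_pos (Finset.mem_univ _)]
      simp only [mul_sub, Finset.sum_sub_distrib]
      push_cast
      linear_combination (ε / 8) * hKpi
    have hcst : 8 * (4 * Lp / N + (Lp + 2) * η
        + 2 / η * (statExp Lp * (16 * (α' * statGam P Lp) / N))) = Cst / N + ε / 8 := by
      simp only [Cst, η]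
      field_simp
      ring
    have hδ2 : 2 * (((K : ℝ) + 1) * (ε / (16 * ((K : ℝ) + 1)))) = ε / 8 := by field_simp; ring
    have hBd : Bd ≤ 4 * (ε / 8) + b * baseErr n M N P Λ (ext0 x) := by
      simp only [Bd, hcst, hδ2]
      linarith
    show pi0 K * ∑ l, |q l - V l| ≤ _
    simp only [a]
    linarith [(abs_le.1 havg).2]
  -- integrate
  have hbi := integrable_baseErr (n := n) P (M := M) (α := α') hM' hN0 Λ
  have hB := hnb n (by omega) Λ hΛ
  calc ∫ x, statErr n M N P Λ (ext0 x) ∂xlaw N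
      ≤ ∫ x, (a + b * baseErr n M N P Λ (ext0 x)) ∂xlaw N :=
        integral_mono_of_nonneg (ae_of_all _ fun x => mul_nonneg hpi0
          (Finset.sum_nonneg fun l _ => abs_nonneg _)) ((integrable_const a).add (hbi.const_mul b))
          (ae_xlaw_box.mono key)
    _ = a + b * ∫ x, baseErr n M N P Λ (ext0 x) ∂xlaw N := by
        rw [integral_add (integrable_const _) (hbi.const_mul b), integral_const_mul]; simp
    _ ≤ a + b * (ε / (8 * b)) := by gcongr
    _ = ε := by simp only [a]; field_simp; ring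

end Vale.Agent.P157.Casc
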