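import Vale.Agent.P157.Casc.InterpObs
import Vale.Agent.P157.Casc.SyncMeas
import Vale.Agent.P157.Casc.Glue
import Vale.Agent.P157.Casc.Segment

/-!
Two-replica observables of the model move by at most the mean of an envelope of the bracket of the
segment.
-/

open MeasureTheory ProbabilityTheory Filter Topology Set

namespace Vale.Agent.P157.Casc

section Abstract

variable {T I : Type*} [Fintype T] [Nonempty T] [Fintype I] {M : ℕ} (P : Pot) {w : T → ℝ}
  (b : Fin M → T → I → ℝ) (bz : T → I → ℝ)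

omit [Nonempty T] in
theorem obs_two (φ : (Fin M → Fin 2 → ℝ) → (Fin 2 → T) → ℝ) (lam : I → ℝ) :
    obs P b bz φ w lam
      = pair P w b bz lam fun G x y => φ (fun a l => lin (b a) lam G (![x, y] l)) ![x, y] := by
  have hvec : ∀ xs : Fin 2 → T, ![xs 0, xs 1] = xs := fun xs =>
    funext fun l => by fin_cases l <;> rfl
  simp only [obs, pair, avg2_eq_avg, hvec]

/-- A bounded two-replica observable moves by at most the initial mean of the envelope `e` of the
bracket. -/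
theorem obs_transfer (hD : Disj b bz) (hw : ∀ x, 0 < w x) {l0 d : I → ℝ}
    (hpos : ∀ t ∈ Icc (0 : ℝ) 1, ∀ i, 0 ≤ l0 i + t * d i)
    (hdiag : ∀ a x, ∑ i, d i * b a x i ^ 2 = 0)
    (e : T → T → ℝ) {E cg : ℝ} {ca : Fin M → ℝ} (he : ∀ x y, 0 ≤ e x y) (heE : ∀ x y, e x y ≤ E)
    (hcg : 0 ≤ cg) (hca : ∀ a, 0 ≤ ca a)
    (hg : ∀ lam G x y, |grad P b bz lam d G x y| ≤ cg * e x y)
    (ha : ∀ a x y, |∑ i, d i * (b a x i * b a y i)| ≤ ca a * e x y)
    (φ : (Fin M → Fin 2 → ℝ) → (Fin 2 → T) → ℝ) (g0 : ℝ) (g1 g2 : Fin M → ℝ)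
    (φ1 : Fin M → Fin 2 → (Fin M → Fin 2 → ℝ) → (Fin 2 → T) → ℝ)
    (φ2 : Fin M → Fin 2 → Fin 2 → (Fin M → Fin 2 → ℝ) → (Fin 2 → T) → ℝ)
    (hφ : ∀ xs, Continuous fun h => φ h xs)
    (hφ1c : ∀ a l xs, Continuous fun h => φ1 a l h xs)
    (hφ2c : ∀ a l l' xs, Continuous fun h => φ2 a l l' h xs)
    (hd1 : ∀ a l h xs, HasDerivAt
      (fun u => φ (Function.update h a (Function.update (h a) l u)) xs) (φ1 a l h xs) (h a l))
    (hd2 : ∀ a l l' h xs, HasDerivAt
      (fun u => φ1 a l (Function.update h a (Function.update (h a) l' u)) xs)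
      (φ2 a l l' h xs) (h a l'))
    (h0 : ∀ h xs, |φ h xs| ≤ g0) (h1 : ∀ a l h xs, |φ1 a l h xs| ≤ g1 a)
    (h2 : ∀ a l l' h xs, |φ2 a l l' h xs| ≤ g2 a) :
    |obs P b bz φ w (fun i => l0 i + d i) - obs P b bz φ w l0|
      ≤ 8 * (g0 * cg + ∑ a, (g1 a * P.b1 + g2 a) * ca a)
        * (Real.exp (8 * (cg * E)) * pair P w b bz l0 fun _ x y => e x y) := by
  obtain ⟨x0⟩ := (inferInstance : Nonempty T)
  have hE : 0 ≤ E := (he x0 x0).trans (heE x0 x0)
  have hg0 : 0 ≤ g0 := (abs_nonneg _).trans (h0 (fun _ _ => 0) fun _ => x0)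
  have hg1 : ∀ a, 0 ≤ g1 a := fun a => (abs_nonneg _).trans (h1 a 0 (fun _ _ => 0) fun _ => x0)
  have hg2 : ∀ a, 0 ≤ g2 a := fun a => (abs_nonneg _).trans (h2 a 0 0 (fun _ _ => 0) fun _ => x0)
  set φe : (Fin M → Fin 2 → ℝ) → (Fin 2 → T) → ℝ := fun _ xs => e (xs 0) (xs 1)
  have epe : ∀ lam, obs P b bz φe w lam = pair P w b bz lam fun _ x y => e x y := fun lam =>
    obs_two P b bz φe lam
  set cA := g0 * cg + ∑ a, (g1 a * P.b1 + g2 a) * ca a
  have hcA : 0 ≤ cA := add_nonneg (mul_nonneg hg0 hcg) (Finset.sum_nonneg fun a _ =>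
    mul_nonneg (add_nonneg (mul_nonneg (hg1 a) (Itp.b1_nonneg P)) (hg2 a)) (hca a))
  -- the mean of the envelope along the segment
  have hgr : ∀ t ∈ Icc (0 : ℝ) 1, obs P b bz φe w (fun i => l0 i + t * d i)
      ≤ Real.exp (8 * (cg * E)) * pair P w b bz l0 fun _ x y => e x y := fun t ht => by
    refine (obs_gronwall P b bz hD hw hpos hdiag φe E (fun _ => 0) (fun _ => 0)
      (fun _ _ _ _ => 0) (fun _ _ _ _ _ => 0) (fun _ => continuous_const)
      (fun _ _ _ => continuous_const) (fun _ _ _ _ => continuous_const)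
      (fun a l h xs => hasDerivAt_const _ _) (fun a l l' h xs => hasDerivAt_const _ _)
      (fun h xs => (abs_of_nonneg (he _ _)).trans_le (heE _ _)) (fun _ _ _ _ => by simp)
      (fun _ _ _ _ _ => by simp) (fun h xs => he _ _) (Dg := cg * E) (Da := fun a => ca a * E)
      (mul_nonneg hcg hE) (by simp)
      (fun s _ G x y => (hg _ G x y).trans (mul_le_mul_of_nonneg_left (heE x y) hcg))
      (fun a x y => (ha a x y).trans (mul_le_mul_of_nonneg_left (heE x y) (hca a)))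
      (u := 0) ⟨le_rfl, zero_le_one⟩ ht).trans_eq ?_
    norm_num [epe]
  -- the mean value
  have hD' : ∀ t : ℝ, ∃ D : ℝ, t ∈ Ioo (0 : ℝ) 1 →
      HasDerivAt (fun u : ℝ => obs P b bz φ w fun i => l0 i + u * d i) D t ∧
        |D| ≤ 8 * cA * obs P b bz φe w (fun i => l0 i + t * d i) := fun t => by
    by_cases ht : t ∈ Ioo (0 : ℝ) 1
    swap
    · exact ⟨0, fun h => absurd h ht⟩
    obtain ⟨D, hd, hb⟩ := hasDerivAt_obs P b bz hD hw hpos hdiag φ g0 g1 g2 φ1 φ2 hφ hφ1c hφ2c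
      hd1 hd2 h0 h1 h2 ht
    refine ⟨D, fun _ => ⟨hd, hb.trans ?_⟩⟩
    set lam : I → ℝ := fun i => l0 i + t * d i
    rw [epe, show 8 * cA * pair P w b bz lam (fun _ x y => e x y)
      = 2 * ((2 : ℕ) : ℝ) ^ 2 * (cA * pair P w b bz lam fun _ x y => e x y) by push_cast; ring]
    refine mul_le_mul_of_nonneg_left ?_ (by positivity)
    have hgn := fun G x => Itp.gibbs_nonneg (Itp.bw_pos P b bz hw lam G) x
    have hi : Integrable (fun G => avg2 (bw P w b bz lam G) fun x y => e x y) (gaus I) :=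
      Itp.integrable_bdd (by
        have := Itp.cont_gibbs P b bz hw lam
        unfold avg2; fun_prop) fun G => Itp.abs_avg2_le (Itp.bw_pos P b bz hw lam G)
          fun x y => (abs_of_nonneg (he x y)).trans_le (heE x y)
    rw [pair, pair, ← integral_const_mul]
    refine integral_mono_of_nonneg (ae_of_all _ fun G => Finset.sum_nonneg fun x _ =>
      Finset.sum_nonneg fun y _ => mul_nonneg (mul_nonneg (hgn G x) (hgn G y))
        (add_nonneg (mul_nonneg hg0 (abs_nonneg _)) (Finset.sum_nonneg fun a _ => mul_nonneg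
          (add_nonneg (mul_nonneg (hg1 a) (Itp.b1_nonneg P)) (hg2 a)) (abs_nonneg _))))
      (hi.const_mul cA) (ae_of_all _ fun G => ?_)
    simp only [avg2, Finset.mul_sum]
    refine Finset.sum_le_sum fun x _ => Finset.sum_le_sum fun y _ => ?_
    rw [mul_left_comm cA]
    refine mul_le_mul_of_nonneg_left ?_ (mul_nonneg (hgn G x) (hgn G y))
    rw [add_mul, Finset.sum_mul, mul_assoc]
    refine add_le_add (mul_le_mul_of_nonneg_left (hg lam G x y) hg0)
      (Finset.sum_le_sum fun a _ => ?_)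
    rw [mul_assoc]
    exact mul_le_mul_of_nonneg_left (ha a x y)
      (add_nonneg (mul_nonneg (hg1 a) (Itp.b1_nonneg P)) (hg2 a))
  choose D hDd using hD'
  obtain ⟨t, ht, he'⟩ := exists_hasDerivAt_eq_slope
    (fun u : ℝ => obs P b bz φ w fun i => l0 i + u * d i) D zero_lt_one
    ((continuous_obs P b bz hw φ hφ h0).comp (by fun_prop : Continuous fun u : ℝ =>
      fun i => l0 i + u * d i)).continuousOn fun s hs => (hDd s hs).1
  simp only [one_mul, zero_mul, add_zero, sub_zero, div_one] at he'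
  rw [← he']
  exact (hDd t ht).2.trans (mul_le_mul_of_nonneg_left (hgr t (Ioo_subset_Icc_self ht))
    (mul_nonneg (by norm_num) hcA))

end Abstract

variable {N M K n : ℕ}

theorem stw_pos (π : Prior N) {W : Node K n → ℝ} (hW : ∀ v, 0 < W v) (st : State π K n) :
    0 < stw π W st :=
  mul_pos (π.w_pos _) (wgt_pos _ hW _)

/-- Pair averages of the model as averages over the weights. -/
theorem mpair_eq_pairW (P : Pot) (π : Prior N) (c : CIdx N M K → ℝ)
    {O : (GIdx N M K n → ℝ) → State π K n → State π K n → ℝ}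
    (hO : ∀ x y, Continuous fun G => O G x y) {C : ℝ} (hC : 0 ≤ C)
    (hOb : ∀ G x y, |O G x y| ≤ C) :
    Integrable (fun W => pair P (stw π W) (bpat π) (bspin π) (pull c) O) (casW (mlev K) n) ∧
      mpair n P π c O
        = ∫ W, pair P (stw π W) (bpat π) (bspin π) (pull c) O ∂casW (mlev K) n := by
  have hi : Integrable (fun p => avg2 (mbw P π c p) (O p.2)) (envLaw N M K n) :=
    Integrable.mono' (integrable_const C) (aestronglyMeasurable_avg2 P π c hO).aestronglyMeasurable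
      ((ae_mbw_pos P π c).mono fun p hp =>
        (Real.norm_eq_abs _).trans_le (abs_avg2_le _ (fun x => (hp x).le) hC (hOb p.2)))
  exact ⟨hi.integral_prod_left, integral_prod _ hi⟩

/-- Two-replica observables of the model along a segment of variances. -/
theorem mpair_transfer (P : Pot) (π : Prior N) (hn : 0 < n) {c0 c1 : CIdx N M K → ℝ}
    (h0c : ∀ i, 0 ≤ c0 i) (h1c : ∀ i, 0 ≤ c1 i)
    (hdiag : ∀ a (x : State π K n), ∑ i, (pull c1 i - pull c0 i) * bpat π a x i ^ 2 = 0)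
    (e : State π K n → State π K n → ℝ) {E cg : ℝ} {ca : Fin M → ℝ} (he : ∀ x y, 0 ≤ e x y)
    (heE : ∀ x y, e x y ≤ E) (hcg : 0 ≤ cg) (hca : ∀ a, 0 ≤ ca a)
    (hg : ∀ lam G x y, |grad P (bpat π) (bspin π) lam (fun i => pull c1 i - pull c0 i) G x y|
      ≤ cg * e x y)
    (ha : ∀ a x y, |∑ i, (pull c1 i - pull c0 i) * (bpat π a x i * bpat π a y i)| ≤ ca a * e x y)
    (φ : (Fin M → Fin 2 → ℝ) → (Fin 2 → State π K n) → ℝ) (g0 : ℝ) (g1 g2 : Fin M → ℝ)
    (φ1 : Fin M → Fin 2 → (Fin M → Fin 2 → ℝ) → (Fin 2 → State π K n) → ℝ)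
    (φ2 : Fin M → Fin 2 → Fin 2 → (Fin M → Fin 2 → ℝ) → (Fin 2 → State π K n) → ℝ)
    (hφ : ∀ xs, Continuous fun h => φ h xs)
    (hφ1c : ∀ a l xs, Continuous fun h => φ1 a l h xs)
    (hφ2c : ∀ a l l' xs, Continuous fun h => φ2 a l l' h xs)
    (hd1 : ∀ a l h xs, HasDerivAt
      (fun u => φ (Function.update h a (Function.update (h a) l u)) xs) (φ1 a l h xs) (h a l))
    (hd2 : ∀ a l l' h xs, HasDerivAt
      (fun u => φ1 a l (Function.update h a (Function.update (h a) l' u)) xs)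
      (φ2 a l l' h xs) (h a l'))
    (h0 : ∀ h xs, |φ h xs| ≤ g0) (h1 : ∀ a l h xs, |φ1 a l h xs| ≤ g1 a)
    (h2 : ∀ a l l' h xs, |φ2 a l l' h xs| ≤ g2 a) :
    |mpair n P π c1 (fun G x y => φ (fun a l => lin (bpat π a) (pull c1) G (![x, y] l)) ![x, y])
      - mpair n P π c0 (fun G x y => φ (fun a l => lin (bpat π a) (pull c0) G (![x, y] l)) ![x, y])|
      ≤ 8 * (g0 * cg + ∑ a, (g1 a * P.b1 + g2 a) * ca a)
        * (Real.exp (8 * (cg * E)) * mpair n P π c0 fun _ x y => e x y) := by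
  have := state_ne (K := K) π hn
  obtain ⟨x0⟩ := (inferInstance : Nonempty (State π K n))
  have hg0 : 0 ≤ g0 := (abs_nonneg _).trans (h0 (fun _ _ => 0) fun _ => x0)
  have hE : 0 ≤ E := (he x0 x0).trans (heE x0 x0)
  have hc : ∀ (c : CIdx N M K → ℝ) (x y : State π K n), Continuous fun G : GIdx N M K n → ℝ =>
      φ (fun a l => lin (bpat π a) (pull c) G (![x, y] l)) ![x, y] := fun c x y =>
    Continuous.comp (g := fun h => φ h ![x, y])
      (f := fun G : GIdx N M K n → ℝ => fun a l => lin (bpat π a) (pull c) G (![x, y] l))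
      (hφ _) (continuous_pi fun a => continuous_pi fun l => Itp.cont_lin _ _ _)
  obtain ⟨i1, e1⟩ := mpair_eq_pairW P π c1 (hc c1) hg0 fun G x y => h0 _ _
  obtain ⟨i0, e0⟩ := mpair_eq_pairW P π c0 (hc c0) hg0 fun G x y => h0 _ _
  obtain ⟨ie, ee⟩ := mpair_eq_pairW P π c0 (O := fun _ x y => e x y) (fun _ _ => continuous_const)
    hE fun G x y => (abs_of_nonneg (he x y)).trans_le (heE x y)
  rw [e1, e0, ee, ← integral_sub i1 i0, ← integral_const_mul, ← integral_const_mul]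
  refine abs_integral_le_integral_abs.trans
    (integral_mono_ae (i1.sub i0).abs ((ie.const_mul _).const_mul _) ?_)
  filter_upwards [ae_casW_pos (mlev K) n] with W hW
  set lam0 : GIdx N M K n → ℝ := pull c0
  set dd : GIdx N M K n → ℝ := fun i => pull c1 i - pull c0 i
  have hpull : ∀ (c : CIdx N M K → ℝ), (∀ i, 0 ≤ c i) → ∀ i : GIdx N M K n, 0 ≤ pull c i :=
    fun c hc i => by rcases i with q | ⟨o, i⟩ <;> exact hc _
  have h := obs_transfer P (bpat π) (bspin π) (disj_model π) (stw_pos π hW) (l0 := lam0) (d := dd)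
    (fun t ht i => by
      have a0 := hpull c0 h0c i
      have a1 := hpull c1 h1c i
      simp only [lam0, dd]
      nlinarith [ht.1, ht.2])
    hdiag e he heE hcg hca hg ha φ g0 g1 g2 φ1 φ2 hφ hφ1c hφ2c hd1 hd2 h0 h1 h2
  rw [show (fun i => lam0 i + dd i) = pull c1 from funext fun i => add_sub_cancel _ _,
    obs_two, obs_two] at h
  exact h

end Vale.Agent.P157.Casc
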